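import Crest.Agent.R151.ADefs

/-! Row 151 (A): boxes, index walks -/

set_option autoImplicit false

open MeasureTheory Set Filter Topology
open Crest.ProbabilityR.FirstPassage

namespace Crest.Agent.R151.A

open Crest.Agent.R151.B

noncomputable section

variable {x y z o : Z2} {g g' : ℕ → Z2} {n m : ℕ}

theorem mem_bx : x ∈ bx z n ↔ ni (x - z) ≤ n := by
  obtain ⟨a, b⟩ := x
  obtain ⟨c, d⟩ := z
  simp only [bx, ni, Finset.mem_product, Finset.mem_Icc, Prod.mk_sub_mk]
  omega
theorem mem_sp : x ∈ sp z n ↔ ni (x - z) = n := by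
  simp only [sp, Finset.mem_filter, mem_bx]
  omega
theorem card_bx (z : Z2) (n : ℕ) : (bx z n).card = (2 * n + 1) ^ 2 := by
  have h : ∀ a : ℤ, (Finset.Icc (a - n) (a + n)).card = 2 * n + 1 := fun a => by
    rw [Int.card_Icc]
    omega
  rw [bx, Finset.card_product, h, h, sq]
theorem card_sp (z : Z2) (n : ℕ) : (sp z n).card ≤ 8 * n + 1 := by
  cases n with
  | zero =>
    have h := Finset.card_filter_le (bx z 0) fun x => ni (x - z) = 0
    rw [card_bx] at h
    simpa [sp] using h
  | succ k =>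
    have hs : bx z k ⊆ bx z (k + 1) := fun x hx => mem_bx.2 ((mem_bx.1 hx).trans (Nat.le_succ k))
    have he : sp z (k + 1) = bx z (k + 1) \ bx z k := by
      ext x
      simp only [mem_sp, Finset.mem_sdiff, mem_bx]
      omega
    have h := Finset.card_sdiff_add_card_eq_card hs
    rw [card_bx, card_bx] at h
    rw [he]
    nlinarith
theorem ni_zero : ni 0 = 0 := by
  simp [ni]
theorem ni_eq_zero (h : ni x = 0) : x = 0 := by
  obtain ⟨a, b⟩ := x
  simp only [ni] at h
  simp only [Prod.mk_eq_zero]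
  omega
theorem ni_neg (x : Z2) : ni (-x) = ni x := by
  simp [ni]
theorem ni_sub_comm (x y : Z2) : ni (x - y) = ni (y - x) := by
  rw [← ni_neg, neg_sub]
theorem ni_add (x y : Z2) : ni (x + y) ≤ ni x + ni y := by
  obtain ⟨a, b⟩ := x
  obtain ⟨c, d⟩ := y
  simp only [ni, Prod.mk_add_mk]
  omega
theorem ni_tri (x y z : Z2) : ni (z - x) ≤ ni (y - x) + ni (z - y) := by
  have h := ni_add (y - x) (z - y)
  rwa [show y - x + (z - y) = z - x by abel] at h
theorem ni_adj (h : squareLattice.Adj x y) : ni (y - x) = 1 := by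
  obtain ⟨a, b⟩ := x
  obtain ⟨c, d⟩ := y
  simp only [squareLattice, SimpleGraph.fromRel_adj, Prod.mk.injEq, ne_eq] at h
  simp only [ni, Prod.mk_sub_mk]
  omega
theorem bx_mono {z' : Z2} {n' : ℕ} (h : ni (z - z') + n ≤ n') : bx z n ⊆ bx z' n' := by
  intro x hx
  rw [mem_bx] at hx ⊢
  have := ni_tri z' z x
  omega
theorem self_mem_bx (z : Z2) (n : ℕ) : z ∈ bx z n := by
  rw [mem_bx, sub_self, ni_zero]
  exact Nat.zero_le n
theorem sp_subset (z : Z2) (n : ℕ) : sp z n ⊆ bx z n :=
  Finset.filter_subset _ _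
theorem nbr_fin (x : Z2) : ∃ F : Finset (Sym2 Z2), F.card ≤ 4 ∧
    ∀ y, squareLattice.Adj x y → s(x, y) ∈ F := by
  classical
  refine ⟨({(x.1, x.2 + 1), (x.1, x.2 - 1), (x.1 + 1, x.2), (x.1 - 1, x.2)} : Finset Z2).image
    fun y => s(x, y), Finset.card_image_le.trans Finset.card_le_four, fun y hy => ?_⟩
  refine Finset.mem_image_of_mem _ ?_
  obtain ⟨a, b⟩ := x
  obtain ⟨c, d⟩ := y
  simp only [squareLattice, SimpleGraph.fromRel_adj, Prod.mk.injEq, ne_eq] at hy
  simp only [Finset.mem_insert, Finset.mem_singleton, Prod.mk.injEq]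
  omega
theorem inj_escape {r : ℕ → Z2} (h : Function.Injective r) (o : Z2) (R : ℕ) :
    ∃ N, ∀ i ≥ N, R ≤ ni (r i - o) := by
  have hf : (r ⁻¹' (bx o R : Set Z2)).Finite := (bx o R).finite_toSet.preimage h.injOn
  obtain ⟨N, hN⟩ := hf.bddAbove
  refine ⟨N + 1, fun i hi => ?_⟩
  by_contra hc
  have : i ≤ N := hN (show r i ∈ (bx o R : Set Z2) from
    Finset.mem_coe.2 (mem_bx.2 (not_le.1 hc).le))
  omega

theorem IsP.mono (h : IsP g n) (hm : m ≤ n) : IsP g m := by
  exact fun i hi => h i (lt_of_lt_of_le hi hm)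
theorem IsP.tl (h : IsP g n) {k : ℕ} (hk : k + m ≤ n) : IsP (tl g k) m := by
  intro i hi
  have := h (k + i) (by omega)
  simpa [A.tl, Nat.add_assoc] using this
theorem IsP.rev (h : IsP g n) : IsP (fun i => g (n - i)) n := by
  intro i hi
  have := (h (n - (i + 1)) (by omega)).symm
  have e : n - (i + 1) + 1 = n - i := by omega
  rw [e] at this
  exact this
theorem Inj.mono (h : Inj g n) (hm : m ≤ n) : Inj g m := by
  exact fun i hi j hj e => h i (hi.trans hm) j (hj.trans hm) e
theorem Inj.tl (h : Inj g n) {k : ℕ} (hk : k + m ≤ n) : Inj (tl g k) m := by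
  intro i hi j hj e
  have := h (k + i) (by omega) (k + j) (by omega) e
  omega
theorem Inj.rev (h : Inj g n) : Inj (fun i => g (n - i)) n := by
  intro i hi j hj e
  have := h (n - i) (by omega) (n - j) (by omega) e
  omega
theorem Inj.ed_inj (h : Inj g n) {i j : ℕ} (hi : i < n) (hj : j < n) (e : ed g i = ed g j) :
    i = j := by
  unfold ed at e
  rcases Sym2.eq_iff.1 e with ⟨h1, _⟩ | ⟨h1, h2⟩
  · exact h i hi.le j hj.le h1
  · have a := h i hi.le (j + 1) hj h1
    have b := h (i + 1) hi j hj.le h2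
    omega
theorem ed_tl (g : ℕ → Z2) (k i : ℕ) : ed (tl g k) i = ed g (k + i) := by
  simp only [ed, tl, Nat.add_assoc]
theorem ed_rev (g : ℕ → Z2) {i : ℕ} (hi : i < n) : ed (fun j => g (n - j)) i = ed g (n - 1 - i) := by
  have e1 : n - 1 - i + 1 = n - i := by omega
  have e2 : n - (i + 1) = n - 1 - i := by omega
  simp only [ed]
  rw [e1, e2, Sym2.eq_swap]
theorem cst_add (t : Env) (g : ℕ → Z2) (k m : ℕ) :
    cst t g (k + m) = cst t g k + cst t (tl g k) m := by
  simp only [cst, Finset.sum_range_add, ed_tl]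
theorem cst_rev (t : Env) (g : ℕ → Z2) (n : ℕ) : cst t (fun i => g (n - i)) n = cst t g n := by
  unfold cst
  rw [← Finset.sum_range_reflect (fun i => t (ed g i)) n]
  refine Finset.sum_congr rfl fun i hi => ?_
  rw [ed_rev g (Finset.mem_range.1 hi)]
theorem cst_congr (t : Env) (h : ∀ i ≤ n, g i = g' i) : cst t g n = cst t g' n := by
  unfold cst
  refine Finset.sum_congr rfl fun i hi => ?_
  have hi := Finset.mem_range.1 hi
  simp only [ed]
  rw [h i hi.le, h (i + 1) hi]
theorem cst_mono {t : Env} (ht : NN t) (g : ℕ → Z2) (h : m ≤ n) : cst t g m ≤ cst t g n := by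
  unfold cst
  exact Finset.sum_le_sum_of_subset_of_nonneg (Finset.range_mono h) fun i _ _ => ht _
theorem IsP.ni_le (h : IsP g n) {i j : ℕ} (hij : i ≤ j) (hj : j ≤ n) : ni (g j - g i) ≤ j - i := by
  induction j, hij using Nat.le_induction with
  | base => simp [ni_zero]
  | succ j hij ih =>
    have h1 := ih (by omega)
    have h2 := ni_adj (h j hj)
    have h3 := ni_tri (g i) (g j) (g (j + 1))
    omega
/-- first hit of a square from the inside -/
theorem IsP.ivt (h : IsP g n) (o : Z2) {L : ℕ} (h0 : ni (g 0 - o) ≤ L) (h1 : L ≤ ni (g n - o)) :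
    ∃ i ≤ n, ni (g i - o) = L ∧ ∀ j < i, ni (g j - o) < L := by
  classical
  have hex : ∃ i, L ≤ ni (g i - o) := ⟨n, h1⟩
  have hle : Nat.find hex ≤ n := Nat.find_min' hex h1
  have hlt : ∀ j < Nat.find hex, ni (g j - o) < L := fun j hj => not_le.1 (Nat.find_min hex hj)
  refine ⟨Nat.find hex, hle, le_antisymm ?_ (Nat.find_spec hex), hlt⟩
  rcases Nat.eq_zero_or_pos (Nat.find hex) with h2 | h2
  · rw [h2]; exact h0
  · obtain ⟨k, hk⟩ : ∃ k, Nat.find hex = k + 1 := ⟨Nat.find hex - 1, by omega⟩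
    have h3 := hlt k (by omega)
    have h4 := ni_adj (h k (by omega))
    have h5 := ni_tri o (g k) (g (k + 1))
    rw [hk]
    omega
theorem IsP.ivt' (h : IsP g n) (o : Z2) {L : ℕ} (h0 : L ≤ ni (g 0 - o)) (h1 : ni (g n - o) ≤ L) :
    ∃ i ≤ n, ni (g i - o) = L := by
  obtain ⟨i, hi, e, _⟩ := h.rev.ivt o (L := L) (by simpa using h1) (by simpa using h0)
  exact ⟨n - i, by omega, e⟩
theorem IsP.app (h : IsP g n) (h' : IsP g' m) (e : g n = g' 0) :
    ∃ f, IsP f (n + m) ∧ (∀ i ≤ n, f i = g i) ∧ ∀ i ≤ m, f (n + i) = g' i := by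
  refine ⟨fun i => if i ≤ n then g i else g' (i - n), ?_, fun i hi => if_pos hi, fun i hi => ?_⟩
  · intro i hi
    by_cases h1 : i + 1 ≤ n
    · have h2 : i ≤ n := by omega
      simp only [if_pos h1, if_pos h2]
      exact h i h1
    · by_cases h2 : i ≤ n
      · have h3 : i = n := by omega
        subst h3
        simp only [if_neg h1, if_pos h2, Nat.add_sub_cancel_left]
        rw [e]
        exact h' 0 (by omega)
      · simp only [if_neg h1, if_neg h2]
        have h3 : i + 1 - n = i - n + 1 := by omega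
        rw [h3]
        exact h' (i - n) (by omega)
  · by_cases h1 : n + i ≤ n
    · have h2 : i = 0 := by omega
      subst h2
      simp only [Nat.add_zero, le_refl, if_true]
      exact e
    · simp only [if_neg h1, Nat.add_sub_cancel_left]
theorem IsP.walk (h : IsP g n) : ∃ w : Wk (g 0) (g n), ∀ t, walkCost t w = cst t g n := by
  induction n with
  | zero => exact ⟨SimpleGraph.Walk.nil, fun t => by simp [walkCost, cst]⟩
  | succ n ih =>
    obtain ⟨w, hw⟩ := ih (h.mono (Nat.le_succ n))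
    refine ⟨w.concat (h n (Nat.lt_succ_self n)), fun t => ?_⟩
    have := hw t
    unfold walkCost cst at *
    rw [Finset.sum_range_succ, ← this]
    simp [ed]
theorem A1_cst_walk (t : Env) (w : Wk x y) : cst t w.getVert w.length = walkCost t w := by
  induction w with
  | nil => simp [walkCost, cst]
  | cons h p ih =>
    unfold walkCost cst at *
    rw [SimpleGraph.Walk.length_cons, Finset.sum_range_succ', SimpleGraph.Walk.edges_cons,
      List.map_cons, List.sum_cons, ← ih, add_comm]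
    simp [ed]

theorem isP_of_walk (w : Wk x y) : ∃ g, IsP g w.length ∧ g 0 = x ∧ g w.length = y ∧
    (w.IsPath → Inj g w.length) ∧ ∀ t, cst t g w.length = walkCost t w := by
  refine ⟨w.getVert, fun i hi => w.adj_getVert_succ hi, w.getVert_zero, w.getVert_length,
    fun hp i hi j hj e => hp.getVert_injOn hi hj e, fun t => A1_cst_walk t w⟩

end

end Crest.Agent.R151.A
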