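import Crest.Agent.R151.A3

/-! Row 151 (A): branching lemma, first modification -/

set_option autoImplicit false

open MeasureTheory Set Filter Topology
open Crest.ProbabilityR.FirstPassage

namespace Crest.Agent.R151.A

open Crest.Agent.R151.B

noncomputable section

/-- `t'` is `t` lowered on some of the `b` edges of the geodesic `g` before `g a` -/
structure Y1 (t t' : Env) (g : ℕ → Z2) (n a b : ℕ) (S : Finset (Sym2 Z2)) : Prop where
  gt : Good t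
  gt' : Good t'
  geo : Geo t g n
  hb : b ≤ a
  ha : a ≤ n
  low : Low t t' S
  sub : ∀ e ∈ S, ∃ k, a - b ≤ k ∧ k < a ∧ ed g k = e

variable {t t' : Env} {g : ℕ → Z2} {n a b : ℕ} {S : Finset (Sym2 Z2)} {y' v w : Z2}

theorem Y1.geo' (h : Y1 t t' g n a b S) : Geo t' g n :=
  (h.low.geo_on h.gt h.gt' h.geo fun e he =>
    let ⟨k, _, h2, h3⟩ := h.sub e he
    ⟨k, h2.trans_le h.ha, h3⟩).1
theorem Y1.Tn (h : Y1 t t' g n a b S) :
    T t' (g 0) (g n) = T t (g 0) (g n) - ∑ e ∈ S, (t e - t' e) :=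
  (h.low.geo_on h.gt h.gt' h.geo fun e he =>
    let ⟨k, _, h2, h3⟩ := h.sub e he
    ⟨k, h2.trans_le h.ha, h3⟩).2
theorem Y1.Ta (h : Y1 t t' g n a b S) :
    T t' (g 0) (g a) = T t (g 0) (g a) - ∑ e ∈ S, (t e - t' e) :=
  (h.low.geo_on h.gt h.gt' (h.geo.mono h.gt.nn h.ha) fun e he =>
    let ⟨k, _, h2, h3⟩ := h.sub e he
    ⟨k, h2, h3⟩).2
theorem Y1.Tan (h : Y1 t t' g n a b S) : T t' (g a) (g n) = T t (g a) (g n) := by
  have h1 : _ = _ := h.geo.btw h.gt.nn (Nat.zero_le a) h.ha le_rfl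
  have h2 : _ = _ := h.geo'.btw h.gt'.nn (Nat.zero_le a) h.ha le_rfl
  linarith [h.Tn, h.Ta]
theorem Y1.a10_uses (h : Y1 t t' g n a b S) {x : Z2} (h1 : T t' x y' < T t x y') :
    ∃ k, a - b ≤ k ∧ k < a ∧ Btw t' x (g k) y' := by
  obtain ⟨u, u', he, hu, hu'⟩ := h.low.uses h.gt' h1
  obtain ⟨k, k1, k2, k3⟩ := h.sub _ he
  refine ⟨k, k1, k2, ?_⟩
  rcases Sym2.eq_iff.1 k3 with e | e
  · rwa [e.1]
  · rwa [e.1]
theorem Y1.branch (h : Y1 t t' g n a b S) (h1 : T t' (g 0) y' < T t (g 0) y')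
    (h2 : ¬ Btw t' (g 0) (g a) y') : ∃ k, a - b ≤ k ∧ k ≤ a ∧ Br t' (g 0) (g n) y' (g k) := by
  obtain ⟨k, k1, k2, k3⟩ := h.a10_uses h1
  have hn := h.gt'.nn
  have hk : k ≤ n := k2.le.trans h.ha
  obtain ⟨p, hp, hp'⟩ := h.gt'.exists_br (g 0) (g n) y'
  obtain ⟨j, hj, rfl⟩ := h.gt'.uniq g n p h.geo' hp.1
  have h3 : _ = _ := hp' _ (h.geo'.btw hn (Nat.zero_le k) hk le_rfl) k3
  have h4 : k ≤ j := h.geo'.le_of_T h.gt' hk hj (by linarith [T_nonneg hn (g k) (g j)])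
  refine ⟨j, k1.trans h4, le_of_not_ge fun h5 => h2 ?_, hp⟩
  exact (Btw.trans2 hn hp.2.1 (h.geo'.btw hn (Nat.zero_le a) h5 hj)).1
theorem Y1.pass (h : Y1 t t' g n a b S) (h2 : Btw t' (g 0) (g a) y') :
    T t' (g a) y' = T t (g a) y' := by
  have hn := h.gt'.nn
  refine le_antisymm (h.low.T_le hn _ _) (le_of_not_gt fun h1 => ?_)
  obtain ⟨k, -, k2, k3⟩ := h.a10_uses h1
  have h3 : _ = _ := (Btw.trans1 hn h2 k3).1
  linarith [h.geo'.lt h.gt' k2 h.ha, T_nonneg hn (g a) (g k)]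
theorem Y1.window (h : Y1 t t' g n a b S) (h2 : Btw t' (g 0) (g a) y') (hw : Btw t v w y')
    {K₀ η : ℝ} (h0 : T t (g a) v ≤ K₀)
    (hη : η ≤ T t v (g n) - T t v y' - T t (g a) (g n) + T t (g a) y') (hf : 3 * K₀ + η ≤ T t v w) :
    T t' (g 0) w + T t w y' - T t' (g 0) y' ≤ 2 * K₀ ∧
    T t' (g 0) w + T t w y' - T t' (g 0) y' + η ≤
      T t' (g 0) w + T t' w (g n) - T t' (g 0) (g n) := by
  have n0 := h.gt.nn
  have n1 := h.gt'.nn
  have e1 := h.pass h2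
  have e2 := h.geo'.btw n1 (Nat.zero_le a) h.ha le_rfl
  have e3 := h.Tan
  have e4 := T_tri n1 (g 0) (g a) w
  have e5 := h.low.T_le n1 (g a) w
  have e6 := T_tri n0 (g a) v w
  have e7 := T_tri n0 v (g a) y'
  have e8 := T_symm t v (g a)
  unfold Btw at h2 hw e2
  refine ⟨by linarith, ?_⟩
  by_cases hc : T t' w (g n) < T t w (g n)
  · obtain ⟨u, u', hu, b1, b2⟩ := h.low.uses h.gt' hc
    obtain ⟨k, -, hk, e⟩ := h.sub _ hu
    have b3 : Btw t' w (g k) (g n) := by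
      rcases Sym2.eq_iff.1 e with ⟨r, -⟩ | ⟨r, -⟩
      · exact r ▸ b1
      · exact r ▸ b2
    have b4 := h.geo'.btw n1 hk.le h.ha le_rfl
    have f1 := T_nonneg n1 w (g k)
    have f2 := T_nonneg n1 (g k) (g a)
    have f3 := T_tri n1 (g 0) w y'
    have f4 := h.low.T_le n1 w y'
    unfold Btw at b3 b4
    linarith
  · have f1 := T_tri n0 v w (g n)
    linarith [not_lt.1 hc]
theorem Y1.must (h : Y1 t t' g n a b S) (hw : Btw t v w y') {K₀ K : ℝ} (h0 : T t (g a) v ≤ K₀)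
    (hK : T t (g 0) (g a) + T t v y' - K ≤ T t (g 0) y') (hΔ : K + K₀ < ∑ e ∈ S, (t e - t' e))
    {f : ℕ → Z2} {m : ℕ} (hf : IsP f m) (f0 : f 0 = g 0) (fm : f m = w)
    (hc : cst t' f m ≤ T t' (g 0) w) : ∃ j ≤ m, ∃ k, a - b ≤ k ∧ k ≤ a ∧ f j = g k := by
  by_contra hn
  have n0 := h.gt.nn
  have n1 := h.gt'.nn
  have e0 : cst t' f m = cst t f m := by
    refine h.low.cst_eq fun i hi hS => hn ?_
    obtain ⟨k, hk1, hk2, e⟩ := h.sub _ hS
    rcases Sym2.eq_iff.1 e with ⟨r, -⟩ | ⟨-, r⟩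
    · exact ⟨i, hi.le, k, hk1, hk2.le, r.symm⟩
    · exact ⟨i, hi.le, k + 1, by omega, hk2, r.symm⟩
  have e1 := T_le_cst n0 hf
  rw [f0, fm] at e1
  have e2 := T_tri n0 (g 0) w y'
  have e3 := h.Ta
  have e4 := T_tri n1 (g 0) (g a) w
  have e5 := h.low.T_le n1 (g a) w
  have e6 := T_tri n0 (g a) v w
  unfold Btw at hw
  linarith

end

end Crest.Agent.R151.A
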