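import Crest.Agent.R151.A4

/-! Row 151 (A): values that can be lowered; counting walks -/

set_option autoImplicit false

open MeasureTheory Set Filter Topology
open Crest.ProbabilityR.FirstPassage

namespace Crest.Agent.R151.A

open Crest.Agent.R151.B

noncomputable section

variable {G : Measure ℝ}

theorem ALaw.lw_meas (hG : ALaw G) (η δ p : ℝ) : MeasurableSet (Lw G η δ p) := by
  have := hG.prob
  have hs : MeasurableSet {q : ℝ × ℝ | q.1 - η ≤ q.2 ∧ q.2 ≤ q.1 - δ} :=
    (measurableSet_le (measurable_fst.sub_const η) measurable_snd).inter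
      (measurableSet_le measurable_snd (measurable_fst.sub_const δ))
  have hm : Measurable fun x : ℝ => G.real (Icc (x - η) (x - δ)) :=
    (measurable_measure_prodMk_left (ν := G) hs).ennreal_toReal
  exact measurableSet_le measurable_const hm

theorem a5_lw_mono (hG : ALaw G) {η δ δ' p p' : ℝ} (h1 : δ' ≤ δ) (h2 : p' ≤ p) :
    Lw G η δ p ⊆ Lw G η δ' p' := by
  have := hG.prob
  intro x hx
  exact h2.trans (le_trans hx (measureReal_mono (Icc_subset_Icc_right (by linarith))))

theorem a5_small (hG : ALaw G) {B : ℕ → Set ℝ} (hm : ∀ n, MeasurableSet (B n)) (ha : Antitone B)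
    (h0 : G (⋂ n, B n) = 0) {ε : ℝ} (hε : 0 < ε) : ∃ n, G.real (B n) ≤ ε := by
  have := hG.prob
  have t := tendsto_measure_iInter_atTop (μ := G) (fun n => (hm n).nullMeasurableSet) ha
    ⟨0, measure_ne_top _ _⟩
  rw [h0] at t
  have t' : Tendsto (fun n => G.real (B n)) atTop (𝓝 0) :=
    (ENNReal.tendsto_toReal ENNReal.zero_ne_top).comp t
  exact (t'.eventually (ge_mem_nhds hε)).exists

theorem a5_null (hG : ALaw G) {η : ℝ} (hη : 0 < η) : G {x | G (Ico (x - η) x) = 0} = 0 := by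
  set N : Set ℝ := {x | G (Ico (x - η) x) = 0} with hN
  have : NullSingletonClass G := ⟨hG.atom⟩
  have hU : G (⋃ y ∈ N, Ioo (y - η) y) = 0 := by
    refine measure_null_of_locally_null _ fun x hx => ?_
    obtain ⟨y, hy, hxy⟩ := mem_iUnion₂.1 hx
    exact ⟨Ioo (y - η) y, mem_nhdsWithin_of_mem_nhds (Ioo_mem_nhds hxy.1 hxy.2),
      measure_mono_null Ioo_subset_Ico_self hy⟩
  have hC := (countable_setOfPred_isolated_right_within (s := N)).measure_zero G
  refine measure_mono_null (fun x hx => ?_) (measure_union_null hU hC)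
  by_cases h : x ∈ ⋃ y ∈ N, Ioo (y - η) y
  · exact Or.inl h
  · refine Or.inr ⟨hx, ?_⟩
    rw [← empty_mem_iff_bot, mem_nhdsWithin]
    refine ⟨Iio (x + η), isOpen_Iio, by simp [hη], fun y hy => h ?_⟩
    have h1 : y < x + η := hy.1
    exact mem_iUnion₂.2 ⟨y, hy.2.1, by linarith, hy.2.2⟩

theorem ALaw.lw (hG : ALaw G) {η ε : ℝ} (hη : 0 < η) (hε : 0 < ε) :
    ∃ δ p : ℝ, 0 < δ ∧ δ ≤ η ∧ 0 < p ∧ p ≤ 1 ∧ G.real (Lw G η δ p)ᶜ ≤ ε := by
  have := hG.prob
  have hpos : ∀ n : ℕ, (0 : ℝ) < n + 1 := fun n => by positivity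
  have hmono : ∀ {n k : ℕ}, n ≤ k → ∀ c : ℝ, 0 ≤ c → c / ((k : ℝ) + 1) ≤ c / ((n : ℝ) + 1) :=
    fun {n k} h c hc => div_le_div_of_nonneg_left hc (hpos n) (by
      have : (n : ℝ) ≤ k := by exact_mod_cast h
      linarith)
  set B : ℕ → Set ℝ := fun n => (Lw G η (η / (n + 1)) (1 / (n + 1)))ᶜ with hB
  have hanti : Antitone B := fun n k h =>
    compl_subset_compl.2 (a5_lw_mono hG (hmono h η hη.le) (hmono h 1 zero_le_one))
  have hnull : G (⋂ n, B n) = 0 := by
    refine measure_mono_null (fun x hx => ?_) (a5_null hG hη)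
    have hsub : Ico (x - η) x ⊆ ⋃ n : ℕ, Icc (x - η) (x - η / (n + 1)) := by
      intro y hy
      obtain ⟨n, hn⟩ := exists_nat_gt (η / (x - y))
      have hxy : 0 < x - y := sub_pos.2 hy.2
      refine mem_iUnion.2 ⟨n, hy.1, ?_⟩
      rw [div_lt_iff₀ hxy] at hn
      have : η / ((n : ℝ) + 1) ≤ x - y := by
        rw [div_le_iff₀ (hpos n)]
        nlinarith
      linarith
    refine measure_mono_null hsub (measure_iUnion_null fun n => ?_)
    by_contra hne
    have h0 : 0 < G.real (Icc (x - η) (x - η / (n + 1))) :=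
      ENNReal.toReal_pos hne (measure_ne_top _ _)
    obtain ⟨k, hk⟩ := exists_nat_one_div_lt h0
    have h1 : x ∈ Lw G η (η / (n + 1)) (1 / (k + 1)) := hk.le
    exact mem_iInter.1 hx (max n k) (a5_lw_mono hG (hmono (le_max_left n k) η hη.le)
      (hmono (le_max_right n k) 1 zero_le_one) h1)
  obtain ⟨n, hn⟩ := a5_small hG (fun n => (hG.lw_meas _ _ _).compl) hanti hnull hε
  refine ⟨η / (n + 1), 1 / (n + 1), div_pos hη (hpos n), ?_, div_pos one_pos (hpos n), ?_, hn⟩
  · simpa using hmono (Nat.zero_le n) η hη.le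
  · simpa using hmono (Nat.zero_le n) 1 zero_le_one

theorem ALaw.lw_sub (hG : ALaw G) {η δ p x : ℝ} (hδ : 0 ≤ δ) (hδη : δ ≤ η) {N : ℕ} (hN : 1 ≤ N)
    (hx : x ∈ Lw G η δ p) :
    ∃ l, δ ≤ l ∧ l ≤ η ∧ p / N ≤ G.real (Icc (x - l - η / N) (x - l)) := by
  have := hG.prob
  by_contra hne
  push Not at hne
  have hN' : (0 : ℝ) < N := by exact_mod_cast hN
  set h : ℝ := (η - δ) / N with hh
  have h0 : 0 ≤ h := div_nonneg (sub_nonneg.2 hδη) hN'.le
  have h1 : h ≤ η / N := div_le_div_of_nonneg_right (by linarith) hN'.le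
  have h2 : N * h = η - δ := by rw [hh]; field_simp
  have key : ∀ k : ℕ, k < N →
      G.real (Icc (x - δ - (k + 1) * h) (x - δ)) < (k + 1) * (p / N) := by
    intro k
    induction k with
    | zero =>
      intro _
      have b := hne δ le_rfl hδη
      have hsub : Icc (x - δ - ((0 : ℕ) + 1) * h) (x - δ) ⊆ Icc (x - δ - η / N) (x - δ) :=
        Icc_subset_Icc_left (by simp only [Nat.cast_zero]; linarith)
      have b3 := measureReal_mono (μ := G) hsub
      simp only [Nat.cast_zero] at b3 ⊢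
      linarith
    | succ k ih =>
      intro hk
      have hk' : (k : ℝ) + 1 ≤ N := by exact_mod_cast hk.le
      have b1 := ih (by omega)
      have b2 := hne (δ + (k + 1) * h) (by nlinarith [Nat.cast_nonneg (α := ℝ) k]) (by nlinarith)
      have hsub : Icc (x - δ - ((k + 1 : ℕ) + 1) * h) (x - δ) ⊆
          Icc (x - (δ + (k + 1) * h) - η / N) (x - (δ + (k + 1) * h)) ∪
            Icc (x - δ - (k + 1) * h) (x - δ) := by
        intro y hy
        have y1 := hy.1
        push_cast at y1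
        by_cases hy' : x - δ - (k + 1) * h ≤ y
        · exact Or.inr ⟨hy', hy.2⟩
        · exact Or.inl ⟨by linarith, by linarith⟩
      have b3 := (measureReal_mono (μ := G) hsub).trans (measureReal_union_le _ _)
      push_cast at b3 ⊢
      linarith
  have b := key (N - 1) (by omega)
  have e : ((N - 1 : ℕ) : ℝ) + 1 = N := by
    rw [Nat.cast_sub hN]
    simp
  rw [e, h2, mul_div_cancel₀ _ hN'.ne', show x - δ - (η - δ) = x - η by ring] at b
  exact absurd hx (not_le.2 b)

theorem ALaw.c0 (hG : ALaw G) : ∃ c : ℝ, 0 < c ∧ G.real (Ici c)ᶜ ≤ 1 / 256 := by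
  have hpos : ∀ n : ℕ, (0 : ℝ) < n + 1 := fun n => by positivity
  have hnull : G (⋂ n : ℕ, Iio (1 / ((n : ℝ) + 1))) = 0 := by
    refine measure_mono_null (fun x hx => ?_) (measure_union_null hG.pos (hG.atom 0))
    by_contra hne
    simp only [mem_union, mem_Iio, mem_singleton_iff, not_or, not_lt] at hne
    obtain ⟨k, hk⟩ := exists_nat_one_div_lt (lt_of_le_of_ne hne.1 (Ne.symm hne.2))
    exact absurd (mem_iInter.1 hx k) (not_lt.2 hk.le)
  obtain ⟨n, hn⟩ := a5_small hG (B := fun n : ℕ => Iio (1 / ((n : ℝ) + 1)))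
    (fun n => measurableSet_Iio) (fun n k h => Iio_subset_Iio (Nat.one_div_le_one_div h)) hnull
    (ε := 1 / 256) (by norm_num)
  exact ⟨1 / (n + 1), div_pos one_pos (hpos n), by rwa [compl_Ici]⟩

theorem Rich.cst_ge {t : Env} (ht : NN t) {c : ℝ} (hc : 0 ≤ c) {x : Z2} {n m : ℕ}
    (h : Rich (Ici c) t x n) {g : ℕ → Z2} (h0 : g 0 = x) (hg : IsP g m) (hi : Inj g m)
    (hnm : n ≤ m) : c * n / 2 ≤ cst t g m := by
  classical
  have h1 := h g h0 (hg.mono hnm) (hi.mono hnm)
  refine le_trans ?_ (cst_mono ht g hnm)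
  set F := (Finset.range n).filter fun i => t (ed g i) ∈ Ici c with hF
  have h2 : (n : ℝ) ≤ 2 * F.card := by
    have : n ≤ 2 * F.card := by convert h1
    exact_mod_cast this
  have h3 : (F.card : ℝ) * c ≤ ∑ i ∈ F, t (ed g i) := by
    rw [← nsmul_eq_mul]
    exact Finset.card_nsmul_le_sum _ _ _ fun i hi => (Finset.mem_filter.1 hi).2
  have h4 : ∑ i ∈ F, t (ed g i) ≤ cst t g n :=
    Finset.sum_le_sum_of_subset_of_nonneg (Finset.filter_subset _ _) fun i _ _ => ht _
  nlinarith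


end

end Crest.Agent.R151.A
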