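import Crest.Agent.R151.A10
import Crest.Agent.R151.A5

/-! Row 151 (A): branching lemma, first modification -/

set_option autoImplicit false

open MeasureTheory Set Filter Topology
open Crest.ProbabilityR.FirstPassage

namespace Crest.Agent.R151.A

open Crest.Agent.R151.B

noncomputable section

theorem A10b_bx {g : ℕ → Z2} {n i j D D' : ℕ} (h : IsP g n) (hij : i ≤ j) (hj : j ≤ n)
    (hb : g i ∈ bx 0 D) (hD : D + (j - i) ≤ D') : g j ∈ bx 0 D' := by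
  rw [mem_bx] at hb ⊢
  have h1 := h.ni_le hij hj
  have h2 := ni_tri 0 (g i) (g j)
  omega

theorem A10b_bx' {g : ℕ → Z2} {n i j D D' : ℕ} (h : IsP g n) (hij : i ≤ j) (hj : j ≤ n)
    (hb : g j ∈ bx 0 D) (hD : D + (j - i) ≤ D') : g i ∈ bx 0 D' := by
  rw [mem_bx] at hb ⊢
  have h1 := h.ni_le hij hj
  have h2 := ni_tri 0 (g j) (g i)
  have h3 := ni_sub_comm (g i) (g j)
  omega

theorem A10b_len {g : ℕ → Z2} {n D D' : ℕ} (h : IsP g n) (hb : g 0 ∈ bx 0 D)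
    (hD : D' < ni (g n)) : D' < D + n := by
  rw [mem_bx] at hb
  have h1 := h.ni_le (Nat.zero_le n) le_rfl
  have h2 := ni_tri 0 (g 0) (g n)
  rw [sub_zero] at h2
  omega

theorem A10b_out {ν : ℕ → Z2} {m D : ℕ} (hi : Inj ν m) (hm : (2 * D + 1) ^ 2 ≤ m) :
    ∃ i ≤ (2 * D + 1) ^ 2, ν i ∉ bx 0 D := by
  by_contra hc
  push Not at hc
  have h1 : (Finset.range ((2 * D + 1) ^ 2 + 1)).card ≤ (bx 0 D).card := by
    refine Finset.card_le_card_of_injOn ν (fun i hi => ?_) (fun i hi' j hj e => ?_)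
    · exact hc i (Nat.lt_succ_iff.1 (Finset.mem_range.1 hi))
    · have a1 := Nat.lt_succ_iff.1 (Finset.mem_range.1 hi')
      have a2 := Nat.lt_succ_iff.1 (Finset.mem_range.1 hj)
      exact hi i (a1.trans hm) j (a2.trans hm) e
  rw [Finset.card_range, card_bx] at h1
  omega

/-- the case in which the new geodesic to `y'` passes through `s = g a` -/
theorem A10b_E1 {𝒜 : Set ℝ} {K K₀ K₅ η Δ : ℝ} {R Y : Set Z2} {D D₂ D' D'' J b b₁ : ℕ}
    (hK₅ : 3 * K₀ + η ≤ K₅) (hD₂ : D + b₁ + (2 * D'' + 1) ^ 2 + J * b ≤ D₂) (hD' : D₂ ≤ D')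
    {t t' : Env} {g : ℕ → Z2} {n a : ℕ} {S : Finset (Sym2 Z2)} (hY : Y1 t t' g n a b₁ S)
    {y' v : Z2} (hA : g 0 ∈ R) (hy : g n ∈ Y) (hy' : y' ∈ Y) (hny : D' < ni y')
    (hs : g a ∈ bx 0 D) (hv : v ∈ bx 0 D) (h0 : T t (g a) v ≤ K₀)
    (hoff : ∀ w, Btw t v w y' → ¬ Btw t (g 0) w (g n))
    (hK : T t (g 0) (g a) + T t v y' - K ≤ T t (g 0) y')
    (hη : η ≤ T t v (g n) - T t v y' - T t (g a) (g n) + T t (g a) y')
    (hΔ : K + K₀ < ∑ e ∈ S, (t e - t' e)) (hΔ' : ∑ e ∈ S, (t e - t' e) ≤ Δ)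
    (g3 : ∀ x ∈ bx 0 D₂, Rich 𝒜 t x b)
    (g4 : Nr t D₂ (2 * K₀ + η + Δ) D') (g5 : Nr t D K₅ D'') (h2 : Btw t' (g 0) (g a) y') :
    t' ∈ E1 𝒜 R Y D₂ D' J b (2 * K₀) η := by
  classical
  have ht := hY.gt
  have ht' := hY.gt'
  obtain ⟨ν, m, hν, e0, em⟩ := ht.ex v y'
  set N₀ := (2 * D'' + 1) ^ 2 with hN₀
  have hm : D' < D + m := A10b_len hν.1 (e0 ▸ hv) (em ▸ hny)
  obtain ⟨n', hn'⟩ : ∃ n', m = N₀ + n' := ⟨m - N₀, by omega⟩
  have hJ : J * b ≤ n' := by omega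
  have hbtw : ∀ i ≤ m, Btw t v (ν i) y' := fun i hi => by
    have := hν.btw ht.nn (Nat.zero_le i) hi le_rfl
    rwa [e0, em] at this
  have hnS : ∀ i < m, ed ν i ∉ S := by
    intro i hi hS
    obtain ⟨k, _, hk, e⟩ := hY.sub _ hS
    have hkn : k + 1 ≤ n := by have := hY.ha; omega
    unfold ed at e
    rcases Sym2.eq_iff.1 e with ⟨h1, _⟩ | ⟨_, h1⟩
    · exact hoff _ (hbtw i hi.le)
        (h1 ▸ hY.geo.btw ht.nn (Nat.zero_le k) (by omega : k ≤ n) le_rfl)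
    · exact hoff _ (hbtw i hi.le) (h1 ▸ hY.geo.btw ht.nn (Nat.zero_le (k + 1)) hkn le_rfl)
  have hν' : Geo t (tl ν N₀) n' := hν.sub ht.nn (by omega)
  have hi' : Inj (tl ν N₀) n' := hν'.inj ht
  have hend : tl ν N₀ n' = y' := by rw [← em, hn']; rfl
  have hnS' : ∀ i < n', ed (tl ν N₀) i ∉ S := fun i hi => by
    rw [ed_tl]; exact hnS _ (by omega)
  have hxi : ∀ i ≤ n', xi t' (g 0) (tl ν N₀) n' i =
      T t' (g 0) (tl ν N₀ i) + T t (tl ν N₀ i) y' - T t' (g 0) y' := by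
    intro i hi
    unfold xi
    rw [hY.low.cst_eq hnS', hY.low.cst_eq (n := i) (fun j hj => hnS' j (by omega)),
      ← hν'.T_eq ht.nn hi le_rfl, hend]
  obtain ⟨i₀, hi₀, hout⟩ := A10b_out (D := D'') (hν.inj ht) (by omega)
  have hfar0 : K₅ < T t v (ν i₀) := by
    by_contra hc
    refine hout (g5 v hv v hv _ ?_)
    rw [T_self ht.nn]
    linarith [not_lt.1 hc]
  have hfar : ∀ i ≤ n', 3 * K₀ + η ≤ T t v (tl ν N₀ i) := by
    intro i hi
    have h1 := hν.btw ht.nn (Nat.zero_le i₀) (by omega : i₀ ≤ N₀ + i) (by omega)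
    rw [e0] at h1
    have h3 := T_nonneg ht.nn (ν i₀) (ν (N₀ + i))
    unfold Btw at h1
    change 3 * K₀ + η ≤ T t v (ν (N₀ + i))
    linarith
  have hbt' : ∀ i ≤ n', Btw t v (tl ν N₀ i) y' := fun i hi => hbtw (N₀ + i) (by omega)
  have hbx : ∀ i ≤ J * b, tl ν N₀ i ∈ bx 0 D₂ := fun i hi =>
    A10b_bx (g := ν) (D := D) hν.1 (Nat.zero_le (N₀ + i)) (by omega) (e0 ▸ hv) (by omega)
  refine ⟨g 0, hA, g n, hy, tl ν N₀, n', hend ▸ hy', hν'.1, hi', hJ, hbx, ?_, ?_, ?_, ?_, ?_⟩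
  · rw [hxi 0 (Nat.zero_le _)]
    exact (hY.window h2 (hbt' 0 (Nat.zero_le _)) h0 hη (hfar 0 (Nat.zero_le _))).1
  · intro i hi
    rw [hxi i (hi.trans hJ)]
    exact (hY.window h2 (hbt' i (hi.trans hJ)) h0 hη (hfar i (hi.trans hJ))).2
  · intro i hi f l hf f0 fl hc
    rw [← fl] at hc
    obtain ⟨j, hj, k, hk1, hk2, e⟩ :=
      hY.must (hbt' i (hi.trans hJ)) h0 hK hΔ hf f0 fl (by rwa [fl] at hc)
    refine ⟨j, hj, ?_, ?_⟩
    · rw [e]
      exact A10b_bx' hY.geo.1 hk2 hY.ha hs (by omega)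
    · rw [e]
      exact hY.geo'.btw ht'.nn (Nat.zero_le k) (hk2.trans hY.ha) le_rfl
  · intro u hu w hw q hq
    refine g4 u hu w hw q ?_
    have h1 := hY.low.le_T ht' u q
    have h3 := hY.low.T_le ht'.nn u w
    linarith
  · intro j hj
    have hjb : j * b + b ≤ J * b := by
      have := Nat.mul_le_mul_right b (Nat.succ_le_of_lt hj)
      rwa [Nat.succ_mul] at this
    have h1 := g3 _ (hbx (j * b) (by omega)) (tl (tl ν N₀) (j * b)) rfl
      (hν'.1.tl (by omega)) (hi'.tl (by omega))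
    refine h1.trans (Nat.mul_le_mul_left 2 (Finset.card_le_card fun k hk => ?_))
    rw [Finset.mem_filter] at hk ⊢
    refine ⟨hk.1, ?_⟩
    have hk1 := Finset.mem_range.1 hk.1
    rw [hY.low.2 _ (hnS' _ (by omega)), ← ed_tl]
    exact hk.2

theorem y1 {G : Measure ℝ} (hG : ALaw G) {η' δ p K K₀ K₅ η : ℝ} {R Y : Set Z2}
    {D D₂ D' D'' J b b₁ : ℕ} (hδ : 0 < δ) (hδη : δ ≤ η') (hb₁ : K + K₀ < b₁ * δ / 2)
    (hK₅ : 3 * K₀ + η ≤ K₅) (hD₂ : D + b₁ + (2 * D'' + 1) ^ 2 + J * b ≤ D₂) (hD' : D₂ ≤ D')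
    (hR : ∀ A ∈ R, D' < ni A) (hY : ∀ y ∈ Y, D' < ni y) {t : Env} (ht : Good t)
    (g1 : ∀ x ∈ bx 0 D, ∀ x' ∈ bx 0 D, T t x x' ≤ K₀)
    (g2 : ∀ x ∈ bx 0 D, Rich (Lw G η' δ p) t x b₁)
    (g3 : ∀ x ∈ bx 0 D₂, Rich (Lw G η' δ p) t x b)
    (g4 : Nr t D₂ (2 * K₀ + η + b₁ * η') D') (g5 : Nr t D K₅ D'') (h : t ∈ E2 R Y 0 D K η) :
    t ∈ Src G (bx 0 D₂).sym2 p
      (E0 R Y 0 D' ∪ E1 (Lw G η' δ p) R Y D₂ D' J b (2 * K₀) η) := by
  classical
  obtain ⟨A, hA, y, hy, y', hy', s, hs, v, hv, hb, hoff, hK, hη⟩ := h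
  obtain ⟨g, n, hg, rfl, rfl⟩ := ht.ex A y
  obtain ⟨a, ha, rfl⟩ := ht.uniq g n s hg hb
  have hrP : IsP (fun i => g (a - i)) a := (hg.1.mono ha).rev
  have hrI : Inj (fun i => g (a - i)) a := ((hg.inj ht).mono ha).rev
  have hba : b₁ ≤ a := by
    have := A10b_len (D := D) (D' := D') hrP (by simpa using hs) (by simpa using hR _ hA)
    omega
  have hrich := g2 _ hs (fun i => g (a - i)) (by simp) (hrP.mono hba) (hrI.mono hba)
  set I := (Finset.range b₁).filter fun i => t (ed (fun i => g (a - i)) i) ∈ Lw G η' δ p with hI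
  have hIlt : ∀ i ∈ I, i < b₁ := fun i hi => Finset.mem_range.1 (Finset.mem_filter.1 hi).1
  set S := I.image (ed fun i => g (a - i)) with hS
  have hcard : S.card = I.card :=
    Finset.card_image_of_injOn fun i hi j hj e =>
      (hrI.mono hba).ed_inj (hIlt i hi) (hIlt j hj) e
  have hIb : I.card ≤ b₁ := (Finset.card_filter_le _ _).trans (Finset.card_range _).le
  refine ⟨S, ?_, fun e => Icc (t e - η') (t e - δ), ?_, ?_⟩
  · intro e he
    obtain ⟨i, hi, rfl⟩ := Finset.mem_image.1 he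
    have := hIlt i hi
    unfold ed
    rw [Finset.mk_mem_sym2_iff]
    exact ⟨A10b_bx' hg.1 (Nat.sub_le a i) ha hs (by omega),
      A10b_bx' hg.1 (Nat.sub_le a (i + 1)) ha hs (by omega)⟩
  · intro e he
    obtain ⟨i, hi, rfl⟩ := Finset.mem_image.1 he
    exact ⟨measurableSet_Icc, (Finset.mem_filter.1 hi).2⟩
  intro t' h1 h2 ht'
  have hlow : Low t t' S := by
    refine ⟨fun e => ?_, h2⟩
    by_cases he : e ∈ S
    · have := (h1 e he).2
      linarith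
    · exact (h2 e he).le
  have hY1 : Y1 t t' g n a b₁ S := by
    refine ⟨ht, ht', hg, hba, ha, hlow, fun e he => ?_⟩
    obtain ⟨i, hi, rfl⟩ := Finset.mem_image.1 he
    have := hIlt i hi
    exact ⟨a - 1 - i, by omega, by omega, (ed_rev g (by omega)).symm⟩
  have hΔ : K + K₀ < ∑ e ∈ S, (t e - t' e) := by
    have a1 : S.card • δ ≤ ∑ e ∈ S, (t e - t' e) :=
      Finset.card_nsmul_le_sum _ _ _ fun e he => by have := (h1 e he).2; linarith
    rw [nsmul_eq_mul, hcard] at a1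
    have a2 : (b₁ : ℝ) ≤ 2 * I.card := by exact_mod_cast hrich
    have a3 := mul_le_mul_of_nonneg_right a2 hδ.le
    linarith
  have hΔ' : ∑ e ∈ S, (t e - t' e) ≤ b₁ * η' := by
    have a1 : ∑ e ∈ S, (t e - t' e) ≤ S.card • η' :=
      Finset.sum_le_card_nsmul _ _ _ fun e he => by have := (h1 e he).1; linarith
    rw [nsmul_eq_mul, hcard] at a1
    have a2 : (I.card : ℝ) ≤ b₁ := by exact_mod_cast hIb
    exact a1.trans (mul_le_mul_of_nonneg_right a2 (hδ.le.trans hδη))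
  have h0 : T t (g a) v ≤ K₀ := g1 _ hs _ hv
  by_cases hb' : Btw t' (g 0) (g a) y'
  · exact Or.inr (A10b_E1 hK₅ hD₂ hD' hY1 hA hy hy' (hY _ hy') hs hv h0 hoff hK hη hΔ hΔ'
      g3 g4 g5 hb')
  · have hlt : T t' (g 0) y' < T t (g 0) y' := by
      have a1 := T_tri ht'.nn (g 0) (g a) y'
      have a2 := T_tri ht'.nn (g a) v y'
      have a3 := hlow.T_le ht'.nn (g a) v
      have a4 := hlow.T_le ht'.nn v y'
      have a5 := hY1.Ta
      linarith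
    obtain ⟨k, hk1, hk2, hbr⟩ := hY1.branch hlt hb'
    exact Or.inl ⟨g 0, hA, g n, hy, y', hy', g k, A10b_bx' hg.1 hk2 ha hs (by omega), hbr⟩

end

end Crest.Agent.R151.A
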