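import Crest.Agent.R151.A4

/-! Row 151 (A): finite energy -/

set_option autoImplicit false

open MeasureTheory Set Filter Topology
open Crest.ProbabilityR.FirstPassage

namespace Crest.Agent.R151.A

open Crest.Agent.R151.B

noncomputable section

variable {G : Measure ℝ}

/-- resampling the coordinates in `S` preserves the law -/
theorem ALaw.resample (hG : ALaw G) (S : Finset (Sym2 Z2)) :
    MeasurePreserving (fun q : Env × Env => (fun e => if e ∈ S then q.2 e else q.1 e : Env))
      ((iidLaw G).prod (iidLaw G)) (iidLaw G) := by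
  have := hG.prob
  have := hG.isP
  have hm : Measurable
      (fun q : Env × Env => (fun e => if e ∈ S then q.2 e else q.1 e : Env)) := by
    refine measurable_pi_lambda _ fun e => ?_
    split_ifs
    · exact (measurable_pi_apply e).comp measurable_snd
    · exact (measurable_pi_apply e).comp measurable_fst
  refine ⟨hm, Measure.eq_infinitePi _ fun s B hB => ?_⟩
  have e : (fun q : Env × Env => (fun e => if e ∈ S then q.2 e else q.1 e : Env)) ⁻¹'
      Set.pi (s : Set (Sym2 Z2)) B =
      Set.pi (↑(s.filter fun e => ¬ e ∈ S) : Set (Sym2 Z2)) B ×ˢ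
        Set.pi (↑(s.filter fun e => e ∈ S) : Set (Sym2 Z2)) B := by
    ext q
    simp only [mem_preimage, Set.mem_pi, Finset.mem_coe, Set.mem_prod, Finset.mem_filter]
    constructor
    · intro h
      exact ⟨fun e he => by simpa only [if_neg he.2] using h e he.1,
        fun e he => by simpa only [if_pos he.2] using h e he.1⟩
    · intro h e he
      split_ifs with h'
      · exact h.2 e ⟨he, h'⟩
      · exact h.1 e ⟨he, h'⟩
  rw [Measure.map_apply hm (MeasurableSet.pi s.countable_toSet fun i _ => hB i), e,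
    Measure.prod_prod, iidLaw, Measure.infinitePi_pi _ fun i _ => hB i,
    Measure.infinitePi_pi _ fun i _ => hB i, mul_comm, Finset.prod_filter_mul_prod_filter_not]
theorem ALaw.fe (hG : ALaw G) (hg : ∀ᵐ t ∂iidLaw G, Good t) (F : Finset (Sym2 Z2)) {p : ℝ}
    (hp : 0 < p) (hp1 : p ≤ 1) (A : Set Env) :
    Pr G (Src G F p A) ≤ (2 / p) ^ F.card * Pr G A := by
  have := hG.prob
  have := hG.isP
  obtain ⟨A', hA'⟩ : ∃ A', A' = toMeasurable (iidLaw G) (A ∪ {t | ¬ Good t}) := ⟨_, rfl⟩
  have hm : MeasurableSet A' := hA' ▸ measurableSet_toMeasurable _ _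
  have hs : A ∪ {t | ¬ Good t} ⊆ A' := hA' ▸ subset_toMeasurable _ _
  have hμ : iidLaw G A' ≤ iidLaw G A := by
    rw [hA', measure_toMeasurable]
    refine (measure_union_le _ _).trans (le_of_eq ?_)
    rw [ae_iff.1 hg, add_zero]
  let f : Finset (Sym2 Z2) → Env → ENNReal := fun S t => iidLaw G (Prod.mk t ⁻¹'
    ((fun q : Env × Env => (fun e => if e ∈ S then q.2 e else q.1 e : Env)) ⁻¹' A'))
  have hpF := pow_pos hp F.card
  have h1 : ∀ S, Pr G {t | ENNReal.ofReal (p ^ F.card) ≤ f S t} ≤ Pr G A / p ^ F.card := by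
    intro S
    have hR := hG.resample S
    have a1 := mul_meas_ge_le_lintegral (μ := iidLaw G) (f := f S)
      (measurable_measure_prodMk_left (hR.measurable hm)) (ENNReal.ofReal (p ^ F.card))
    rw [← Measure.prod_apply (hR.measurable hm), hR.measure_preimage hm.nullMeasurableSet] at a1
    have a2 := ENNReal.toReal_mono (measure_ne_top _ _) (a1.trans hμ)
    rw [ENNReal.toReal_mul, ENNReal.toReal_ofReal hpF.le] at a2
    rw [le_div_iff₀' hpF]
    exact a2
  have h2 : Src G F p A ⊆ ⋃ S ∈ F.powerset, {t | ENNReal.ofReal (p ^ F.card) ≤ f S t} := by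
    rintro t ⟨S, hS, I, hI, ht⟩
    refine mem_iUnion₂.2 ⟨S, Finset.mem_powerset.2 hS, ?_⟩
    have a1 : iidLaw G (Set.pi (S : Set (Sym2 Z2)) I) ≤ f S t := by
      refine measure_mono fun τ hτ => hs ?_
      refine or_iff_not_imp_right.2 fun h => ht _ (fun e he => ?_) (fun e he => ?_) (not_not.1 h)
      · simpa only [if_pos he] using hτ e he
      · simp only [if_neg he]
    rw [iidLaw, Measure.infinitePi_pi _ fun e he => (hI e he).1] at a1
    refine le_trans ?_ a1
    refine (ENNReal.ofReal_le_ofReal
      (pow_le_pow_of_le_one hp.le hp1 (Finset.card_le_card hS))).trans ?_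
    rw [ENNReal.ofReal_pow hp.le, ← Finset.prod_const]
    exact Finset.prod_le_prod' fun e he =>
      (ENNReal.ofReal_le_iff_le_toReal (measure_ne_top _ _)).2 (hI e he).2
  refine (hG.mono h2).trans ((hG.biUnion _ _).trans
    ((Finset.sum_le_card_nsmul _ _ _ fun S _ => h1 S).trans (le_of_eq ?_)))
  rw [Finset.card_powerset, nsmul_eq_mul, div_pow]
  push_cast
  ring

end

end Crest.Agent.R151.A
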