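import Crest.Agent.R151.A6b

/-! Row 151 (A): local events of high probability -/

set_option autoImplicit false

open MeasureTheory Set Filter Topology
open Crest.ProbabilityR.FirstPassage

namespace Crest.Agent.R151.A

open Crest.Agent.R151.B

noncomputable section

variable {G : Measure ℝ}

theorem a8c_bx {x z : Z2} {D : ℕ} (h : x ∈ bx 0 D) : x + z ∈ bx z D := by
  rw [mem_bx] at h ⊢
  rwa [add_sub_cancel_right, ← sub_zero x]

/-- translation of an event about all pairs of points of a box -/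
theorem a8c_shift (hG : ALaw G) (D : ℕ) (P : Prop → ℝ → Prop) (z : Z2) :
    Pr G {t | ¬ ∀ x ∈ bx z D, ∀ x' ∈ bx z D, P (x ≠ x') (T t x x')} ≤
      Pr G {t | ¬ ∀ x ∈ bx 0 D, ∀ x' ∈ bx 0 D, P (x ≠ x') (T t x x')} := by
  rw [← hG.pr_sh z {t | ¬ ∀ x ∈ bx 0 D, ∀ x' ∈ bx 0 D, P (x ≠ x') (T t x x')}]
  refine hG.mono fun t ht h => ht fun x hx x' hx' => ?_
  have hb : ∀ u ∈ bx z D, u - z ∈ bx 0 D := fun u hu => by
    rw [mem_bx] at hu ⊢
    rwa [sub_zero]
  have := h (x - z) (hb x hx) (x' - z) (hb x' hx')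
  rw [T_sh, sub_add_cancel, sub_add_cancel] at this
  have e : (x - z ≠ x' - z) = (x ≠ x') := by rw [Ne, sub_left_inj]
  rwa [e] at this

theorem a8c_meas (D : ℕ) (P : Z2 → Z2 → Env → Prop) (hP : ∀ x x', MeasurableSet {t | P x x' t}) :
    MeasurableSet {t | ¬ ∀ x ∈ bx 0 D, ∀ x' ∈ bx 0 D, P x x' t} := by
  have e : {t | ¬ ∀ x ∈ bx 0 D, ∀ x' ∈ bx 0 D, P x x' t} =
      (⋂ x, ⋂ _ : x ∈ bx 0 D, ⋂ x', ⋂ _ : x' ∈ bx 0 D, {t | P x x' t})ᶜ := by
    ext t
    simp only [mem_setOf_eq, mem_compl_iff, mem_iInter]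
  rw [e]
  exact (MeasurableSet.iInter fun x => MeasurableSet.iInter fun _ => MeasurableSet.iInter fun x' =>
    MeasurableSet.iInter fun _ => hP x x').compl

/-- finitely many eventually true properties are eventually all true -/
theorem a8c_ev (D : ℕ) (P : Z2 → Z2 → ℕ → Prop) (h : ∀ x x', ∀ᶠ n in atTop, P x x' n) :
    ∃ n, ∀ x ∈ bx 0 D, ∀ x' ∈ bx 0 D, P x x' n := by
  have : ∀ᶠ n in atTop, ∀ x ∈ bx 0 D, ∀ x' ∈ bx 0 D, P x x' n :=
    (eventually_all_finset _).2 fun x _ => (eventually_all_finset _).2 fun x' _ => h x x'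
  exact this.exists

theorem ALaw.ev_le (hG : ALaw G) (D : ℕ) {ε : ℝ} (hε : 0 < ε) : ∃ K : ℝ, 0 ≤ K ∧ ∀ z,
    Pr G {t | ¬ ∀ x ∈ bx z D, ∀ x' ∈ bx z D, T t x x' ≤ K} ≤ ε := by
  obtain ⟨n, hn⟩ := hG.ev_anti (fun n => {t | ¬ ∀ x ∈ bx 0 D, ∀ x' ∈ bx 0 D, T t x x' ≤ (n : ℝ)})
    (fun n => (a8c_meas D (fun x x' t => T t x x' ≤ (n : ℝ)) fun x x' =>
      measurableSet_le (T_meas x x') measurable_const).nullMeasurableSet)
    (fun n m hnm t ht h => ht fun x hx x' hx' => (h x hx x' hx').trans (Nat.cast_le.2 hnm))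
    (Eventually.of_forall fun t => by
      obtain ⟨n, hn⟩ := a8c_ev D (fun x x' n => T t x x' ≤ (n : ℝ)) fun x x' =>
        tendsto_natCast_atTop_atTop.eventually_ge_atTop _
      exact ⟨n, fun h => h hn⟩) hε
  exact ⟨n, n.cast_nonneg, fun z => (a8c_shift hG D (fun _ r => r ≤ (n : ℝ)) z).trans hn⟩
theorem ALaw.ev_pos (hG : ALaw G) (D : ℕ) {ε : ℝ} (hε : 0 < ε) : ∃ η : ℝ, 0 < η ∧ ∀ z,
    Pr G {t | ¬ ∀ x ∈ bx z D, ∀ x' ∈ bx z D, x ≠ x' → η ≤ T t x x'} ≤ ε := by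
  obtain ⟨n, hn⟩ := hG.ev_anti
    (fun n => {t | ¬ ∀ x ∈ bx 0 D, ∀ x' ∈ bx 0 D, x ≠ x' → 1 / ((n : ℝ) + 1) ≤ T t x x'})
    (fun n => (a8c_meas D (fun x x' t => x ≠ x' → 1 / ((n : ℝ) + 1) ≤ T t x x') fun x x' => by
      by_cases e : x = x'
      · simp [e]
      · simpa [e] using measurableSet_le (measurable_const (a := 1 / ((n : ℝ) + 1)))
          (T_meas x x')).nullMeasurableSet)
    (fun n m hnm t ht h => ht fun x hx x' hx' e =>
      (Nat.one_div_le_one_div hnm).trans (h x hx x' hx' e))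
    (by
      filter_upwards [hG.good] with t ht
      obtain ⟨n, hn⟩ := a8c_ev D (fun x x' n => x ≠ x' → 1 / ((n : ℝ) + 1) ≤ T t x x') fun x x' => by
        by_cases e : x = x'
        · exact Eventually.of_forall fun _ h => absurd e h
        · filter_upwards [(tendsto_one_div_add_atTop_nhds_zero_nat (𝕜 := ℝ)).eventually
            (ge_mem_nhds (ht.T_pos e))] with n hn _ using hn
      exact ⟨n, fun h => h hn⟩) hε
  exact ⟨1 / ((n : ℝ) + 1), Nat.one_div_pos_of_nat,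
    fun z => (a8c_shift hG D (fun q r => q → 1 / ((n : ℝ) + 1) ≤ r) z).trans hn⟩
theorem ALaw.ev_nr (hG : ALaw G) (D : ℕ) (K : ℝ) {ε : ℝ} (hε : 0 < ε) :
    ∃ D', D ≤ D' ∧ Pr G {t | ¬ Nr t D K D'} ≤ ε := by
  obtain ⟨n, hn⟩ := hG.ev_anti (fun n => {t | ¬ Nr t D K (D + n)})
    (fun n => (a8c_meas D (fun u w t => ∀ p, T t u p ≤ T t u w + K → p ∈ bx 0 (D + n))
      fun u w => by
        rw [setOf_forall]
        refine MeasurableSet.iInter fun p => ?_
        by_cases e : p ∈ bx 0 (D + n)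
        · simp [e]
        · simpa [e] using measurableSet_lt ((T_meas u w).add_const K)
            (T_meas u p)).nullMeasurableSet)
    (fun n m hnm t ht h => ht fun u hu w hw p hp =>
      bx_mono (by rw [sub_zero, ni_zero]; omega) (h u hu w hw p hp))
    (by
      filter_upwards [hG.good] with t ht
      obtain ⟨n, hn⟩ := a8c_ev D (fun u w n => ∀ p, T t u p ≤ T t u w + K → p ∈ bx 0 (D + n))
        fun u w => by
          have := (eventually_all_finite (ht.prop u (T t u w + K))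
            (p := fun p n => p ∈ bx 0 (D + n)) (l := atTop)).2 fun p _ => by
              filter_upwards [eventually_ge_atTop (ni (p - 0))] with n hn
              exact mem_bx.2 (by omega)
          exact this
      exact ⟨n, fun h => h hn⟩) hε
  exact ⟨D + n, Nat.le_add_right _ _, hn⟩
theorem ALaw.ev_rich (hG : ALaw G) {A : Set ℝ} (hA : MeasurableSet A) (h : G.real Aᶜ ≤ 1 / 256)
    (D J : ℕ) {ε : ℝ} (hε : 0 < ε) : ∃ b₀, ∀ b ≥ b₀,
    Pr G {t | ¬ ∀ x ∈ bx 0 (D + J * b), Rich A t x b} ≤ ε := by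
  have h2 := tendsto_pow_const_mul_const_pow_of_abs_lt_one 2 (r := (1 / 2 : ℝ))
    (by rw [abs_of_pos] <;> norm_num)
  have h3 := h2.const_mul ((2 * ((D : ℝ) + J) + 1) ^ 2)
  rw [mul_zero] at h3
  obtain ⟨b₀, hb⟩ := eventually_atTop.1 ((h3.eventually (ge_mem_nhds hε)).and
    (eventually_ge_atTop 1))
  refine ⟨b₀, fun b hbb => ?_⟩
  obtain ⟨h4, h5⟩ := hb b hbb
  have e : {t | ¬ ∀ x ∈ bx 0 (D + J * b), Rich A t x b} =
      ⋃ x ∈ bx 0 (D + J * b), {t | ¬ Rich A t x b} := by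
    ext t
    simp only [mem_setOf_eq, mem_iUnion, not_forall, exists_prop]
  rw [e]
  refine (hG.biUnion _ _).trans ((Finset.sum_le_card_nsmul _ _ _ fun x _ =>
    hG.rich hA h x b).trans (le_trans ?_ h4))
  rw [card_bx, nsmul_eq_mul, ← mul_assoc, ← mul_pow]
  have h6 : (1 : ℝ) ≤ b := by exact_mod_cast h5
  have h7 : (0 : ℝ) ≤ D := D.cast_nonneg
  have h8 : (0 : ℝ) ≤ J := J.cast_nonneg
  push_cast
  gcongr
  nlinarith

end

end Crest.Agent.R151.A
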