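import Crest.Agent.R151.A9b
import Crest.Agent.R151.A10b
import Crest.Agent.R151.A4b
import Crest.Agent.R151.A8c

/-! Row 151 (A): the branching lemma (Y) -/

set_option autoImplicit false

open MeasureTheory Set Filter Topology
open Crest.ProbabilityR.FirstPassage

namespace Crest.Agent.R151.A

open Crest.Agent.R151.B

noncomputable section

variable {G : Measure ℝ}

theorem a11_nat (K : ℝ) {c : ℝ} (hc : 0 < c) (b₀ : ℕ) : ∃ b : ℕ, b₀ ≤ b ∧ K < b * c := by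
  obtain ⟨n, hn⟩ := exists_nat_gt (K / c)
  refine ⟨max b₀ n, le_max_left _ _, ?_⟩
  have h1 : (n : ℝ) ≤ (max b₀ n : ℕ) := Nat.cast_le.2 (le_max_right _ _)
  rw [div_lt_iff₀ hc] at hn
  exact hn.trans_le (mul_le_mul_of_nonneg_right h1 hc.le)

theorem ALaw.ybr0 (hG : ALaw G) (D : ℕ) (K : ℝ) {η ε : ℝ} (hη : 0 < η) (hε : 0 < ε) :
    ∃ (D' : ℕ) (C : ℝ), D ≤ D' ∧ 0 ≤ C ∧ ∀ R Y : Set Z2, (∀ A ∈ R, D' < ni A) →
      (∀ y ∈ Y, D' < ni y) → Pr G (E2 R Y 0 D K η) ≤ ε + C * Pr G (E0 R Y 0 D') := by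
  have hε5 : 0 < ε / 5 := by positivity
  obtain ⟨K₀, hK₀, B1⟩ := hG.ev_le D hε5
  obtain ⟨δ, p, hδ, hδη, hp, hp1, hL⟩ :=
    hG.lw (η := η / 6) (ε := 1 / 256) (by positivity) (by norm_num)
  have hm := hG.lw_meas (η / 6) δ p
  obtain ⟨c₁, hc₁⟩ := hG.ev_rich hm hL D 0 hε5
  obtain ⟨b₁, hb₁c, hb₁⟩ := a11_nat (K + K₀) (c := δ / 2) (by positivity) c₁
  have B2 := hc₁ b₁ hb₁c
  rw [zero_mul, add_zero] at B2
  obtain ⟨D'', -, B5⟩ := hG.ev_nr D (3 * K₀ + η) hε5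
  obtain ⟨J, -, hJ⟩ := a11_nat (2 * K₀) (c := η / 3) (by positivity) 0
  obtain ⟨c₂, hc₂⟩ := hG.ev_rich hm hL (D + b₁ + (2 * D'' + 1) ^ 2) J hε5
  obtain ⟨b, hbc, hb⟩ := a11_nat (2 * K₀) (c := δ / 2) (by positivity) c₂
  have B3 := hc₂ b hbc
  obtain ⟨D₂, hD₂⟩ : ∃ D₂, D₂ = D + b₁ + (2 * D'' + 1) ^ 2 + J * b := ⟨_, rfl⟩
  rw [← hD₂] at B3
  obtain ⟨D', hD', B4⟩ := hG.ev_nr D₂ (2 * K₀ + η + b₁ * (η / 6)) hε5
  have hN : 1 ≤ b + 1 := by omega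
  have hNR : (1 : ℝ) ≤ ((b + 1 : ℕ) : ℝ) := by exact_mod_cast hN
  have hq : 0 < p / ((b + 1 : ℕ) : ℝ) := by positivity
  have hq1 : p / ((b + 1 : ℕ) : ℝ) ≤ 1 := (div_le_self hp.le hNR).trans hp1
  obtain ⟨C₁, hC₁⟩ : ∃ C₁ : ℝ, C₁ = (2 / p) ^ (bx 0 D₂).sym2.card := ⟨_, rfl⟩
  obtain ⟨C₂, hC₂⟩ : ∃ C₂ : ℝ, C₂ = (2 / (p / ((b + 1 : ℕ) : ℝ))) ^ (bx 0 D₂).sym2.card :=
    ⟨_, rfl⟩
  have hC₁0 : 0 ≤ C₁ := by rw [hC₁]; positivity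
  have hC₂0 : 0 ≤ C₂ := by rw [hC₂]; positivity
  refine ⟨D', C₁ * (1 + C₂), by omega, by positivity, fun R Y hR hY => ?_⟩
  have h1 : Pr G (E1 (Lw G (η / 6) δ p) R Y D₂ D' J b (2 * K₀) η) ≤ C₂ * Pr G (E0 R Y 0 D') := by
    rw [hC₂]
    refine le_trans (hG.mono_ae ?_) (hG.fe hG.good (bx 0 D₂).sym2 hq hq1 _)
    filter_upwards [hG.good] with t ht h
    refine y2 hG hδ hδη le_rfl hN ?_ hJ (by rwa [mul_div_assoc]) ht h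
    refine mul_le_mul_of_nonneg_right ?_ (by positivity)
    exact Nat.cast_le.2 (Nat.le_succ b)
  have h2 : Pr G (Src G (bx 0 D₂).sym2 p
      (E0 R Y 0 D' ∪ E1 (Lw G (η / 6) δ p) R Y D₂ D' J b (2 * K₀) η)) ≤
      C₁ * (1 + C₂) * Pr G (E0 R Y 0 D') := by
    refine (hG.fe hG.good _ hp hp1 _).trans ?_
    rw [← hC₁, mul_assoc]
    refine mul_le_mul_of_nonneg_left ((hG.union _ _).trans ?_) hC₁0
    linarith
  have h3 : Pr G (E2 R Y 0 D K η) ≤ Pr G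
      (((((({t | ¬ ∀ x ∈ bx 0 D, ∀ x' ∈ bx 0 D, T t x x' ≤ K₀} : Set Env) ∪
        {t | ¬ ∀ x ∈ bx 0 D, Rich (Lw G (η / 6) δ p) t x b₁}) ∪
        {t | ¬ ∀ x ∈ bx 0 D₂, Rich (Lw G (η / 6) δ p) t x b}) ∪
        {t | ¬ Nr t D₂ (2 * K₀ + η + b₁ * (η / 6)) D'}) ∪ {t | ¬ Nr t D (3 * K₀ + η) D''}) ∪
        Src G (bx 0 D₂).sym2 p
          (E0 R Y 0 D' ∪ E1 (Lw G (η / 6) δ p) R Y D₂ D' J b (2 * K₀) η)) := by
    refine hG.mono_ae ?_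
    filter_upwards [hG.good] with t ht h
    by_contra hc
    simp only [mem_union, mem_ofPred_eq, not_or, not_not] at hc
    obtain ⟨⟨⟨⟨⟨g1, g2⟩, g3⟩, g4⟩, g5⟩, g6⟩ := hc
    exact g6 (y1 hG hδ hδη (by rwa [mul_div_assoc]) le_rfl hD₂.ge hD' hR hY ht g1 g2 g3 g4 g5 h)
  refine h3.trans ((hG.union _ _).trans (add_le_add ?_ h2))
  refine (hG.union _ _).trans ?_
  refine (add_le_add ((hG.union _ _).trans (add_le_add ((hG.union _ _).trans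
    (add_le_add ((hG.union _ _).trans (add_le_add (B1 0) B2)) B3)) B4)) B5).trans ?_
  linarith

theorem ALaw.ybr (hG : ALaw G) (D : ℕ) (K : ℝ) {η ε : ℝ} (hη : 0 < η) (hε : 0 < ε) :
    ∃ (D' : ℕ) (C : ℝ), D ≤ D' ∧ 0 ≤ C ∧ ∀ (z : Z2) (R Y : Set Z2), (∀ A ∈ R, D' < ni (A - z)) →
      (∀ y ∈ Y, D' < ni (y - z)) → Pr G (E2 R Y z D K η) ≤ ε + C * Pr G (E0 R Y z D') := by
  obtain ⟨D', C, hD, hC, h⟩ := hG.ybr0 D K hη hε
  refine ⟨D', C, hD, hC, fun z R Y hR hY => ?_⟩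
  have h0 := h {A | A + z ∈ R} {y | y + z ∈ Y}
    (fun A hA => by simpa using hR _ hA) (fun y hy => by simpa using hY _ hy)
  have hb : ∀ n, ∀ u ∈ bx z n, u - z ∈ bx 0 n := fun n u hu => by
    rw [mem_bx] at hu ⊢
    rwa [sub_zero]
  have h1 : Pr G (E2 R Y z D K η) ≤ Pr G (E2 {A | A + z ∈ R} {y | y + z ∈ Y} 0 D K η) := by
    rw [← hG.pr_sh z (E2 {A | A + z ∈ R} {y | y + z ∈ Y} 0 D K η)]
    refine hG.mono ?_
    rintro t ⟨A, hA, y, hy, y', hy', s, hs, v, hv, a1, a2, a3, a4⟩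
    refine ⟨A - z, by simpa using hA, y - z, by simpa using hy, y' - z, by simpa using hy',
      s - z, hb _ s hs, v - z, hb _ v hv, ?_, fun w hw hw' => ?_, ?_, ?_⟩
    · rw [btw_sh]; simpa only [sub_add_cancel] using a1
    · rw [btw_sh] at hw hw'
      simp only [sub_add_cancel] at hw hw'
      exact a2 _ hw hw'
    · simpa only [T_sh, sub_add_cancel] using a3
    · simpa only [T_sh, sub_add_cancel] using a4
  have h2 : Pr G (E0 {A | A + z ∈ R} {y | y + z ∈ Y} 0 D') ≤ Pr G (E0 R Y z D') := by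
    rw [← hG.pr_sh z (E0 {A | A + z ∈ R} {y | y + z ∈ Y} 0 D')]
    refine hG.mono ?_
    rintro t ⟨A, hA, y, hy, y', hy', q, hq, a1⟩
    exact ⟨A + z, hA, y + z, hy, y' + z, hy', q + z, a8c_bx hq, (br_sh z).1 a1⟩
  exact h1.trans (h0.trans (add_le_add le_rfl (mul_le_mul_of_nonneg_left h2 hC)))

end

end Crest.Agent.R151.A
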