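import Crest.Agent.R151.A2

/-! Row 151 (A): a tree has fewer branch points than leaves -/

set_option autoImplicit false

open MeasureTheory Set Filter Topology
open Crest.ProbabilityR.FirstPassage

namespace Crest.Agent.R151.A

open Crest.Agent.R151.B

noncomputable section

theorem A12_abs {α : Type*} (le : α → α → Prop) (enc : α → ℕ) (henc : Function.Injective enc)
    (hrefl : ∀ a, le a a) (htr : ∀ {a b c}, le a b → le b c → le a c)
    (hcmp : ∀ {a b c}, le a c → le b c → le a b ∨ le b a)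
    (hanti : ∀ {a b}, le a b → le b a → a = b) (B : α → α → α → Prop)
    (hB : ∀ z z' p, B z z' p ↔ le p z ∧ le p z' ∧ ∀ c, le p c → le c z → le c z' → c = p)
    (P Z : Finset α) (h : ∀ p ∈ P, ∃ z ∈ Z, ∃ z' ∈ Z, B z z' p ∧ z ≠ p ∧ z' ≠ p) :
    P.card ≤ Z.card := by
  classical
  have K1 : ∀ {z z' p w}, B z z' p → le p w → B w z p ∨ B w z' p := by
    intro z z' p w hb hw
    rw [hB] at hb
    obtain ⟨h1, h2, h3⟩ := hb
    by_contra hcon
    rw [not_or, hB, hB] at hcon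
    obtain ⟨n1, n2⟩ := hcon
    have e1 : ∃ c, le p c ∧ le c w ∧ le c z ∧ c ≠ p := by
      by_contra hh
      refine n1 ⟨hw, h1, fun c a1 a2 a3 => ?_⟩
      by_contra hc
      exact hh ⟨c, a1, a2, a3, hc⟩
    have e2 : ∃ c, le p c ∧ le c w ∧ le c z' ∧ c ≠ p := by
      by_contra hh
      refine n2 ⟨hw, h2, fun c a1 a2 a3 => ?_⟩
      by_contra hc
      exact hh ⟨c, a1, a2, a3, hc⟩
    obtain ⟨c1, a1, a2, a3, a4⟩ := e1
    obtain ⟨c2, b1, b2, b3, b4⟩ := e2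
    rcases hcmp a2 b2 with hc | hc
    · exact a4 (h3 c1 a1 a3 (htr hc b3))
    · exact b4 (h3 c2 b1 (htr hc a3) b3)
  have hm : ∀ p ∈ P, ∃ m, (m ∈ Z ∧ le p m ∧ m ≠ p) ∧
      ∀ z ∈ Z, le p z → z ≠ p → enc m ≤ enc z := by
    intro p hp
    obtain ⟨z, hz, z', _, hb, hzp, _⟩ := h p hp
    obtain ⟨m, hm, hmin⟩ := Finset.exists_min_image (Z.filter fun z => le p z ∧ z ≠ p) enc
      ⟨z, Finset.mem_filter.2 ⟨hz, ((hB _ _ _).1 hb).1, hzp⟩⟩
    rw [Finset.mem_filter] at hm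
    exact ⟨m, ⟨hm.1, hm.2.1, hm.2.2⟩, fun w a1 a2 a3 => hmin w (Finset.mem_filter.2 ⟨a1, a2, a3⟩)⟩
  choose! m hm hmin using hm
  have hφ : ∀ p ∈ P, ∃ f, (f ∈ Z ∧ f ≠ p ∧ B (m p) f p) ∧
      ∀ z ∈ Z, z ≠ p → B (m p) z p → enc f ≤ enc z := by
    intro p hp
    obtain ⟨z, hz, z', hz', hb, hzp, hzp'⟩ := h p hp
    have hne : (Z.filter fun z => z ≠ p ∧ B (m p) z p).Nonempty := by
      rcases K1 hb (hm p hp).2.1 with h1 | h1
      · exact ⟨z, Finset.mem_filter.2 ⟨hz, hzp, h1⟩⟩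
      · exact ⟨z', Finset.mem_filter.2 ⟨hz', hzp', h1⟩⟩
    obtain ⟨f, hf, hfm⟩ := Finset.exists_min_image _ enc hne
    rw [Finset.mem_filter] at hf
    exact ⟨f, ⟨hf.1, hf.2.1, hf.2.2⟩, fun w a1 a2 a3 => hfm w (Finset.mem_filter.2 ⟨a1, a2, a3⟩)⟩
  choose! φ hφ hφm using hφ
  have key : ∀ p ∈ P, ∀ q ∈ P, φ p = φ q → le p q → p = q := by
    intro p hp q hq e hpq
    by_contra hne
    obtain ⟨p1, p2, p3⟩ := hφ p hp
    obtain ⟨q1, q2, q3⟩ := hφ q hq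
    obtain ⟨m1, m2, m3⟩ := hm q hq
    have p3' := (hB _ _ _).1 p3
    have q3' := (hB _ _ _).1 q3
    have hqz : le q (φ p) := e ▸ q3'.2.1
    have h1 : enc (m q) ≤ enc (φ q) := hmin q hq _ q1 q3'.2.1 q2
    have h2 : m q ≠ φ q := by
      intro e'
      exact q2 (q3'.2.2 (φ q) q3'.2.1 (e' ▸ hrefl _) (hrefl _))
    have h3 : m q ≠ p := by
      intro e'
      exact hne (hanti hpq (e' ▸ m2))
    have h4 : B (m p) (m q) p := by
      refine (hB _ _ _).2 ⟨p3'.1, htr hpq m2, fun c a1 a2 a3 => ?_⟩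
      rcases hcmp a3 m2 with hc | hc
      · exact p3'.2.2 c a1 a2 (htr hc hqz)
      · exact absurd (p3'.2.2 q hpq (htr hc a2) hqz).symm hne
    have h5 := hφm p hp _ m1 h3 h4
    rw [e] at h5
    exact h2 (henc (le_antisymm h1 h5))
  refine Finset.card_le_card_of_injOn φ (fun p hp => (hφ p hp).1) fun p hp q hq e => ?_
  have hp' : le p (φ p) := ((hB _ _ _).1 (hφ p hp).2.2).2.1
  have hq' : le q (φ p) := e ▸ ((hB _ _ _).1 (hφ q hq).2.2).2.1
  rcases hcmp hp' hq' with hc | hc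
  · exact key p hp q hq e hc
  · exact (key q hq p hp e.symm hc).symm

theorem tree_count {t : Env} (ht : Good t) (x : Z2) (P Z : Finset Z2)
    (h : ∀ p ∈ P, ∃ z ∈ Z, ∃ z' ∈ Z, Br t x z z' p ∧ z ≠ p ∧ z' ≠ p) : P.card ≤ Z.card :=
  A12_abs (fun a b => Btw t x a b) Encodable.encode Encodable.encode_injective
    (fun a => btw_right ht.nn x a) (fun h1 h2 => (Btw.trans2 ht.nn h2 h1).1)
    (fun h1 h2 => ht.cmp h1 h2) (fun h1 h2 => ht.btw_antisymm h1 h2)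
    (fun z z' p => Br t x z z' p) (fun _ _ _ => Iff.rfl) P Z h
open Classical in
theorem br_count {t : Env} (ht : Good t) (x o : Z2) {L L' : ℕ} (hL : L < L') (Y : Set Z2)
    (hY : ∀ y ∈ Y, L' ≤ ni (y - o)) :
    ((bx o L).filter fun p => ∃ y ∈ Y, ∃ y' ∈ Y, Br t x y y' p).card ≤
      ((sp o L').filter fun z => ∃ y ∈ Y, Btw t x z y).card := by
  refine tree_count ht x _ _ fun p hp => ?_
  rw [Finset.mem_filter, mem_bx] at hp
  obtain ⟨hp, y, hy, y', hy', hb⟩ := hp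
  obtain ⟨z, hz, hzb⟩ := ht.sph (x := p) (y := y) o (L := L') (by omega) (hY y hy)
  obtain ⟨z', hz', hzb'⟩ := ht.sph (x := p) (y := y') o (L := L') (by omega) (hY y' hy')
  have e1 := (Btw.trans1 ht.nn hb.1 hzb).2
  have e2 := (Btw.trans1 ht.nn hb.2.1 hzb').2
  refine ⟨z, Finset.mem_filter.2 ⟨hz, y, hy, e1⟩, z', Finset.mem_filter.2 ⟨hz', y', hy', e2⟩,
    hb.restrict ht.nn (btw_left ht.nn x p) hzb hzb', ?_, ?_⟩
  · rintro rfl
    rw [mem_sp] at hz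
    omega
  · rintro rfl
    rw [mem_sp] at hz'
    omega

end

end Crest.Agent.R151.A
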