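import Crest.Agent.R151.A6

/-! Row 151 (A): almost every environment is good -/

set_option autoImplicit false

open MeasureTheory Set Filter Topology
open Crest.ProbabilityR.FirstPassage

namespace Crest.Agent.R151.A

open Crest.Agent.R151.B

noncomputable section

variable {G : Measure ℝ}

theorem a6b_short {t : Env} {c : ℝ} (hc : 0 < c) (ht : NN t)
    (hlong : ∀ x, ∃ N, ∀ n ≥ N, Rich (Ici c) t x n) (x : Z2) (K : ℝ) :
    ∃ n₀ : ℕ, ∀ g m, g 0 = x → IsP g m → Inj g m → cst t g m ≤ K → m < n₀ := by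
  obtain ⟨N, hN⟩ := hlong x
  refine ⟨max N (⌈2 * K / c⌉₊ + 1), fun g m h0 hg hi hK => ?_⟩
  by_contra hm
  have h1 := (hN _ (le_max_left N (⌈2 * K / c⌉₊ + 1))).cst_ge ht hc.le h0 hg hi (not_lt.1 hm)
  have h2 : ((⌈2 * K / c⌉₊ + 1 : ℕ) : ℝ) ≤ (max N (⌈2 * K / c⌉₊ + 1) : ℕ) :=
    Nat.cast_le.2 (le_max_right _ _)
  have h3 := Nat.le_ceil (2 * K / c)
  rw [div_le_iff₀ hc] at h3
  rw [Nat.cast_add, Nat.cast_one] at h2
  have h4 := mul_le_mul_of_nonneg_left h2 hc.le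
  nlinarith

theorem a6b_near {t : Env} (ht : NN t) (x y : Z2) {ε : ℝ} (hε : 0 < ε) :
    ∃ g m, g 0 = x ∧ g m = y ∧ IsP g m ∧ Inj g m ∧ cst t g m ≤ T t x y + ε := by
  obtain ⟨w, hw, hc⟩ := T_path ht x y hε
  obtain ⟨g, h1, h2, h3, h4, h5⟩ := isP_of_walk w
  exact ⟨g, w.length, h2, h3, h1, h4 hw, (h5 t).le.trans hc⟩

theorem a6b_cst (t : Env) {g : ℕ → Z2} {m : ℕ} (hi : Inj g m) :
    cst t g m = ∑ e ∈ (Finset.range m).image (ed g), t e :=
  (Finset.sum_image fun _ hi' _ hj' e =>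
    hi.ed_inj (Finset.mem_range.1 hi') (Finset.mem_range.1 hj') e).symm

theorem a6b_inj {t : Env} (hpos : ∀ e, 0 < t e) {g : ℕ → Z2} {n : ℕ} (h : Geo t g n) :
    Inj g n := by
  have ht : NN t := fun e => (hpos e).le
  have key : ∀ i j, i < j → j ≤ n → g i ≠ g j := by
    intro i j hij hj e
    have h1 := h.T_eq ht hij.le hj
    rw [e, T_self ht] at h1
    have h2 : cst t g (i + 1) ≤ cst t g j := cst_mono ht g hij
    have h3 : cst t g (i + 1) = cst t g i + t (ed g i) := Finset.sum_range_succ _ _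
    have := hpos (ed g i)
    linarith
  intro i hi j hj e
  rcases lt_trichotomy i j with hij | hij | hij
  · exact absurd e (key i j hij hj)
  · exact hij
  · exact absurd e.symm (key j i hij hi)

theorem a6b_ex {t : Env} {c : ℝ} (hc : 0 < c) (ht : NN t)
    (hlong : ∀ x, ∃ N, ∀ n ≥ N, Rich (Ici c) t x n) (x y : Z2) :
    ∃ g n, Geo t g n ∧ g 0 = x ∧ g n = y := by
  obtain ⟨n₀, hn₀⟩ := a6b_short hc ht hlong x (T t x y + 1)
  have hfin : {a : ℝ | a ≤ T t x y + 1 ∧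
      ∃ g m, g 0 = x ∧ g m = y ∧ IsP g m ∧ Inj g m ∧ cst t g m = a}.Finite := by
    refine (((bx x n₀).sym2.powerset.image fun S => ∑ e ∈ S, t e).finite_toSet).subset ?_
    rintro a ⟨ha, g, m, h0, -, hg, hi, rfl⟩
    have hm := hn₀ g m h0 hg hi ha
    refine Finset.mem_coe.2 (Finset.mem_image.2 ⟨_, Finset.mem_powerset.2 ?_, (a6b_cst t hi).symm⟩)
    intro e he
    obtain ⟨i, hi', rfl⟩ := Finset.mem_image.1 he
    have hi'' := Finset.mem_range.1 hi'
    have hb : ∀ j ≤ m, g j ∈ bx x n₀ := fun j hj => by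
      have := hg.ni_le (Nat.zero_le j) hj
      rw [h0] at this
      exact mem_bx.2 (by omega)
    exact Finset.mk_mem_sym2_iff.2 ⟨hb i hi''.le, hb (i + 1) hi''⟩
  obtain ⟨g₁, m₁, a1, a2, a3, a4, a5⟩ := a6b_near ht x y one_pos
  obtain ⟨a, ⟨ha, g, m, h0, h1, hg, -, rfl⟩, hmin⟩ :=
    Set.exists_min_image _ id hfin ⟨_, a5, g₁, m₁, a1, a2, a3, a4, rfl⟩
  refine ⟨g, m, ⟨hg, le_antisymm ?_ (T_le_cst ht hg)⟩, h0, h1⟩
  rw [h0, h1]
  refine le_of_forall_pos_le_add fun ε hε => ?_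
  obtain ⟨g', m', b1, b2, b3, b4, b5⟩ := a6b_near ht x y (lt_min hε one_pos)
  have h2 := min_le_left ε 1
  have h3 := min_le_right ε 1
  have h5 : cst t g' m' ≤ T t x y + 1 := by linarith
  have h4 : cst t g m ≤ cst t g' m' := hmin (cst t g' m') ⟨h5, g', m', b1, b2, b3, b4, rfl⟩
  linarith

theorem good_of {t : Env} {c : ℝ} (hc : 0 < c) (hpos : ∀ e, 0 < t e)
    (hsum : ∀ S S' : Finset (Sym2 Z2), S ≠ S' → ∑ e ∈ S, t e ≠ ∑ e ∈ S', t e)
    (hlong : ∀ x, ∃ N, ∀ n ≥ N, Rich (Ici c) t x n) : Good t := by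
  have ht : NN t := fun e => (hpos e).le
  refine ⟨hpos, a6b_ex hc ht hlong, fun g n z hg hz => ?_, fun x K => ?_⟩
  · by_contra hno
    push Not at hno
    obtain ⟨g₁, n₁, h₁, a1, a2⟩ := a6b_ex hc ht hlong (g 0) z
    obtain ⟨g₂, n₂, h₂, b1, b2⟩ := a6b_ex hc ht hlong z (g n)
    obtain ⟨f, hf, f1, f2⟩ := h₁.1.app h₂.1 (a2.trans b1.symm)
    have e1 : cst t f (n₁ + n₂) = T t (g 0) (g n) := by
      rw [cst_add, cst_congr t f1, cst_congr t (g := tl f n₁) (g' := g₂) f2, h₁.2, h₂.2, a1, a2,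
        b1, b2]
      exact hz
    have hG : Geo t f (n₁ + n₂) := ⟨hf, by rw [e1, f1 0 (Nat.zero_le _), f2 n₂ le_rfl, a1, b2]⟩
    have hS : (Finset.range (n₁ + n₂)).image (ed f) = (Finset.range n).image (ed g) := by
      by_contra hne
      refine hsum _ _ hne ?_
      rw [← a6b_cst t (a6b_inj hpos hG), ← a6b_cst t (a6b_inj hpos hg), e1, hg.2]
    have hn₁ : n₁ ≠ 0 := by
      rintro rfl
      exact hno 0 (Nat.zero_le _) (a1.symm.trans a2)
    obtain ⟨k, rfl⟩ := Nat.exists_eq_succ_of_ne_zero hn₁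
    have hm : ed f k ∈ (Finset.range n).image (ed g) := by
      rw [← hS]
      exact Finset.mem_image_of_mem _ (Finset.mem_range.2 (by omega))
    obtain ⟨i, hi, e⟩ := Finset.mem_image.1 hm
    have hi' := Finset.mem_range.1 hi
    have hz' : z ∈ ed g i := by
      rw [e, ed, f1 (k + 1) le_rfl, a2]
      exact Sym2.mem_mk_right _ _
    rcases Sym2.mem_iff.1 hz' with h | h
    · exact hno i hi'.le h.symm
    · exact hno (i + 1) hi' h.symm
  · obtain ⟨n₀, hn₀⟩ := a6b_short hc ht hlong x (K + 1)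
    refine (bx x n₀).finite_toSet.subset fun y hy => ?_
    obtain ⟨g, m, h0, h1, hg, hi, hK⟩ := a6b_near ht x y one_pos
    have hy' : T t x y ≤ K := hy
    have hm := hn₀ g m h0 hg hi (by linarith)
    have := hg.ni_le (Nat.zero_le m) le_rfl
    rw [h0, h1] at this
    exact Finset.mem_coe.2 (mem_bx.2 (by omega))

theorem ALaw.good (hG : ALaw G) : ∀ᵐ t ∂iidLaw G, Good t := by
  obtain ⟨c, hc, h⟩ := hG.ae_long
  filter_upwards [hG.ae_pos, hG.ae_sums, h] with t h1 h2 h3 using good_of hc h1 h2 h3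

end

end Crest.Agent.R151.A
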