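import Crest.Agent.R151.A2

/-! Row 151 (A): elementary probability -/

set_option autoImplicit false

open MeasureTheory Set Filter Topology
open Crest.ProbabilityR.FirstPassage

namespace Crest.Agent.R151.A

open Crest.Agent.R151.B

noncomputable section

variable {G : Measure ℝ} {A B : Set Env}

theorem ALaw.isP (hG : ALaw G) : IsProbabilityMeasure (iidLaw G) := by
  have := hG.prob
  unfold iidLaw
  infer_instance
theorem ALaw.le_one (hG : ALaw G) (A : Set Env) : Pr G A ≤ 1 := by
  have := hG.isP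
  exact measureReal_le_one
theorem ALaw.mono (hG : ALaw G) (h : A ⊆ B) : Pr G A ≤ Pr G B := by
  have := hG.isP
  exact measureReal_mono h
theorem ALaw.mono_ae (hG : ALaw G) (h : ∀ᵐ t ∂iidLaw G, t ∈ A → t ∈ B) : Pr G A ≤ Pr G B := by
  have := hG.isP
  exact ENNReal.toReal_mono (measure_ne_top _ _) (measure_mono_ae h)
theorem ALaw.union (hG : ALaw G) (A B : Set Env) : Pr G (A ∪ B) ≤ Pr G A + Pr G B :=
  measureReal_union_le A B
theorem ALaw.biUnion (hG : ALaw G) {ι : Type*} (I : Finset ι) (A : ι → Set Env) :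
    Pr G (⋃ i ∈ I, A i) ≤ ∑ i ∈ I, Pr G (A i) :=
  measureReal_biUnion_finset_le I A
/-- arbitrary sets: `sh z` is a measure preserving measurable equivalence -/
theorem ALaw.pr_sh (hG : ALaw G) (z : Z2) (A : Set Env) : Pr G (sh z ⁻¹' A) = Pr G A := by
  have := hG.prob
  have h := Measure.infinitePi_map_piCongrLeft (fun _ : Sym2 Z2 => G) (mpShEquiv z).symm
  have e : (MeasurableEquiv.piCongrLeft (fun _ : Sym2 Z2 => ℝ) (mpShEquiv z).symm : Env → Env) =
      sh z := by
    funext t e
    have := MeasurableEquiv.piCongrLeft_apply_apply (β := fun _ : Sym2 Z2 => ℝ) (mpShEquiv z).symm t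
      (mpShEquiv z e)
    rw [Equiv.symm_apply_apply] at this
    exact this
  have h2 := congrArg (fun μ : Measure Env => (μ A).toReal) h
  simp only [MeasurableEquiv.map_apply] at h2
  rwa [e] at h2
theorem ALaw.edge (hG : ALaw G) (e : Sym2 Z2) {B : Set ℝ} (hB : MeasurableSet B) :
    Pr G {t | t e ∈ B} = G.real B := by
  have := hG.prob
  exact (measurePreserving_eval_infinitePi (fun _ : Sym2 Z2 => G) e).measureReal_preimage
    hB.nullMeasurableSet
theorem ALaw.ev_anti (hG : ALaw G) (A : ℕ → Set Env) (hm : ∀ n, NullMeasurableSet (A n) (iidLaw G))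
    (ha : Antitone A) (h : ∀ᵐ t ∂iidLaw G, ∃ n, t ∉ A n) {ε : ℝ} (hε : 0 < ε) :
    ∃ n, Pr G (A n) ≤ ε := by
  have := hG.isP
  have h1 := tendsto_measure_iInter_atTop hm ha ⟨0, measure_ne_top _ _⟩
  rw [measure_mono_null (fun t ht => not_exists.2 fun n hn => hn (mem_iInter.1 ht n))
    (ae_iff.1 h)] at h1
  exact (((ENNReal.tendsto_toReal ENNReal.zero_ne_top).comp h1).eventually
    (ge_mem_nhds hε)).exists
theorem ALaw.sup_le (hG : ALaw G) (A : ℕ → Set Env) (ha : Monotone A) {c : ℝ}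
    (h : ∀ n, Pr G (A n) ≤ c) : Pr G (⋃ n, A n) ≤ c := by
  have := hG.isP
  exact le_of_tendsto' ((ENNReal.tendsto_toReal (measure_ne_top _ _)).comp
    (tendsto_measure_iUnion_atTop ha)) h
theorem ALaw.null_of (hG : ALaw G) (h : ∀ ε : ℝ, 0 < ε → Pr G A ≤ ε) : ∀ᵐ t ∂iidLaw G, t ∉ A := by
  have := hG.isP
  exact measure_eq_zero_iff_ae_notMem.1 ((measureReal_eq_zero_iff (measure_ne_top _ _)).1
    (le_antisymm (le_of_forall_pos_le_add fun ε hε => (h ε hε).trans_eq (zero_add ε).symm)
      measureReal_nonneg))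
theorem ALaw.pr_null (hG : ALaw G) (h : ∀ᵐ t ∂iidLaw G, t ∉ A) : Pr G A = 0 := by
  rw [Pr, measureReal_def, measure_eq_zero_iff_ae_notMem.2 h, ENNReal.toReal_zero]
open Classical in
theorem ALaw.a4_count (hG : ALaw G) {ι : Type*} (F : Finset ι) (H : ι → Set Env)
    (hH : ∀ i ∈ F, NullMeasurableSet (H i) (iidLaw G)) :
    Integrable (fun t => ((F.filter fun i => t ∈ H i).card : ℝ)) (iidLaw G) ∧
      ∫ t, ((F.filter fun i => t ∈ H i).card : ℝ) ∂iidLaw G = ∑ i ∈ F, Pr G (H i) := by
  have := hG.isP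
  have e : (fun t => ((F.filter fun i => t ∈ H i).card : ℝ)) =
      fun t => ∑ i ∈ F, (H i).indicator (fun _ => (1 : ℝ)) t := by
    funext t
    simp only [Finset.card_filter, Nat.cast_sum, Nat.cast_ite, Nat.cast_one, Nat.cast_zero,
      indicator_apply]
  have hi : ∀ i ∈ F, Integrable ((H i).indicator fun _ => (1 : ℝ)) (iidLaw G) :=
    fun i hi => (integrable_const 1).indicator₀ (hH i hi)
  rw [e, integral_finsetSum _ hi]
  refine ⟨integrable_finsetSum _ hi, Finset.sum_congr rfl fun i hi => ?_⟩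
  simp [integral_indicator₀ (hH i hi), Pr]
open Classical in
/-- expectation of a counting inequality; the sets on the right are arbitrary (`toMeasurable`) -/
theorem ALaw.count_le (hG : ALaw G) {ι κ : Type*} (F : Finset ι) (H : ι → Set Env) (F' : Finset κ)
    (H' : κ → Set Env) {a b c : ℝ} (hc : 0 ≤ c)
    (hH : ∀ i ∈ F, NullMeasurableSet (H i) (iidLaw G))
    (h : ∀ᵐ t ∂iidLaw G, a * ((F.filter fun i => t ∈ H i).card : ℝ) ≤
      b + c * ((F'.filter fun j => t ∈ H' j).card : ℝ)) :
    a * ∑ i ∈ F, Pr G (H i) ≤ b + c * ∑ j ∈ F', Pr G (H' j) := by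
  have := hG.isP
  obtain ⟨i1, e1⟩ := hG.a4_count F H hH
  obtain ⟨i2, e2⟩ := hG.a4_count F' (fun j => toMeasurable (iidLaw G) (H' j))
    fun j _ => (measurableSet_toMeasurable _ _).nullMeasurableSet
  have h1 := integral_mono_ae (i1.const_mul a) ((integrable_const b).add (i2.const_mul c))
    (h.mono fun t ht => ht.trans (add_le_add_right (mul_le_mul_of_nonneg_left (Nat.cast_le.2
      (Finset.card_le_card (Finset.monotone_filter_right _
        fun j _ hj => subset_toMeasurable _ _ hj))) hc) b))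
  simp only [Pi.add_apply] at h1
  rw [integral_add (integrable_const b) (i2.const_mul c), integral_const_mul, integral_const_mul,
    e1, e2] at h1
  simpa [Pr, measureReal_def] using h1
open Classical in
theorem ALaw.count_le' (hG : ALaw G) {ι : Type*} (F : Finset ι) (H : ι → Set Env) (E : Set Env)
    {b : ℝ} (hb : 0 ≤ b) (hH : ∀ i ∈ F, NullMeasurableSet (H i) (iidLaw G))
    (h : ∀ᵐ t ∂iidLaw G, t ∉ E → ((F.filter fun i => t ∈ H i).card : ℝ) ≤ b) :
    ∑ i ∈ F, Pr G (H i) ≤ b + F.card * Pr G E := by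
  have h1 := hG.count_le F H {()} (fun _ => E) (a := 1) (b := b) (Nat.cast_nonneg F.card) hH
    (h.mono fun t ht => ?_)
  · simpa using h1
  · by_cases hE : t ∈ E
    · simpa [hE] using le_add_of_nonneg_of_le hb (Nat.cast_le.2 (Finset.card_filter_le F _))
    · simpa [hE] using ht hE

end

end Crest.Agent.R151.A
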