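import Crest.Agent.R151.A8
import Crest.Agent.R151.A4

/-! Row 151 (A): measurability -/

set_option autoImplicit false

open MeasureTheory Set Filter Topology
open Crest.ProbabilityR.FirstPassage

namespace Crest.Agent.R151.A

open Crest.Agent.R151.B

noncomputable section

variable {G : Measure ℝ}

theorem T_meas' {α : Type*} [MeasurableSpace α] {f : α → Env} {x y : α → Z2} (hf : Measurable f)
    (hx : Measurable x) (hy : Measurable y) : Measurable fun a => T (f a) (x a) (y a) := by
  have h : Measurable fun q : Env × (Z2 × Z2) => T q.1 q.2.1 q.2.2 :=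
    measurable_from_prod_countable_left fun p => T_meas p.1 p.2
  exact h.comp (hf.prodMk (hx.prodMk hy))

section aux
variable {α : Type*} [MeasurableSpace α] {f : α → Env}

theorem a8b_ev {x y : α → Z2} (hf : Measurable f) (hx : Measurable x) (hy : Measurable y) :
    Measurable fun a => f a s(x a, y a) := by
  have h : Measurable fun q : Env × (Z2 × Z2) => q.1 s(q.2.1, q.2.2) :=
    measurable_from_prod_countable_left fun p => measurable_pi_apply s(p.1, p.2)
  exact h.comp (hf.prodMk (hx.prodMk hy))

theorem a8b_eq {u v : α → ℝ} (hu : Measurable u) (hv : Measurable v) :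
    Measurable fun a => u a = v a := measurableSet_setOfPred.1 (measurableSet_eq_fun hu hv)
theorem a8b_le {u v : α → ℝ} (hu : Measurable u) (hv : Measurable v) :
    Measurable fun a => u a ≤ v a := measurableSet_setOfPred.1 (measurableSet_le hu hv)
theorem a8b_lt {u v : α → ℝ} (hu : Measurable u) (hv : Measurable v) :
    Measurable fun a => u a < v a := measurableSet_setOfPred.1 (measurableSet_lt hu hv)
theorem a8b_rel (P : Z2 → Z2 → Prop) {x y : α → Z2} (hx : Measurable x) (hy : Measurable y) :
    Measurable fun a => P (x a) (y a) :=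
  (measurable_of_countable fun p : Z2 × Z2 => P p.1 p.2).comp (hx.prodMk hy)

theorem a8b_btw {x y z : α → Z2} (hf : Measurable f) (hx : Measurable x) (hy : Measurable y)
    (hz : Measurable z) : Measurable fun a => Btw (f a) (x a) (y a) (z a) :=
  a8b_eq ((T_meas' hf hx hy).add (T_meas' hf hy hz)) (T_meas' hf hx hz)

theorem a8b_mgp {x y z : α → Z2} (δ : ℝ) (hf : Measurable f) (hx : Measurable x)
    (hy : Measurable y) (hz : Measurable z) :
    Measurable fun a => MgP (f a) (x a) (y a) (z a) δ := by
  refine (a8b_btw hf hx hz hy).and (Measurable.forall fun u => Measurable.forall fun u' => ?_)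
  refine Measurable.imp (a8b_lt ?_ ?_) ?_
  · exact ((T_meas' hf hx measurable_const).add
      (T_meas' hf measurable_const measurable_const)).add (T_meas' hf measurable_const hy)
  · exact (T_meas' hf hx hy).add_const δ
  · exact (a8b_btw hf hx hz measurable_const).or
      ((a8b_btw hf measurable_const hz measurable_const).or (a8b_btw hf measurable_const hz hy))

theorem a8b_br (A y y' p : Z2) : Measurable fun t : Env => Br t A y y' p := by
  have h : ∀ a b c : Z2, Measurable fun t : Env => Btw t a b c := fun a b c =>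
    a8b_btw measurable_id measurable_const measurable_const measurable_const
  exact (h _ _ _).and ((h _ _ _).and (Measurable.forall fun c =>
    (h _ _ _).imp ((h _ _ _).imp ((h _ _ _).imp measurable_const))))

theorem a8b_geo {g : α → ℕ → Z2} (n : ℕ) (hf : Measurable f) (hg : ∀ i, Measurable fun a => g a i) :
    Measurable fun a => Geo (f a) (g a) n := by
  refine Measurable.and (Measurable.forall fun i => measurable_const.imp
    (a8b_rel (fun x y => squareLattice.Adj x y) (hg i) (hg (i + 1)))) (a8b_eq ?_ ?_)
  · exact Finset.measurable_sum _ fun i _ => a8b_ev hf (hg i) (hg (i + 1))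
  · exact T_meas' hf (hg 0) (hg n)

theorem a8b_lin {γ : α → ℤ → Z2} (hf : Measurable f) (hg : ∀ i, Measurable fun a => γ a i) :
    Measurable fun a => Lin (f a) (γ a) :=
  Measurable.forall fun k => Measurable.forall fun n =>
    a8b_geo (g := fun a => fw (γ a) k) n hf fun i => hg (k + i)

theorem a8b_mg {γ : α → ℤ → Z2} (z : Z2) (δ : ℝ) (hf : Measurable f)
    (hg : ∀ i, Measurable fun a => γ a i) : Measurable fun a => Mg (f a) (γ a) z δ :=
  Measurable.exists fun k => (a8b_rel (fun x y => x = y) (hg k) measurable_const).and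
    (Measurable.forall fun i => measurable_const.imp (Measurable.forall fun j =>
      measurable_const.imp (a8b_mgp δ hf (hg i) (hg j) measurable_const)))

theorem a8b_ml {γ : α → ℤ → Z2} (hf : Measurable f) (hg : ∀ i, Measurable fun a => γ a i) :
    Measurable fun a => ML (f a) (γ a) :=
  (a8b_lin hf hg).and (Measurable.exists fun z => Measurable.exists fun _ => a8b_mg z _ hf hg)

theorem a8b_same {γ γ' : α → ℤ → Z2} (hg : ∀ i, Measurable fun a => γ a i)
    (hg' : ∀ i, Measurable fun a => γ' a i) : Measurable fun a => Same (γ a) (γ' a) :=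
  Measurable.exists fun k =>
    (Measurable.forall fun i => a8b_rel (fun x y => x = y) (hg' i) (hg (k + i))).or
    (Measurable.forall fun i => a8b_rel (fun x y => x = y) (hg' i) (hg (k - i)))

theorem a8b_bus {r : α → ℕ → Z2} (v : Z2) (hf : Measurable f)
    (hr : ∀ i, Measurable fun a => r a i) : Measurable fun a => bus (f a) (r a) v :=
  Measurable.iInf fun n => (T_meas' hf measurable_const (hr n)).sub (T_meas' hf (hr 0) (hr n))

theorem a8b_cl {r r' : α → ℕ → Z2} (F : Set Z2) (K : ℝ) (hf : Measurable f)
    (hr : ∀ i, Measurable fun a => r a i) (hr' : ∀ i, Measurable fun a => r' a i) :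
    Measurable fun a => Cl (f a) (r a) (r' a) F K :=
  Measurable.forall fun x => measurable_const.imp (Measurable.forall fun y => measurable_const.imp
    (a8b_le (((a8b_bus x hf hr).sub (a8b_bus y hf hr)).sub
      ((a8b_bus x hf hr').sub (a8b_bus y hf hr'))).abs measurable_const))

theorem a8b_orn {γ : α → ℤ → Z2} (o : Bool) (hg : ∀ i, Measurable fun a => γ a i) (i : ℕ) :
    Measurable fun a => rP (orn o (γ a)) i := by
  cases o
  · exact hg i
  · exact hg (-(i : ℤ))

end aux

theorem btw_meas (a b c : Z2) : MeasurableSet {t | Btw t a b c} :=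
  measurableSet_setOfPred.2 (a8b_btw measurable_id measurable_const measurable_const measurable_const)
theorem on_meas (o : Z2) (R : ℕ) (x : Z2) : MeasurableSet (On o R x) :=
  measurableSet_setOfPred.2 (Measurable.exists fun _ => measurable_const.and
    (a8b_btw measurable_id measurable_const measurable_const measurable_const))
theorem onM_meas (o : Z2) (R : ℕ) (x : Z2) (δ : ℝ) : MeasurableSet (OnM o R x δ) :=
  measurableSet_setOfPred.2 (Measurable.exists fun _ => measurable_const.and
    (a8b_mgp δ measurable_id measurable_const measurable_const measurable_const))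
theorem e0_meas (R Y : Set Z2) (z : Z2) (D : ℕ) : MeasurableSet (E0 R Y z D) :=
  measurableSet_setOfPred.2 (Measurable.exists fun A => measurable_const.and
    (Measurable.exists fun y => measurable_const.and (Measurable.exists fun y' =>
      measurable_const.and (Measurable.exists fun p => measurable_const.and (a8b_br A y y' p)))))
theorem trif_meas (p : Z2) (R : ℕ) : MeasurableSet (Trif p R) :=
  measurableSet_setOfPred.2 (Measurable.exists fun A => measurable_const.and
    (Measurable.exists fun y => measurable_const.and (Measurable.exists fun y' =>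
      measurable_const.and (a8b_br A y y' p))))
theorem ALaw.mgE_null (hG : ALaw G) (δ : ℝ) (z : Z2) : NullMeasurableSet (MgE δ z) (iidLaw G) := by
  have := hG.isP
  have hg : ∀ i, Measurable fun q : Env × (ℤ → Z2) => q.2 i := fun i =>
    (measurable_pi_apply i).comp measurable_snd
  exact proj_null (Y := ℤ → Z2) (P := fun t γ => Lin t γ ∧ Mg t γ z δ) _
    (measurableSet_setOfPred.2 ((a8b_lin measurable_fst hg).and (a8b_mg z δ measurable_fst hg)))
theorem ALaw.hE_null (hG : ALaw G) (m r : ℕ) (δ : ℝ) (z : Z2) :
    NullMeasurableSet (HE m r δ z) (iidLaw G) := by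
  have := hG.isP
  have hg : ∀ k i, Measurable fun q : Env × (Fin m → ℤ → Z2) => q.2 k i := fun k i =>
    (measurable_pi_apply i).comp ((measurable_pi_apply k).comp measurable_snd)
  exact proj_null (Y := Fin m → ℤ → Z2) (P := fun t γ => (∀ i, Lin t (γ i) ∧ Mg t (γ i) z δ) ∧
      ∀ i j, i ≠ j → ∀ o o', ¬ Cl t (rP (orn o (γ i))) (rP (orn o' (γ j))) (bx z r) (δ / 4)) _
    (measurableSet_setOfPred.2 ((Measurable.forall fun i =>
      (a8b_lin measurable_fst (hg i)).and (a8b_mg z δ measurable_fst (hg i))).and
      (Measurable.forall fun i => Measurable.forall fun j => measurable_const.imp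
        (Measurable.forall fun o => Measurable.forall fun o' =>
          (a8b_cl _ _ measurable_fst (a8b_orn o (hg i)) (a8b_orn o' (hg j))).not))))
theorem ALaw.bad_null (hG : ALaw G) (r : ℕ) (K δ : ℝ) (z : Z2) :
    NullMeasurableSet (Bad r K δ z) (iidLaw G) := by
  have := hG.isP
  have hg : ∀ i, Measurable fun q : Env × ((ℤ → Z2) × (ℤ → Z2)) => q.2.1 i := fun i =>
    (measurable_pi_apply i).comp (measurable_fst.comp measurable_snd)
  have hg' : ∀ i, Measurable fun q : Env × ((ℤ → Z2) × (ℤ → Z2)) => q.2.2 i := fun i =>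
    (measurable_pi_apply i).comp (measurable_snd.comp measurable_snd)
  have h := proj_null (Y := (ℤ → Z2) × (ℤ → Z2)) (P := fun t γ => Lin t γ.1 ∧ Mg t γ.1 z δ ∧
      ML t γ.2 ∧ ¬ Same γ.1 γ.2 ∧ X t γ.2 z ≤ 2 * K ∧ Cl t (rP γ.1) (rP γ.2) (bx z r) K) (iidLaw G)
    (measurableSet_setOfPred.2 ((a8b_lin measurable_fst hg).and ((a8b_mg z δ measurable_fst hg).and
      ((a8b_ml measurable_fst hg').and ((a8b_same hg hg').not.and (Measurable.and
        (a8b_le ((a8b_bus z measurable_fst fun i => hg' i).add
          (a8b_bus z measurable_fst fun i => hg' (-(i : ℤ)))) measurable_const)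
        (a8b_cl _ _ measurable_fst (fun i => hg i) fun i => hg' i)))))))
  have e : Bad r K δ z = {t | ∃ γ : (ℤ → Z2) × (ℤ → Z2), Lin t γ.1 ∧ Mg t γ.1 z δ ∧
      ML t γ.2 ∧ ¬ Same γ.1 γ.2 ∧ X t γ.2 z ≤ 2 * K ∧ Cl t (rP γ.1) (rP γ.2) (bx z r) K} := by
    ext t
    exact ⟨fun ⟨a, b, h⟩ => ⟨(a, b), h⟩, fun ⟨q, h⟩ => ⟨q.1, q.2, h⟩⟩
  rw [e]; exact h

end

end Crest.Agent.R151.A
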