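import Crest.Agent.R151.A3
import Crest.Agent.R151.A12
import Crest.Agent.R151.A4b
import Crest.Agent.R151.A6b
import Crest.Agent.R151.A8b

/-! Row 151 (A): points on long geodesics have density zero, I -/

set_option autoImplicit false

open MeasureTheory Set Filter Topology
open Crest.ProbabilityR.FirstPassage

namespace Crest.Agent.R151.A

open Crest.Agent.R151.B

noncomputable section

variable {G : Measure ℝ}

theorem ALaw.hb_a (hG : ALaw G) {ε : ℝ} (hε : 0 < ε) : ∃ δ C : ℝ, 0 < δ ∧ 0 ≤ C ∧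
    ∀ (o : Z2) (R : ℕ) (x : Z2), ni (x - o) < R →
      Pr G (On o R x) ≤ ε + C * Pr G (OnM o R x δ) := by
  obtain ⟨δ, p, hδ, -, hp, hp1, hL⟩ := hG.lw one_pos (show 0 < ε / 4 by linarith)
  have h2p : 1 ≤ 2 / p := by
    rw [le_div_iff₀ hp]
    linarith
  refine ⟨δ, (2 / p) ^ 4, hδ, by positivity, fun o R x hx => ?_⟩
  obtain ⟨F, hF, hFx⟩ := nbr_fin x
  have h1 : Pr G (On o R x) ≤
      Pr G ((⋃ e ∈ F, {t : Env | t e ∈ (Lw G 1 δ p)ᶜ}) ∪ Src G F p (OnM o R x δ)) := by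
    refine hG.mono_ae ?_
    filter_upwards [hG.good] with t ht
    rintro ⟨y, hy, hb⟩
    obtain ⟨g, n, hg, rfl, rfl⟩ := ht.ex o y
    obtain ⟨i, hi, rfl⟩ := ht.uniq g n x hg hb
    have hin : i < n := by
      refine lt_of_le_of_ne hi ?_
      rintro rfl
      exact absurd hy (not_le.2 hx)
    have he : ed g i ∈ F := hFx _ (hg.1 i hin)
    by_cases hl : t (ed g i) ∈ Lw G 1 δ p
    · refine Or.inr ⟨{ed g i}, Finset.singleton_subset_iff.2 he,
        fun _ => Icc (t (ed g i) - 1) (t (ed g i) - δ), fun _ _ => ⟨measurableSet_Icc, hl⟩,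
        fun t' h1 h2 ht' => ⟨g n, hy, ?_⟩⟩
      have h3 := (h1 _ (Finset.mem_singleton_self _)).2
      refine Low.mgp ht ht' hg hin ⟨fun e => ?_, h2⟩ (by linarith)
      by_cases h4 : e = ed g i
      · rw [h4]
        linarith
      · exact (h2 e (by simpa using h4)).le
    · exact Or.inl (mem_iUnion₂.2 ⟨ed g i, he, hl⟩)
  refine h1.trans ((hG.union _ _).trans (add_le_add ((hG.biUnion _ _).trans ?_) ?_))
  · have h3 : ∀ e ∈ F, Pr G {t : Env | t e ∈ (Lw G 1 δ p)ᶜ} ≤ ε / 4 := fun e _ => by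
      rw [hG.edge e (hG.lw_meas 1 δ p).compl]
      exact hL
    refine (Finset.sum_le_card_nsmul _ _ _ h3).trans ?_
    rw [nsmul_eq_mul]
    have h4 : (F.card : ℝ) ≤ 4 := by exact_mod_cast hF
    nlinarith
  · exact (hG.fe hG.good F hp hp1 _).trans
      (mul_le_mul_of_nonneg_right (pow_le_pow_right₀ h2p hF) (Pr_nonneg _ _))
open Classical in
theorem hb_det {t : Env} (ht : Good t) {z o : Z2} {D R : ℕ} {C K η δ : ℝ} (hh : Hit t z D C)
    (ho : o ∉ bx z D) (hR : ni (z - o) + D < R) (hK : ∀ x ∈ bx z D, ∀ x' ∈ bx z D, T t x x' ≤ K)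
    (hη : ∀ x ∈ bx z D, ∀ x' ∈ bx z D, x ≠ x' → η ≤ T t x x') (h0 : 0 ≤ η) (hδ : η ≤ δ)
    (hc : C * D < (((bx z D).filter fun x => t ∈ OnM o R x δ).card : ℝ)) :
    t ∈ E2 {o} (Far o R) z D K η := by
  have hne : ((bx z D).filter fun x => t ∈ OnM o R x δ).Nonempty := by
    rw [← Finset.card_pos]
    have h1 := (Nat.cast_nonneg _).trans (hh o o ho ho)
    exact_mod_cast h1.trans_lt hc
  obtain ⟨s, hs, hmax⟩ := Finset.exists_max_image _ (fun x => T t o x) hne
  obtain ⟨hs1, y, hy, hsy⟩ := Finset.mem_filter.1 hs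
  have hyb : y ∉ bx z D := fun h => by
    have h1 := mem_bx.1 h
    have h2 := ni_tri o z y
    have h3 : R ≤ ni (y - o) := hy
    omega
  obtain ⟨v, hv, hvy⟩ : ∃ v ∈ (bx z D).filter fun x => t ∈ OnM o R x δ, ¬ Btw t o v y := by
    by_contra hcon
    push Not at hcon
    have h1 : ((bx z D).filter fun x => t ∈ OnM o R x δ) ⊆ (bx z D).filter fun u => Btw t o u y :=
      fun u hu => Finset.mem_filter.2 ⟨(Finset.mem_filter.1 hu).1, hcon u hu⟩
    have h2 : (((bx z D).filter fun x => t ∈ OnM o R x δ).card : ℝ) ≤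
        ((bx z D).filter fun u => Btw t o u y).card := by exact_mod_cast Finset.card_le_card h1
    exact absurd (h2.trans (hh o y ho hyb)) (not_le.2 hc)
  have hm := hmax v hv
  obtain ⟨hv1, y', hy', hvy'⟩ := Finset.mem_filter.1 hv
  have hsv : s ≠ v := by
    rintro rfl
    exact hvy hsy.1
  have p1 := ht.T_pos hsv
  have p2 := T_symm t s v
  have e1 : T t o s + T t s y = T t o y := hsy.1
  have e2 : T t o v + T t v y' = T t o y' := hvy'.1
  refine ⟨o, rfl, y, hy, y', hy', s, hs1, v, hv1, hsy.1, fun w h1 h2 => hvy ?_, ?_, ?_⟩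
  · exact (h2.trans2 ht.nn (hvy'.1.trans1 ht.nn h1).1).1
  · have h1 := T_tri ht.nn o v s
    have h2 := hK v hv1 s hs1
    linarith
  · have h1 := T_tri ht.nn o v y
    have h2 := T_tri ht.nn o s y'
    by_contra hcon
    rw [not_le] at hcon
    have h3 := hsy.2 v v (by rw [T_self ht.nn]; linarith)
    have h4 := hvy'.2 s s (by rw [T_self ht.nn]; linarith)
    have h5 := hη s hs1 v hv1 hsv
    have h6 := T_self ht.nn v
    have h7 := T_self ht.nn s
    rcases h4 with h4 | h4 | h4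
    · exact hvy (hsy.1.trans2 ht.nn h4).1
    · unfold Btw at h4
      linarith
    · unfold Btw at h3 h4
      rcases h3 with h3 | h3 | h3 <;> linarith
theorem ALaw.hb_br (hG : ALaw G) (o : Z2) {L₁ L₂ D R : ℕ} (h1 : L₁ + D < L₂) (h2 : L₂ ≤ R) :
    ∑ z ∈ bx o L₁, Pr G (E0 {o} (Far o R) z D) ≤ (2 * D + 1) ^ 2 * (8 * L₂ + 1) := by
  classical
  have h := hG.count_le' (bx o L₁) (fun z => E0 {o} (Far o R) z D) ∅
    (b := (2 * D + 1) ^ 2 * (8 * L₂ + 1)) (by positivity)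
    (fun z _ => (e0_meas _ _ z D).nullMeasurableSet) ?_
  · have h0 : Pr G ∅ = 0 := measureReal_empty
    rwa [h0, mul_zero, add_zero] at h
  filter_upwards [hG.good] with t ht _
  have h3 := br_count ht o o h1 (Far o R) fun y hy => h2.trans hy
  have h4 := (h3.trans (Finset.card_filter_le _ _)).trans (card_sp o L₂)
  obtain ⟨P, hP, hP'⟩ : ∃ P : Finset Z2, P.card ≤ 8 * L₂ + 1 ∧ ∀ p ∈ bx o (L₁ + D),
      (∃ y ∈ Far o R, ∃ y' ∈ Far o R, Br t o y y' p) → p ∈ P :=
    ⟨_, h4, fun p hp hq => by simpa only [Finset.mem_filter] using And.intro hp hq⟩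
  have h5 : ∀ Q : Finset Z2, (∀ z ∈ Q, z ∈ bx o L₁ ∧ t ∈ E0 {o} (Far o R) z D) →
      Q.card ≤ (2 * D + 1) ^ 2 * (8 * L₂ + 1) := fun Q hQ => by
    have h6 : Q ⊆ P.biUnion fun p => bx p D := fun z hz => by
      obtain ⟨hz1, A, rfl, y, hy, y', hy', p, hp, hb⟩ := hQ z hz
      refine Finset.mem_biUnion.2 ⟨p, hP' p (bx_mono ?_ hp) ⟨y, hy, y', hy', hb⟩, ?_⟩
      · have := mem_bx.1 hz1
        omega
      · rw [mem_bx, ni_sub_comm]
        exact mem_bx.1 hp
    refine (Finset.card_le_card h6).trans (Finset.card_biUnion_le.trans ?_)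
    simp only [card_bx, Finset.sum_const, smul_eq_mul]
    rw [mul_comm]
    exact Nat.mul_le_mul_left _ hP
  exact_mod_cast h5 _ fun z hz => by simpa only [Finset.mem_filter] using hz

end

end Crest.Agent.R151.A
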