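import Crest.Agent.R151.A6b

/-! Row 151 (A): geodesics meet a box in linearly many points -/

set_option autoImplicit false

open MeasureTheory Set Filter Topology
open Crest.ProbabilityR.FirstPassage

namespace Crest.Agent.R151.A

open Crest.Agent.R151.B

noncomputable section

variable {G : Measure ℝ}

theorem a8d_num {ε : ℝ} (hε : 0 < ε) (b : ℝ) : ∃ κ : ℕ, 1 ≤ κ ∧ b < κ ∧ ∀ D : ℕ, 1 ≤ D →
    9 * (D : ℝ) ^ 2 * (1 / 2) ^ (κ * D) ≤ ε := by
  obtain ⟨m, hm⟩ := exists_pow_lt_of_lt_one (show 0 < ε / 9 by positivity)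
    (show (1 / 2 : ℝ) < 1 by norm_num)
  obtain ⟨N, hN⟩ := exists_nat_gt b
  refine ⟨m + 2 + N, by omega, ?_, fun D hD => ?_⟩
  · push_cast
    have : (0 : ℝ) ≤ m := Nat.cast_nonneg m
    linarith
  · have h1 : 2 * D + m ≤ (m + 2 + N) * D := by nlinarith
    have h2 : (1 / 2 : ℝ) ^ ((m + 2 + N) * D) ≤ (1 / 2) ^ (2 * D + m) :=
      pow_le_pow_of_le_one (by norm_num) (by norm_num) h1
    have h3 : (D : ℝ) ≤ 2 ^ D := by exact_mod_cast (Nat.lt_two_pow_self (n := D)).le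
    have h4 : (D : ℝ) * (1 / 2) ^ D ≤ 1 := by
      rw [one_div, inv_pow, ← div_eq_mul_inv, div_le_one (by positivity)]
      exact h3
    have h5 : (D : ℝ) ^ 2 * (1 / 2) ^ (2 * D) ≤ 1 := by
      have e : (D : ℝ) ^ 2 * (1 / 2) ^ (2 * D) = ((D : ℝ) * (1 / 2) ^ D) ^ 2 := by
        rw [mul_pow, ← pow_mul, mul_comm D 2]
      rw [e]
      exact pow_le_one₀ (by positivity) h4
    calc 9 * (D : ℝ) ^ 2 * (1 / 2) ^ ((m + 2 + N) * D)
        ≤ 9 * (D : ℝ) ^ 2 * (1 / 2) ^ (2 * D + m) := by gcongr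
      _ = 9 * ((D : ℝ) ^ 2 * (1 / 2) ^ (2 * D)) * (1 / 2) ^ m := by rw [pow_add]; ring
      _ ≤ 9 * 1 * (ε / 9) := by gcongr
      _ = ε := by ring

theorem a8d_hit {t : Env} (ht : Good t) {c : ℝ} (hc : 0 ≤ c) {z : Z2} {D N : ℕ}
    (hW : 4 * W t z D < c * N / 2) (hR : ∀ x ∈ sp z D, Rich (Ici c) t x N) {C : ℝ}
    (hC : (N : ℝ) ≤ C * D) : Hit t z D C := by
  classical
  intro x y hx hy
  obtain ⟨g, n, hg, h0, hn⟩ := ht.ex x y
  refine le_trans ?_ hC
  set I : Finset ℕ := (Finset.range (n + 1)).filter fun i => g i ∈ bx z D with hI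
  have hmem : ∀ i, i ∈ I ↔ i ≤ n ∧ g i ∈ bx z D := fun i => by
    simp only [hI, Finset.mem_filter, Finset.mem_range, Nat.lt_succ_iff]
  have hsub : ∀ u, u ∈ bx z D → Btw t x u y → ∃ i ∈ I, g i = u := by
    intro u hu hb
    obtain ⟨i, hi, e⟩ := ht.uniq g n u hg (by rw [h0, hn]; exact hb)
    exact ⟨i, (hmem i).2 ⟨hi, e ▸ hu⟩, e⟩
  have key : I.card ≤ N := by
    rcases I.eq_empty_or_nonempty with he | hne
    · rw [he]; simp
    have ha := (hmem _).1 (I.min'_mem hne)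
    have hb := (hmem _).1 (I.max'_mem hne)
    have hab : I.min' hne ≤ I.max' hne := I.min'_le_max' hne
    have hlo : ∀ i ∈ I, I.min' hne ≤ i := fun i hi => I.min'_le i hi
    have hhi : ∀ i ∈ I, i ≤ I.max' hne := fun i hi => I.le_max' i hi
    generalize I.min' hne = a at *
    generalize I.max' hne = b at *
    have ha0 : a ≠ 0 := by
      rintro rfl
      exact hx (h0 ▸ ha.2)
    have hbn : b ≠ n := by
      rintro rfl
      exact hy (hn ▸ hb.2)
    have hsa : g a ∈ sp z D := by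
      obtain ⟨a', rfl⟩ := Nat.exists_eq_succ_of_ne_zero ha0
      have h1 : g a' ∉ bx z D := fun h => by
        have := hlo a' ((hmem _).2 ⟨by omega, h⟩)
        omega
      have h2 := ni_adj (hg.1 a' (by omega))
      have h3 := ni_tri z (g (a' + 1)) (g a')
      rw [ni_sub_comm (g a') (g (a' + 1)), h2] at h3
      have h4 := mem_bx.1 ha.2
      rw [mem_bx] at h1
      rw [mem_sp]
      simp only [Nat.succ_eq_add_one] at *
      omega
    have hsb : g b ∈ sp z D := by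
      have h1 : g (b + 1) ∉ bx z D := fun h => by
        have := hhi (b + 1) ((hmem _).2 ⟨by omega, h⟩)
        omega
      have h2 := ni_adj (hg.1 b (by omega))
      have h3 := ni_tri z (g b) (g (b + 1))
      rw [h2] at h3
      have h4 := mem_bx.1 hb.2
      rw [mem_bx] at h1
      rw [mem_sp]
      omega
    have hlt : b - a < N := by
      by_contra hge
      have hs : Geo t (tl g a) (b - a) := hg.sub ht.nn (by omega)
      have h1 := (hR _ hsa).cst_ge ht.nn hc (g := tl g a) (m := b - a) rfl hs.1 (hs.inj ht)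
        (by omega)
      have h2 := hs.2
      have e1 : tl g a 0 = g a := rfl
      have e2 : tl g a (b - a) = g b := by
        show g (a + (b - a)) = g b
        rw [Nat.add_sub_cancel' hab]
      rw [e1, e2] at h2
      have h3 := T_sphere ht.nn hsa hsb
      linarith
    calc I.card ≤ (Finset.Icc a b).card :=
          Finset.card_le_card fun i hi => Finset.mem_Icc.2 ⟨hlo i hi, hhi i hi⟩
      _ = b + 1 - a := Nat.card_Icc a b
      _ ≤ N := by omega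
  have : ((bx z D).filter fun u => Btw t x u y).card ≤ N := by
    refine le_trans (Finset.card_le_card (t := I.image g) fun u hu => ?_)
      (Finset.card_image_le.trans key)
    obtain ⟨h1, h2⟩ := Finset.mem_filter.1 hu
    exact Finset.mem_image.2 (hsub u h1 h2)
  exact_mod_cast this

theorem a8d_gap {t : Env} (ht : Good t) {c : ℝ} (hc : 0 ≤ c) {l κ : ℕ} {δ : ℝ}
    (hW : 12 * W t 0 l + δ ≤ c * (κ * l : ℕ) / 2)
    (hR : ∀ x ∈ bx 0 l, Rich (Ici c) t x (κ * l)) : Gap t l ((κ + 1) * l) δ := by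
  intro x hx w hw
  obtain ⟨g, n, hg, h0, hn⟩ := ht.ex x w
  have h1 := hg.1.ni_le (Nat.zero_le n) le_rfl
  rw [h0, hn] at h1
  have h2 := ni_tri 0 x w
  have h3 := mem_bx.1 hx
  have h4 := mem_sp.1 hw
  have h5 : κ * l ≤ n := by
    rw [add_mul, one_mul] at h4
    omega
  have h6 := (hR x hx).cst_ge ht.nn hc h0 hg.1 (hg.inj ht) h5
  have h7 := hg.2
  rw [h0, hn] at h7
  linarith

theorem a8d_pr (hG : ALaw G) {c : ℝ} (hc : G.real (Ici c)ᶜ ≤ 1 / 256) (F : Finset Z2) (N : ℕ)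
    (A B : Set Env)
    (h : ∀ t, Good t → t ∉ B → (∀ x ∈ F, Rich (Ici c) t x N) → t ∉ A) :
    Pr G A ≤ Pr G B + F.card * (1 / 2) ^ N := by
  have h1 : Pr G A ≤ Pr G (B ∪ ⋃ x ∈ F, {t | ¬ Rich (Ici c) t x N}) := by
    refine hG.mono_ae ?_
    filter_upwards [hG.good] with t ht hA
    by_contra hn
    simp only [mem_union, mem_iUnion, mem_ofPred_eq, not_or, not_exists, not_not] at hn
    exact h t ht hn.1 hn.2 hA
  have h2 := hG.union B (⋃ x ∈ F, {t | ¬ Rich (Ici c) t x N})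
  have h3 := hG.biUnion F fun x => {t | ¬ Rich (Ici c) t x N}
  have h4 : ∑ x ∈ F, Pr G {t | ¬ Rich (Ici c) t x N} ≤ F.card * (1 / 2 : ℝ) ^ N := by
    have := Finset.sum_le_card_nsmul F (fun x => Pr G {t | ¬ Rich (Ici c) t x N}) ((1 / 2) ^ N)
      fun x _ => hG.rich measurableSet_Ici hc x N
    rwa [nsmul_eq_mul] at this
  linarith

theorem ALaw.ev_hit (hG : ALaw G) {ε : ℝ} (hε : 0 < ε) : ∃ C : ℝ, 0 < C ∧ ∀ z (D : ℕ), 1 ≤ D →
    Pr G {t | ¬ Hit t z D C} ≤ ε := by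
  obtain ⟨c, hc, hc'⟩ := hG.c0
  obtain ⟨Cw, hCw, hW⟩ := hG.wt (ε / 2) (by positivity)
  obtain ⟨κ, hκ1, hκ, hnum⟩ := a8d_num (show 0 < ε / 2 by positivity) (8 * Cw / c)
  refine ⟨κ, by exact_mod_cast hκ1, fun z D hD => ?_⟩
  have hD' : (1 : ℝ) ≤ D := by exact_mod_cast hD
  have h1 := a8d_pr hG hc' (sp z D) (κ * D) {t | ¬ Hit t z D κ} {t | Cw * D < W t z D}
    fun t ht hB hR => by
      simp only [mem_ofPred_eq, not_lt, not_not] at hB ⊢
      refine a8d_hit ht hc.le ?_ hR (by push_cast; exact le_rfl)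
      rw [div_lt_iff₀ hc] at hκ
      push_cast
      nlinarith
  have h2 := hW z D hD
  have h3 : ((sp z D).card : ℝ) ≤ 9 * (D : ℝ) ^ 2 := by
    have : ((sp z D).card : ℝ) ≤ 8 * D + 1 := by exact_mod_cast card_sp z D
    nlinarith
  have h4 := hnum D hD
  have h5 : ((sp z D).card : ℝ) * (1 / 2) ^ (κ * D) ≤ 9 * (D : ℝ) ^ 2 * (1 / 2) ^ (κ * D) := by
    gcongr
  linarith

theorem ALaw.ev_gap (hG : ALaw G) {ε : ℝ} (hε : 0 < ε) (δ : ℝ) : ∃ k : ℕ, 2 ≤ k ∧ ∀ l : ℕ, 1 ≤ l →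
    Pr G {t | ¬ Gap t l (k * l) δ} ≤ ε := by
  obtain ⟨c, hc, hc'⟩ := hG.c0
  obtain ⟨Cw, hCw, hW⟩ := hG.wt (ε / 2) (by positivity)
  obtain ⟨κ, hκ1, hκ, hnum⟩ := a8d_num (show 0 < ε / 2 by positivity) ((24 * Cw + 2 * |δ|) / c)
  refine ⟨κ + 1, by omega, fun l hl => ?_⟩
  have hl' : (1 : ℝ) ≤ l := by exact_mod_cast hl
  have h1 := a8d_pr hG hc' (bx 0 l) (κ * l) {t | ¬ Gap t l ((κ + 1) * l) δ}
    {t | Cw * l < W t 0 l} fun t ht hB hR => by
      simp only [mem_ofPred_eq, not_lt, not_not] at hB ⊢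
      refine a8d_gap ht hc.le ?_ hR
      rw [div_lt_iff₀ hc] at hκ
      push_cast
      have h1 := le_abs_self δ
      have h2 := abs_nonneg δ
      nlinarith
  have h2 := hW 0 l hl
  have h3 : ((bx 0 l).card : ℝ) ≤ 9 * (l : ℝ) ^ 2 := by
    rw [card_bx]
    push_cast
    nlinarith
  have h4 := hnum l hl
  have h5 : ((bx 0 l).card : ℝ) * (1 / 2) ^ (κ * l) ≤ 9 * (l : ℝ) ^ 2 * (1 / 2) ^ (κ * l) := by
    gcongr
  linarith

end

end Crest.Agent.R151.A
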