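import Crest.Agent.R151.A13
import Crest.Agent.R151.A11
import Crest.Agent.R151.A8d

/-! Row 151 (A): points on long geodesics have density zero, II -/

set_option autoImplicit false

open MeasureTheory Set Filter Topology
open Crest.ProbabilityR.FirstPassage

namespace Crest.Agent.R151.A

open Crest.Agent.R151.B

noncomputable section

variable {G : Measure ℝ}

/-- double counting -/
theorem a13b_dc (f : Z2 → ℝ) (hf : ∀ x, 0 ≤ f x) (o : Z2) (L D : ℕ) :
    (2 * (D : ℝ) + 1) ^ 2 * ∑ x ∈ bx o L, f x ≤ ∑ z ∈ bx o (L + D), ∑ x ∈ bx z D, f x := by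
  classical
  have h1 : ∀ z, ∑ x ∈ bx o L, (if z ∈ bx x D then f x else 0) ≤ ∑ x ∈ bx z D, f x := by
    intro z
    rw [← Finset.sum_filter]
    refine Finset.sum_le_sum_of_subset_of_nonneg (fun x hx => ?_) fun x _ _ => hf x
    have := mem_bx.1 (Finset.mem_filter.1 hx).2
    rw [ni_sub_comm] at this
    exact mem_bx.2 this
  refine le_trans (le_of_eq ?_) (Finset.sum_le_sum fun z _ => h1 z)
  rw [Finset.sum_comm, Finset.mul_sum]
  refine Finset.sum_congr rfl fun x hx => ?_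
  have hs : bx x D ⊆ bx o (L + D) := bx_mono (Nat.add_le_add_right (mem_bx.1 hx) D)
  rw [← Finset.sum_filter, Finset.filter_mem_eq_inter, Finset.inter_eq_right.2 hs,
    Finset.sum_const, card_bx, nsmul_eq_mul]
  push_cast
  ring

theorem ALaw.hb_b (hG : ALaw G) {δ ε : ℝ} (hδ : 0 < δ) (hε : 0 < ε) : ∃ L₀ : ℕ, ∀ L ≥ L₀,
    ∀ R ≥ 4 * L, ∀ o, ∑ x ∈ bx o L, Pr G (OnM o R x δ) ≤ ε * (L : ℝ) ^ 2 := by
  classical
  obtain ⟨e, he⟩ : ∃ e : ℝ, e = ε / 90 := ⟨_, rfl⟩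
  have he0 : 0 < e := by rw [he]; positivity
  obtain ⟨C, hC, hhit⟩ := hG.ev_hit he0
  obtain ⟨D, hD1, hD⟩ : ∃ D : ℕ, 1 ≤ D ∧ C * D ≤ (2 * (D : ℝ) + 1) ^ 2 * e := by
    refine ⟨⌈C / e⌉₊ + 1, by omega, ?_⟩
    have h1 : C / e ≤ ((⌈C / e⌉₊ + 1 : ℕ) : ℝ) := by
      push_cast
      linarith [Nat.le_ceil (C / e)]
    have h0 : (0 : ℝ) ≤ ((⌈C / e⌉₊ + 1 : ℕ) : ℝ) := Nat.cast_nonneg _
    generalize ((⌈C / e⌉₊ + 1 : ℕ) : ℝ) = d at h1 h0
    rw [div_le_iff₀ he0] at h1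
    nlinarith [mul_le_mul_of_nonneg_right h1 h0, mul_nonneg h0 he0.le,
      mul_nonneg (mul_nonneg h0 h0) he0.le]
  obtain ⟨K, -, hK⟩ := hG.ev_le D he0
  obtain ⟨η, hη, hpos⟩ := hG.ev_pos D he0
  obtain ⟨D', C', hDD, hC', hy⟩ := hG.ybr D K (lt_min hδ hη) he0
  obtain ⟨M, hM⟩ : ∃ M : ℝ, M = (2 * (D' : ℝ) + 1) ^ 2 := ⟨_, rfl⟩
  have hM0 : 0 ≤ M := by rw [hM]; positivity
  refine ⟨2 * D + 1 + D' + ⌈2 * ((25 * C' + 1) * M) / ε⌉₊, fun L hL R hR o => ?_⟩
  have hq : (0 : ℝ) < (2 * (D : ℝ) + 1) ^ 2 := by positivity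
  have key : ∀ z ∈ bx o (L + D), ∑ x ∈ bx z D, Pr G (OnM o R x δ) ≤ (2 * (D : ℝ) + 1) ^ 2 *
      (5 * e + C' * Pr G (E0 {o} (Far o R) z D') + if z ∈ bx o D' then 1 else 0) := by
    intro z hz
    have hz' := mem_bx.1 hz
    have h0 := mul_nonneg hC' (Pr_nonneg G (E0 {o} (Far o R) z D'))
    split_ifs with hzo
    · refine (Finset.sum_le_card_nsmul _ _ 1 fun x _ => hG.le_one _).trans ?_
      rw [card_bx, nsmul_eq_mul]
      push_cast
      exact mul_le_mul_of_nonneg_left (by linarith) hq.le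
    · have h1 : D' < ni (o - z) := by
        rw [ni_sub_comm]
        exact not_le.1 fun h => hzo (mem_bx.2 h)
      have h2 := hy z {o} (Far o R) (fun A hA => by rw [mem_singleton_iff.1 hA]; exact h1)
        fun y hy' => by
          have a1 : R ≤ ni (y - o) := hy'
          have a2 := ni_tri o z y
          omega
      have h3 := hG.count_le' (bx z D) (fun x => OnM o R x δ)
        ((({t | ¬ Hit t z D C} ∪ {t | ¬ ∀ x ∈ bx z D, ∀ x' ∈ bx z D, T t x x' ≤ K}) ∪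
          {t | ¬ ∀ x ∈ bx z D, ∀ x' ∈ bx z D, x ≠ x' → η ≤ T t x x'}) ∪
          E2 {o} (Far o R) z D K (min δ η)) (b := C * D) (by positivity)
        (fun x _ => (onM_meas o R x δ).nullMeasurableSet) ?_
      · have h4 := (hG.union _ _).trans (add_le_add ((hG.union _ _).trans (add_le_add
          ((hG.union _ _).trans (add_le_add (hhit z D hD1) (hK z))) (hpos z))) h2)
        rw [card_bx] at h3
        push_cast at h3
        have h5 := mul_le_mul_of_nonneg_left h4 hq.le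
        nlinarith
      · filter_upwards [hG.good] with t ht hE
        simp only [mem_union, mem_ofPred_eq, not_or, not_not] at hE
        obtain ⟨⟨⟨a1, a2⟩, a3⟩, a4⟩ := hE
        refine not_lt.1 fun hc => a4 (hb_det ht a1 (fun h => ?_) (by omega) a2
          (fun x hx x' hx' hne => (min_le_right _ _).trans (a3 x hx x' hx' hne))
          (lt_min hδ hη).le (min_le_left _ _) hc)
        have := mem_bx.1 h
        omega
  have h1 := (a13b_dc (fun x => Pr G (OnM o R x δ)) (fun x => Pr_nonneg G _) o L D).trans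
    (Finset.sum_le_sum key)
  rw [← Finset.mul_sum, mul_le_mul_iff_right₀ hq, Finset.sum_add_distrib, Finset.sum_add_distrib,
    ← Finset.mul_sum, ← Finset.mul_sum, Finset.sum_const, card_bx, nsmul_eq_mul] at h1
  have h2 := hG.hb_br o (L₁ := L + D) (L₂ := 3 * L) (D := D') (R := R) (by omega) (by omega)
  have h3 : ∑ z ∈ bx o (L + D), (if z ∈ bx o D' then (1 : ℝ) else 0) ≤ M := by
    rw [← Finset.sum_filter, Finset.sum_const, nsmul_eq_mul, mul_one, hM]
    have : ((bx o (L + D)).filter fun z => z ∈ bx o D').card ≤ (2 * D' + 1) ^ 2 := by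
      rw [← card_bx o]
      exact Finset.card_le_card fun z hz => (Finset.mem_filter.1 hz).2
    exact_mod_cast this
  rw [← hM] at h2
  push_cast at h1 h2
  have hL1 : 2 * (D : ℝ) + 1 ≤ L := by exact_mod_cast (by omega : 2 * D + 1 ≤ L)
  have hD0 : (0 : ℝ) ≤ D := Nat.cast_nonneg D
  have hL2 : 2 * ((25 * C' + 1) * M) ≤ L * ε := by
    rw [← div_le_iff₀ hε]
    exact (Nat.le_ceil _).trans (by exact_mod_cast (by omega))
  have h4 : (2 * ((L : ℝ) + D) + 1) ^ 2 ≤ (3 * L) ^ 2 := by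
    apply pow_le_pow_left₀ (by positivity)
    linarith
  have h5 := mul_le_mul_of_nonneg_left h2 hC'
  have h6 := mul_le_mul_of_nonneg_right h4 he0.le
  have h7 := mul_le_mul_of_nonneg_right hL2 (Nat.cast_nonneg (α := ℝ) L)
  have h8 : M ≤ M * L := le_mul_of_one_le_right hM0 (by linarith)
  have h9 : C' * M ≤ C' * M * L := le_mul_of_one_le_right (mul_nonneg hC' hM0) (by linarith)
  have h10 : ε = 90 * e := by rw [he]; ring
  rw [h10] at h7 ⊢
  nlinarith
theorem ALaw.hb (hG : ALaw G) {ε : ℝ} (hε : 0 < ε) : ∃ L₀ : ℕ, ∀ L ≥ L₀,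
    ∀ R ≥ 4 * L, ∀ o, ∑ x ∈ bx o L, Pr G (On o R x) ≤ ε * (L : ℝ) ^ 2 := by
  obtain ⟨δ, C, hδ, hC, h⟩ := hG.hb_a (ε := ε / 18) (by positivity)
  obtain ⟨L₀, h'⟩ := hG.hb_b hδ (ε := ε / (2 * (C + 1))) (by positivity)
  refine ⟨L₀ + 1, fun L hL R hR o => ?_⟩
  have h1 : ∑ x ∈ bx o L, Pr G (On o R x) ≤
      ∑ x ∈ bx o L, (ε / 18 + C * Pr G (OnM o R x δ)) :=
    Finset.sum_le_sum fun x hx => h o R x (by have := mem_bx.1 hx; omega)
  rw [Finset.sum_add_distrib, ← Finset.mul_sum, Finset.sum_const, card_bx, nsmul_eq_mul] at h1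
  push_cast at h1
  have h2 := mul_le_mul_of_nonneg_left (h' L (by omega) R hR o) hC
  have hL1 : (1 : ℝ) ≤ L := by exact_mod_cast (by omega : 1 ≤ L)
  have h3 : (2 * (L : ℝ) + 1) ^ 2 ≤ (3 * L) ^ 2 := by
    apply pow_le_pow_left₀ (by positivity)
    linarith
  have h4 : C * (ε / (2 * (C + 1))) ≤ ε / 2 := by
    rw [← mul_div_assoc, div_le_div_iff₀ (by positivity) (by positivity)]
    nlinarith
  have h5 := mul_le_mul_of_nonneg_right h4 (sq_nonneg (L : ℝ))
  have h6 := mul_le_mul_of_nonneg_right h3 hε.le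
  nlinarith

end

end Crest.Agent.R151.A
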