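import Crest.Agent.R151.A13b

/-! Row 151 (A): no trifurcation -/

set_option autoImplicit false

open MeasureTheory Set Filter Topology
open Crest.ProbabilityR.FirstPassage

namespace Crest.Agent.R151.A

open Crest.Agent.R151.B

noncomputable section

variable {G : Measure ℝ}

theorem trif_sh (p : Z2) (R : ℕ) : Trif p R = sh p ⁻¹' Trif 0 R := by
  ext t
  simp only [Trif, Far, mem_ofPred_eq, mem_preimage, br_sh, zero_add, sub_zero]
  constructor
  · rintro ⟨A, hA, y, hy, y', hy', h⟩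
    exact ⟨A - p, hA, y - p, hy, y' - p, hy', by simpa only [sub_add_cancel] using h⟩
  · rintro ⟨A, hA, y, hy, y', hy', h⟩
    exact ⟨A + p, by simpa only [add_sub_cancel_right] using hA, y + p,
      by simpa only [add_sub_cancel_right] using hy, y' + p,
      by simpa only [add_sub_cancel_right] using hy', h⟩
theorem trif_anti (p : Z2) : Antitone (Trif p) := by
  rintro R R' h t ⟨A, hA, y, hy, y', hy', hb⟩
  exact ⟨A, le_trans h hA, y, le_trans h hy, y', le_trans h hy', hb⟩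
open Classical in
theorem trif_det {t : Env} (ht : Good t) {L L' R R' : ℕ} (h1 : L < L') (h2 : L' + L ≤ R)
    (h3 : R' + 2 * L + 1 ≤ R) :
    ((bx 0 L).filter fun p => t ∈ Trif p R).card ≤
      ∑ x ∈ sp 0 (L + 1), ((sp 0 L').filter fun z => t ∈ On x R' z).card := by
  have hsub : ((bx 0 L).filter fun p => t ∈ Trif p R) ⊆ (sp 0 (L + 1)).biUnion fun x =>
      (bx 0 L).filter fun p => ∃ y ∈ Far x R' ∩ Far 0 L', ∃ y' ∈ Far x R' ∩ Far 0 L',
        Br t x y y' p := by
    intro p hp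
    obtain ⟨hp, A, hA, y, hy, y', hy', hb⟩ := Finset.mem_filter.1 hp
    have hp' : ni (p - 0) ≤ L := mem_bx.1 hp
    have far : ∀ u ∈ Far p R, L' ≤ ni (u - 0) := by
      intro u hu
      have e1 : R ≤ ni (u - p) := hu
      have e2 := ni_tri p 0 u
      have e3 := ni_sub_comm 0 p
      omega
    obtain ⟨x, hx, hbx⟩ := ht.sph (x := p) (y := A) 0 (L := L + 1) (by omega)
      (by have := far A hA; omega)
    have hx' : ni (x - 0) = L + 1 := mem_sp.1 hx
    have far' : ∀ u ∈ Far p R, u ∈ Far x R' ∩ Far 0 L' := by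
      intro u hu
      refine ⟨?_, far u hu⟩
      have e1 : R ≤ ni (u - p) := hu
      have e2 := ni_tri p x u
      have e3 := ni_tri p 0 x
      have e4 := ni_sub_comm 0 p
      show R' ≤ ni (u - x)
      omega
    refine Finset.mem_biUnion.2 ⟨x, hx, Finset.mem_filter.2 ⟨hp, y, far' y hy, y', far' y' hy', ?_⟩⟩
    exact hb.restrict ht.nn hbx.symm (btw_right ht.nn _ _) (btw_right ht.nn _ _)
  refine (Finset.card_le_card hsub).trans (Finset.card_biUnion_le.trans ?_)
  refine Finset.sum_le_sum fun x _ => ?_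
  have h := br_count ht x 0 h1 (Far x R' ∩ Far 0 L') fun y hy => hy.2
  refine le_trans (le_of_eq ?_) (h.trans (Finset.card_le_card ?_))
  · congr
  · intro z hz
    obtain ⟨hz, y, hy, hb⟩ := Finset.mem_filter.1 hz
    exact Finset.mem_filter.2 ⟨hz, y, hy.1, hb⟩
open Classical in
theorem a14_sph (L : ℕ) (P : Z2 → Prop) :
    ∑ L' ∈ Finset.Ioc L (2 * L), ((sp 0 L').filter P).card ≤ ((bx 0 (2 * L)).filter P).card := by
  rw [← Finset.card_biUnion]
  · refine Finset.card_le_card fun z hz => ?_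
    obtain ⟨L', hL', hz⟩ := Finset.mem_biUnion.1 hz
    obtain ⟨hz, hP⟩ := Finset.mem_filter.1 hz
    refine Finset.mem_filter.2 ⟨mem_bx.2 ?_, hP⟩
    rw [mem_sp.1 hz]
    exact (Finset.mem_Ioc.1 hL').2
  · intro a _ b _ hab
    refine Finset.disjoint_left.2 fun z ha hb => hab ?_
    rw [← mem_sp.1 (Finset.mem_filter.1 ha).1, ← mem_sp.1 (Finset.mem_filter.1 hb).1]
open Classical in
theorem a14_det {t : Env} (ht : Good t) (L R' : ℕ) :
    L * ((bx 0 L).filter fun p => t ∈ Trif p (R' + 3 * L + 1)).card ≤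
      ((sp 0 (L + 1) ×ˢ bx 0 (2 * L)).filter fun q => t ∈ On q.1 R' q.2).card := by
  have e : ((sp 0 (L + 1) ×ˢ bx 0 (2 * L)).filter fun q => t ∈ On q.1 R' q.2).card =
      ∑ x ∈ sp 0 (L + 1), ((bx 0 (2 * L)).filter fun z => t ∈ On x R' z).card := by
    simp only [Finset.card_filter]
    rw [Finset.sum_product]
  rw [e]
  calc L * ((bx 0 L).filter fun p => t ∈ Trif p (R' + 3 * L + 1)).card
      = ∑ _L' ∈ Finset.Ioc L (2 * L),
          ((bx 0 L).filter fun p => t ∈ Trif p (R' + 3 * L + 1)).card := by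
        rw [Finset.sum_const, Nat.card_Ioc, smul_eq_mul]
        congr 1
        omega
    _ ≤ ∑ L' ∈ Finset.Ioc L (2 * L), ∑ x ∈ sp 0 (L + 1),
          ((sp 0 L').filter fun z => t ∈ On x R' z).card := by
        refine Finset.sum_le_sum fun L' hL' => ?_
        have := Finset.mem_Ioc.1 hL'
        exact trif_det ht (by omega) (by omega) (by omega)
    _ ≤ _ := by
        rw [Finset.sum_comm]
        refine Finset.sum_le_sum fun x _ => ?_
        convert a14_sph L fun z => t ∈ On x R' z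
theorem a14_pr (hG : ALaw G) (p : Z2) (R : ℕ) : Pr G (Trif p R) = Pr G (Trif 0 R) := by
  rw [trif_sh p R, hG.pr_sh]
theorem ALaw.trif_small (hG : ALaw G) {ε : ℝ} (hε : 0 < ε) : ∃ R, Pr G (Trif 0 R) ≤ ε := by
  classical
  obtain ⟨L₀, h₀⟩ := hG.hb (ε := ε / 68) (by positivity)
  set L := L₀ + 1 with hL
  set R' := 4 * (3 * L + 1) with hR'
  refine ⟨R' + 3 * L + 1, ?_⟩
  have h := hG.count_le (bx 0 L) (fun p => Trif p (R' + 3 * L + 1))
    (sp 0 (L + 1) ×ˢ bx 0 (2 * L)) (fun q => On q.1 R' q.2) (a := L) (b := 0) (c := 1) zero_le_one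
    (fun p _ => (trif_meas p _).nullMeasurableSet) (by
      filter_upwards [hG.good] with t ht
      rw [zero_add, one_mul]
      have := a14_det ht L R'
      exact_mod_cast (by convert this))
  rw [zero_add, one_mul, Finset.sum_product] at h
  simp only [a14_pr hG _ (R' + 3 * L + 1), Finset.sum_const, card_bx, nsmul_eq_mul] at h
  have h2 : ∑ x ∈ sp 0 (L + 1), ∑ z ∈ bx 0 (2 * L), Pr G (On x R' z) ≤
      ∑ _x ∈ sp 0 (L + 1), ε / 68 * ((3 * L + 1 : ℕ) : ℝ) ^ 2 := by
    refine Finset.sum_le_sum fun x hx => le_trans ?_ (h₀ (3 * L + 1) (by omega) R' le_rfl x)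
    refine Finset.sum_le_sum_of_subset_of_nonneg (bx_mono ?_) fun _ _ _ => measureReal_nonneg
    have e1 := mem_sp.1 hx
    have e2 := ni_sub_comm 0 x
    omega
  rw [Finset.sum_const, nsmul_eq_mul] at h2
  have hc : ((sp 0 (L + 1)).card : ℝ) ≤ 17 * L := by
    have := card_sp 0 (L + 1)
    have e : (sp 0 (L + 1)).card ≤ 17 * L := by omega
    exact_mod_cast e
  have hL1 : (1 : ℝ) ≤ L := by
    have : 1 ≤ L := by omega
    exact_mod_cast this
  have h3 := h.trans (h2.trans (mul_le_mul_of_nonneg_right hc (by positivity)))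
  push_cast at h3
  have h4 : (3 * (L : ℝ) + 1) ^ 2 ≤ 4 * (2 * L + 1) ^ 2 := by nlinarith
  have h5 : 17 * (L : ℝ) * (ε / 68 * (3 * L + 1) ^ 2) ≤ L * ((2 * L + 1) ^ 2 * ε) := by
    have : 17 * (L : ℝ) * (ε / 68 * (3 * L + 1) ^ 2) ≤
        17 * (L : ℝ) * (ε / 68 * (4 * (2 * L + 1) ^ 2)) := by gcongr
    refine this.trans (le_of_eq ?_)
    ring
  have h6 := le_of_mul_le_mul_left (h3.trans h5) (by linarith)
  exact le_of_mul_le_mul_left h6 (by positivity)
theorem ALaw.trif_box (hG : ALaw G) (D : ℕ) {ε : ℝ} (hε : 0 < ε) :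
    ∃ R, D < R ∧ Pr G (E0 (Far 0 R) (Far 0 R) 0 D) ≤ ε := by
  obtain ⟨R, hR⟩ := hG.trif_small (ε := ε / (2 * D + 1) ^ 2) (by positivity)
  refine ⟨R + D + 1, by omega, ?_⟩
  have hsub : E0 (Far 0 (R + D + 1)) (Far 0 (R + D + 1)) 0 D ⊆ ⋃ p ∈ bx 0 D, Trif p R := by
    rintro t ⟨A, hA, y, hy, y', hy', p, hp, hb⟩
    have hp' : ni (p - 0) ≤ D := mem_bx.1 hp
    have far : ∀ u ∈ Far 0 (R + D + 1), u ∈ Far p R := by
      intro u hu
      have e1 : R + D + 1 ≤ ni (u - 0) := hu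
      have e2 := ni_tri 0 p u
      show R ≤ ni (u - p)
      omega
    exact mem_biUnion hp ⟨A, far A hA, y, far y hy, y', far y' hy', hb⟩
  refine (hG.mono hsub).trans ((hG.biUnion _ _).trans ?_)
  simp only [a14_pr hG _ R, Finset.sum_const, card_bx, nsmul_eq_mul]
  push_cast
  rw [le_div_iff₀ (by positivity)] at hR
  linarith
theorem ALaw.ae_notrif (hG : ALaw G) : ∀ᵐ t ∂iidLaw G, ∀ p, ∃ R, t ∉ Trif p R := by
  refine ae_all_iff.2 fun p => ?_
  have h := hG.null_of (A := ⋂ R, Trif p R) fun ε hε => by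
    obtain ⟨R, hR⟩ := hG.trif_small hε
    exact (hG.mono (iInter_subset _ R)).trans (by rwa [a14_pr hG])
  filter_upwards [h] with t ht
  simpa only [mem_iInter, not_forall] using ht

end

end Crest.Agent.R151.A
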