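import Crest.Agent.R151.A2

/-! Row 151 (A): Busemann functions of rays -/

set_option autoImplicit false

open MeasureTheory Set Filter Topology
open Crest.ProbabilityR.FirstPassage

namespace Crest.Agent.R151.A

open Crest.Agent.R151.B

noncomputable section

variable {t : Env} {r r' r'' a a' b : ℕ → Z2} {x y v w z : Z2} {F F' : Set Z2} {K K' C : ℝ}

theorem Ray.isP (h : Ray t r) (n : ℕ) : IsP r n := (h n).1
theorem Ray.inj (ht : Good t) (h : Ray t r) : Function.Injective r := fun i j e =>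
  (h (max i j)).inj ht i (le_max_left _ _) j (le_max_right _ _) e
theorem Ray.tl (ht : NN t) (h : Ray t r) (k : ℕ) : Ray t (tl r k) := fun n =>
  (h (k + n)).sub ht le_rfl
theorem Ray.btw (ht : NN t) (h : Ray t r) {i j k : ℕ} (hij : i ≤ j) (hjk : j ≤ k) :
    Btw t (r i) (r j) (r k) := (h k).btw ht hij hjk le_rfl
theorem Ray.tendsto_T (ht : Good t) (h : Ray t r) :
    Tendsto (fun n => T t (r 0) (r n)) atTop atTop := by
  have hm : Monotone fun n => T t (r 0) (r n) := fun i j hij => by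
    have h1 : T t (r 0) (r i) + T t (r i) (r j) = T t (r 0) (r j) :=
      h.btw ht.nn (Nat.zero_le i) hij
    have h2 := T_nonneg ht.nn (r i) (r j)
    change T t (r 0) (r i) ≤ T t (r 0) (r j)
    linarith
  refine tendsto_atTop_atTop_of_monotone hm fun K => ?_
  by_contra hc
  push Not at hc
  exact (infinite_of_injective_forall_mem (h.inj ht) fun n => (hc n).le) (ht.prop (r 0) K)
theorem a15_anti (ht : NN t) (h : Ray t r) (v : Z2) :
    Antitone fun n => T t v (r n) - T t (r 0) (r n) := fun i j hij => by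
  have h1 : T t (r 0) (r i) + T t (r i) (r j) = T t (r 0) (r j) := h.btw ht (Nat.zero_le i) hij
  have h2 := T_tri ht v (r i) (r j)
  change T t v (r j) - T t (r 0) (r j) ≤ T t v (r i) - T t (r 0) (r i)
  linarith
theorem a15_bdd (ht : NN t) (r : ℕ → Z2) (v : Z2) :
    BddBelow (range fun n => T t v (r n) - T t (r 0) (r n)) := by
  refine ⟨-T t (r 0) v, ?_⟩
  rintro _ ⟨n, rfl⟩
  have h2 := T_tri ht (r 0) v (r n)
  change _ ≤ T t v (r n) - T t (r 0) (r n)
  linarith
theorem Ray.bus_tendsto (ht : NN t) (h : Ray t r) (v : Z2) :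
    Tendsto (fun n => T t v (r n) - T t (r 0) (r n)) atTop (𝓝 (bus t r v)) := tendsto_atTop_ciInf (a15_anti ht h v) (a15_bdd ht r v)
theorem Ray.bus_le (ht : NN t) (h : Ray t r) (v : Z2) (n : ℕ) :
    bus t r v ≤ T t v (r n) - T t (r 0) (r n) := ciInf_le (a15_bdd ht r v) n
theorem Ray.bus_lip (ht : NN t) (h : Ray t r) (x y : Z2) : bus t r x ≤ T t x y + bus t r y := by
  refine ge_of_tendsto' ((h.bus_tendsto ht y).const_add (T t x y)) fun n => ?_
  linarith [h.bus_le ht x n, T_tri ht x y (r n)]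
theorem Ray.bus_on (ht : NN t) (h : Ray t r) (k : ℕ) : bus t r (r k) = -T t (r 0) (r k) := by
  refine tendsto_nhds_unique (h.bus_tendsto ht (r k)) (tendsto_const_nhds.congr' ?_)
  filter_upwards [eventually_ge_atTop k] with n hn
  have h1 : T t (r 0) (r k) + T t (r k) (r n) = T t (r 0) (r n) := h.btw ht (Nat.zero_le k) hn
  linarith
theorem Ray.bus_tl (ht : NN t) (h : Ray t r) (k : ℕ) (v : Z2) :
    bus t (A.tl r k) v = bus t r v + T t (r 0) (r k) := by
  refine tendsto_nhds_unique ((h.tl ht k).bus_tendsto ht v) ?_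
  have h0 := ((tendsto_add_atTop_iff_nat k).2 (h.bus_tendsto ht v)).add_const (T t (r 0) (r k))
  refine h0.congr fun n => ?_
  have h1 : T t (r 0) (r k) + T t (r k) (r (k + n)) = T t (r 0) (r (k + n)) :=
    h.btw ht (Nat.zero_le k) (Nat.le_add_right k n)
  change T t v (r (n + k)) - T t (r 0) (r (n + k)) + T t (r 0) (r k) =
    T t v (r (k + n)) - T t (r k) (r (k + n))
  rw [add_comm n k]
  linarith
theorem Ray.diff_tendsto (ht : NN t) (h : Ray t r) (x y : Z2) :
    Tendsto (fun n => T t x (r n) - T t y (r n)) atTop (𝓝 (bus t r x - bus t r y)) :=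
  ((h.bus_tendsto ht x).sub (h.bus_tendsto ht y)).congr fun n => by ring
theorem Ray.bus_btw (ht : NN t) (h : Ray t r) (hb : ∃ᶠ n in atTop, Btw t v w (r n)) :
    bus t r v = T t v w + bus t r w := by
  have h1 : bus t r v - bus t r w = T t v w :=
    tendsto_nhds_unique_of_frequently_eq (h.diff_tendsto ht v w) tendsto_const_nhds
      (hb.mono fun n hn => by
        have h2 : T t v w + T t w (r n) = T t v (r n) := hn
        linarith)
  linarith
theorem Ray.bus_sph (ht : Good t) (h : Ray t r) {L : ℕ} (hx : x ∈ bx z L) :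
    ∃ w ∈ sp z L, bus t r x = T t x w + bus t r w := by
  obtain ⟨N, hN⟩ := inj_escape (h.inj ht) z L
  by_contra hc
  have h1 : ∀ w ∈ sp z L, ∀ᶠ n in atTop, ¬ Btw t x w (r n) := fun w hw => by
    by_contra h2
    exact hc ⟨w, hw, h.bus_btw ht.nn (not_eventually.1 h2 |>.mono fun n hn => not_not.1 hn)⟩
  obtain ⟨n, hn, hn'⟩ :=
    (((eventually_all_finset _).2 h1).and (eventually_ge_atTop N)).exists
  obtain ⟨w, hw, h3⟩ := ht.sph z (mem_bx.1 hx) (hN n hn')
  exact hn w hw h3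
theorem Cl.symm (h : Cl t r r' F K) : Cl t r' r F K := fun x hx y hy => by
  rw [abs_sub_comm]
  exact h x hx y hy
theorem Cl.mono (h : Cl t r r' F K) (hF : F' ⊆ F) (hK : K ≤ K') : Cl t r r' F' K' :=
  fun x hx y hy => (h x (hF hx) y (hF hy)).trans hK
theorem Cl.trans (h : Cl t r r' F K) (h' : Cl t r' r'' F K') : Cl t r r'' F (K + K') :=
  fun x hx y hy => (abs_sub_le _ _ _).trans (add_le_add (h x hx y hy) (h' x hx y hy))
theorem cl_refl (t : Env) (r : ℕ → Z2) (F : Set Z2) : Cl t r r F 0 := fun x _ y _ => by simp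
theorem Ray.cl_tl (ht : NN t) (h : Ray t r) (k : ℕ) : Cl t (A.tl r k) r univ 0 := fun x _ y _ => by
  rw [h.bus_tl ht, h.bus_tl ht]
  simp
theorem cl_box (h : ¬ Cl t r r' univ K) (z : Z2) : ∃ ρ : ℕ, ¬ Cl t r r' (bx z ρ) K := by
  by_contra hc
  push Not at hc
  refine h fun x _ y _ => hc (max (ni (x - z)) (ni (y - z))) x ?_ y ?_
  · exact Finset.mem_coe.2 (mem_bx.2 (le_max_left _ _))
  · exact Finset.mem_coe.2 (mem_bx.2 (le_max_right _ _))
/-- maximum principle -/
theorem cl_max (ht : Good t) (h : Ray t r) (h' : Ray t r') {L : ℕ} (hc : Cl t r r' (sp z L) K) :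
    Cl t r r' (bx z L) K := by
  intro x hx y hy
  obtain ⟨u, hu, e1⟩ := h.bus_sph ht (Finset.mem_coe.1 hx)
  obtain ⟨u', hu', e2⟩ := h'.bus_sph ht (Finset.mem_coe.1 hx)
  obtain ⟨w, hw, e3⟩ := h.bus_sph ht (Finset.mem_coe.1 hy)
  obtain ⟨w', hw', e4⟩ := h'.bus_sph ht (Finset.mem_coe.1 hy)
  have f1 := h'.bus_lip ht.nn x u
  have f2 := h.bus_lip ht.nn x u'
  have f3 := h'.bus_lip ht.nn y w
  have f4 := h.bus_lip ht.nn y w'
  have g1 := abs_le.1 (hc u' (Finset.mem_coe.2 hu') w (Finset.mem_coe.2 hw))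
  have g2 := abs_le.1 (hc u (Finset.mem_coe.2 hu) w' (Finset.mem_coe.2 hw'))
  rw [abs_le]
  constructor <;> linarith [g1.2, g2.1]
theorem cl_of_near (ht : NN t) (h : Ray t r) (h' : Ray t r')
    (hn : ∀ N, ∃ i ≥ N, ∃ j ≥ N, T t (r i) (r' j) ≤ C) : Cl t r r' univ (2 * C) := by
  intro x _ y _
  refine le_of_forall_pos_le_add fun ε hε => ?_
  obtain ⟨N1, h1⟩ := Metric.tendsto_atTop.1 (h.diff_tendsto ht x y) (ε / 2) (half_pos hε)
  obtain ⟨N2, h2⟩ := Metric.tendsto_atTop.1 (h'.diff_tendsto ht x y) (ε / 2) (half_pos hε)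
  obtain ⟨i, hi, j, hj, hc⟩ := hn (max N1 N2)
  have e1 := h1 i (le_trans (le_max_left _ _) hi)
  have e2 := h2 j (le_trans (le_max_right _ _) hj)
  rw [Real.dist_eq, abs_lt] at e1 e2
  have a1 := T_tri ht x (r i) (r' j)
  have a2 := T_tri ht x (r' j) (r i)
  have a3 := T_tri ht y (r i) (r' j)
  have a4 := T_tri ht y (r' j) (r i)
  have a5 := T_symm t (r' j) (r i)
  rw [abs_le]
  constructor <;> linarith [e1.1, e1.2, e2.1, e2.2]
theorem apart_of (ht : NN t) (h : Ray t r) (h' : Ray t r') (hn : ∀ K, ¬ Cl t r r' univ K) :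
    Apart t r r' := by
  intro C
  by_contra hc
  refine hn (2 * C) (cl_of_near ht h h' fun N => ?_)
  by_contra hN
  refine hc ⟨N, fun i hi j hj => ?_⟩
  by_contra hl
  exact hN ⟨i, hi, j, hj, not_lt.1 hl⟩
theorem Apart.symm (h : Apart t r r') : Apart t r' r := by
  intro C
  obtain ⟨N, hN⟩ := h C
  exact ⟨N, fun i hi j hj => by rw [T_symm]; exact hN j hj i hi⟩
theorem Opp.symm (h : Opp t a b) : Opp t b a := by
  obtain ⟨C, hC⟩ := h
  refine ⟨C, fun m n => ?_⟩
  have := hC n m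
  rw [T_symm t (b m) (a n)]
  linarith
theorem Opp.tl (h : Opp t a b) (k : ℕ) : Opp t (tl a k) b := by
  obtain ⟨C, hC⟩ := h
  exact ⟨C, fun m n => hC (k + m) n⟩
theorem opp_iff (ht : NN t) (ha : Ray t a) (hb : Ray t b) :
    Opp t a b ↔ ∃ C : ℝ, ∀ v, -C ≤ bus t a v + bus t b v := by
  constructor
  · rintro ⟨C, hC⟩
    refine ⟨C + T t 0 (a 0) + T t 0 (b 0), fun v => ?_⟩
    refine ge_of_tendsto' ((ha.bus_tendsto ht v).add (hb.bus_tendsto ht v)) fun n => ?_
    have a1 := hC n n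
    have a2 := T_tri ht (a n) v (b n)
    have a3 := T_symm t (a n) v
    have a4 := T_tri ht (a 0) 0 (a n)
    have a5 := T_tri ht (b 0) 0 (b n)
    have a6 := T_symm t (a 0) 0
    have a7 := T_symm t (b 0) 0
    linarith
  · rintro ⟨C, hC⟩
    refine ⟨C + T t 0 (a 0) + T t 0 (b 0), fun m n => ?_⟩
    have a1 := hC (a m)
    rw [ha.bus_on ht m] at a1
    have a2 := hb.bus_le ht (a m) n
    have a4 := T_tri ht 0 (a 0) (a m)
    have a5 := T_tri ht 0 (b 0) (b n)
    linarith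
theorem Opp.of_cl (ht : NN t) (ha : Ray t a) (ha' : Ray t a') (hb : Ray t b) (h : Opp t a b)
    (hc : Cl t a a' univ K) : Opp t a' b := by
  obtain ⟨C, hC⟩ := (opp_iff ht ha hb).1 h
  refine (opp_iff ht ha' hb).2 ⟨C + bus t a 0 - bus t a' 0 + K, fun v => ?_⟩
  have a1 := hC v
  have a2 := (abs_le.1 (hc v (mem_univ _) 0 (mem_univ _))).2
  linarith
theorem grom_mono (ht : NN t) (h : Ray t r) (x : Z2) {k n : ℕ} (hk : k ≤ n) :
    T t 0 x + T t 0 (r k) - T t x (r k) ≤ T t 0 x + T t 0 (r n) - T t x (r n) + 2 * T t 0 (r 0) := by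
  have a1 := T_tri ht x (r k) (r n)
  have a2 : T t (r 0) (r k) + T t (r k) (r n) = T t (r 0) (r n) := h.btw ht (Nat.zero_le k) hk
  have a3 := T_tri ht (r 0) 0 (r n)
  have a4 := T_tri ht 0 (r 0) (r k)
  have a5 := T_symm t (r 0) 0
  linarith
theorem opp_of_freq (ht : NN t) (ha : Ray t a) (hb : Ray t b)
    (h : ∀ N, ∃ m ≥ N, ∃ n ≥ N, T t 0 (a m) + T t 0 (b n) - T t (a m) (b n) ≤ C) : Opp t a b := by
  refine ⟨C + 2 * T t 0 (a 0) + 2 * T t 0 (b 0), fun m n => ?_⟩
  obtain ⟨m', hm, n', hn, hc⟩ := h (max m n)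
  have a1 := grom_mono ht hb (a m) (le_trans (le_max_right m n) hn)
  have a2 := grom_mono ht ha (b n') (le_trans (le_max_left m n) hm)
  have a3 := T_symm t (b n') (a m)
  have a4 := T_symm t (b n') (a m')
  linarith
theorem bus_sh (z : Z2) (t : Env) (r : ℕ → Z2) (v : Z2) :
    bus (sh z t) r v = bus t (fun i => r i + z) (v + z) := by
  simp only [bus, T_sh]

end

end Crest.Agent.R151.A
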