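import Crest.Agent.R151.A15

/-! Row 151 (A): geodesic lines -/

set_option autoImplicit false

open MeasureTheory Set Filter Topology
open Crest.ProbabilityR.FirstPassage

namespace Crest.Agent.R151.A

open Crest.Agent.R151.B

noncomputable section

variable {t : Env} {γ γ' γ'' : ℤ → Z2} {z u u' v : Z2} {δ δ' : ℝ} {i j k : ℤ}

theorem rv_rv (γ : ℤ → Z2) : rv (rv γ) = γ := by
  funext i
  simp only [rv, neg_neg]
theorem rP_rv (γ : ℤ → Z2) : rP (rv γ) = rN γ := rfl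
theorem rN_rv (γ : ℤ → Z2) : rN (rv γ) = rP γ := by
  funext i
  simp only [rN, rv, rP, neg_neg]
theorem Lin.adj (h : Lin t γ) (i : ℤ) : squareLattice.Adj (γ i) (γ (i + 1)) := by
  simpa [fw] using (h i 1).1 0 one_pos
theorem A15b_geo_congr {g g' : ℕ → Z2} {n : ℕ} (h : Geo t g n) (e : ∀ i ≤ n, g i = g' i) :
    Geo t g' n := by
  refine ⟨fun i hi => ?_, ?_⟩
  · rw [← e i hi.le, ← e (i + 1) hi]
    exact h.1 i hi
  · rw [← cst_congr t e, ← e 0 (Nat.zero_le n), ← e n le_rfl]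
    exact h.2
theorem Lin.rv (h : Lin t γ) : Lin t (rv γ) := by
  intro k n
  refine A15b_geo_congr (h (-k - n) n).rev fun i hi => ?_
  simp only [fw, A.rv]
  congr 1
  omega
theorem Lin.orn (h : Lin t γ) (o : Bool) : Lin t (orn o γ) := by
  cases o
  · exact h
  · exact h.rv
theorem Lin.rayP (h : Lin t γ) : Ray t (rP γ) := by
  have e : fw γ 0 = rP γ := by
    funext i
    simp only [fw, rP, zero_add]
  exact e ▸ h 0
theorem Lin.rayN (h : Lin t γ) : Ray t (rN γ) := h.rv.rayP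
theorem Lin.btw (ht : NN t) (h : Lin t γ) (hij : i ≤ j) (hjk : j ≤ k) :
    Btw t (γ i) (γ j) (γ k) := by
  obtain ⟨a, rfl⟩ := Int.le.dest hij
  obtain ⟨b, rfl⟩ := Int.le.dest hjk
  simpa [fw, add_assoc] using (h i).btw ht (Nat.zero_le a) (Nat.le_add_right a b)
theorem Lin.inj (ht : Good t) (h : Lin t γ) : Function.Injective γ := by
  have key : ∀ i j : ℤ, i ≤ j → γ i = γ j → i = j := by
    intro i j hij e
    obtain ⟨a, rfl⟩ := Int.le.dest hij
    have : 0 = a := (h i).inj ht (by simpa [fw] using e)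
    omega
  intro i j e
  rcases le_total i j with hij | hij
  · exact key i j hij e
  · exact (key j i hij e.symm).symm
theorem Lin.idx (ht : Good t) (h : Lin t γ) (hij : i ≤ j) (hz : Btw t (γ i) z (γ j)) :
    ∃ k, i ≤ k ∧ k ≤ j ∧ γ k = z := by
  obtain ⟨a, rfl⟩ := Int.le.dest hij
  obtain ⟨k, -, hk, e⟩ := ht.btw_idx (h i a) (Nat.zero_le a) le_rfl (z := z)
    (by simpa [fw] using hz)
  exact ⟨i + k, by omega, by omega, e⟩
theorem Lin.escape (ht : Good t) (h : Lin t γ) (o : Z2) (R : ℕ) :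
    ∃ N : ℕ, ∀ i : ℤ, (N : ℤ) ≤ |i| → R ≤ ni (γ i - o) := by
  obtain ⟨N, hN⟩ := inj_escape (h.rayP.inj ht) o R
  obtain ⟨N', hN'⟩ := inj_escape (h.rayN.inj ht) o R
  refine ⟨max N N', fun i hi => ?_⟩
  obtain ⟨n, rfl | rfl⟩ := Int.eq_nat_or_neg i
  · exact hN n (by rw [Nat.abs_cast] at hi; omega)
  · exact hN' n (by rw [abs_neg, Nat.abs_cast] at hi; omega)
theorem Lin.busP (ht : NN t) (h : Lin t γ) (hij : i ≤ j) :
    bus t (rP γ) (γ i) = T t (γ i) (γ j) + bus t (rP γ) (γ j) := by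
  refine h.rayP.bus_btw ht (Eventually.frequently ?_)
  filter_upwards [eventually_ge_atTop j.toNat] with n hn
  exact h.btw ht hij (by omega)
theorem Lin.busN (ht : NN t) (h : Lin t γ) (hij : i ≤ j) :
    bus t (rN γ) (γ j) = T t (γ i) (γ j) + bus t (rN γ) (γ i) := by
  have := h.rv.busP ht (neg_le_neg hij)
  simp only [A.rv, neg_neg] at this
  rw [T_symm]
  exact this
theorem Lin.three_tendsto (ht : NN t) (h : Lin t γ) (u u' : Z2) :
    Tendsto (fun n : ℕ => T t (γ (-n)) u + T t u' (γ n) - T t (γ (-n)) (γ n)) atTop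
      (𝓝 (bus t (rN γ) u + bus t (rP γ) u')) := by
  refine ((h.rayN.bus_tendsto ht u).add (h.rayP.bus_tendsto ht u')).congr fun n => ?_
  have e : T t (γ (-n)) (γ 0) + T t (γ 0) (γ n) = T t (γ (-n)) (γ n) :=
    h.btw ht (by omega) (by omega)
  simp only [rN, rP, Nat.cast_zero, neg_zero]
  rw [← e, T_symm t u, T_symm t (γ 0) (γ (-n))]
  ring
theorem Lin.X_nonneg (ht : NN t) (h : Lin t γ) (v : Z2) : 0 ≤ X t γ v := by
  rw [X, add_comm]
  exact ge_of_tendsto' (h.three_tendsto ht v v) fun n => sub_nonneg.2 (T_tri ht _ _ _)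
theorem Lin.X_on (ht : NN t) (h : Lin t γ) (k : ℤ) : X t γ (γ k) = 0 := by
  rw [X, add_comm]
  refine tendsto_nhds_unique (h.three_tendsto ht (γ k) (γ k)) (tendsto_const_nhds.congr' ?_)
  filter_upwards [eventually_ge_atTop k.natAbs] with n hn
  exact (sub_eq_zero.2 (h.btw ht (by omega) (by omega))).symm
theorem X_rv (t : Env) (γ : ℤ → Z2) (v : Z2) : X t (rv γ) v = X t γ v := by
  rw [X, X, rP_rv, rN_rv, add_comm]
theorem X_orn (t : Env) (o : Bool) (γ : ℤ → Z2) (v : Z2) : X t (orn o γ) v = X t γ v := by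
  cases o
  · rfl
  · exact X_rv t γ v
theorem Lin.opp (ht : NN t) (h : Lin t γ) : Opp t (rN γ) (rP γ) := by
  refine (opp_iff ht h.rayN h.rayP).2 ⟨0, fun v => ?_⟩
  rw [neg_zero, add_comm]
  exact h.X_nonneg ht v
theorem Lin.apart (ht : Good t) (h : Lin t γ) : Apart t (rP γ) (rN γ) := by
  intro C
  obtain ⟨N, hN⟩ := eventually_atTop.1 ((h.rayP.tendsto_T ht).eventually_gt_atTop C)
  refine ⟨N, fun i hi j _ => ?_⟩
  have e : T t (γ (-j)) (γ 0) + T t (γ 0) (γ i) = T t (γ (-j)) (γ i) :=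
    h.btw ht.nn (by omega) (by omega)
  have h1 : C < T t (γ 0) (γ i) := hN i hi
  have h2 := T_nonneg ht.nn (γ (-j)) (γ 0)
  show C < T t (γ i) (γ (-j))
  rw [T_symm]
  linarith
theorem Lin.busN_bot (ht : Good t) (h : Lin t γ) :
    Tendsto (fun n : ℕ => bus t (rN γ) (γ (-n))) atTop atBot :=
  (tendsto_neg_atTop_atBot.comp (h.rayN.tendsto_T ht)).congr fun n =>
    (h.rayN.bus_on ht.nn n).symm
open Classical in
theorem Lin.hit (ht : Good t) (h : Lin t γ) {D : ℕ} {C : ℝ} (hh : Hit t z D C) :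
    (((bx z D).filter fun u => u ∈ range γ).card : ℝ) ≤ C * D := by
  obtain ⟨N, hN⟩ := h.escape ht z (D + 1)
  have out : ∀ i : ℤ, (N : ℤ) ≤ |i| → γ i ∉ bx z D := fun i hi hm => by
    have := hN i hi
    have := mem_bx.1 hm
    omega
  refine le_trans ?_ (hh (γ (-N)) (γ N) (out _ (by simp)) (out _ (by simp)))
  refine Nat.cast_le.2 (Finset.card_le_card fun u hu => ?_)
  obtain ⟨hb, k, rfl⟩ := Finset.mem_filter.1 hu
  have hk : |k| < N := lt_of_not_ge fun hk => out k hk hb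
  rw [abs_lt] at hk
  exact Finset.mem_filter.2 ⟨hb, h.btw ht.nn hk.1.le hk.2.le⟩

end

end Crest.Agent.R151.A
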