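import Crest.Agent.R151.A15b

/-! Row 151 (A): equivalence of lines, margins, translations -/

set_option autoImplicit false

open MeasureTheory Set Filter Topology
open Crest.ProbabilityR.FirstPassage

namespace Crest.Agent.R151.A

open Crest.Agent.R151.B

noncomputable section

variable {t : Env} {γ γ' γ'' : ℤ → Z2} {z u u' v : Z2} {δ δ' : ℝ}

theorem Same.refl (γ : ℤ → Z2) : Same γ γ := by
  exact ⟨0, Or.inl fun i => by rw [zero_add]⟩

theorem Same.symm (h : Same γ γ') : Same γ' γ := by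
  obtain ⟨k, h | h⟩ := h
  · exact ⟨-k, Or.inl fun i => by rw [h, add_neg_cancel_left]⟩
  · exact ⟨k, Or.inr fun i => by rw [h, sub_sub_cancel]⟩

theorem Same.trans (h : Same γ γ') (h' : Same γ' γ'') : Same γ γ'' := by
  obtain ⟨k, h | h⟩ := h <;> obtain ⟨k', h' | h'⟩ := h'
  · exact ⟨k + k', Or.inl fun i => by rw [h', h, add_assoc]⟩
  · exact ⟨k + k', Or.inr fun i => by rw [h', h, add_sub_assoc]⟩
  · exact ⟨k - k', Or.inr fun i => by rw [h', h, sub_sub]⟩
  · exact ⟨k - k', Or.inl fun i => by rw [h', h, sub_add]⟩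

theorem same_rv (γ : ℤ → Z2) : Same γ (rv γ) := by
  exact ⟨0, Or.inr fun i => by rw [zero_sub]; rfl⟩

theorem same_orn (o : Bool) (γ : ℤ → Z2) : Same γ (orn o γ) := by
  cases o
  · exact Same.refl γ
  · exact same_rv γ

theorem Same.range_eq (h : Same γ γ') : range γ' = range γ := by
  have key : ∀ {γ γ' : ℤ → Z2}, Same γ γ' → range γ' ⊆ range γ := by
    rintro γ γ' ⟨k, h | h⟩ _ ⟨i, rfl⟩
    · exact ⟨_, (h i).symm⟩
    · exact ⟨_, (h i).symm⟩
  exact (key h).antisymm (key h.symm)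

theorem A15c_shift (h : Lin t γ) (k : ℤ) : Lin t fun i => γ (k + i) := fun j => by
  have e : fw (fun i => γ (k + i)) j = fw γ (k + j) := funext fun i => congrArg γ (add_assoc _ _ _).symm
  rw [e]
  exact h _

theorem A15c_clP (ht : NN t) (h : Lin t γ) (k : ℤ) :
    Cl t (rP fun i => γ (k + i)) (rP γ) univ 0 := by
  have := cl_of_near (C := 0) ht (A15c_shift h k).rayP h.rayP fun N =>
    ⟨N + k.natAbs, by omega, (k + (N + k.natAbs : ℕ)).toNat, by omega, by
      have e : (((k + (N + k.natAbs : ℕ)).toNat : ℕ) : ℤ) = k + (N + k.natAbs : ℕ) := by omega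
      show T t (γ (k + (N + k.natAbs : ℕ))) (γ ((k + (N + k.natAbs : ℕ)).toNat : ℕ)) ≤ 0
      rw [e, T_self ht]⟩
  rwa [mul_zero] at this

theorem A15c_cl (ht : NN t) (h : Lin t γ) (k : ℤ) :
    Cl t (rP fun i => γ (k + i)) (rP γ) univ 0 ∧ Cl t (rN fun i => γ (k + i)) (rN γ) univ 0 := by
  refine ⟨A15c_clP ht h k, ?_⟩
  have h1 := A15c_clP ht h.rv (-k)
  have e : (rP fun i => A.rv γ (-k + i)) = rN fun i => γ (k + i) :=
    funext fun i => congrArg γ (by rw [neg_add, neg_neg])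
  rwa [e, rP_rv] at h1

theorem Same.cl (ht : NN t) (hγ : Lin t γ) (h : Same γ γ') : ∃ o,
    Cl t (rP (orn o γ')) (rP γ) univ 0 ∧ Cl t (rN (orn o γ')) (rN γ) univ 0 := by
  obtain ⟨k, h | h⟩ := h
  · have e : A.orn false γ' = fun i => γ (k + i) := funext h
    exact ⟨false, e ▸ A15c_cl ht hγ k⟩
  · have e : A.orn true γ' = fun i => γ (k + i) := funext fun i => by
      show γ' (-i) = _
      rw [h, sub_neg_eq_add]
    exact ⟨true, e ▸ A15c_cl ht hγ k⟩

theorem Mg.mem (h : Mg t γ z δ) : z ∈ range γ := by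
  obtain ⟨k, hk, -⟩ := h
  exact ⟨k, hk⟩

theorem Mg.mono (h : Mg t γ z δ) (hδ : δ' ≤ δ) : Mg t γ z δ' := by
  obtain ⟨k, hk, h⟩ := h
  exact ⟨k, hk, fun i hi j hj => (h i hi j hj).mono hδ⟩

theorem Mg.rv (h : Mg t γ z δ) : Mg t (rv γ) z δ := by
  obtain ⟨k, hk, h⟩ := h
  refine ⟨-k, ?_, fun i hi j hj => (h (-j) (by omega) (-i) (by omega)).symm⟩
  show γ (- -k) = z
  rw [neg_neg, hk]

theorem Mg.orn (h : Mg t γ z δ) (o : Bool) : Mg t (orn o γ) z δ := by
  cases o
  · exact h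
  · exact h.rv

theorem ML.orn (h : ML t γ) (o : Bool) : ML t (orn o γ) := by
  obtain ⟨h1, z, n, h2⟩ := h
  exact ⟨h1.orn o, z, n, h2.orn o⟩

theorem ml_of (h : Lin t γ) (hm : Mg t γ z δ) (hδ : 0 < δ) : ML t γ := by
  obtain ⟨n, hn⟩ := exists_nat_one_div_lt hδ
  exact ⟨h, z, n, hm.mono hn.le⟩

/-- the margin in the limit -/
theorem Mg.three (ht : NN t) (h : Lin t γ) (hm : Mg t γ z δ)
    (hl : bus t (rN γ) u + T t u u' + bus t (rP γ) u' < δ) :
    bus t (rN γ) u = T t u z + bus t (rN γ) z ∨ Btw t u z u' ∨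
      bus t (rP γ) u' = T t u' z + bus t (rP γ) z := by
  obtain ⟨k, -, hk⟩ := hm
  have h1 := (h.three_tendsto ht u u').eventually
    (gt_mem_nhds (show bus t (rN γ) u + bus t (rP γ) u' < δ - T t u u' by linarith))
  have h2 : ∀ᶠ n : ℕ in atTop, Btw t u z (rN γ n) ∨ Btw t u z u' ∨ Btw t u' z (rP γ n) := by
    filter_upwards [h1, eventually_ge_atTop k.natAbs] with n hn hn'
    rcases (hk (-n) (by omega) n (by omega)).2 u u' (by linarith) with h3 | h3
    · exact Or.inl h3.symm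
    · exact Or.inr h3
  rcases frequently_or_distrib.1 h2.frequently with h3 | h3
  · exact Or.inl (h.rayN.bus_btw ht h3)
  · rcases frequently_or_distrib.1 h3 with h4 | h4
    · exact Or.inr (Or.inl h4.exists.choose_spec)
    · exact Or.inr (Or.inr (h.rayP.bus_btw ht h4))

theorem A15c_lin (z : Z2) : Lin (sh z t) γ ↔ Lin t fun i => γ i + z :=
  forall_congr' fun _ => forall_congr' fun _ => geo_sh z

theorem A15c_mg (z x : Z2) : Mg (sh z t) γ x δ ↔ Mg t (fun i => γ i + z) (x + z) δ :=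
  exists_congr fun _ => and_congr (add_left_inj z).symm (forall₄_congr fun _ _ _ _ => mgp_sh z)

theorem A15c_mg0 (z : Z2) : Mg (sh z t) γ 0 δ ↔ Mg t (fun i => γ i + z) z δ := by
  rw [A15c_mg, zero_add]

theorem A15c_ml (z : Z2) : ML (sh z t) γ ↔ ML t fun i => γ i + z :=
  and_congr (A15c_lin z) ((exists_congr fun x => exists_congr fun _ => A15c_mg z x).trans
    ((add_right_surjective z).exists
      (p := fun x => ∃ n : ℕ, Mg t (fun i => γ i + z) x (1 / (n + 1)))).symm)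

theorem A15c_X (z : Z2) : X (sh z t) γ 0 = X t (fun i => γ i + z) z := by
  show bus (sh z t) (rP γ) 0 + bus (sh z t) (rN γ) 0 = _
  rw [bus_sh, bus_sh, zero_add]
  rfl

theorem A15c_clsh (z : Z2) (r r' : ℕ → Z2) (ρ : ℕ) (K : ℝ) : Cl (sh z t) r r' (bx 0 ρ) K ↔
    Cl t (fun i => r i + z) (fun i => r' i + z) (bx z ρ) K := by
  have e : ∀ x : Z2, x + z ∈ (bx z ρ : Set Z2) ↔ x ∈ (bx 0 ρ : Set Z2) := fun x => by
    rw [Finset.mem_coe, Finset.mem_coe, mem_bx, mem_bx, add_sub_cancel_right, sub_zero]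
  constructor
  · intro h x hx y hy
    obtain ⟨x, rfl⟩ := add_right_surjective z x
    obtain ⟨y, rfl⟩ := add_right_surjective z y
    have := h x ((e x).1 hx) y ((e y).1 hy)
    rwa [bus_sh, bus_sh, bus_sh, bus_sh] at this
  · intro h x hx y hy
    rw [bus_sh, bus_sh, bus_sh, bus_sh]
    exact h _ ((e x).2 hx) _ ((e y).2 hy)

theorem A15c_same (z : Z2) : Same γ γ' ↔ Same (fun i => γ i + z) fun i => γ' i + z :=
  exists_congr fun _ => or_congr (forall_congr' fun _ => (add_left_inj z).symm)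
    (forall_congr' fun _ => (add_left_inj z).symm)

theorem A15c_orn (z : Z2) (o : Bool) (γ : ℤ → Z2) :
    rP (orn o fun i => γ i + z) = fun i => rP (orn o γ) i + z := by
  cases o <;> rfl

theorem A15c_surj (z : Z2) : Function.Surjective fun (γ : ℤ → Z2) i => γ i + z :=
  fun γ => ⟨fun i => γ i - z, funext fun _ => sub_add_cancel _ _⟩

theorem A15c_surj2 (m : ℕ) (z : Z2) :
    Function.Surjective fun (γ : Fin m → ℤ → Z2) j i => γ j i + z :=
  fun γ => ⟨fun j i => γ j i - z, funext fun _ => funext fun _ => sub_add_cancel _ _⟩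

theorem mgE_sh (δ : ℝ) (z : Z2) : MgE δ z = sh z ⁻¹' MgE δ 0 := by
  ext t
  exact (A15c_surj z).exists.trans
    (exists_congr fun γ => (and_congr (A15c_lin z) (A15c_mg0 z)).symm)

theorem hE_sh (m r : ℕ) (δ : ℝ) (z : Z2) : HE m r δ z = sh z ⁻¹' HE m r δ 0 := by
  ext t
  refine (A15c_surj2 m z).exists.trans (exists_congr fun γ => (and_congr
    (forall_congr' fun i => and_congr (A15c_lin z) (A15c_mg0 z))
    (forall₅_congr fun i j _ o o' => not_congr ?_)).symm)
  rw [A15c_clsh, A15c_orn, A15c_orn]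

theorem many_sh (m : ℕ) (δ : ℝ) (z : Z2) : Many m δ z = sh z ⁻¹' Many m δ 0 := by
  ext t
  exact (A15c_surj2 m z).exists.trans (exists_congr fun γ => (and_congr
    (forall_congr' fun i => and_congr (A15c_lin z) (A15c_mg0 z))
    (forall₃_congr fun i j _ => not_congr (A15c_same z))).symm)

theorem near_sh (m : ℕ) (K : ℝ) (z : Z2) : Near m K z = sh z ⁻¹' Near m K 0 := by
  ext t
  refine (A15c_surj2 m z).exists.trans (exists_congr fun γ => (and_congr
    (forall_congr' fun i => and_congr (A15c_ml z) ?_)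
    (forall₃_congr fun i j _ => not_congr (A15c_same z))).symm)
  rw [A15c_X]

theorem bad_sh (r : ℕ) (K δ : ℝ) (z : Z2) : Bad r K δ z = sh z ⁻¹' Bad r K δ 0 := by
  ext t
  refine (A15c_surj z).exists.trans (exists_congr fun γ => (A15c_surj z).exists.trans
    (exists_congr fun γ' => (and_congr (A15c_lin z) (and_congr (A15c_mg0 z) (and_congr (A15c_ml z)
      (and_congr (not_congr (A15c_same z)) (and_congr ?_ (A15c_clsh z _ _ _ _)))))).symm))
  rw [A15c_X]


end

end Crest.Agent.R151.A
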