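import Crest.Agent.R151.A15c

/-! Row 151 (A): the end opposite to an end of a line -/

set_option autoImplicit false

open MeasureTheory Set Filter Topology
open Crest.ProbabilityR.FirstPassage

namespace Crest.Agent.R151.A

open Crest.Agent.R151.B

noncomputable section

theorem A16_max {t : Env} (ht : NN t) {r r' : ℕ → Z2} (h : Ray t r) (h' : Ray t r') (x : Z2)
    {ε : ℝ} (hε : 0 < ε) :
    ∀ᶠ k in atTop, bus t r' x - bus t r x ≤ bus t r' (r k) - bus t r (r k) + ε := by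
  filter_upwards [(h.bus_tendsto ht x).eventually (gt_mem_nhds (lt_add_of_pos_right _ hε))] with k hk
  have := h'.bus_lip ht x (r k)
  rw [h.bus_on ht k]
  linarith

theorem A16_off {t : Env} (ht : Good t) {γ : ℤ → Z2} {a : ℕ → Z2} (hγ : Lin t γ) (ha : Ray t a)
    (ho : Opp t a (rP γ)) (hc : ¬ Cl t a (rN γ) univ 0) : ∀ᶠ k in atTop, a k ∉ range γ := by
  have key : ∀ r, Ray t r → ¬ Cl t a r univ 0 → ∃ N, ∀ i ≥ N, ∀ j ≥ N, a i ≠ r j := by
    intro r hr h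
    by_contra hn
    push Not at hn
    refine h (by
      simpa using cl_of_near (C := 0) ht.nn ha hr fun N => by
        obtain ⟨i, hi, j, hj, e⟩ := hn N
        exact ⟨i, hi, j, hj, by rw [e, T_self ht.nn]⟩)
  obtain ⟨N₁, h₁⟩ := key _ hγ.rayN hc
  obtain ⟨N₂, h₂⟩ := key _ hγ.rayP fun h => by
    obtain ⟨C, hC⟩ := (opp_iff ht.nn hγ.rayP hγ.rayP).1 (ho.of_cl ht.nn ha hγ.rayP hγ.rayP h)
    obtain ⟨k, hk⟩ := ((hγ.rayP.tendsto_T ht).eventually_gt_atTop (C / 2)).exists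
    have := hC (rP γ k)
    rw [hγ.rayP.bus_on ht.nn k] at this
    linarith
  have hS : (γ '' Icc (-(N₁ : ℤ)) N₂).Finite := (finite_Icc _ _).image _
  have h3 := (ha.inj ht).tendsto_cofinite.eventually hS.compl_mem_cofinite
  rw [Nat.cofinite_eq_atTop] at h3
  filter_upwards [h3, eventually_ge_atTop N₁, eventually_ge_atTop N₂] with k k1 k2 k3
  rintro ⟨l, hl⟩
  by_cases c1 : l < -(N₁ : ℤ)
  · refine h₁ k k2 (-l).toNat (by omega) ?_
    rw [← hl, rN]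
    congr 1
    omega
  by_cases c2 : (N₂ : ℤ) < l
  · refine h₂ k k3 l.toNat (by omega) ?_
    rw [← hl, rP]
    congr 1
    omega
  exact k1 ⟨l, ⟨by omega, by omega⟩, hl⟩

theorem end_det {t : Env} (ht : Good t) {γ : ℤ → Z2} {a : ℕ → Z2} (hγ : Lin t γ) (ha : Ray t a)
    (ho : Opp t a (rP γ)) (hc : ¬ Cl t a (rN γ) univ 0) :
    ∃ D K m : ℕ, ∀ R, t ∈ E2 (Far 0 R) (Far 0 R) 0 D K (1 / (m + 1)) := by
  obtain ⟨k₀, hk₀⟩ := eventually_atTop.1 (A16_off ht hγ ha ho hc)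
  obtain ⟨x, y, hxy⟩ : ∃ x y, bus t (rN γ) x - bus t a x < bus t (rN γ) y - bus t a y := by
    by_contra h
    push Not at h
    exact hc fun x _ y _ => abs_le.2 ⟨by linarith [h x y, h y x], by linarith [h x y, h y x]⟩
  obtain ⟨ε, hε, hε'⟩ : ∃ ε : ℝ, 0 < ε ∧
      4 * ε = bus t (rN γ) y - bus t a y - (bus t (rN γ) x - bus t a x) :=
    ⟨_, by linarith, mul_div_cancel₀ _ four_ne_zero⟩
  obtain ⟨k, k1, k2⟩ := ((A16_max ht.nn ha hγ.rayN y hε).and (eventually_ge_atTop k₀)).exists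
  obtain ⟨j, j1⟩ := (A16_max ht.nn hγ.rayN ha x hε).exists
  obtain ⟨m, hm⟩ := exists_nat_one_div_lt hε
  obtain ⟨C, hC⟩ := ho
  refine ⟨max (ni (rN γ j - 0)) (ni (a k - 0)), ⌈C + T t 0 (rN γ j) + T t 0 (a k)⌉₊, m, fun R => ?_⟩
  obtain ⟨n, hn⟩ := hγ.escape ht 0 R
  obtain ⟨N₀, hN₀⟩ := inj_escape (ha.inj ht) 0 R
  obtain ⟨M, M1, M2, M3⟩ := (((hγ.rayN.diff_tendsto ht.nn (a k) (rN γ j)).eventually
    (lt_mem_nhds (sub_lt_self _ (half_pos hε)))).and
    ((eventually_ge_atTop n).and (eventually_ge_atTop j))).exists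
  obtain ⟨N, N1, N2, N3⟩ := (((ha.diff_tendsto ht.nn (a k) (rN γ j)).eventually
    (gt_mem_nhds (lt_add_of_pos_right _ (half_pos hε)))).and
    ((eventually_ge_atTop N₀).and (eventually_ge_atTop k))).exists
  refine ⟨rP γ n, hn n (le_abs_self _), rN γ M, hn (-M) (by rw [abs_neg, Nat.abs_cast]; omega),
    a N, hN₀ N N2, rN γ j, mem_bx.2 (le_max_left _ _), a k, mem_bx.2 (le_max_right _ _),
    (hγ.btw ht.nn (by omega) (by omega)).symm, fun w h1 h2 => ?_, ?_, by linarith⟩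
  · obtain ⟨i, i1, -, i2⟩ := ht.btw_idx (ha N) N3 le_rfl h1
    obtain ⟨l, -, -, l2⟩ := hγ.idx ht (i := -M) (j := n) (by omega) h2.symm
    exact hk₀ i (k2.trans i1) ⟨l, l2.trans i2.symm⟩
  · have a1 := hC N n
    have a2 := T_tri ht.nn (rP γ n) 0 (rN γ j)
    have a3 := T_tri ht.nn (a k) 0 (a N)
    have a4 := Nat.le_ceil (C + T t 0 (rN γ j) + T t 0 (a k))
    rw [T_symm t (rP γ n) 0] at a2
    rw [T_symm t (a k) 0] at a3
    rw [T_symm t (a N)] at a1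
    linarith

end

end Crest.Agent.R151.A
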