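import Crest.Agent.R151.A16
import Crest.Agent.R151.A14

/-! Row 151 (A): the end opposite to an end of a line -/

set_option autoImplicit false

open MeasureTheory Set Filter Topology
open Crest.ProbabilityR.FirstPassage

namespace Crest.Agent.R151.A

open Crest.Agent.R151.B

noncomputable section

variable {G : Measure ℝ}

theorem a16b_null (hG : ALaw G) (D K m : ℕ) :
    ∀ᵐ t ∂iidLaw G, t ∉ ⋂ R, E2 (Far 0 R) (Far 0 R) 0 D K (1 / (m + 1)) := by
  refine hG.null_of fun ε hε => ?_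
  obtain ⟨D', C, -, hC, h⟩ := hG.ybr D K (η := 1 / (m + 1)) (ε := ε / 2) (by positivity)
    (by positivity)
  obtain ⟨R, hR, h'⟩ := hG.trif_box D' (ε := ε / (2 * (C + 1))) (by positivity)
  have h1 := h 0 (Far 0 R) (Far 0 R) (fun A hA => hR.trans_le hA) fun y hy => hR.trans_le hy
  have h2 : C * Pr G (E0 (Far 0 R) (Far 0 R) 0 D') ≤ ε / 2 := by
    calc C * Pr G (E0 (Far 0 R) (Far 0 R) 0 D') ≤ (C + 1) * (ε / (2 * (C + 1))) := by
          have := Pr_nonneg G (E0 (Far 0 R) (Far 0 R) 0 D')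
          gcongr
          linarith
      _ = ε / 2 := by field_simp
  have := hG.isP
  have h3 : Pr G (⋂ R, E2 (Far 0 R) (Far 0 R) 0 D K (1 / (m + 1))) ≤
      Pr G (E2 (Far 0 R) (Far 0 R) 0 D K (1 / (m + 1))) :=
    measureReal_mono (iInter_subset _ R)
  linarith

theorem ALaw.good2 (hG : ALaw G) : ∀ᵐ t ∂iidLaw G, Good2 t := by
  have h : ∀ᵐ t ∂iidLaw G, ∀ D K m : ℕ,
      t ∉ ⋂ R, E2 (Far 0 R) (Far 0 R) 0 D K (1 / (m + 1)) :=
    ae_all_iff.2 fun D => ae_all_iff.2 fun K => ae_all_iff.2 fun m => a16b_null hG D K m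
  filter_upwards [hG.good, hG.ae_notrif, h] with t h1 h2 h3
  refine ⟨h1, h2, fun γ a hγ ha ho => ?_⟩
  by_contra hc
  obtain ⟨D, K, m, h4⟩ := end_det h1 hγ ha ho hc
  exact h3 D K m (mem_iInter.2 h4)

end

end Crest.Agent.R151.A
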