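import Crest.Agent.R151.A15c

/-! Row 151 (A): distinct lines have no opposite ends -/

set_option autoImplicit false

open MeasureTheory Set Filter Topology
open Crest.ProbabilityR.FirstPassage

namespace Crest.Agent.R151.A

open Crest.Agent.R151.B

noncomputable section

variable {t : Env} {γ γ' : ℤ → Z2} {z : Z2} {δ : ℝ}

theorem A17_cl0 {r r' : ℕ → Z2} (hc : Cl t r r' univ 0) (x y : Z2) :
    bus t r x - bus t r y = bus t r' x - bus t r' y := by
  have := hc x (mem_univ _) y (mem_univ _)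
  have h2 := abs_nonpos_iff.1 this
  linarith

theorem A17_btw (ht : NN t) (h : Lin t γ) (h' : Lin t γ') {k k' i j : ℤ} (e : γ' k' = γ k)
    (hc : Cl t (rN γ') (rN γ) univ 0) (hi : i ≤ k) (hj : k' ≤ j) :
    Btw t (γ i) (γ k) (γ' j) := by
  have h1 := h.rayN.bus_lip ht (γ' j) (γ i)
  have h2 := A17_cl0 hc (γ' j) (γ' k')
  have h3 := h'.busN ht hj
  have h4 := h.busN ht hi
  have h5 := T_tri ht (γ i) (γ k) (γ' j)
  rw [T_symm t (γ' j) (γ i)] at h1
  rw [e] at h2 h3
  unfold Btw
  linarith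

theorem A17_step (ht : Good2 t) (h : Lin t γ) (h' : Lin t γ') {k k' : ℤ} (e : γ' k' = γ k)
    (hc : Cl t (rN γ') (rN γ) univ 0) : γ' (k' + 1) = γ (k + 1) := by
  have hg : Good t := ht.toGood
  have hn : NN t := hg.nn
  by_contra hne
  obtain ⟨R, hR⟩ := ht.notrif (γ k)
  apply hR
  obtain ⟨N, hN⟩ := h.escape hg (γ k) R
  obtain ⟨N', hN'⟩ := h'.escape hg (γ k) R
  obtain ⟨n, hn0, hn1, hn2, hn3⟩ : ∃ n : ℤ, 0 ≤ n ∧ (N : ℤ) ≤ |k - n| ∧ (N : ℤ) ≤ |k + n| ∧
      (N' : ℤ) ≤ |k' + n| := by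
    refine ⟨N + N' + |k| + |k'|, by positivity, ?_, ?_, ?_⟩
    · have := le_abs_self k
      have := abs_nonneg k'
      have := neg_le_abs (k - (N + N' + |k| + |k'|))
      omega
    · have := neg_abs_le k
      have := abs_nonneg k'
      have := le_abs_self (k + (N + N' + |k| + |k'|))
      omega
    · have := neg_abs_le k'
      have := abs_nonneg k
      have := le_abs_self (k' + (N + N' + |k| + |k'|))
      omega
  refine ⟨γ (k - n), hN _ hn1, γ (k + n), hN _ hn2, γ' (k' + n), hN' _ hn3,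
    h.btw hn (by omega) (by omega), A17_btw hn h h' e hc (by omega) (by omega), ?_⟩
  intro c h1 h2 h3
  by_contra hcp
  have b1 : Btw t (γ k) c (γ (k + n)) := (Btw.trans2 hn h2 h1).2
  have b2 : Btw t (γ' k') c (γ' (k' + n)) := by
    rw [e]; exact (Btw.trans2 hn h3 h1).2
  obtain ⟨l, hl1, -, hl⟩ := h.idx hg (by omega) b1
  obtain ⟨l', hl1', -, hl'⟩ := h'.idx hg (by omega) b2
  have hkl : k + 1 ≤ l := by
    rcases eq_or_lt_of_le hl1 with h0 | h0
    · exact absurd (by rw [← hl, h0]) hcp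
    · omega
  have hkl' : k' + 1 ≤ l' := by
    rcases eq_or_lt_of_le hl1' with h0 | h0
    · exact absurd (by rw [← hl', ← h0, e]) hcp
    · omega
  have c1 : Btw t (γ k) (γ (k + 1)) c := by
    rw [← hl]; exact h.btw hn (by omega) hkl
  have c2 : Btw t (γ k) (γ' (k' + 1)) c := by
    rw [← hl', ← e]; exact h'.btw hn (by omega) hkl'
  rcases hg.cmp c1 c2 with d | d
  · rw [← e] at d
    obtain ⟨m, hm1, hm2, hm⟩ := h'.idx hg (by omega) d
    rcases eq_or_lt_of_le hm1 with h0 | h0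
    · rw [← h0, e] at hm
      have := h.inj hg hm
      omega
    · have : m = k' + 1 := by omega
      rw [this] at hm
      exact hne hm
  · obtain ⟨m, hm1, hm2, hm⟩ := h.idx hg (by omega) d
    rcases eq_or_lt_of_le hm1 with h0 | h0
    · rw [← h0, ← e] at hm
      have := h'.inj hg hm
      omega
    · have : m = k + 1 := by omega
      rw [this] at hm
      exact hne hm.symm

theorem sep_ray (ht : Good2 t) (h : Lin t γ) (h' : Lin t γ') {k k' : ℤ} (e : γ' k' = γ k)
    (hc : Cl t (rN γ') (rN γ) univ 0) (i : ℕ) : γ' (k' + i) = γ (k + i) := by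
  induction i with
  | zero => simpa using e
  | succ i ih =>
    have := A17_step ht h h' ih hc
    push_cast
    rw [← add_assoc, ← add_assoc]
    exact this
theorem sep_thru (ht : Good t) (h : Lin t γ) (h' : Lin t γ') (hm : Mg t γ z δ) (hδ : 0 < δ)
    (hN : Cl t (rN γ') (rN γ) univ 0) (hP : Cl t (rP γ') (rP γ) univ 0) : z ∈ range γ' := by
  have hn : NN t := ht.nn
  have eN := fun x => A17_cl0 hN x z
  have eP := fun x => A17_cl0 hP x z
  have c0 : bus t (rN γ') z - bus t (rN γ) z + (bus t (rP γ') z - bus t (rP γ) z) = 0 := by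
    have a1 := h'.X_nonneg hn (γ 0)
    have a2 := h.X_on hn 0
    have a3 := h.X_nonneg hn (γ' 0)
    have a4 := h'.X_on hn 0
    unfold X at a1 a2 a3 a4
    have := eN (γ 0)
    have := eP (γ 0)
    have := eN (γ' 0)
    have := eP (γ' 0)
    linarith
  have t1 := (h'.busN_bot ht).eventually (eventually_lt_atBot (bus t (rN γ') z))
  have t2 := (h'.rv.busN_bot ht).eventually (eventually_lt_atBot (bus t (rP γ') z))
  obtain ⟨n, h1, h2⟩ := (t1.and t2).exists
  rw [rN_rv] at h2
  have e2 : rv γ' (-(n : ℤ)) = γ' n := by simp [rv]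
  rw [e2] at h2
  have hle : (-(n : ℤ)) ≤ n := by omega
  have hl : bus t (rN γ) (γ' (-n)) + T t (γ' (-n)) (γ' n) + bus t (rP γ) (γ' n) < δ := by
    have a1 := h'.busN hn hle
    have a2 := h'.X_on hn n
    unfold X at a2
    have := eN (γ' (-n))
    have := eP (γ' n)
    linarith
  rcases hm.three hn h hl with d | d | d
  · have := eN (γ' (-n))
    have := T_nonneg hn (γ' (-n)) z
    linarith
  · obtain ⟨m, -, -, hm⟩ := h'.idx ht hle d
    exact ⟨m, hm⟩
  · have := eP (γ' n)
    have := T_nonneg hn (γ' n) z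
    linarith
theorem sep (ht : Good2 t) (h : ML t γ) (h' : Lin t γ') (ho : Opp t (rN γ') (rP γ)) :
    Same γ γ' := by
  have hg : Good t := ht.toGood
  have hn : NN t := hg.nn
  obtain ⟨hl, z, n, hm⟩ := h
  have hN : Cl t (rN γ') (rN γ) univ 0 := ht.ends γ (rN γ') hl h'.rayN ho
  have o2 : Opp t (rP γ') (rP (rv γ)) := by
    rw [rP_rv]
    exact (Opp.of_cl hn h'.rayN hl.rayN h'.rayP (h'.opp hn) hN).symm
  have hP : Cl t (rP γ') (rP γ) univ 0 := by
    have := ht.ends (rv γ) (rP γ') hl.rv h'.rayP o2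
    rwa [rN_rv] at this
  obtain ⟨k', hk'⟩ := sep_thru hg hl h' hm (by positivity) hN hP
  obtain ⟨k, hk⟩ := hm.mem
  have e : γ' k' = γ k := by rw [hk, hk']
  have f1 := sep_ray ht hl h' e hN
  have f2 := sep_ray ht hl.rv h'.rv (k := -k) (k' := -k') (by simpa [rv] using e)
    (by rw [rN_rv, rN_rv]; exact hP)
  refine ⟨k - k', Or.inl fun i => ?_⟩
  rcases le_total k' i with hi | hi
  · obtain ⟨m, hm⟩ := Int.eq_ofNat_of_zero_le (sub_nonneg.2 hi)
    have := f1 m
    rw [← hm] at this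
    convert this using 2 <;> ring
  · obtain ⟨m, hm⟩ := Int.eq_ofNat_of_zero_le (sub_nonneg.2 hi)
    have := f2 m
    rw [← hm] at this
    simp only [rv] at this
    convert this using 2 <;> ring
theorem sep_opp (ht : Good2 t) (h : ML t γ) (h' : Lin t γ') (hs : ¬ Same γ γ') (o o' : Bool) :
    ¬ Opp t (rP (orn o γ)) (rP (orn o' γ')) := by
  intro ho
  apply hs
  have s1 : Same (orn o γ) (rv (orn o' γ')) :=
    sep ht (h.orn o) (h'.orn o').rv (by rw [rN_rv]; exact ho.symm)
  exact (((same_orn o γ).trans s1).trans (same_rv _).symm).trans (same_orn o' γ').symm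
theorem sep_cl (ht : Good2 t) (h : ML t γ) (h' : Lin t γ') (hs : ¬ Same γ γ') (o o' : Bool) (K : ℝ) :
    ¬ Cl t (rP (orn o γ)) (rP (orn o' γ')) univ K := by
  intro hc
  have hn : NN t := ht.toGood.nn
  have l1 := h.1.orn o
  have l2 := h'.orn o'
  have o1 := Opp.of_cl hn l1.rayP l2.rayP l1.rayN (l1.opp hn).symm hc
  have e : rN (orn o γ) = rP (orn (!o) γ) := by
    rw [← rP_rv]
    cases o
    · simp [orn]
    · simp [orn, rv_rv]
  rw [e] at o1
  exact sep_opp ht h h' hs (!o) o' o1.symm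

end

end Crest.Agent.R151.A
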