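import Crest.Agent.R151.A1b

/-! Row 151 (A): planarity in a square -/

set_option autoImplicit false

open MeasureTheory Set Filter Topology
open Crest.ProbabilityR.FirstPassage

namespace Crest.Agent.R151.A

open Crest.Agent.R151.B

noncomputable section

/-- the step `p → q` crosses the ray that starts above `v` and goes to the right -/
def a18c (v p q : Z2) : ℤ :=
  if p.1 = q.1 ∧ v.1 < p.1 ∧ ((p.2 = v.2 ∧ q.2 = v.2 + 1) ∨ (q.2 = v.2 ∧ p.2 = v.2 + 1)) then 1 else 0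
def a18h (R : ℤ) (x v : Z2) : ℤ :=
  if (x.1 = R ∧ v.2 < x.2) ∨ (x.1 ≠ R ∧ x.2 = R ∧ v.2 = R ∧ v.1 < x.1) then 1 else 0
def a18U (v v' p : Z2) : ℤ :=
  if v.1 = v'.1 ∧ v.1 < p.1 ∧ ((v'.2 = v.2 + 1 ∧ p.2 = v'.2) ∨ (v.2 = v'.2 + 1 ∧ p.2 = v.2)) then 1
  else 0
def a18P (R : ℤ) (v p : Z2) : ℤ :=
  if v.1 ≠ R ∧ v.2 ≠ R ∧ ((v.2 = -R ∧ p.2 = -R ∧ v.1 < p.1) ∨ (v.2 ≠ -R ∧ v.2 < p.2)) then 1 else 0
def a18k (R : ℤ) (x : Z2) : ℤ := if x.2 = -R ∨ x.1 = R then 0 else 1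
def a18In (R : ℤ) (x : Z2) : Prop := -R ≤ x.1 ∧ x.1 ≤ R ∧ -R ≤ x.2 ∧ x.2 ≤ R
def a18Bd (R : ℤ) (x : Z2) : Prop := x.1 = R ∨ x.1 = -R ∨ x.2 = R ∨ x.2 = -R
def a18Ad (p q : Z2) : Prop :=
  (p.1 = q.1 ∧ (q.2 = p.2 + 1 ∨ p.2 = q.2 + 1)) ∨ (p.2 = q.2 ∧ (q.1 = p.1 + 1 ∨ p.1 = q.1 + 1))
def a18Ne (p q : Z2) : Prop := p.1 ≠ q.1 ∨ p.2 ≠ q.2

theorem a18_in {R : ℕ} {x : Z2} (h : ni x ≤ R) : a18In R x := by
  unfold a18In
  unfold ni at h
  omega

theorem a18_bd {R : ℕ} {x : Z2} (h : ni x = R) : a18Bd R x := by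
  unfold a18Bd
  unfold ni at h
  omega

theorem a18_ad {p q : Z2} (h : squareLattice.Adj p q) : a18Ad p q := by
  have h2 := ((SimpleGraph.fromRel_adj _ p q).1 h).2
  unfold a18Ad
  omega

theorem a18_ne {p q : Z2} (h : p ≠ q) : a18Ne p q := by
  by_contra hn
  unfold a18Ne at hn
  exact h (Prod.ext (by omega) (by omega))

theorem a18_tele (a : ℕ → ℤ) (U : ℕ → ℤ) (n : ℕ) (h : ∀ i < n, (a i + U i + U (i + 1)) % 2 = 0) :
    (∑ i ∈ Finset.range n, a i + U 0 + U n) % 2 = 0 := by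
  induction n with
  | zero =>
    rw [Finset.sum_range_zero]
    omega
  | succ n ih =>
    have h1 := ih fun i hi => h i (Nat.lt_succ_of_lt hi)
    have h2 := h n (Nat.lt_succ_self n)
    rw [Finset.sum_range_succ]
    omega

def a18Up (p q : Z2) : Prop := (q.1 = p.1 ∧ q.2 = p.2 + 1) ∨ (q.2 = p.2 ∧ q.1 = p.1 + 1)

theorem a18_up {p q : Z2} (h : a18Ad p q) : a18Up p q ∨ a18Up q p := by
  unfold a18Ad at h
  unfold a18Up
  omega

theorem a18_move0 {v v' p q : Z2} (hv : a18Up v v') (h : a18Up p q) (n1 : a18Ne p v)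
    (n2 : a18Ne p v') (n3 : a18Ne q v) (n4 : a18Ne q v') :
    (a18c v p q + a18c v' p q + a18U v v' p + a18U v v' q) % 2 = 0 := by
  obtain ⟨a, b⟩ := v
  obtain ⟨a', b'⟩ := v'
  obtain ⟨c, d⟩ := p
  obtain ⟨c', d'⟩ := q
  simp only [a18Up, a18Ne] at hv h n1 n2 n3 n4
  simp only [a18c, a18U]
  rcases hv with ⟨rfl, rfl⟩ | ⟨rfl, rfl⟩ <;> rcases h with ⟨rfl, rfl⟩ | ⟨rfl, rfl⟩ <;>
    split_ifs <;> omega

theorem a18_move {v v' p q : Z2} (hv : a18Ad v v') (h : a18Ad p q) (n1 : a18Ne p v)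
    (n2 : a18Ne p v') (n3 : a18Ne q v) (n4 : a18Ne q v') :
    (a18c v p q + a18c v' p q + a18U v v' p + a18U v v' q) % 2 = 0 := by
  have sc : ∀ v p q, a18c v p q = a18c v q p := fun v p q => by
    unfold a18c
    exact if_congr (by omega) rfl rfl
  have sU : ∀ v v' p, a18U v v' p = a18U v' v p := fun v v' p => by
    unfold a18U
    exact if_congr (by omega) rfl rfl
  have k1 : ∀ v v' : Z2, a18Up v v' → a18Ne p v → a18Ne p v' → a18Ne q v → a18Ne q v' →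
      (a18c v p q + a18c v' p q + a18U v v' p + a18U v v' q) % 2 = 0 := by
    intro v v' hv n1 n2 n3 n4
    rcases a18_up h with h | h
    · exact a18_move0 hv h n1 n2 n3 n4
    · have := a18_move0 hv h n3 n4 n1 n2
      rw [sc v q p, sc v' q p] at this
      omega
  rcases a18_up hv with hv | hv
  · exact k1 v v' hv n1 n2 n3 n4
  · have := k1 v' v hv n2 n1 n4 n3
    rw [sU v' v p, sU v' v q] at this
    omega

theorem a18_move_bd {R : ℤ} {v v' x : Z2} (hv : a18Ad v v') (i1 : a18In R v) (i2 : a18In R v')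
    (i3 : a18In R x) (b : a18Bd R x) (n1 : a18Ne x v) (n2 : a18Ne x v') :
    (a18h R x v + a18h R x v' + a18U v v' x) % 2 = 0 := by
  unfold a18Ad a18Ne a18In a18Bd at *
  unfold a18h a18U
  split_ifs <;> omega

theorem a18_side {R : ℤ} {v p q : Z2} (i1 : a18In R v) (b : a18Bd R v) (i2 : a18In R p)
    (i3 : a18In R q) (h : a18Ad p q) (n1 : a18Ne p v) (n2 : a18Ne q v) :
    (a18c v p q + a18P R v p + a18P R v q) % 2 = 0 := by
  unfold a18Ad a18Ne a18In a18Bd at *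
  unfold a18c a18P
  split_ifs <;> omega

theorem a18_lt {R : ℕ} {v x : Z2} (i1 : a18In R v) (i2 : a18In R x)
    (h : per R x < per R v) : (a18P R v x + a18h R x v + a18k R x) % 2 = 0 := by
  unfold a18In at *
  unfold per at h
  unfold a18P a18h a18k
  split_ifs at h ⊢ <;> omega

theorem a18_gt {R : ℕ} {v x : Z2} (i1 : a18In R v) (i2 : a18In R x)
    (h : per R v < per R x) : (a18P R v x + a18h R x v + a18k R x) % 2 = 1 := by
  unfold a18In at *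
  unfold per at h
  unfold a18P a18h a18k
  split_ifs at h ⊢ <;> omega

theorem planar {R : ℕ} {g g' : ℕ → Z2} {n m : ℕ} (hg : IsP g n) (hg' : IsP g' m)
    (hb : ∀ i ≤ n, ni (g i) ≤ R) (hb' : ∀ i ≤ m, ni (g' i) ≤ R) (h1 : ni (g 0) = R)
    (h2 : ni (g' 0) = R) (h3 : ni (g n) = R) (h4 : ni (g' m) = R) (h12 : per R (g 0) < per R (g' 0))
    (h23 : per R (g' 0) < per R (g n)) (h34 : per R (g n) < per R (g' m)) :
    ∃ i ≤ n, ∃ j ≤ m, g i = g' j := by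
  by_contra hne
  have hd : ∀ i ≤ n, ∀ j ≤ m, a18Ne (g i) (g' j) := fun i hi j hj =>
    a18_ne fun e => hne ⟨i, hi, j, hj, e⟩
  have ib : ∀ i ≤ n, a18In R (g i) := fun i hi => a18_in (hb i hi)
  have ib' : ∀ j ≤ m, a18In R (g' j) := fun j hj => a18_in (hb' j hj)
  obtain ⟨N, hN⟩ : ∃ N : Z2 → ℤ, ∀ v, N v = ∑ i ∈ Finset.range n, a18c v (g i) (g (i + 1)) :=
    ⟨_, fun _ => rfl⟩
  have mv : ∀ j < m, (0 + (N (g' j) + a18h R (g 0) (g' j) + a18h R (g n) (g' j)) +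
      (N (g' (j + 1)) + a18h R (g 0) (g' (j + 1)) + a18h R (g n) (g' (j + 1)))) % 2 = 0 := by
    intro j hj
    have ad := a18_ad (hg' j hj)
    have t := a18_tele (fun i => a18c (g' j) (g i) (g (i + 1)) + a18c (g' (j + 1)) (g i) (g (i + 1)))
      (fun i => a18U (g' j) (g' (j + 1)) (g i)) n fun i hi =>
        a18_move ad (a18_ad (hg i hi)) (hd i hi.le j hj.le) (hd i hi.le (j + 1) hj)
          (hd (i + 1) hi j hj.le) (hd (i + 1) hi (j + 1) hj)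
    rw [Finset.sum_add_distrib, ← hN, ← hN] at t
    have b0 := a18_move_bd ad (ib' j hj.le) (ib' (j + 1) hj) (ib 0 n.zero_le) (a18_bd h1)
      (hd 0 n.zero_le j hj.le) (hd 0 n.zero_le (j + 1) hj)
    have bn := a18_move_bd ad (ib' j hj.le) (ib' (j + 1) hj) (ib n le_rfl) (a18_bd h3)
      (hd n le_rfl j hj.le) (hd n le_rfl (j + 1) hj)
    omega
  have inv := a18_tele (fun _ => 0) (fun j => N (g' j) + a18h R (g 0) (g' j) + a18h R (g n) (g' j))
    m mv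
  rw [Finset.sum_const_zero] at inv
  have sd : ∀ j ≤ m, ni (g' j) = R →
      (N (g' j) + a18P R (g' j) (g 0) + a18P R (g' j) (g n)) % 2 = 0 := by
    intro j hj hb
    rw [hN]
    exact a18_tele (fun i => a18c (g' j) (g i) (g (i + 1))) (fun i => a18P R (g' j) (g i)) n
      fun i hi => a18_side (ib' j hj) (a18_bd hb) (ib i hi.le) (ib (i + 1) hi) (a18_ad (hg i hi))
        (hd i hi.le j hj) (hd (i + 1) hi j hj)
  have s0 := sd 0 m.zero_le h2
  have sm := sd m le_rfl h4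
  have c1 := a18_lt (ib' 0 m.zero_le) (ib 0 n.zero_le) h12
  have c2 := a18_gt (ib' 0 m.zero_le) (ib n le_rfl) h23
  have c3 := a18_lt (ib' m le_rfl) (ib 0 n.zero_le)
    ((h12.trans h23).trans h34)
  have c4 := a18_lt (ib' m le_rfl) (ib n le_rfl) h34
  omega

end

end Crest.Agent.R151.A
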