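import Crest.Agent.R151.ADefs

/-! Row 151 (A): total variation of a sequence without alternation -/

set_option autoImplicit false

open MeasureTheory Set Filter Topology
open Crest.ProbabilityR.FirstPassage

namespace Crest.Agent.R151.A

open Crest.Agent.R151.B

noncomputable section

theorem A19_btw {a b c : ℝ} (h : (a ≤ b ∧ b ≤ c) ∨ (c ≤ b ∧ b ≤ a)) :
    |a - b| + |b - c| = |a - c| := by
  rcases h with ⟨h1, h2⟩ | ⟨h1, h2⟩
  · rw [abs_of_nonpos (by linarith), abs_of_nonpos (by linarith), abs_of_nonpos (by linarith)]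
    ring
  · rw [abs_of_nonneg (by linarith), abs_of_nonneg (by linarith), abs_of_nonneg (by linarith)]
    ring

theorem A19_real {f0 f1 f2 f3 f4 v : ℝ} (hA : |f0 - f1| + |f1 - f2| + |f2 - f4| ≤ v)
    (hB : |f0 - f1| + |f1 - f3| + |f3 - f4| ≤ v) (hC : |f0 - f2| + |f2 - f3| + |f3 - f4| ≤ v)
    (z1 : f0 < f1 → f2 < f1 → f2 < f3 → f4 < f3 → False)
    (z2 : f1 < f0 → f1 < f2 → f3 < f2 → f3 < f4 → False) :
    |f0 - f1| + |f1 - f2| + |f2 - f3| + |f3 - f4| ≤ v := by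
  by_cases b1 : (f0 ≤ f1 ∧ f1 ≤ f2) ∨ (f2 ≤ f1 ∧ f1 ≤ f0)
  · have := A19_btw b1
    linarith
  by_cases b2 : (f1 ≤ f2 ∧ f2 ≤ f3) ∨ (f3 ≤ f2 ∧ f2 ≤ f1)
  · have := A19_btw b2
    linarith
  by_cases b3 : (f2 ≤ f3 ∧ f3 ≤ f4) ∨ (f4 ≤ f3 ∧ f3 ≤ f2)
  · have := A19_btw b3
    linarith
  exfalso
  push Not at b1 b2 b3
  rcases le_total f1 f2 with h | h
  · have e1 : f3 < f2 := b2.1 h
    have e2 : f1 < f0 := by
      by_contra hc
      have := b1.1 (not_lt.1 hc)
      linarith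
    have e3 : f1 < f2 := by
      by_contra hc
      have := b1.2 (not_lt.1 hc)
      linarith
    have e4 : f3 < f4 := by
      by_contra hc
      have := b3.2 (not_lt.1 hc)
      linarith
    exact z2 e2 e3 e1 e4
  · have e2 : f0 < f1 := b1.2 h
    have e1 : f2 < f3 := by
      by_contra hc
      have := b2.2 (not_lt.1 hc)
      linarith
    have e3 : f2 < f1 := by
      by_contra hc
      have := b1.1 e2.le
      linarith
    have e4 : f4 < f3 := b3.1 e1.le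
    exact z1 e2 e3 e1 e4

theorem tv_pot {ι : Type} [Fintype ι] (θ : ι → ℕ) (hθ : Function.Injective θ) (f : ι → ℝ) {c : ℝ}
    (hc : ∀ i, |f i| ≤ c)
    (h1 : ∀ i j k l, θ i < θ j → θ j < θ k → θ k < θ l → ¬ max (f j) (f l) < min (f i) (f k))
    (h2 : ∀ i j k l, θ i < θ j → θ j < θ k → θ k < θ l → ¬ max (f i) (f k) < min (f j) (f l)) :
    ∃ V : ι → ℝ, (∀ i, 0 ≤ V i ∧ V i ≤ 6 * c) ∧ ∀ i j, θ i ≤ θ j → |f i - f j| ≤ V j - V i := by
  classical
  rcases isEmpty_or_nonempty ι with hι | hι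
  · exact ⟨fun _ => 0, fun i => (hι.false i).elim, fun i => (hι.false i).elim⟩
  obtain ⟨o, -, ho⟩ := Finset.exists_min_image Finset.univ θ Finset.univ_nonempty
  have ho' : ∀ i, θ o ≤ θ i := fun i => ho i (Finset.mem_univ i)
  have key : ∀ j, ∃ a b, θ a ≤ θ b ∧ θ b ≤ θ j ∧ ∀ a' b', θ a' ≤ θ b' → θ b' ≤ θ j →
      |f o - f a'| + |f a' - f b'| + |f b' - f j| ≤ |f o - f a| + |f a - f b| + |f b - f j| := by
    intro j
    obtain ⟨p, hp, hm⟩ := Finset.exists_max_image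
      (Finset.univ.filter fun p : ι × ι => θ p.1 ≤ θ p.2 ∧ θ p.2 ≤ θ j)
      (fun p => |f o - f p.1| + |f p.1 - f p.2| + |f p.2 - f j|) ⟨(j, j), by simp⟩
    have hp' := (Finset.mem_filter.1 hp).2
    exact ⟨p.1, p.2, hp'.1, hp'.2, fun a' b' e1 e2 =>
      hm (a', b') (Finset.mem_filter.2 ⟨Finset.mem_univ _, e1, e2⟩)⟩
  choose A B hAB hB hm using key
  have hd : ∀ i j, |f i - f j| ≤ 2 * c := fun i j => by
    have := abs_sub (f i) (f j)
    linarith [hc i, hc j]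
  have hlt : ∀ i j, θ i ≤ θ j → f i ≠ f j → θ i < θ j := fun i j h hne =>
    lt_of_le_of_ne h fun e => hne (by rw [hθ e])
  refine ⟨fun j => |f o - f (A j)| + |f (A j) - f (B j)| + |f (B j) - f j|, fun i => ⟨?_, ?_⟩, ?_⟩
  · positivity
  · linarith [hd o (A i), hd (A i) (B i), hd (B i) i]
  · intro i j hij
    have := A19_real (hm j (A i) (B i) (hAB i) ((hB i).trans hij))
      (hm j (A i) i ((hAB i).trans (hB i)) hij) (hm j (B i) i (hB i) hij) ?_ ?_
    · linarith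
    · intro e1 e2 e3 e4
      have t1 := hlt _ _ (ho' (A i)) e1.ne
      have t2 := hlt _ _ (hAB i) e2.ne'
      have t3 := hlt _ _ (hB i) e3.ne
      have t4 := hlt _ _ hij e4.ne'
      have u1 := h2 _ _ _ _ t1 t2 t3
      have u2 := h1 _ _ _ _ t2 t3 t4
      simp only [max_lt_iff, lt_min_iff, not_and] at u1 u2
      by_cases v : f o < f i
      · exact u1 ⟨e1, e2⟩ v e3
      · exact u2 ⟨e2, by linarith [not_lt.1 v]⟩ e3 e4
    · intro e1 e2 e3 e4
      have t1 := hlt _ _ (ho' (A i)) e1.ne'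
      have t2 := hlt _ _ (hAB i) e2.ne
      have t3 := hlt _ _ (hB i) e3.ne'
      have t4 := hlt _ _ hij e4.ne
      have u1 := h1 _ _ _ _ t1 t2 t3
      have u2 := h2 _ _ _ _ t2 t3 t4
      simp only [max_lt_iff, lt_min_iff, not_and] at u1 u2
      by_cases v : f i < f o
      · exact u1 ⟨e1, v⟩ e2 e3
      · exact u2 ⟨e2, e3⟩ (by linarith [not_lt.1 v]) e4

end

end Crest.Agent.R151.A
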