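import Crest.Agent.R151.A1

/-! Row 151 (A): pseudometrics on the boundary of a box -/

set_option autoImplicit false

open MeasureTheory Set Filter Topology
open Crest.ProbabilityR.FirstPassage

namespace Crest.Agent.R151.A

open Crest.Agent.R151.B

noncomputable section

theorem A1b_mem {z x : Z2} {n : ℕ} : x ∈ sp z n ↔
    (z.1 - n ≤ x.1 ∧ x.1 ≤ z.1 + n) ∧ (z.2 - n ≤ x.2 ∧ x.2 ≤ z.2 + n) ∧
      (x.1 = z.1 - n ∨ x.1 = z.1 + n ∨ x.2 = z.2 - n ∨ x.2 = z.2 + n) := by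
  simp only [sp, bx, ni, Finset.mem_filter, Finset.mem_product, Finset.mem_Icc, Prod.fst_sub,
    Prod.snd_sub]
  omega

theorem A1b_tel (d : Z2 → Z2 → ℝ) (h0 : ∀ x, d x x = 0)
    (ht : ∀ x y z, d x z ≤ d x y + d y z) (g : ℕ → Z2) (k : ℕ) :
    d (g 0) (g k) ≤ ∑ i ∈ Finset.range k, d (g i) (g (i + 1)) := by
  induction k with
  | zero => simp [h0]
  | succ k ih => rw [Finset.sum_range_succ]; linarith [ht (g 0) (g k) (g (k + 1))]

theorem A1b_seg (d : Z2 → Z2 → ℝ) (h0 : ∀ x, d x x = 0) (hs : ∀ x y, d x y = d y x)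
    (ht : ∀ x y z, d x z ≤ d x y + d y z) {z : Z2} {n : ℕ} (g : ℕ → Z2) (k : ℕ)
    (hg : Function.Injective g) (hm : ∀ i < k, g i ∈ sp z n)
    (he : (∀ i, g (i + 1) = g i + (1, 0)) ∨ ∀ i, g (i + 1) = g i + (0, 1)) :
    d (g 0) (g k) ≤ Wd d z n := by
  have hn : ∀ x y, 0 ≤ d x y := fun x y => by linarith [ht x y x, h0 x, hs x y]
  refine (A1b_tel d h0 ht g k).trans ?_
  calc ∑ i ∈ Finset.range k, d (g i) (g (i + 1))
      ≤ ∑ i ∈ Finset.range k, (d (g i) (g i + (1, 0)) + d (g i) (g i + (0, 1))) := by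
        refine Finset.sum_le_sum fun i _ => ?_
        rcases he with he | he <;> rw [he]
        · exact le_add_of_nonneg_right (hn _ _)
        · exact le_add_of_nonneg_left (hn _ _)
    _ = ∑ x ∈ (Finset.range k).image g, (d x (x + (1, 0)) + d x (x + (0, 1))) :=
        (Finset.sum_image (f := fun x => d x (x + (1, 0)) + d x (x + (0, 1)))
          fun i _ j _ h => hg h).symm
    _ ≤ Wd d z n := by
        refine Finset.sum_le_sum_of_subset_of_nonneg (fun x hx => ?_)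
          fun x _ _ => add_nonneg (hn _ _) (hn _ _)
        obtain ⟨i, hi, rfl⟩ := Finset.mem_image.1 hx
        exact hm i (Finset.mem_range.1 hi)

theorem A1b_hor (d : Z2 → Z2 → ℝ) (h0 : ∀ x, d x x = 0) (hs : ∀ x y, d x y = d y x)
    (ht : ∀ x y z, d x z ≤ d x y + d y z) {z : Z2} {n : ℕ} {a b : ℤ} (h1 : z.1 - n ≤ a)
    (h2 : a ≤ z.1 + n) (hb : b = z.2 - n ∨ b = z.2 + n) :
    d (z.1 - n, b) (a, b) ≤ Wd d z n := by
  obtain ⟨k, hk⟩ := Int.le.dest h1
  have := A1b_seg d h0 hs ht (z := z) (n := n) (fun i => (z.1 - n + i, b)) k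
    (fun i j h => by simpa using h) (fun i hi => A1b_mem.2 (by dsimp only; omega))
    (Or.inl fun i => by ext <;> simp [add_assoc])
  simpa only [Nat.cast_zero, add_zero, hk] using this

theorem A1b_ver (d : Z2 → Z2 → ℝ) (h0 : ∀ x, d x x = 0) (hs : ∀ x y, d x y = d y x)
    (ht : ∀ x y z, d x z ≤ d x y + d y z) {z : Z2} {n : ℕ} {a b : ℤ} (h1 : z.2 - n ≤ b)
    (h2 : b ≤ z.2 + n) (ha : a = z.1 - n ∨ a = z.1 + n) :
    d (a, z.2 - n) (a, b) ≤ Wd d z n := by
  obtain ⟨k, hk⟩ := Int.le.dest h1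
  have := A1b_seg d h0 hs ht (z := z) (n := n) (fun i => (a, z.2 - n + i)) k
    (fun i j h => by simpa using h) (fun i hi => A1b_mem.2 (by dsimp only; omega))
    (Or.inr fun i => by ext <;> simp [add_assoc])
  simpa only [Nat.cast_zero, add_zero, hk] using this

theorem A1b_corner (d : Z2 → Z2 → ℝ) (h0 : ∀ x, d x x = 0) (hs : ∀ x y, d x y = d y x)
    (ht : ∀ x y z, d x z ≤ d x y + d y z) {z u : Z2} {n : ℕ} (hu : u ∈ sp z n) :
    d (z.1 - n, z.2 - n) u ≤ 2 * Wd d z n := by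
  obtain ⟨a, b⟩ := u
  obtain ⟨⟨a1, a2⟩, ⟨b1, b2⟩, h⟩ := A1b_mem.1 hu
  dsimp only at a1 a2 b1 b2 h
  by_cases ha : a = z.1 - n ∨ a = z.1 + n
  · linarith [ht (z.1 - n, z.2 - n) (a, z.2 - n) (a, b), A1b_hor d h0 hs ht a1 a2 (Or.inl rfl),
      A1b_ver d h0 hs ht b1 b2 ha]
  · have hb : b = z.2 - n ∨ b = z.2 + n := by tauto
    linarith [ht (z.1 - n, z.2 - n) (z.1 - n, b) (a, b), A1b_hor d h0 hs ht a1 a2 hb,
      A1b_ver d h0 hs ht b1 b2 (Or.inl rfl)]

/-- go round the boundary of the box: from the corner `z + (-n,-n)` every boundary point is reached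
by at most two straight monotone segments of the boundary, each costs at most `Wd` -/
theorem sphere_le (d : Z2 → Z2 → ℝ) (h0 : ∀ x, d x x = 0) (hs : ∀ x y, d x y = d y x)
    (ht : ∀ x y z, d x z ≤ d x y + d y z) {z u u' : Z2} {n : ℕ} (hu : u ∈ sp z n)
    (hu' : u' ∈ sp z n) : d u u' ≤ 4 * Wd d z n := by
  linarith [ht u (z.1 - n, z.2 - n) u', hs u (z.1 - n, z.2 - n), A1b_corner d h0 hs ht hu,
    A1b_corner d h0 hs ht hu']
theorem per_inj {R : ℕ} {x y : Z2} (hx : ni x = R) (hy : ni y = R) (h : per R x = per R y) :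
    x = y := by
  obtain ⟨a, b⟩ := x
  obtain ⟨c, e⟩ := y
  simp only [ni, per] at hx hy h
  refine Prod.ext ?_ ?_ <;> dsimp only <;> split_ifs at h <;> omega

end

end Crest.Agent.R151.A
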