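import Crest.Agent.R151.A1b

/-! Row 151 (A): finite geodesics, betweenness -/

set_option autoImplicit false

open MeasureTheory Set Filter Topology
open Crest.ProbabilityR.FirstPassage

namespace Crest.Agent.R151.A

open Crest.Agent.R151.B

noncomputable section

variable {t : Env} {a b c d x y z : Z2} {g : ℕ → Z2} {n m i j k : ℕ}

theorem Good.nn (ht : Good t) : NN t := by
  exact fun e => (ht.pos e).le
theorem T_le_cst (ht : NN t) (h : IsP g n) : T t (g 0) (g n) ≤ cst t g n := by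
  obtain ⟨w, hw⟩ := h.walk
  rw [← hw]
  exact T_le_walk ht w
theorem Good.T_pos (ht : Good t) (h : x ≠ y) : 0 < T t x y := by
  obtain ⟨g, n, hg, rfl, rfl⟩ := ht.ex x y
  rw [← hg.2]
  refine Finset.sum_pos (fun i _ => ht.pos _) (Finset.nonempty_range_iff.2 ?_)
  rintro rfl
  exact h rfl
theorem Geo.sub (ht : NN t) (h : Geo t g n) (hi : i + m ≤ n) : Geo t (tl g i) m := by
  obtain ⟨r, rfl⟩ := Nat.exists_eq_add_of_le hi
  have h1 := T_le_cst ht (h.1.mono (show i ≤ i + m + r by omega))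
  have h2 := T_le_cst ht (h.1.tl hi)
  have h3 := T_le_cst ht (h.1.tl (k := i + m) (m := r) le_rfl)
  have h4 := h.2
  rw [cst_add, cst_add] at h4
  have h5 := T_tri ht (g 0) (g i) (g (i + m))
  have h6 := T_tri ht (g 0) (g (i + m)) (g (i + m + r))
  refine ⟨h.1.tl hi, ?_⟩
  simp only [tl, Nat.add_zero] at h2 h3 ⊢
  linarith
theorem Geo.mono (ht : NN t) (h : Geo t g n) (hm : m ≤ n) : Geo t g m := by
  have := h.sub ht (i := 0) (m := m) (by omega)
  rwa [show tl g 0 = g from funext fun i => by simp [tl]] at this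
theorem Geo.T_eq (ht : NN t) (h : Geo t g n) (hij : i ≤ j) (hj : j ≤ n) :
    T t (g i) (g j) = cst t g j - cst t g i := by
  obtain ⟨r, rfl⟩ := Nat.exists_eq_add_of_le hij
  have := (h.sub ht hj).2
  simp only [tl, Nat.add_zero] at this
  rw [cst_add, ← this]
  ring
theorem Geo.btw (ht : NN t) (h : Geo t g n) (hij : i ≤ j) (hjk : j ≤ k) (hk : k ≤ n) :
    Btw t (g i) (g j) (g k) := by
  rw [Btw, h.T_eq ht hij (hjk.trans hk), h.T_eq ht hjk hk, h.T_eq ht (hij.trans hjk) hk]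
  ring
theorem Geo.rev (h : Geo t g n) : Geo t (fun i => g (n - i)) n := by
  refine ⟨h.1.rev, ?_⟩
  rw [cst_rev, h.2, T_symm]
  simp
theorem Geo.lt (ht : Good t) (h : Geo t g n) (hij : i < j) (hj : j ≤ n) :
    T t (g 0) (g i) < T t (g 0) (g j) := by
  obtain ⟨r, rfl⟩ := Nat.exists_eq_add_of_lt hij
  rw [h.T_eq ht.nn (Nat.zero_le _) (hij.le.trans hj), h.T_eq ht.nn (Nat.zero_le _) hj,
    Nat.add_assoc, cst_add]
  have : 0 < cst t (tl g i) (r + 1) :=
    Finset.sum_pos (fun i _ => ht.pos _) (Finset.nonempty_range_iff.2 (Nat.succ_ne_zero r))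
  linarith
theorem Geo.le_of_T (ht : Good t) (h : Geo t g n) (hi : i ≤ n) (hj : j ≤ n)
    (hT : T t (g 0) (g i) ≤ T t (g 0) (g j)) : i ≤ j := by
  by_contra hc
  exact absurd hT (not_le.2 (h.lt ht (not_le.1 hc) hi))
theorem Geo.inj (ht : Good t) (h : Geo t g n) : Inj g n := by
  intro i hi j hj e
  exact le_antisymm (h.le_of_T ht hi hj (by rw [e])) (h.le_of_T ht hj hi (by rw [e]))
theorem Btw.symm (h : Btw t a b c) : Btw t c b a := by
  rw [Btw] at h ⊢
  rw [T_symm t c b, T_symm t b a, T_symm t c a, add_comm, h]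
theorem btw_left (ht : NN t) (a b : Z2) : Btw t a a b := by
  rw [Btw, T_self ht, zero_add]
theorem btw_right (ht : NN t) (a b : Z2) : Btw t a b b := by
  rw [Btw, T_self ht, add_zero]
theorem Btw.trans1 (ht : NN t) (h : Btw t a b d) (h' : Btw t b c d) : Btw t a b c ∧ Btw t a c d := by
  unfold Btw at *
  have h1 := T_tri ht a b c
  have h2 := T_tri ht a c d
  constructor <;> linarith
theorem Btw.trans2 (ht : NN t) (h : Btw t a c d) (h' : Btw t a b c) : Btw t a b d ∧ Btw t b c d := by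
  unfold Btw at *
  have h1 := T_tri ht b c d
  have h2 := T_tri ht a b d
  constructor <;> linarith
theorem Good.cmp (ht : Good t) (h : Btw t a b d) (h' : Btw t a c d) : Btw t a b c ∨ Btw t a c b := by
  obtain ⟨g, n, hg, rfl, rfl⟩ := ht.ex a d
  obtain ⟨i, hi, rfl⟩ := ht.uniq g n b hg h
  obtain ⟨j, hj, rfl⟩ := ht.uniq g n c hg h'
  rcases le_total i j with e | e
  · exact Or.inl (hg.btw ht.nn (Nat.zero_le _) e hj)
  · exact Or.inr (hg.btw ht.nn (Nat.zero_le _) e hi)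
theorem Good.btw_antisymm (ht : Good t) (h : Btw t a b c) (h' : Btw t a c b) : b = c := by
  by_contra hc
  have h1 := ht.T_pos hc
  unfold Btw at h h'
  rw [T_symm t c b] at h'
  linarith
theorem Good.btw_idx (ht : Good t) (h : Geo t g n) (hij : i ≤ j) (hj : j ≤ n)
    (hz : Btw t (g i) z (g j)) : ∃ k, i ≤ k ∧ k ≤ j ∧ g k = z := by
  obtain ⟨r, rfl⟩ := Nat.exists_eq_add_of_le hij
  obtain ⟨k, hk, e⟩ := ht.uniq (tl g i) r z (h.sub ht.nn hj) hz
  exact ⟨i + k, by omega, by omega, e⟩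
/-- the last common point of two geodesics from `a` -/
theorem Good.exists_br (ht : Good t) (a y y' : Z2) :
    ∃ p, Br t a y y' p ∧ ∀ u, Btw t a u y → Btw t a u y' → Btw t a u p := by
  classical
  obtain ⟨g, n, hg, h0, hn⟩ := ht.ex a y'
  subst h0
  subst hn
  have hP0 : Btw t (g 0) (g 0) y := btw_left ht.nn _ _
  have hi : Nat.findGreatest (fun i => Btw t (g 0) (g i) y) n ≤ n := Nat.findGreatest_le n
  have hs : Btw t (g 0) (g (Nat.findGreatest (fun i => Btw t (g 0) (g i) y) n)) y :=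
    Nat.findGreatest_spec (P := fun i => Btw t (g 0) (g i) y) (Nat.zero_le n) hP0
  have hmax : ∀ j ≤ n, Btw t (g 0) (g j) y →
      j ≤ Nat.findGreatest (fun i => Btw t (g 0) (g i) y) n := fun j hj h =>
    Nat.le_findGreatest (P := fun i => Btw t (g 0) (g i) y) hj h
  generalize Nat.findGreatest (fun i => Btw t (g 0) (g i) y) n = i at hi hs hmax
  refine ⟨g i, ⟨hs, hg.btw ht.nn (Nat.zero_le i) hi le_rfl, ?_⟩, ?_⟩
  · intro c h1 h2 h3
    obtain ⟨j, hj, rfl⟩ := ht.uniq g n c hg h3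
    have h4 : i ≤ j := by
      refine hg.le_of_T ht hi hj ?_
      have := T_nonneg ht.nn (g i) (g j)
      unfold Btw at h1
      linarith
    rw [le_antisymm (hmax j hj h2) h4]
  · intro u h2 h3
    obtain ⟨j, hj, rfl⟩ := ht.uniq g n u hg h3
    exact hg.btw ht.nn (Nat.zero_le j) (hmax j hj h2) hi
theorem Br.symm {y' p : Z2} (h : Br t a y y' p) : Br t a y' y p := by
  exact ⟨h.2.1, h.1, fun c h1 h2 h3 => h.2.2 c h1 h3 h2⟩
/-- moving the root forward and the targets backward keeps the branch point -/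
theorem Br.restrict (ht : NN t) {y' p a' u u' : Z2} (h : Br t a y y' p) (ha : Btw t a a' p)
    (hu : Btw t p u y) (hu' : Btw t p u' y') : Br t a' u u' p := by
  obtain ⟨h1, h2, h3⟩ := h
  obtain ⟨a1, a2⟩ := h1.trans1 ht hu
  obtain ⟨b1, b2⟩ := h2.trans1 ht hu'
  obtain ⟨c1, c2⟩ := a1.trans2 ht ha
  obtain ⟨d1, d2⟩ := b1.trans2 ht ha
  refine ⟨c2, d2, fun c e1 e2 e3 => ?_⟩
  obtain ⟨f1, f2⟩ := c1.trans1 ht e2
  obtain ⟨-, g2⟩ := d1.trans1 ht e3
  refine h3 c ?_ (a2.trans2 ht f2).1 (b2.trans2 ht g2).1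
  unfold Btw at ha e1 f1 ⊢
  linarith
theorem Good.sph (ht : Good t) (o : Z2) {L : ℕ} (h0 : ni (x - o) ≤ L) (h1 : L ≤ ni (y - o)) :
    ∃ w ∈ sp o L, Btw t x w y := by
  obtain ⟨g, n, hg, e0, en⟩ := ht.ex x y
  subst e0
  subst en
  obtain ⟨i, hi, h, -⟩ := hg.1.ivt o h0 h1
  exact ⟨g i, mem_sp.2 h, hg.btw ht.nn (Nat.zero_le i) hi le_rfl⟩
theorem W_nonneg (ht : NN t) (z : Z2) (n : ℕ) : 0 ≤ W t z n := by
  exact Finset.sum_nonneg fun x _ => add_nonneg (T_nonneg ht _ _) (T_nonneg ht _ _)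
theorem T_sphere (ht : NN t) (hx : x ∈ sp z n) (hy : y ∈ sp z n) : T t x y ≤ 4 * W t z n := by
  exact sphere_le (T t) (T_self ht) (T_symm t) (T_tri ht) hx hy
theorem MgP.mono {δ δ' : ℝ} (h : MgP t x y z δ) (hδ : δ' ≤ δ) : MgP t x y z δ' := by
  exact ⟨h.1, fun u u' hu => h.2 u u' (by linarith)⟩
theorem MgP.symm {δ : ℝ} (h : MgP t x y z δ) : MgP t y x z δ := by
  refine ⟨h.1.symm, fun u u' hu => ?_⟩
  have := h.2 u' u (by
    rw [T_symm t x u', T_symm t u' u, T_symm t u y, T_symm t x y]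
    linarith)
  rcases this with h1 | h1 | h1
  · exact Or.inr (Or.inr h1.symm)
  · exact Or.inr (Or.inl h1.symm)
  · exact Or.inl h1.symm
theorem btw_sh (z : Z2) : Btw (sh z t) a b c ↔ Btw t (a + z) (b + z) (c + z) := by
  unfold Btw
  rw [T_sh, T_sh, T_sh]
theorem br_sh (z : Z2) {y' p : Z2} :
    Br (sh z t) a y y' p ↔ Br t (a + z) (y + z) (y' + z) (p + z) := by
  unfold Br
  simp only [btw_sh]
  refine and_congr Iff.rfl (and_congr Iff.rfl ⟨fun h c h1 h2 h3 => ?_, fun h c h1 h2 h3 => ?_⟩)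
  · have := h (c - z) (by rwa [sub_add_cancel]) (by rwa [sub_add_cancel])
      (by rwa [sub_add_cancel])
    rw [← this, sub_add_cancel]
  · exact add_right_cancel (h (c + z) h1 h2 h3)
theorem mgp_sh (o : Z2) {δ : ℝ} : MgP (sh o t) x y z δ ↔ MgP t (x + o) (y + o) (z + o) δ := by
  unfold MgP
  simp only [btw_sh, T_sh]
  refine and_congr Iff.rfl ⟨fun h u u' hu => ?_, fun h u u' hu => h _ _ hu⟩
  have := h (u - o) (u' - o) (by rwa [sub_add_cancel, sub_add_cancel])
  rwa [sub_add_cancel, sub_add_cancel] at this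
theorem geo_sh (z : Z2) : Geo (sh z t) g n ↔ Geo t (fun i => g i + z) n := by
  unfold Geo IsP
  simp only [adj_add, T_sh]
  have : cst (sh z t) g n = cst t (fun i => g i + z) n := by
    unfold cst
    refine Finset.sum_congr rfl fun i _ => ?_
    simp only [sh, ed, Sym2.map_mk]
  rw [this]

end

end Crest.Agent.R151.A
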