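import Crest.Agent.R151.A15c
import Crest.Agent.R151.A18

/-! Row 151 (A): cyclic order of rays -/

set_option autoImplicit false

open MeasureTheory Set Filter Topology
open Crest.ProbabilityR.FirstPassage

namespace Crest.Agent.R151.A

open Crest.Agent.R151.B

noncomputable section

variable {t : Env} {κ : Type} {r : κ → ℕ → Z2} {θ : κ → ℕ} {k₁ k₂ k₃ k₄ : κ}

theorem a20_hit {q : ℕ → Z2} (hp : ∀ n, IsP q n) (hi : Function.Injective q) {R : ℕ}
    (h0 : ni (q 0) ≤ R) : ∃ n, ni (q n) = R ∧ ∀ i < n, ni (q i) < R := by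
  obtain ⟨N, hN⟩ := inj_escape hi 0 R
  obtain ⟨i, -, h1, h2⟩ := (hp N).ivt 0 (L := R) (by simpa using h0) (hN N le_rfl)
  exact ⟨i, by simpa using h1, by simpa using h2⟩

theorem a20_rank [Fintype κ] {p : κ → ℤ} (hp : Function.Injective p) :
    ∃ θ : κ → Fin (Fintype.card κ + 1), Function.Injective (fun k => (θ k : ℕ)) ∧
      ∀ k k', (θ k : ℕ) < θ k' → p k < p k' := by
  classical
  have h : ∀ k k', p k < p k' → (Finset.univ.filter fun j => p j < p k).card <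
      (Finset.univ.filter fun j => p j < p k').card := fun k k' e =>
    Finset.card_lt_card ⟨fun j hj => by
      simp only [Finset.mem_filter, Finset.mem_univ, true_and] at hj ⊢
      exact hj.trans e, fun hs => by
      have := hs (show k ∈ Finset.univ.filter fun j => p j < p k' by simpa using e)
      simp at this⟩
  refine ⟨fun k => ⟨(Finset.univ.filter fun j => p j < p k).card,
    Nat.lt_succ_of_le (Finset.card_le_univ _)⟩, fun k k' e => ?_, fun k k' e => ?_⟩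
  · simp only at e
    rcases lt_trichotomy (p k) (p k') with h' | h' | h'
    · exact absurd e (h _ _ h').ne
    · exact hp h'
    · exact absurd e (h _ _ h').ne'
  · simp only at e
    rcases lt_trichotomy (p k) (p k') with h' | h' | h'
    · exact h'
    · rw [hp h'] at e
      exact absurd e (lt_irrefl _)
    · exact absurd e (h _ _ h').le.not_gt

theorem ord_exists [Fintype κ] (ht : Good t) (hr : ∀ k, Ray t (r k))
    (ha : ∀ k k', k ≠ k' → Apart t (r k) (r k')) : ∃ θ, Ord r θ := by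
  classical
  have hinj : ∀ k, Function.Injective (r k) := fun k i j e =>
    (hr k (max i j)).inj ht i (le_max_left _ _) j (le_max_right _ _) e
  have hN : ∃ N, ∀ k k', k ≠ k' → ∀ i ≥ N, ∀ j ≥ N, r k i ≠ r k' j := by
    have : ∀ k k', ∃ N, k ≠ k' → ∀ i ≥ N, ∀ j ≥ N, r k i ≠ r k' j := by
      intro k k'
      by_cases h : k = k'
      · exact ⟨0, fun h' => absurd h h'⟩
      · obtain ⟨N, hN⟩ := ha k k' h 0
        refine ⟨N, fun _ i hi j hj e => ?_⟩
        have := hN i hi j hj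
        rw [e, T_self ht.nn] at this
        exact lt_irrefl _ this
    choose N hN using this
    refine ⟨Finset.univ.sup fun p : κ × κ => N p.1 p.2, fun k k' h i hi j hj => ?_⟩
    have : N k k' ≤ Finset.univ.sup fun p : κ × κ => N p.1 p.2 :=
      Finset.le_sup (f := fun p : κ × κ => N p.1 p.2) (Finset.mem_univ (k, k'))
    exact hN k k' h i (this.trans hi) j (this.trans hj)
  obtain ⟨N, hN⟩ := hN
  obtain ⟨B, hB⟩ : ∃ B, ∀ k, ∀ i ≤ N, ni (r k i) < B := by
    refine ⟨(Finset.univ.sup fun k => (Finset.range (N + 1)).sup fun i => ni (r k i)) + 1,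
      fun k i hi => Nat.lt_succ_of_le ?_⟩
    exact (Finset.le_sup (f := fun i => ni (r k i)) (Finset.mem_range.2 (by omega))).trans
      (Finset.le_sup (f := fun k => (Finset.range (N + 1)).sup fun i => ni (r k i))
        (Finset.mem_univ k))
  let P : (κ → Fin (Fintype.card κ + 1)) → ℕ → Prop := fun θ R =>
    Function.Injective (fun k => (θ k : ℕ)) ∧ ∃ n : κ → ℕ,
      (∀ k, ni (r k (n k)) = R ∧ ∀ i < n k, ni (r k i) < R) ∧
      ∀ k k', (θ k : ℕ) < θ k' → per R (r k (n k)) < per R (r k' (n k'))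
  have h1 : ∀ᶠ R in atTop, ∃ θ, P θ R := by
    filter_upwards [eventually_ge_atTop B] with R hR
    choose n hn using fun k => a20_hit (fun n => (hr k n).1) (hinj k)
      ((hB k 0 (Nat.zero_le _)).le.trans hR)
    have hn' : ∀ k, N ≤ n k := fun k => by
      by_contra hc
      have := hB k (n k) (by omega)
      have := (hn k).1
      omega
    have hp : Function.Injective fun k => per R (r k (n k)) := fun k k' e => by
      by_contra hc
      exact hN k k' hc _ (hn' k) _ (hn' k') (per_inj (hn k).1 (hn k').1 e)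
    obtain ⟨θ, h1, h2⟩ := a20_rank hp
    exact ⟨θ, h1, n, hn, h2⟩
  have h2 : ∃ θ, ∃ᶠ R in atTop, P θ R := by
    by_contra hc
    simp only [not_exists, not_frequently] at hc
    obtain ⟨R, ⟨θ, h⟩, h'⟩ := (h1.and (eventually_all.2 hc)).exists
    exact h' θ h
  obtain ⟨θ, h2⟩ := h2
  refine ⟨fun k => θ k, h2.exists.choose_spec.1, fun R₀ => ?_⟩
  obtain ⟨R, hR, h⟩ := frequently_atTop.1 h2 R₀
  exact ⟨R, hR, h.2⟩


theorem a20_glue {g q q' : ℕ → Z2} {m n n' N N' : ℕ} (hg : IsP g m) (hq : ∀ n, IsP q n)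
    (hq' : ∀ n, IsP q' n) (e : g 0 = q n) (e' : g m = q' n') (h : n ≤ N) (h' : n' ≤ N') :
    ∃ f L, IsP f L ∧ f 0 = q N ∧ f L = q' N' ∧ ∀ i ≤ L, (∃ j ≤ m, g j = f i) ∨
      (∃ j, n < j ∧ j ≤ N ∧ q j = f i) ∨ ∃ j, n' < j ∧ j ≤ N' ∧ q' j = f i := by
  obtain ⟨a, rfl⟩ := Nat.exists_eq_add_of_le h
  obtain ⟨b, rfl⟩ := Nat.exists_eq_add_of_le h'
  obtain ⟨f1, h1, h2, h3⟩ := ((hq (n + a)).tl (k := n) (m := a) le_rfl).rev.app hg
    (by simp [tl, e])
  obtain ⟨f, h4, h5, h6⟩ := h1.app ((hq' (n' + b)).tl (k := n') (m := b) le_rfl)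
    (by rw [h3 m le_rfl, e']; rfl)
  refine ⟨f, a + m + b, h4, ?_, h6 b le_rfl, fun i hi => ?_⟩
  · rw [h5 0 (Nat.zero_le _), h2 0 (Nat.zero_le _)]; rfl
  · by_cases c1 : i < a
    · refine Or.inr (Or.inl ⟨n + (a - i), by omega, by omega, ?_⟩)
      rw [h5 i (by omega), h2 i c1.le]; rfl
    · by_cases c2 : i ≤ a + m
      · refine Or.inl ⟨i - a, by omega, ?_⟩
        rw [h5 i c2, ← h3 _ (by omega), Nat.add_sub_cancel' (by omega)]
      · refine Or.inr (Or.inr ⟨n' + (i - (a + m)), by omega, by omega, ?_⟩)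
        have := h6 (i - (a + m)) (by omega)
        rw [Nat.add_sub_cancel' (by omega)] at this
        exact this.symm

theorem alt_paths (hr : ∀ k n, IsP (r k) n) (ho : Ord r θ) (h12 : θ k₁ < θ k₂) (h23 : θ k₂ < θ k₃)
    (h34 : θ k₃ < θ k₄) {g g' : ℕ → Z2} {m m' n₁ n₂ n₃ n₄ : ℕ} (hg : IsP g m) (hg' : IsP g' m')
    (e1 : g 0 = r k₁ n₁) (e3 : g m = r k₃ n₃) (e2 : g' 0 = r k₂ n₂) (e4 : g' m' = r k₄ n₄) :
    ∃ v, ((∃ i ≤ m, g i = v) ∨ (∃ i > n₁, r k₁ i = v) ∨ ∃ i > n₃, r k₃ i = v) ∧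
      ((∃ i ≤ m', g' i = v) ∨ (∃ i > n₂, r k₂ i = v) ∨ ∃ i > n₄, r k₄ i = v) := by
  have hb : ∀ (q : ℕ → Z2) (n : ℕ), ∀ᶠ R in atTop, ∀ i ≤ n, ni (q i) < R := fun q n => by
    filter_upwards [eventually_gt_atTop ((Finset.range (n + 1)).sup fun i => ni (q i))] with R hR i hi
    exact (Finset.le_sup (f := fun i => ni (q i)) (Finset.mem_range.2 (by omega))).trans_lt hR
  obtain ⟨R₀, hR₀⟩ := eventually_atTop.1 ((hb g m).and ((hb g' m').and ((hb (r k₁) n₁).and
    ((hb (r k₂) n₂).and ((hb (r k₃) n₃).and (hb (r k₄) n₄))))))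
  obtain ⟨R, hR, N, hN, hper⟩ := ho.2 R₀
  obtain ⟨b, b', b1, b2, b3, b4⟩ := hR₀ R hR
  have hlt : ∀ k n, (∀ i ≤ n, ni (r k i) < R) → n ≤ N k := fun k n h => by
    by_contra hc
    have := h (N k) (by omega)
    have := (hN k).1
    omega
  have hle : ∀ k, ∀ j ≤ N k, ni (r k j) ≤ R := fun k j hj => by
    rcases eq_or_lt_of_le hj with rfl | h
    · exact (hN k).1.le
    · exact ((hN k).2 j h).le
  obtain ⟨f, L, hf, f0, fL, hc⟩ := a20_glue hg (hr k₁) (hr k₃) e1 e3 (hlt _ _ b1) (hlt _ _ b3)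
  obtain ⟨f', L', hf', f0', fL', hc'⟩ := a20_glue hg' (hr k₂) (hr k₄) e2 e4 (hlt _ _ b2) (hlt _ _ b4)
  obtain ⟨i, hi, j, hj, e⟩ := planar (R := R) hf hf' (fun i hi => by
      rcases hc i hi with ⟨j, hj, e⟩ | ⟨j, -, hj, e⟩ | ⟨j, -, hj, e⟩
      · rw [← e]; exact (b j hj).le
      · rw [← e]; exact hle _ j hj
      · rw [← e]; exact hle _ j hj) (fun i hi => by
      rcases hc' i hi with ⟨j, hj, e⟩ | ⟨j, -, hj, e⟩ | ⟨j, -, hj, e⟩
      · rw [← e]; exact (b' j hj).le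
      · rw [← e]; exact hle _ j hj
      · rw [← e]; exact hle _ j hj)
    (by rw [f0]; exact (hN _).1) (by rw [f0']; exact (hN _).1) (by rw [fL]; exact (hN _).1)
    (by rw [fL']; exact (hN _).1) (by rw [f0, f0']; exact hper _ _ h12)
    (by rw [f0', fL]; exact hper _ _ h23) (by rw [fL, fL']; exact hper _ _ h34)
  refine ⟨f i, ?_, ?_⟩
  · rcases hc i hi with ⟨j, hj, e⟩ | ⟨j, hj, -, e⟩ | ⟨j, hj, -, e⟩
    · exact Or.inl ⟨j, hj, e⟩
    · exact Or.inr (Or.inl ⟨j, hj, e⟩)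
    · exact Or.inr (Or.inr ⟨j, hj, e⟩)
  · rw [e]
    rcases hc' j hj with ⟨j, hj, e⟩ | ⟨j, hj, -, e⟩ | ⟨j, hj, -, e⟩
    · exact Or.inl ⟨j, hj, e⟩
    · exact Or.inr (Or.inl ⟨j, hj, e⟩)
    · exact Or.inr (Or.inr ⟨j, hj, e⟩)

end

end Crest.Agent.R151.A
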