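import Crest.Agent.R151.A20

/-! Row 151 (A): consequences of the cyclic order -/

set_option autoImplicit false

open MeasureTheory Set Filter Topology
open Crest.ProbabilityR.FirstPassage

namespace Crest.Agent.R151.A

open Crest.Agent.R151.B

noncomputable section

variable {t : Env} {κ : Type} {r : κ → ℕ → Z2} {θ : κ → ℕ} {k₁ k₂ k₃ k₄ : κ}

theorem A20b_last (ht : Good t) {a : ℕ → Z2} (ha : Ray t a) {H : ℝ} {N : ℕ}
    (hH : T t (a 0) (a N) ≤ H) :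
    ∃ n ≥ N, T t (a 0) (a n) ≤ H ∧ ∀ m > n, H < T t (a 0) (a m) := by
  classical
  obtain ⟨M, hM⟩ := eventually_atTop.1 ((ha.tendsto_T ht).eventually_gt_atTop H)
  have hNM : N ≤ M + N := Nat.le_add_left _ _
  refine ⟨Nat.findGreatest (fun n => T t (a 0) (a n) ≤ H) (M + N),
    Nat.le_findGreatest hNM hH,
    Nat.findGreatest_spec (P := fun n => T t (a 0) (a n) ≤ H) hNM hH, fun m hm => ?_⟩
  by_cases h : m ≤ M + N
  · exact not_le.1 (Nat.findGreatest_is_greatest hm h)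
  · exact hM m (by omega)

theorem A20b_path (ht : Good t) (u y u' : Z2) : ∃ g m, IsP g m ∧ g 0 = u ∧ g m = u' ∧
    ∀ i ≤ m, Btw t y (g i) u ∨ Btw t y (g i) u' := by
  obtain ⟨g₁, n₁, h₁, a₁, b₁⟩ := ht.ex u y
  obtain ⟨g₂, n₂, h₂, a₂, b₂⟩ := ht.ex y u'
  obtain ⟨f, hf, e₁, e₂⟩ := h₁.1.app h₂.1 (b₁.trans a₂.symm)
  refine ⟨f, n₁ + n₂, hf, (e₁ 0 (Nat.zero_le _)).trans a₁, (e₂ n₂ le_rfl).trans b₂, fun i hi => ?_⟩
  by_cases h : i ≤ n₁
  · left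
    have := h₁.btw ht.nn (Nat.zero_le i) h le_rfl
    rw [a₁, b₁, ← e₁ i h] at this
    exact this.symm
  · right
    obtain ⟨j, rfl⟩ : ∃ j, i = n₁ + j := ⟨i - n₁, by omega⟩
    have hj : j ≤ n₂ := by omega
    have := h₂.btw ht.nn (Nat.zero_le j) hj le_rfl
    rw [a₂, b₂, ← e₂ j hj] at this
    exact this

theorem A20b_kill (hn : NN t) {x a₀ b₀ w u : Z2} {C H : ℝ} (hab : 2 * C < T t w u)
    (ha : T t x a₀ ≤ C) (hb : T t x b₀ ≤ C) (h1 : H < T t a₀ w) (h2 : T t b₀ u ≤ H) :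
    ¬ Btw t x w u := by
  intro h
  unfold Btw at h
  have := T_tri hn x b₀ u
  have := T_tri hn a₀ x w
  have := T_symm t a₀ x
  linarith

theorem A20b_far (ha : ∀ k k', k ≠ k' → Apart t (r k) (r k'))
    (h12 : θ k₁ < θ k₂) (h23 : θ k₂ < θ k₃) (h34 : θ k₃ < θ k₄) (C : ℝ) (N : ℕ) :
    ∃ N' ≥ N, ∀ i ≥ N', ∀ j ≥ N', C < T t (r k₁ i) (r k₂ j) ∧ C < T t (r k₁ i) (r k₄ j) ∧
      C < T t (r k₃ i) (r k₂ j) ∧ C < T t (r k₃ i) (r k₄ j) := by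
  obtain ⟨N₁, p₁⟩ := ha k₁ k₂ (fun e => by rw [e] at h12; omega) C
  obtain ⟨N₂, p₂⟩ := ha k₁ k₄ (fun e => by rw [e] at h12; omega) C
  obtain ⟨N₃, p₃⟩ := ha k₃ k₂ (fun e => by rw [e] at h23; omega) C
  obtain ⟨N₄, p₄⟩ := ha k₃ k₄ (fun e => by rw [e] at h34; omega) C
  refine ⟨N + N₁ + N₂ + N₃ + N₄, by omega, fun i hi j hj => ⟨p₁ i ?_ j ?_, p₂ i ?_ j ?_,
    p₃ i ?_ j ?_, p₄ i ?_ j ?_⟩⟩ <;> omega

theorem A20b_cross (hn : NN t) {x y v a b : Z2} (h : Btw t y v a) (h' : Btw t x v b) :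
    T t x a - T t y a ≤ T t x b - T t y b := by
  unfold Btw at h h'
  have := T_tri hn x v a
  have := T_tri hn y v b
  linarith

theorem alt_btw (ht : Good t) (hr : ∀ k, Ray t (r k)) (ha : ∀ k k', k ≠ k' → Apart t (r k) (r k'))
    (ho : Ord r θ) (h12 : θ k₁ < θ k₂) (h23 : θ k₂ < θ k₃) (h34 : θ k₃ < θ k₄) (x y : Z2) (N : ℕ) :
    ∃ n₁ ≥ N, ∃ n₂ ≥ N, ∃ n₃ ≥ N, ∃ n₄ ≥ N, ∃ v,
      (Btw t y v (r k₁ n₁) ∨ Btw t y v (r k₃ n₃)) ∧ (Btw t x v (r k₂ n₂) ∨ Btw t x v (r k₄ n₄)) := by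
  have hn := ht.nn
  obtain ⟨C, c0, x1, x2, x3, x4, y1, y2, y3, y4⟩ : ∃ C : ℝ, 0 ≤ C ∧ T t x (r k₁ 0) ≤ C ∧
      T t x (r k₂ 0) ≤ C ∧ T t x (r k₃ 0) ≤ C ∧ T t x (r k₄ 0) ≤ C ∧ T t y (r k₁ 0) ≤ C ∧
      T t y (r k₂ 0) ≤ C ∧ T t y (r k₃ 0) ≤ C ∧ T t y (r k₄ 0) ≤ C := by
    have := T_nonneg hn x (r k₁ 0)
    have := T_nonneg hn x (r k₂ 0)
    have := T_nonneg hn x (r k₃ 0)
    have := T_nonneg hn x (r k₄ 0)
    have := T_nonneg hn y (r k₁ 0)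
    have := T_nonneg hn y (r k₂ 0)
    have := T_nonneg hn y (r k₃ 0)
    have := T_nonneg hn y (r k₄ 0)
    refine ⟨T t x (r k₁ 0) + T t x (r k₂ 0) + T t x (r k₃ 0) + T t x (r k₄ 0) + T t y (r k₁ 0) +
      T t y (r k₂ 0) + T t y (r k₃ 0) + T t y (r k₄ 0), ?_, ?_, ?_, ?_, ?_, ?_, ?_, ?_, ?_⟩ <;>
      linarith
  obtain ⟨N', hN, hf⟩ := A20b_far ha h12 h23 h34 (2 * C) N
  obtain ⟨H, H1, H2, H3, H4⟩ : ∃ H : ℝ, T t (r k₁ 0) (r k₁ N') ≤ H ∧ T t (r k₂ 0) (r k₂ N') ≤ H ∧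
      T t (r k₃ 0) (r k₃ N') ≤ H ∧ T t (r k₄ 0) (r k₄ N') ≤ H := by
    have := T_nonneg hn (r k₁ 0) (r k₁ N')
    have := T_nonneg hn (r k₂ 0) (r k₂ N')
    have := T_nonneg hn (r k₃ 0) (r k₃ N')
    have := T_nonneg hn (r k₄ 0) (r k₄ N')
    refine ⟨T t (r k₁ 0) (r k₁ N') + T t (r k₂ 0) (r k₂ N') + T t (r k₃ 0) (r k₃ N') +
      T t (r k₄ 0) (r k₄ N'), ?_, ?_, ?_, ?_⟩ <;> linarith
  obtain ⟨n₁, m₁, l₁, u₁⟩ := A20b_last ht (hr k₁) H1
  obtain ⟨n₂, m₂, l₂, u₂⟩ := A20b_last ht (hr k₂) H2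
  obtain ⟨n₃, m₃, l₃, u₃⟩ := A20b_last ht (hr k₃) H3
  obtain ⟨n₄, m₄, l₄, u₄⟩ := A20b_last ht (hr k₄) H4
  obtain ⟨g, m, hg, e1, e3, hb⟩ := A20b_path ht (r k₁ n₁) y (r k₃ n₃)
  obtain ⟨g', m', hg', e2, e4, hb'⟩ := A20b_path ht (r k₂ n₂) x (r k₄ n₄)
  obtain ⟨v, hv, hv'⟩ := alt_paths (fun k n => (hr k).isP n) ho h12 h23 h34 hg hg' e1 e3 e2 e4
  refine ⟨n₁, hN.trans m₁, n₂, hN.trans m₂, n₃, hN.trans m₃, n₄, hN.trans m₄, v, ?_⟩
  have hz := T_self hn v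
  rcases hv with ⟨i, hi, e⟩ | ⟨i, hi, e⟩ | ⟨i, hi, e⟩ <;>
    rcases hv' with ⟨j, hj, e'⟩ | ⟨j, hj, e'⟩ | ⟨j, hj, e'⟩
  · exact ⟨e ▸ hb i hi, e' ▸ hb' j hj⟩
  · exfalso
    have hj' : j ≥ N' := by omega
    have hb1 := hb i hi
    rw [e, ← e'] at hb1
    rcases hb1 with h | h
    · exact A20b_kill hn (by rw [T_symm]; exact (hf n₁ m₁ j hj').1) y2 y1 (u₂ j hj) l₁ h
    · exact A20b_kill hn (by rw [T_symm]; exact (hf n₃ m₃ j hj').2.2.1) y2 y3 (u₂ j hj) l₃ h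
  · exfalso
    have hj' : j ≥ N' := by omega
    have hb1 := hb i hi
    rw [e, ← e'] at hb1
    rcases hb1 with h | h
    · exact A20b_kill hn (by rw [T_symm]; exact (hf n₁ m₁ j hj').2.1) y4 y1 (u₄ j hj) l₁ h
    · exact A20b_kill hn (by rw [T_symm]; exact (hf n₃ m₃ j hj').2.2.2) y4 y3 (u₄ j hj) l₃ h
  · exfalso
    have hi' : i ≥ N' := by omega
    have hb1 := hb' j hj
    rw [e', ← e] at hb1
    rcases hb1 with h | h
    · exact A20b_kill hn (hf i hi' n₂ m₂).1 x1 x2 (u₁ i hi) l₂ h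
    · exact A20b_kill hn (hf i hi' n₄ m₄).2.1 x1 x4 (u₁ i hi) l₄ h
  · exfalso
    have := (hf i (by omega) j (by omega)).1
    rw [e, e'] at this
    linarith
  · exfalso
    have := (hf i (by omega) j (by omega)).2.1
    rw [e, e'] at this
    linarith
  · exfalso
    have hi' : i ≥ N' := by omega
    have hb1 := hb' j hj
    rw [e', ← e] at hb1
    rcases hb1 with h | h
    · exact A20b_kill hn (hf i hi' n₂ m₂).2.2.1 x3 x2 (u₃ i hi) l₂ h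
    · exact A20b_kill hn (hf i hi' n₄ m₄).2.2.2 x3 x4 (u₃ i hi) l₄ h
  · exfalso
    have := (hf i (by omega) j (by omega)).2.2.1
    rw [e, e'] at this
    linarith
  · exfalso
    have := (hf i (by omega) j (by omega)).2.2.2
    rw [e, e'] at this
    linarith

theorem no_alt (ht : Good t) (hr : ∀ k, Ray t (r k)) (ha : ∀ k k', k ≠ k' → Apart t (r k) (r k'))
    (ho : Ord r θ) (h12 : θ k₁ < θ k₂) (h23 : θ k₂ < θ k₃) (h34 : θ k₃ < θ k₄) (x y : Z2) :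
    ¬ max (bus t (r k₂) x - bus t (r k₂) y) (bus t (r k₄) x - bus t (r k₄) y) <
      min (bus t (r k₁) x - bus t (r k₁) y) (bus t (r k₃) x - bus t (r k₃) y) := by
  intro h
  have hn := ht.nn
  obtain ⟨c, hc, hc'⟩ := exists_between h
  rw [max_lt_iff] at hc
  rw [lt_min_iff] at hc'
  obtain ⟨N, hN⟩ := eventually_atTop.1
    ((((hr k₁).diff_tendsto hn x y).eventually_const_lt hc'.1).and
      ((((hr k₂).diff_tendsto hn x y).eventually_lt_const hc.1).and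
        ((((hr k₃).diff_tendsto hn x y).eventually_const_lt hc'.2).and
          (((hr k₄).diff_tendsto hn x y).eventually_lt_const hc.2))))
  obtain ⟨n₁, m₁, n₂, m₂, n₃, m₃, n₄, m₄, v, hv, hv'⟩ := alt_btw ht hr ha ho h12 h23 h34 x y N
  have a₁ := (hN n₁ m₁).1
  have a₂ := (hN n₂ m₂).2.1
  have a₃ := (hN n₃ m₃).2.2.1
  have a₄ := (hN n₄ m₄).2.2.2
  rcases hv with p | p <;> rcases hv' with q | q <;>
  · have := A20b_cross hn p q
    linarith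

theorem no_nest (ht : Good t) (hr : ∀ k, Ray t (r k)) (ha : ∀ k k', k ≠ k' → Apart t (r k) (r k'))
    (ho : Ord r θ) (h12 : θ k₁ < θ k₂) (h23 : θ k₂ < θ k₃) (h34 : θ k₃ < θ k₄)
    (h14 : Opp t (r k₁) (r k₄)) (h23' : Opp t (r k₂) (r k₃)) :
    Opp t (r k₁) (r k₃) ∨ Opp t (r k₂) (r k₄) := by
  have hn := ht.nn
  obtain ⟨C₁, c₁⟩ := h14
  obtain ⟨C₂, c₂⟩ := h23'
  have g0 : ∀ u w, 0 ≤ T t 0 u + T t 0 w - T t u w := fun u w => by
    have := T_tri hn u 0 w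
    have := T_symm t u 0
    linarith
  have p₁ : 0 ≤ C₁ := (g0 _ _).trans (c₁ 0 0)
  have p₂ : 0 ≤ C₂ := (g0 _ _).trans (c₂ 0 0)
  have gl : ∀ u v w, Btw t u v w → T t 0 u + T t 0 w - T t u w ≤ T t 0 v + T t 0 w - T t v w ∧
      T t 0 u + T t 0 w - T t u w ≤ T t 0 u + T t 0 v - T t u v := fun u v w h => by
    unfold Btw at h
    have := T_tri hn 0 v u
    have := T_tri hn 0 v w
    have := T_symm t u v
    constructor <;> linarith
  have key : ∀ N, ∃ N' ≥ N,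
      T t 0 (r k₁ N') + T t 0 (r k₃ N') - T t (r k₁ N') (r k₃ N') ≤ C₁ + C₂ ∨
      T t 0 (r k₂ N') + T t 0 (r k₄ N') - T t (r k₂ N') (r k₄ N') ≤ C₁ + C₂ := by
    intro N
    obtain ⟨N', hN, hf⟩ := A20b_far ha h12 h23 h34 0 N
    refine ⟨N', hN, ?_⟩
    obtain ⟨g, m, hg, e1, e3⟩ := ht.ex (r k₁ N') (r k₃ N')
    obtain ⟨g', m', hg', e2, e4⟩ := ht.ex (r k₂ N') (r k₄ N')
    obtain ⟨v, hv, hv'⟩ :=
      alt_paths (fun k n => (hr k).isP n) ho h12 h23 h34 hg.1 hg'.1 e1 e3 e2 e4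
    have hb : ∀ i ≤ m, Btw t (r k₁ N') (g i) (r k₃ N') := fun i hi => by
      have := hg.btw hn (Nat.zero_le i) hi le_rfl
      rwa [e1, e3] at this
    have hb' : ∀ i ≤ m', Btw t (r k₂ N') (g' i) (r k₄ N') := fun i hi => by
      have := hg'.btw hn (Nat.zero_le i) hi le_rfl
      rwa [e2, e4] at this
    have hz := T_self hn v
    rcases hv with ⟨i, hi, e⟩ | ⟨i, hi, e⟩ | ⟨i, hi, e⟩ <;>
      rcases hv' with ⟨j, hj, e'⟩ | ⟨j, hj, e'⟩ | ⟨j, hj, e'⟩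
    · left
      have b1 := hb i hi
      have b2 := hb' j hj
      rw [e] at b1
      rw [e'] at b2
      unfold Btw at b1 b2
      have := T_tri hn (r k₁ N') v (r k₄ N')
      have := T_tri hn (r k₂ N') v (r k₃ N')
      have := c₁ N' N'
      have := c₂ N' N'
      have := g0 (r k₂ N') (r k₄ N')
      linarith
    · left
      have b1 := hb i hi
      rw [e, ← e'] at b1
      have := (gl _ _ _ b1).1
      have := c₂ j N'
      linarith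
    · left
      have b1 := hb i hi
      rw [e, ← e'] at b1
      have := (gl _ _ _ b1).2
      have := c₁ N' j
      linarith
    · right
      have b1 := hb' j hj
      rw [e', ← e] at b1
      have := (gl _ _ _ b1).1
      have := c₁ i N'
      linarith
    · exfalso
      have := (hf i (by omega) j (by omega)).1
      rw [e, e'] at this
      linarith
    · exfalso
      have := (hf i (by omega) j (by omega)).2.1
      rw [e, e'] at this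
      linarith
    · right
      have b1 := hb' j hj
      rw [e', ← e] at b1
      have := (gl _ _ _ b1).2
      have := c₂ N' i
      linarith
    · exfalso
      have := (hf i (by omega) j (by omega)).2.2.1
      rw [e, e'] at this
      linarith
    · exfalso
      have := (hf i (by omega) j (by omega)).2.2.2
      rw [e, e'] at this
      linarith
  by_contra hc
  rw [not_or] at hc
  have q₁ := fun h => hc.1 (opp_of_freq (C := C₁ + C₂) hn (hr k₁) (hr k₃) h)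
  have q₂ := fun h => hc.2 (opp_of_freq (C := C₁ + C₂) hn (hr k₂) (hr k₄) h)
  obtain ⟨N₁, q₁⟩ := not_forall.1 q₁
  obtain ⟨N₂, q₂⟩ := not_forall.1 q₂
  obtain ⟨N', hN, h | h⟩ := key (N₁ + N₂)
  · exact q₁ ⟨N', by omega, N', by omega, h⟩
  · exact q₂ ⟨N', by omega, N', by omega, h⟩


end

end Crest.Agent.R151.A
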