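import Crest.Agent.R151.A20b
import Crest.Agent.R151.A19
import Crest.Agent.R151.A17

/-! Row 151 (A): the mass bound -/

set_option autoImplicit false

open MeasureTheory Set Filter Topology
open Crest.ProbabilityR.FirstPassage

namespace Crest.Agent.R151.A

open Crest.Agent.R151.B

noncomputable section

variable {t : Env}

theorem A21_orn_t (γ : ℤ → Z2) : orn true γ = rv γ := by simp only [orn, if_true]
theorem A21_orn_f (γ : ℤ → Z2) : orn false γ = γ := by
  simp only [orn, Bool.false_eq_true, if_false]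
theorem A21_orn_orn (b o : Bool) (γ : ℤ → Z2) : orn b (orn o γ) = orn (xor b o) γ := by
  cases b <;> cases o <;>
    simp only [A21_orn_t, A21_orn_f, rv_rv, Bool.xor_false, Bool.xor_true, Bool.not_true,
      Bool.not_false]
theorem A21_apart {ι : Type} (ht : Good2 t) (γ : ι → ℤ → Z2) (hγ : ∀ i, ML t (γ i))
    (hs : ∀ i j, i ≠ j → ¬ Same (γ i) (γ j)) (k k' : ι × Bool) (h : k ≠ k') :
    Apart t (rP (orn k.2 (γ k.1))) (rP (orn k'.2 (γ k'.1))) := by
  obtain ⟨i, b⟩ := k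
  obtain ⟨j, b'⟩ := k'
  by_cases hij : i = j
  · subst hij
    have hb : b ≠ b' := fun e => h (by rw [e])
    have hA := (hγ i).1.apart ht.toGood
    cases b <;> cases b'
    · exact absurd rfl hb
    · simpa only [A21_orn_t, A21_orn_f, rP_rv] using hA
    · simpa only [A21_orn_t, A21_orn_f, rP_rv] using hA.symm
    · exact absurd rfl hb
  · exact apart_of ht.toGood.nn ((hγ i).1.orn b).rayP ((hγ j).1.orn b').rayP
      fun K => sep_cl ht (hγ i) (hγ j).1 (hs i j hij) b b' K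
theorem A21_reindex {κ : Type} {r : κ → ℕ → Z2} {θ : κ → ℕ} (ho : Ord r θ) {σ : κ → κ}
    (hσ : Function.Injective σ) : Ord (fun k => r (σ k)) (fun k => θ (σ k)) := by
  refine ⟨ho.1.comp hσ, fun R₀ => ?_⟩
  obtain ⟨R, hR, n, h1, h2⟩ := ho.2 R₀
  exact ⟨R, hR, fun k => n (σ k), fun k => h1 (σ k), fun k k' h => h2 _ _ h⟩

/-- orientation and order of a family of distinct lines -/
theorem mass_ord {ι : Type} [Fintype ι] (ht : Good2 t) (γ : ι → ℤ → Z2) (hγ : ∀ i, ML t (γ i))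
    (hs : ∀ i j, i ≠ j → ¬ Same (γ i) (γ j)) : ∃ (o : ι → Bool) (θ : ι × Bool → ℕ),
    Ord (fun k : ι × Bool => rP (orn k.2 (orn (o k.1) (γ k.1)))) θ ∧
    (∀ k k' : ι × Bool, k ≠ k' → Apart t (rP (orn k.2 (orn (o k.1) (γ k.1))))
      (rP (orn k'.2 (orn (o k'.1) (γ k'.1))))) ∧
    ∀ i j, θ (i, true) ≤ θ (j, true) → θ (i, false) ≤ θ (j, false) := by
  classical
  have hr₀ : ∀ k : ι × Bool, Ray t (rP (orn k.2 (γ k.1))) := fun k => ((hγ k.1).1.orn k.2).rayP
  have ha₀ := A21_apart ht γ hγ hs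
  obtain ⟨θ₀, ho₀⟩ := ord_exists (r := fun k : ι × Bool => rP (orn k.2 (γ k.1))) ht.toGood hr₀ ha₀
  obtain ⟨o, hodef⟩ : ∃ o : ι → Bool, ∀ i, o i = decide (θ₀ (i, false) < θ₀ (i, true)) :=
    ⟨_, fun _ => rfl⟩
  obtain ⟨σ, hσdef⟩ : ∃ σ : ι × Bool → ι × Bool, ∀ k, σ k = (k.1, xor k.2 (o k.1)) :=
    ⟨_, fun _ => rfl⟩
  have hσ : Function.Injective σ := by
    rintro ⟨i, b⟩ ⟨j, b'⟩ h
    rw [hσdef, hσdef] at h
    obtain ⟨h1, h2⟩ := Prod.mk.inj h
    dsimp only at h1 h2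
    subst h1
    have : b = b' := by
      revert h2
      cases b <;> cases b' <;> cases o i <;> decide
    rw [this]
  have e : (fun k : ι × Bool => rP (orn k.2 (orn (o k.1) (γ k.1)))) =
      fun k => rP (orn (σ k).2 (γ (σ k).1)) := by
    funext k
    rw [hσdef, A21_orn_orn]
  have ho : Ord (fun k : ι × Bool => rP (orn k.2 (orn (o k.1) (γ k.1)))) fun k => θ₀ (σ k) := by
    rw [e]
    exact A21_reindex (r := fun k : ι × Bool => rP (orn k.2 (γ k.1))) ho₀ hσ
  have ha : ∀ k k' : ι × Bool, k ≠ k' → Apart t (rP (orn k.2 (orn (o k.1) (γ k.1))))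
      (rP (orn k'.2 (orn (o k'.1) (γ k'.1)))) := by
    intro k k' h
    rw [congrFun e k, congrFun e k']
    exact ha₀ _ _ (hσ.ne h)
  have hr : ∀ k : ι × Bool, Ray t (rP (orn k.2 (orn (o k.1) (γ k.1)))) :=
    fun k => (((hγ k.1).1.orn _).orn k.2).rayP
  have hlt : ∀ i, θ₀ (σ (i, true)) < θ₀ (σ (i, false)) := by
    intro i
    rw [hσdef, hσdef]
    dsimp only
    by_cases h : θ₀ (i, false) < θ₀ (i, true)
    · have : o i = true := by rw [hodef]; exact decide_eq_true h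
      rw [this]
      exact h
    · have : o i = false := by rw [hodef]; exact decide_eq_false h
      rw [this]
      refine lt_of_le_of_ne (not_lt.1 h) fun e' => ?_
      have := ho₀.1 e'
      exact absurd (Prod.mk.inj this).2 (by decide)
  have hopp : ∀ i, Opp t (rP (orn true (orn (o i) (γ i)))) (rP (orn false (orn (o i) (γ i)))) := by
    intro i
    rw [A21_orn_t, A21_orn_f, rP_rv]
    exact ((hγ i).1.orn _).opp ht.toGood.nn
  refine ⟨o, fun k => θ₀ (σ k), ho, ha, fun i j hij => ?_⟩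
  by_contra hn
  have hn' : θ₀ (σ (j, false)) < θ₀ (σ (i, false)) := not_le.1 hn
  have hne : i ≠ j := by
    rintro rfl
    exact lt_irrefl _ hn'
  have h12 : θ₀ (σ (i, true)) < θ₀ (σ (j, true)) := by
    refine lt_of_le_of_ne hij fun e' => hne ?_
    exact (Prod.mk.inj (ho.1 e')).1
  rcases no_nest (k₁ := (i, true)) (k₂ := (j, true)) (k₃ := (j, false)) (k₄ := (i, false))
    ht.toGood hr ha ho h12 (hlt j) hn' (hopp i) (hopp j) with h | h
  · dsimp only at h
    rw [A21_orn_orn, A21_orn_orn] at h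
    exact sep_opp ht (hγ i) (hγ j).1 (hs i j hne) _ _ h
  · dsimp only at h
    rw [A21_orn_orn, A21_orn_orn] at h
    exact sep_opp ht (hγ j) (hγ i).1 (hs j i hne.symm) _ _ h
theorem A21_pot {ι : Type} [Fintype ι] (ht : Good t) {r : ι × Bool → ℕ → Z2} {θ : ι × Bool → ℕ}
    (hr : ∀ k, Ray t (r k)) (ha : ∀ k k', k ≠ k' → Apart t (r k) (r k')) (ho : Ord r θ) (b : Bool)
    (x y : Z2) : ∃ V : ι → ℝ, (∀ i, 0 ≤ V i ∧ V i ≤ 6 * T t x y) ∧ ∀ i j, θ (i, b) ≤ θ (j, b) →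
      |(bus t (r (i, b)) x - bus t (r (i, b)) y) - (bus t (r (j, b)) x - bus t (r (j, b)) y)| ≤
        V j - V i := by
  refine tv_pot (fun i => θ (i, b)) (fun i j h => (Prod.mk.inj (ho.1 h)).1)
    (fun i => bus t (r (i, b)) x - bus t (r (i, b)) y) (fun i => ?_) (fun i j k l h1 h2 h3 => ?_)
    (fun i j k l h1 h2 h3 h => ?_)
  · have a1 := (hr (i, b)).bus_lip ht.nn x y
    have a2 := (hr (i, b)).bus_lip ht.nn y x
    rw [T_symm t y x] at a2
    exact abs_le.2 ⟨by linarith, by linarith⟩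
  · exact no_alt ht hr ha ho h1 h2 h3 x y
  · refine no_alt ht hr ha ho h1 h2 h3 y x ?_
    rw [max_lt_iff, lt_min_iff, lt_min_iff] at h ⊢
    obtain ⟨⟨a1, a2⟩, a3, a4⟩ := h
    exact ⟨⟨by linarith, by linarith⟩, by linarith, by linarith⟩
theorem A21_pot2 {ι : Type} [Fintype ι] (ht : Good t) {r : ι × Bool → ℕ → Z2}
    {θ : ι × Bool → ℕ} (hr : ∀ k, Ray t (r k)) (ha : ∀ k k', k ≠ k' → Apart t (r k) (r k'))
    (ho : Ord r θ) (b : Bool) (z : Z2) (L : ℕ) :
    ∃ S : ι → ℝ, (∀ i, 0 ≤ S i ∧ S i ≤ 24 * W t z L) ∧ ∀ i j, θ (i, b) ≤ θ (j, b) →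
      0 ≤ S j - S i ∧ Cl t (r (i, b)) (r (j, b)) (bx z L) (S j - S i) := by
  choose V hV hV' using A21_pot ht hr ha ho b
  refine ⟨fun i => 4 * ∑ x ∈ sp z L, (V x (x + (1, 0)) i + V x (x + (0, 1)) i), fun i => ⟨?_, ?_⟩,
    fun i j hij => ?_⟩
  · exact mul_nonneg (by norm_num)
      (Finset.sum_nonneg fun x _ => add_nonneg (hV _ _ i).1 (hV _ _ i).1)
  · have : ∑ x ∈ sp z L, (V x (x + (1, 0)) i + V x (x + (0, 1)) i) ≤ 6 * W t z L := by
      rw [W, Wd, Finset.mul_sum]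
      exact Finset.sum_le_sum fun x _ => by linarith [(hV x (x + (1, 0)) i).2, (hV x (x + (0, 1)) i).2]
    linarith
  · obtain ⟨D, hD⟩ : ∃ D : Z2 → ℝ, ∀ x, D x = bus t (r (i, b)) x - bus t (r (j, b)) x :=
      ⟨_, fun _ => rfl⟩
    have key : ∀ x y, |D x - D y| ≤ V x y j - V x y i := by
      intro x y
      have := hV' x y i j hij
      rw [hD, hD]
      convert this using 2
      ring
    have hW : Wd (fun x y => |D x - D y|) z L ≤
        ∑ x ∈ sp z L, (V x (x + (1, 0)) j + V x (x + (0, 1)) j) -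
          ∑ x ∈ sp z L, (V x (x + (1, 0)) i + V x (x + (0, 1)) i) := by
      rw [Wd, ← Finset.sum_sub_distrib]
      exact Finset.sum_le_sum fun x _ => by linarith [key x (x + (1, 0)), key x (x + (0, 1))]
    have hW0 : 0 ≤ Wd (fun x y => |D x - D y|) z L :=
      Finset.sum_nonneg fun x _ => add_nonneg (abs_nonneg _) (abs_nonneg _)
    refine ⟨by linarith, cl_max ht (hr _) (hr _) fun u hu u' hu' => ?_⟩
    have := sphere_le (fun x y => |D x - D y|) (fun x => by rw [sub_self, abs_zero])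
      (fun x y => abs_sub_comm _ _) (fun x y w => abs_sub_le _ _ _) (Finset.mem_coe.1 hu)
      (Finset.mem_coe.1 hu')
    have e : (bus t (r (i, b)) u - bus t (r (i, b)) u') - (bus t (r (j, b)) u - bus t (r (j, b)) u')
        = D u - D u' := by
      rw [hD, hD]
      ring
    rw [e]
    linarith
theorem mass0 {ι : Type} [Fintype ι] (ht : Good2 t) (γ : ι → ℤ → Z2) (hγ : ∀ i, ML t (γ i))
    (hs : ∀ i j, i ≠ j → ¬ Same (γ i) (γ j)) (z : Z2) (L : ℕ) :
    ∃ (o : ι → Bool) (s : ι → ℝ), (∀ i, 0 ≤ s i ∧ s i ≤ 64 * W t z L) ∧ ∀ i j,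
      Cl t (rP (orn (o i) (γ i))) (rP (orn (o j) (γ j))) (bx z L) |s i - s j| ∧
      Cl t (rN (orn (o i) (γ i))) (rN (orn (o j) (γ j))) (bx z L) |s i - s j| := by
  obtain ⟨o, θ, ho, ha, hθ⟩ := mass_ord ht γ hγ hs
  have hr : ∀ k : ι × Bool, Ray t (rP (orn k.2 (orn (o k.1) (γ k.1)))) :=
    fun k => (((hγ k.1).1.orn _).orn k.2).rayP
  obtain ⟨S, hS, hS'⟩ := A21_pot2 ht.toGood hr ha ho true z L
  obtain ⟨U, hU, hU'⟩ := A21_pot2 ht.toGood hr ha ho false z L
  have hW := W_nonneg ht.toGood.nn z L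
  have main : ∀ i j, θ (i, true) ≤ θ (j, true) →
      Cl t (rP (orn (o i) (γ i))) (rP (orn (o j) (γ j))) (bx z L) |S i + U i - (S j + U j)| ∧
      Cl t (rN (orn (o i) (γ i))) (rN (orn (o j) (γ j))) (bx z L) |S i + U i - (S j + U j)| := by
    intro i j hij
    obtain ⟨a1, a2⟩ := hS' i j hij
    obtain ⟨b1, b2⟩ := hU' i j (hθ i j hij)
    dsimp only at a2 b2
    rw [A21_orn_t, A21_orn_t, rP_rv, rP_rv] at a2
    rw [A21_orn_f, A21_orn_f] at b2
    have e : |S i + U i - (S j + U j)| = S j - S i + (U j - U i) := by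
      rw [abs_sub_comm, abs_of_nonneg (by linarith)]
      ring
    rw [e]
    exact ⟨b2.mono subset_rfl (by linarith), a2.mono subset_rfl (by linarith)⟩
  refine ⟨o, fun i => S i + U i, fun i => ⟨add_nonneg (hS i).1 (hU i).1, ?_⟩, fun i j => ?_⟩
  · linarith [(hS i).2, (hU i).2]
  · rcases le_total (θ (i, true)) (θ (j, true)) with h | h
    · exact main i j h
    · obtain ⟨a, b⟩ := main j i h
      rw [abs_sub_comm] at a b
      exact ⟨a.symm, b.symm⟩

end

end Crest.Agent.R151.A
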