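import Crest.Agent.R151.A21

/-! Row 151 (A): the mass bound -/

set_option autoImplicit false

open MeasureTheory Set Filter Topology
open Crest.ProbabilityR.FirstPassage

namespace Crest.Agent.R151.A

open Crest.Agent.R151.B

noncomputable section

theorem mass {t : Env} {ι : Type} [Fintype ι] (ht : Good2 t) (γ : ι → ℤ → Z2)
    (hγ : ∀ i, ML t (γ i)) (z : Z2) (L : ℕ) :
    ∃ (o : ι → Bool) (s : ι → ℝ), (∀ i, 0 ≤ s i ∧ s i ≤ 64 * W t z L) ∧ ∀ i j,
      Cl t (rP (orn (o i) (γ i))) (rP (orn (o j) (γ j))) (bx z L) |s i - s j| ∧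
      Cl t (rN (orn (o i) (γ i))) (rN (orn (o j) (γ j))) (bx z L) |s i - s j| := by
  classical
  let S : Setoid ι := ⟨fun i j => Same (γ i) (γ j),
    ⟨fun i => Same.refl _, fun h => h.symm, fun h h' => h.trans h'⟩⟩
  letI : Fintype (Quotient S) := Fintype.ofFinite _
  obtain ⟨o, s, hs, hc⟩ := mass0 (ι := Quotient S) ht (fun q => γ q.out) (fun q => hγ _)
    (fun q q' hq h => hq (by
      rw [← q.out_eq, ← q'.out_eq]
      exact Quotient.sound (s := S) h)) z L
  have key : ∀ i, ∃ o' : Bool,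
      Cl t (rP (orn o' (γ i))) (rP (orn (o ⟦i⟧) (γ (Quotient.out (s := S) ⟦i⟧)))) univ 0 ∧
      Cl t (rN (orn o' (γ i))) (rN (orn (o ⟦i⟧) (γ (Quotient.out (s := S) ⟦i⟧)))) univ 0 := by
    intro i
    have h1 : Same (γ (Quotient.out (s := S) ⟦i⟧)) (γ i) := Quotient.mk_out (s := S) i
    exact Same.cl ht.toGood.nn ((hγ _).1.orn _) ((same_orn _ _).symm.trans h1)
  choose o' h1 h2 using key
  refine ⟨o', fun i => s ⟦i⟧, fun i => hs _, fun i j => ⟨?_, ?_⟩⟩
  · have := (((h1 i).mono (subset_univ (bx z L : Set Z2)) le_rfl).trans (hc ⟦i⟧ ⟦j⟧).1).trans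
      ((h1 j).symm.mono (subset_univ (bx z L : Set Z2)) le_rfl)
    simpa using this
  · have := (((h2 i).mono (subset_univ (bx z L : Set Z2)) le_rfl).trans (hc ⟦i⟧ ⟦j⟧).2).trans
      ((h2 j).symm.mono (subset_univ (bx z L : Set Z2)) le_rfl)
    simpa using this

end

end Crest.Agent.R151.A
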