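import Crest.Agent.R151.A21b

/-! Row 151 (A): finitely many lines with a margin at a point, deterministic part -/

set_option autoImplicit false

open MeasureTheory Set Filter Topology
open Crest.ProbabilityR.FirstPassage

namespace Crest.Agent.R151.A

open Crest.Agent.R151.B

noncomputable section

variable {t : Env}

theorem A22_up (ht : Good t) {γ : ℤ → Z2} (h : Lin t γ) {k : ℤ} {l L : ℕ} (hk : γ k ∈ bx 0 l)
    (hl : l ≤ L) : ∃ k₂, k ≤ k₂ ∧ γ k₂ ∈ sp 0 L := by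
  obtain ⟨N, hN⟩ := h.escape ht 0 L
  obtain ⟨i, -, hi, -⟩ := ((h k).isP (N + k.natAbs)).ivt 0 (L := L)
    (by simpa [fw] using (mem_bx.1 hk).trans hl)
    (hN _ (by
      have : (N : ℤ) ≤ k + ((N + k.natAbs : ℕ) : ℤ) := by push_cast; have := neg_abs_le k; linarith
      exact this.trans (le_abs_self _)))
  exact ⟨k + i, by omega, mem_sp.2 hi⟩

theorem A22_dn (ht : Good t) {γ : ℤ → Z2} (h : Lin t γ) {k : ℤ} {l L : ℕ} (hk : γ k ∈ bx 0 l)
    (hl : l ≤ L) : ∃ k₁, k₁ ≤ k ∧ γ k₁ ∈ sp 0 L := by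
  obtain ⟨j, hj, hs⟩ := A22_up ht h.rv (k := -k) (by simpa [rv] using hk) hl
  exact ⟨-j, by omega, hs⟩

theorem A22_near (ht : Good t) {γ : ℤ → Z2} (h : Lin t γ) {k : ℤ} {l : ℕ} (hk : γ k ∈ bx 0 l) :
    ∃ w ∈ sp 0 l, T t (γ k) w ≤ 4 * W t 0 l := by
  obtain ⟨a, ha, sa⟩ := A22_dn ht h hk le_rfl
  obtain ⟨b, hb, sb⟩ := A22_up ht h hk le_rfl
  refine ⟨γ b, sb, ?_⟩
  have h1 : T t (γ a) (γ k) + T t (γ k) (γ b) = T t (γ a) (γ b) := h.btw ht.nn ha hb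
  linarith [T_sphere ht.nn sa sb, T_nonneg ht.nn (γ a) (γ k)]

theorem thru_det (ht : Good t) {γ γ' : ℤ → Z2} (h : Lin t γ) (h' : Lin t γ') {z : Z2} {δ M : ℝ}
    {l L : ℕ} (hm : Mg t γ z δ) (hz : z ∈ bx 0 l) {k : ℤ} (hk : γ' k ∈ bx 0 l) (hl : l ≤ L)
    (hP : Cl t (rP γ) (rP γ') (bx 0 L) M) (hN : Cl t (rN γ) (rN γ') (bx 0 L) M) (hM : 2 * M < δ)
    (hg : Gap t l L δ) : z ∈ range γ' := by
  have nn := ht.nn
  obtain ⟨k₀, rfl⟩ := hm.mem
  obtain ⟨a, ha, sa⟩ := A22_dn ht h' hk hl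
  obtain ⟨b, hb, sb⟩ := A22_up ht h' hk hl
  have zL : γ k₀ ∈ bx 0 L := mem_bx.2 ((mem_bx.1 hz).trans hl)
  have c1 := abs_le.1 (hN _ (Finset.mem_coe.2 (sp_subset _ _ sa)) _ (Finset.mem_coe.2 zL))
  have c2 := abs_le.1 (hP _ (Finset.mem_coe.2 (sp_subset _ _ sb)) _ (Finset.mem_coe.2 zL))
  have x1 := h.X_on nn k₀
  have x2 := h'.X_nonneg nn (γ k₀)
  have x3 := h'.X_on nn b
  rw [X] at x1 x2 x3
  have b1 := h'.busN nn (ha.trans hb)
  obtain ⟨w, sw, hw⟩ := A22_near ht h hz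
  obtain ⟨w', sw', hw'⟩ := A22_near ht h' hk
  have d : T t (γ' k) (γ k₀) ≤ 12 * W t 0 l := by
    have e1 := T_tri nn (γ' k) w' (γ k₀)
    have e2 := T_tri nn w' w (γ k₀)
    have e3 := T_sphere nn sw' sw
    rw [T_symm t w] at e2
    linarith
  have W0 := W_nonneg nn 0 l
  rcases hm.three nn h (u := γ' a) (u' := γ' b) (by linarith) with h1 | h1 | h1
  · exfalso
    have e1 := h'.busN nn ha
    have e2 := h'.rayN.bus_lip nn (γ' k) (γ k₀)
    have e3 := hg _ hk _ sa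
    have e4 := T_nonneg nn (γ' a) (γ k₀)
    rw [T_symm] at e3
    linarith
  · obtain ⟨j, -, -, hj⟩ := h'.idx ht (ha.trans hb) h1
    exact ⟨j, hj⟩
  · exfalso
    have e1 := h'.busP nn hb
    have e2 := h'.rayP.bus_lip nn (γ' k) (γ k₀)
    have e3 := hg _ hk _ sb
    have e4 := T_nonneg nn (γ' b) (γ k₀)
    linarith

theorem A22_floor {a b δ : ℝ} (hδ : 0 < δ) (ha : 0 ≤ a) (hb : 0 ≤ b)
    (h : ⌊4 * a / δ⌋₊ = ⌊4 * b / δ⌋₊) : |a - b| ≤ δ / 4 := by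
  have a1 := Nat.floor_le (show 0 ≤ 4 * a / δ by positivity)
  have a2 := Nat.lt_floor_add_one (4 * a / δ)
  have b1 := Nat.floor_le (show 0 ≤ 4 * b / δ by positivity)
  have b2 := Nat.lt_floor_add_one (4 * b / δ)
  rw [h] at a1 a2
  have e1 : 4 * a / δ < 4 * b / δ + 1 := by linarith
  have e2 : 4 * b / δ < 4 * a / δ + 1 := by linarith
  rw [div_add_one hδ.ne', div_lt_div_iff_of_pos_right hδ] at e1 e2
  rw [abs_le]; constructor <;> linarith

open Classical in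
theorem f_count (ht : Good2 t) {m r l L : ℕ} {δ C S : ℝ} (hδ : 0 < δ) (hC : 0 ≤ C) (hl : l + r ≤ L)
    (hh : Hit t 0 l C) (hg : Gap t l L δ) (hW : W t 0 L ≤ S) :
    (m : ℝ) * ((bx 0 l).filter fun z => t ∈ HE m r δ z).card ≤ (256 * S / δ + 1) * (C * l) := by
  have g := ht.toGood
  obtain ⟨Z, hZ⟩ : ∃ Z : Finset Z2, Z = (bx 0 l).filter fun z => t ∈ HE m r δ z := ⟨_, rfl⟩
  rw [← hZ]
  have hZ0 : ∀ z ∈ Z, z ∈ bx 0 l ∧ t ∈ HE m r δ z := fun z hz => by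
    rw [hZ] at hz; exact Finset.mem_filter.1 hz
  clear hZ
  have hZ1 : ∀ z : Z, (z : Z2) ∈ bx 0 l := fun z => (hZ0 z z.2).1
  have hZ2 : ∀ z : Z, t ∈ HE m r δ z := fun z => (hZ0 z z.2).2
  choose γ hγ hne using hZ2
  obtain ⟨o, s, hs, hc⟩ := mass ht (fun p : Z × Fin m => γ p.1 p.2)
    (fun p => ml_of (hγ p.1 p.2).1 (hγ p.1 p.2).2 hδ) 0 L
  have S0 : 0 ≤ S := (W_nonneg g.nn 0 L).trans hW
  obtain ⟨q, hq⟩ : ∃ q : Z × Fin m → ℕ, q = fun p => ⌊4 * s p / δ⌋₊ := ⟨_, rfl⟩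
  have hq1 : ∀ p p', q p = q p' → |s p - s p'| ≤ δ / 4 := fun p p' e =>
    A22_floor hδ (hs p).1 (hs p').1 (by simpa [hq] using e)
  have hq2 : ∀ p ∈ (Finset.univ : Finset (Z × Fin m)), q p ∈ Finset.range (⌊256 * S / δ⌋₊ + 1) :=
    fun p _ => by
      rw [Finset.mem_range, Nat.lt_succ_iff, hq]
      refine Nat.floor_le_floor ?_
      have := (hs p).2
      exact div_le_div_of_nonneg_right (by linarith) hδ.le
  have fib : ∀ v, (((Finset.univ : Finset (Z × Fin m)).filter fun p => q p = v).card : ℝ) ≤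
      C * l := fun v => by
    rcases ((Finset.univ : Finset (Z × Fin m)).filter fun p => q p = v).eq_empty_or_nonempty with
      e | ⟨p₀, h₀⟩
    · rw [e, Finset.card_empty, Nat.cast_zero]; positivity
    have l₀ := (hγ p₀.1 p₀.2).1.orn (o p₀)
    refine le_trans ?_ (l₀.hit g hh)
    rw [Nat.cast_le]
    refine Finset.card_le_card_of_injOn (fun p => (p.1 : Z2)) (fun p hp => ?_) fun p hp p' hp' e => ?_
    · have e := hq1 p p₀ ((Finset.mem_filter.1 hp).2.trans (Finset.mem_filter.1 h₀).2.symm)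
      obtain ⟨k, hk⟩ := ((hγ p₀.1 p₀.2).2.orn (o p₀)).mem
      exact Finset.mem_coe.2 (Finset.mem_filter.2 ⟨hZ1 p.1, thru_det g ((hγ p.1 p.2).1.orn (o p)) l₀
        ((hγ p.1 p.2).2.orn (o p)) (hZ1 p.1) (k := k) (hk ▸ hZ1 p₀.1) (by omega)
        ((hc p p₀).1.mono subset_rfl e) ((hc p p₀).2.mono subset_rfl e) (by linarith) hg⟩)
    · obtain ⟨z, i⟩ := p
      obtain ⟨z', j⟩ := p'
      obtain rfl : z = z' := Subtype.ext e
      by_contra hij
      have e' := hq1 _ _ ((Finset.mem_filter.1 hp).2.trans (Finset.mem_filter.1 hp').2.symm)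
      refine hne z i j (fun x => hij (by rw [x])) _ _ ((hc (z, i) (z, j)).1.mono ?_ e')
      have := mem_bx.1 (hZ1 z)
      exact Finset.coe_subset.2 (bx_mono (by omega))
  have cd := Finset.card_eq_sum_card_fiberwise hq2
  rw [Finset.card_univ, Fintype.card_prod, Fintype.card_coe, Fintype.card_fin] at cd
  have cd' : (m : ℝ) * Z.card = ∑ v ∈ Finset.range (⌊256 * S / δ⌋₊ + 1),
      (((Finset.univ : Finset (Z × Fin m)).filter fun p => q p = v).card : ℝ) := by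
    rw [← Nat.cast_sum, ← cd]; push_cast; ring
  rw [cd']
  refine (Finset.sum_le_sum fun v _ => fib v).trans ?_
  rw [Finset.sum_const, Finset.card_range, nsmul_eq_mul]
  refine mul_le_mul_of_nonneg_right ?_ (by positivity)
  push_cast
  linarith [Nat.floor_le (show 0 ≤ 256 * S / δ by positivity)]

end

end Crest.Agent.R151.A
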