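import Crest.Agent.R151.A22
import Crest.Agent.R151.A16b
import Crest.Agent.R151.A8d
import Crest.Agent.R151.A8b

/-! Row 151 (A): finitely many lines through a point -/

set_option autoImplicit false

open MeasureTheory Set Filter Topology
open Crest.ProbabilityR.FirstPassage

namespace Crest.Agent.R151.A

open Crest.Agent.R151.B

noncomputable section

variable {G : Measure ℝ}

theorem a22b_bx (z : Z2) {r r' : ℕ} (h : r ≤ r') : (bx z r : Set Z2) ⊆ bx z r' :=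
  Finset.coe_subset.2 (bx_mono (by rw [sub_self, ni_zero]; omega))

theorem many_sub {t : Env} (ht : Good2 t) {m : ℕ} {δ : ℝ} (hδ : 0 < δ) {z : Z2} (h : t ∈ Many m δ z) :
    ∃ r, t ∈ HE m r δ z := by
  obtain ⟨γ, h1, h2⟩ := h
  have key : ∀ q : Fin m × Fin m × Bool × Bool, ∃ ρ : ℕ, q.1 ≠ q.2.1 →
      ¬ Cl t (rP (orn q.2.2.1 (γ q.1))) (rP (orn q.2.2.2 (γ q.2.1))) (bx z ρ) (δ / 4) := by
    rintro ⟨i, j, o, o'⟩
    by_cases hij : i = j
    · exact ⟨0, fun h => absurd hij h⟩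
    · obtain ⟨ρ, hρ⟩ := cl_box (sep_cl ht (ml_of (h1 i).1 (h1 i).2 hδ) (h1 j).1 (h2 i j hij) o o'
        (δ / 4)) z
      exact ⟨ρ, fun _ => hρ⟩
  choose ρ hρ using key
  exact ⟨Finset.univ.sup ρ, γ, h1, fun i j hij o o' hc => hρ (i, j, o, o') hij
    (hc.mono (a22b_bx z (Finset.le_sup (Finset.mem_univ _))) le_rfl)⟩
theorem hE_mono (m : ℕ) (δ : ℝ) (z : Z2) : Monotone fun r => HE m r δ z := by
  rintro r r' h t ⟨γ, h1, h2⟩
  exact ⟨γ, h1, fun i j hij o o' hc => h2 i j hij o o' (hc.mono (a22b_bx z h) le_rfl)⟩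

theorem a22b_pr (hG : ALaw G) (m r : ℕ) (δ : ℝ) (z : Z2) :
    Pr G (HE m r δ z) = Pr G (HE m r δ 0) := by
  rw [hE_sh, hG.pr_sh]

theorem a22b_small (hG : ALaw G) {δ ε : ℝ} (hδ : 0 < δ) (hε : 0 < ε) :
    ∃ m, ∀ r, Pr G (HE m r δ 0) ≤ 4 * ε := by
  obtain ⟨C, hC, hH⟩ := hG.ev_hit hε
  obtain ⟨k, hk, hGp⟩ := hG.ev_gap hε δ
  obtain ⟨Cw, hCw, hW⟩ := hG.wt ε hε
  obtain ⟨m, hm⟩ := exists_nat_gt ((256 * (Cw * k) / δ + 1) * C / ε)
  have hA : 0 < 256 * (Cw * k) / δ + 1 := by positivity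
  have hm0 : (0 : ℝ) < m := lt_of_le_of_lt (by positivity) hm
  rw [div_lt_iff₀ hε] at hm
  refine ⟨m, fun r => ?_⟩
  obtain ⟨l, hl1, hlr⟩ : ∃ l : ℕ, 1 ≤ l ∧ r ≤ l := ⟨max r 1, le_max_right _ _, le_max_left _ _⟩
  have hl' : (1 : ℝ) ≤ l := by exact_mod_cast hl1
  have hL : l + r ≤ k * l := by nlinarith
  have h1 := hG.count_le' (bx 0 l) (fun z => HE m r δ z)
    ({t | ¬ Hit t 0 l C} ∪ {t | ¬ Gap t l (k * l) δ} ∪ {t | Cw * (k * l : ℕ) < W t 0 (k * l)})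
    (b := ε * l ^ 2) (by positivity) (fun z _ => hG.hE_null m r δ z) ?_
  · have h2 := hG.union ({t | ¬ Hit t 0 l C} ∪ {t | ¬ Gap t l (k * l) δ})
      {t | Cw * (k * l : ℕ) < W t 0 (k * l)}
    have h3 := hG.union {t | ¬ Hit t 0 l C} {t | ¬ Gap t l (k * l) δ}
    have h4 := hH 0 l hl1
    have h5 := hGp l hl1
    have h6 := hW 0 (k * l) (by omega)
    simp only [a22b_pr hG m r δ, Finset.sum_const, nsmul_eq_mul, card_bx] at h1
    push_cast at h1
    have h7 : (0 : ℝ) < (2 * l + 1) ^ 2 := by positivity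
    refine le_of_mul_le_mul_left (h1.trans ?_) h7
    have h8 := mul_le_mul_of_nonneg_left (h2.trans (add_le_add (h3.trans (add_le_add h4 h5)) h6))
      h7.le
    push_cast at h8
    have h9 : ε * (l : ℝ) ^ 2 ≤ ε * (2 * l + 1) ^ 2 := by
      gcongr
      linarith
    linarith
  · filter_upwards [hG.good2] with t ht hE
    simp only [mem_union, mem_ofPred_eq, not_or, not_not, not_lt] at hE
    have h2 := f_count (m := m) ht hδ hC.le hL hE.1.1 hE.1.2 hE.2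
    refine le_of_mul_le_mul_left (h2.trans ?_) hm0
    have h3 : 256 * (Cw * (k * l : ℕ)) / δ + 1 ≤ (256 * (Cw * k) / δ + 1) * l := by
      push_cast
      have : 256 * (Cw * (k * l)) / δ = 256 * (Cw * k) / δ * l := by ring
      rw [this]
      linarith
    calc _ ≤ (256 * (Cw * k) / δ + 1) * l * (C * l) := by gcongr
      _ = (256 * (Cw * k) / δ + 1) * C * l ^ 2 := by ring
      _ ≤ m * ε * l ^ 2 := by gcongr
      _ = _ := by ring

theorem ALaw.many_null (hG : ALaw G) {δ : ℝ} (hδ : 0 < δ) (z : Z2) :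
    ∀ᵐ t ∂iidLaw G, ∃ m, t ∉ Many m δ z := by
  have h := hG.null_of (A := {t | ∀ m, t ∈ Many m δ z}) fun ε hε => ?_
  · filter_upwards [h] with t ht
    exact not_forall.1 ht
  obtain ⟨m, hm⟩ := a22b_small hG hδ (show 0 < ε / 4 by positivity)
  refine (hG.mono_ae (B := ⋃ r, HE m r δ z) ?_).trans (hG.sup_le _ (hE_mono m δ z) fun r => ?_)
  · filter_upwards [hG.good2] with t ht h
    exact mem_iUnion.2 (many_sub ht hδ (h m))
  · rw [a22b_pr hG]
    linarith [hm r]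

end

end Crest.Agent.R151.A
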