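import Crest.Agent.R151.A22b

/-! Row 151 (A): finitely many lines through a point -/

set_option autoImplicit false

open MeasureTheory Set Filter Topology
open Crest.ProbabilityR.FirstPassage

namespace Crest.Agent.R151.A

open Crest.Agent.R151.B

noncomputable section

variable {G : Measure ℝ}

theorem thru_anti (z : Z2) : Antitone fun m => Thru m z := by
  intro m n h t ⟨γ, h1, h2⟩
  exact ⟨fun i => γ (Fin.castLE h i), fun i => h1 _,
    fun i j hij => h2 _ _ fun e => hij (Fin.castLE_injective h e)⟩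

/-- `m` different lines leave `z` through `e` -/
def a22cP (t : Env) (z : Z2) (e : Sym2 Z2) (m : ℕ) : Prop :=
  ∃ γ : Fin m → ℤ → Z2, (∀ i, Lin t (γ i) ∧ ∃ k, γ i k = z ∧ s(γ i k, γ i (k + 1)) = e) ∧
    ∀ i j, i ≠ j → ¬ Same (γ i) (γ j)

theorem a22c_anti {t : Env} {z : Z2} {e : Sym2 Z2} {m n : ℕ} (h : m ≤ n) (hP : a22cP t z e n) :
    a22cP t z e m := by
  obtain ⟨γ, h1, h2⟩ := hP
  exact ⟨fun i => γ (Fin.castLE h i), fun i => h1 _,
    fun i j hij => h2 _ _ fun e => hij (Fin.castLE_injective h e)⟩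

theorem a22c_step {t : Env} {z : Z2} {F : Finset (Sym2 Z2)} (hF : F.card ≤ 4)
    (hz : ∀ y, squareLattice.Adj z y → s(z, y) ∈ F) (m : ℕ) (h : t ∈ Thru (4 * m + 1) z) :
    ∃ e ∈ F, a22cP t z e m := by
  classical
  obtain ⟨γ, h1, h2⟩ := h
  choose k hk using fun i => (h1 i).2
  have hm : ∀ i ∈ (Finset.univ : Finset (Fin (4 * m + 1))), s(γ i (k i), γ i (k i + 1)) ∈ F := by
    intro i _
    have ha := (h1 i).1.adj (k i)
    rw [hk i] at ha ⊢
    exact hz _ ha
  obtain ⟨e, he, hc⟩ := Finset.exists_lt_card_fiber_of_mul_lt_card_of_maps_to (n := m) hm (by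
    rw [Finset.card_univ, Fintype.card_fin]
    have := Nat.mul_le_mul_right m hF
    omega)
  refine ⟨e, he, fun i => γ (Finset.orderEmbOfCardLe _ hc.le i), fun i => ⟨(h1 _).1, k _, hk _, ?_⟩,
    fun i j hij => h2 _ _ fun e => hij ((Finset.orderEmbOfCardLe _ hc.le).injective e)⟩
  exact (Finset.mem_filter.1 (Finset.orderEmbOfCardLe_mem _ hc.le i)).2

theorem a22c_all {t : Env} {z : Z2} {F : Finset (Sym2 Z2)} (hF : F.card ≤ 4)
    (hz : ∀ y, squareLattice.Adj z y → s(z, y) ∈ F) (h : ∀ m, t ∈ Thru m z) :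
    ∃ e ∈ F, ∀ m, a22cP t z e m := by
  by_contra hn
  push Not at hn
  choose! m hm using hn
  obtain ⟨e, he, hP⟩ := a22c_step hF hz (F.sup m) (h _)
  exact hm e he (a22c_anti (Finset.le_sup he) hP)

theorem ALaw.thru_null (hG : ALaw G) (z : Z2) : ∀ᵐ t ∂iidLaw G, ∃ m, t ∉ Thru m z := by
  classical
  have key : ∀ᵐ t ∂iidLaw G, t ∉ {t : Env | ∀ m, t ∈ Thru m z} := by
    refine hG.null_of fun ε hε => ?_
    obtain ⟨δ, p, hδ, -, hp, hp1, hL⟩ := hG.lw (η := 1) (ε := ε / 4) one_pos (by positivity)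
    obtain ⟨F, hF, hz⟩ := nbr_fin z
    have hA : Pr G {t : Env | ∀ m, t ∈ Many m δ z} = 0 := by
      refine hG.pr_null ?_
      filter_upwards [hG.many_null hδ z] with t ⟨m, hm⟩ h using hm (h m)
    have h1 : Pr G (Src G F p {t : Env | ∀ m, t ∈ Many m δ z}) ≤ 0 := by
      have := hG.fe hG.good F hp hp1 {t : Env | ∀ m, t ∈ Many m δ z}
      rwa [hA, mul_zero] at this
    have h2 : Pr G (⋃ e ∈ F, {t : Env | t e ∈ (Lw G 1 δ p)ᶜ}) ≤ ε := by
      refine (hG.biUnion F _).trans ?_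
      calc ∑ e ∈ F, Pr G {t : Env | t e ∈ (Lw G 1 δ p)ᶜ} ≤ ∑ _e ∈ F, ε / 4 :=
            Finset.sum_le_sum fun e _ => (hG.edge e (hG.lw_meas _ _ _).compl).trans_le hL
        _ = F.card * (ε / 4) := by rw [Finset.sum_const, nsmul_eq_mul]
        _ ≤ 4 * (ε / 4) := by
            have : (F.card : ℝ) ≤ 4 := by exact_mod_cast hF
            gcongr
        _ = ε := by ring
    refine le_trans (hG.mono_ae (B := Src G F p {t : Env | ∀ m, t ∈ Many m δ z} ∪
      ⋃ e ∈ F, {t : Env | t e ∈ (Lw G 1 δ p)ᶜ}) ?_) ((hG.union _ _).trans (by linarith))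
    filter_upwards [hG.good] with t ht h
    obtain ⟨e, he, hP⟩ := a22c_all hF hz h
    by_cases hl : t e ∈ Lw G 1 δ p
    · left
      refine ⟨{e}, Finset.singleton_subset_iff.2 he, fun _ => Icc (t e - 1) (t e - δ),
        fun _ _ => ⟨measurableSet_Icc, hl⟩, fun t' hI hS ht' m => ?_⟩
      obtain ⟨γ, hγ, hne⟩ := hP m
      have hI' := hI e (Finset.mem_singleton_self e)
      refine ⟨γ, fun i => ?_, hne⟩
      obtain ⟨hlin, k, hk, hke⟩ := hγ i
      have hlow : Low t t' {s(γ i k, γ i (k + 1))} := by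
        rw [hke]
        refine ⟨fun e' => ?_, hS⟩
        by_cases hee : e' = e
        · rw [hee]; linarith [hI'.2]
        · exact (hS e' (by simpa using hee)).le
      have := Low.lin ht ht' hlin hlow (δ := δ) (by rw [hke]; linarith [hI'.2])
      rwa [hk] at this
    · right
      exact mem_biUnion (Finset.mem_coe.2 he) hl
  filter_upwards [key] with t ht
  by_contra hn
  push Not at hn
  exact ht hn

end

end Crest.Agent.R151.A
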