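import Crest.Agent.R151.A15c

/-! Row 151 (A): limits of geodesics -/

set_option autoImplicit false

open MeasureTheory Set Filter Topology
open Crest.ProbabilityR.FirstPassage

namespace Crest.Agent.R151.A

open Crest.Agent.R151.B

noncomputable section

theorem A23_geo_congr {t : Env} {g g' : ℕ → Z2} {n : ℕ} (h : Geo t g n)
    (e : ∀ i ≤ n, g i = g' i) : Geo t g' n := by
  refine ⟨fun i hi => ?_, ?_⟩
  · rw [← e i hi.le, ← e (i + 1) hi]; exact h.1 i hi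
  · rw [← cst_congr t e, ← e 0 (Nat.zero_le _), ← e n le_rfl]; exact h.2

theorem konig {t : Env} (ht : Good t) (x y : ℕ → Z2) (hx : ∀ R, ∃ N, ∀ n ≥ N, R ≤ ni (x n))
    (hy : ∀ R, ∃ N, ∀ n ≥ N, R ≤ ni (y n)) {R : ℕ}
    (h : ∃ N, ∀ n ≥ N, ∃ z ∈ bx 0 R, Btw t (x n) z (y n)) :
    ∃ γ, Lin t γ ∧ γ 0 ∈ bx 0 R ∧ ∀ m N : ℕ, ∃ n ≥ N,
      Btw t (γ (-m)) (γ 0) (y n) ∧ Btw t (x n) (γ 0) (γ m) := by
  obtain ⟨N0, hN0⟩ := h
  choose g len hg h0 h1 using fun n => ht.ex (x n) (y n)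
  have hA : ∀ n, ∃ a, a ≤ len n ∧ (N0 ≤ n → ni (g n a) ≤ R) := by
    intro n
    by_cases hn : N0 ≤ n
    · obtain ⟨z, hz, hb⟩ := hN0 n hn
      obtain ⟨i, hi, e⟩ := ht.uniq (g n) (len n) z (hg n) (by rw [h0, h1]; exact hb)
      refine ⟨i, hi, fun _ => ?_⟩
      rw [e]
      simpa using mem_bx.1 hz
    · exact ⟨0, Nat.zero_le _, fun h' => absurd h' hn⟩
  choose a ha hab using hA
  have hwin : ∀ m : ℕ, ∀ᶠ n in atTop, m ≤ a n ∧ a n + m ≤ len n ∧ ni (g n (a n)) ≤ R := by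
    intro m
    obtain ⟨N1, hN1⟩ := hx (R + m)
    obtain ⟨N2, hN2⟩ := hy (R + m)
    filter_upwards [eventually_ge_atTop N0, eventually_ge_atTop N1, eventually_ge_atTop N2]
      with n n0 n1 n2
    have e0 := hab n n0
    have e1 := hN1 n n1
    have e2 := hN2 n n2
    have e3 := (hg n).1.ni_le (Nat.zero_le _) (ha n)
    have e4 := (hg n).1.ni_le (ha n) le_rfl
    have e5 := ni_add (g n (a n)) (g n 0 - g n (a n))
    have e6 := ni_add (g n (a n)) (g n (len n) - g n (a n))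
    rw [add_sub_cancel] at e5 e6
    rw [ni_sub_comm] at e3
    rw [← h0 n] at e1
    rw [← h1 n] at e2
    have := ha n
    exact ⟨by omega, by omega, e0⟩
  have hU : ((hyperfilter ℕ : Ultrafilter ℕ) : Filter ℕ) ≤ atTop := Nat.hyperfilter_le_atTop
  have hlim : ∀ i : ℤ, ∃ z, ∀ᶠ n in (hyperfilter ℕ : Ultrafilter ℕ),
      g n ((a n : ℤ) + i).toNat = z := by
    intro i
    have : ∀ᶠ n in (hyperfilter ℕ : Ultrafilter ℕ),
        ∃ z ∈ ((bx 0 (R + i.natAbs) : Finset Z2) : Set Z2), g n ((a n : ℤ) + i).toNat = z := by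
      filter_upwards [hU (hwin i.natAbs)] with n hn
      obtain ⟨n1, n2, n3⟩ := hn
      refine ⟨_, ?_, rfl⟩
      rw [Finset.mem_coe, mem_bx, sub_zero]
      have e5 := ni_add (g n (a n)) (g n ((a n : ℤ) + i).toNat - g n (a n))
      rw [add_sub_cancel] at e5
      have e6 : ni (g n ((a n : ℤ) + i).toNat - g n (a n)) ≤ i.natAbs := by
        rcases le_total 0 i with hi | hi
        · have := (hg n).1.ni_le (i := a n) (j := ((a n : ℤ) + i).toNat) (by omega) (by omega)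
          omega
        · have := (hg n).1.ni_le (i := ((a n : ℤ) + i).toNat) (j := a n) (by omega) (by omega)
          rw [ni_sub_comm]
          omega
      omega
    obtain ⟨z, -, hz⟩ := (Ultrafilter.eventually_exists_mem_iff (Finset.finite_toSet _)).1 this
    exact ⟨z, hz⟩
  choose γ hγ using hlim
  have hW : ∀ m N : ℕ, ∃ n ≥ N, (m ≤ a n ∧ a n + m ≤ len n ∧ ni (g n (a n)) ≤ R) ∧
      ∀ i : ℤ, -(m : ℤ) ≤ i → i ≤ m → γ i = g n ((a n : ℤ) + i).toNat := by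
    intro m N
    have e1 : ∀ᶠ n in (hyperfilter ℕ : Ultrafilter ℕ), ∀ i ∈ Finset.Icc (-(m : ℤ)) m,
        g n ((a n : ℤ) + i).toNat = γ i :=
      (Finset.eventually_all _).2 fun i _ => hγ i
    obtain ⟨n, n1, n2, n3⟩ := (((eventually_ge_atTop N).filter_mono hU).and
      (((hwin m).filter_mono hU).and e1)).exists
    exact ⟨n, n1, n2, fun i h1 h2 => (n3 i (Finset.mem_Icc.2 ⟨h1, h2⟩)).symm⟩
  refine ⟨γ, fun k l => ?_, ?_, fun m N => ?_⟩
  · obtain ⟨n, -, ⟨n1, n2, -⟩, n3⟩ := hW (k.natAbs + l) 0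
    refine A23_geo_congr ((hg n).sub ht.nn (i := ((a n : ℤ) + k).toNat) (m := l) (by omega))
      fun i hi => ?_
    show g n (((a n : ℤ) + k).toNat + i) = γ (k + i)
    rw [n3 (k + i) (by omega) (by omega)]
    congr 1
    omega
  · obtain ⟨n, -, ⟨-, -, n2⟩, n3⟩ := hW 0 0
    rw [mem_bx, sub_zero, n3 0 (by omega) (by omega)]
    simpa using n2
  · obtain ⟨n, nN, ⟨n1, n2, -⟩, n3⟩ := hW m N
    refine ⟨n, nN, ?_, ?_⟩
    · rw [n3 (-m) le_rfl (by omega), n3 0 (by omega) (by omega), ← h1 n]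
      exact (hg n).btw ht.nn (by omega) (by omega) le_rfl
    · rw [n3 m (by omega) le_rfl, n3 0 (by omega) (by omega), ← h0 n]
      exact (hg n).btw ht.nn (by omega) (by omega) (by omega)

end

end Crest.Agent.R151.A
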