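import Crest.Agent.R151.A2

/-! Row 151 (A): lowering finitely many weights -/

set_option autoImplicit false

open MeasureTheory Set Filter Topology
open Crest.ProbabilityR.FirstPassage

namespace Crest.Agent.R151.A

open Crest.Agent.R151.B

noncomputable section

variable {t t' : Env} {S : Finset (Sym2 Z2)} {x y : Z2} {g : ℕ → Z2} {n : ℕ}

theorem Low.nn (h : Low t t' S) (ht' : NN t') : NN t := fun e => (ht' e).trans (h.1 e)
theorem Low.T_le (h : Low t t' S) (ht' : NN t') (x y : Z2) : T t' x y ≤ T t x y := by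
  have := wk_nonempty x y
  refine le_ciInf fun w => ?_
  obtain ⟨g, hg, h0, hn, -, hc⟩ := isP_of_walk w
  have h1 := T_le_cst ht' hg
  rw [h0, hn] at h1
  rw [← hc t]
  exact h1.trans (Finset.sum_le_sum fun i _ => h.1 _)
theorem Low.cst_le (h : Low t t' S) (g : ℕ → Z2) (n : ℕ) : cst t' g n ≤ cst t g n :=
  Finset.sum_le_sum fun _ _ => h.1 _
theorem Low.cst_eq (h : Low t t' S) (hg : ∀ i < n, ed g i ∉ S) : cst t' g n = cst t g n :=
  Finset.sum_congr rfl fun i hi => h.2 _ (hg i (Finset.mem_range.1 hi))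
theorem a3_diff (h : Low t t' S) (hi : Inj g n) :
    cst t g n - cst t' g n = ∑ e ∈ S ∩ (Finset.range n).image (ed g), (t e - t' e) := by
  have h1 : ∑ e ∈ (Finset.range n).image (ed g), (t e - t' e) =
      ∑ i ∈ Finset.range n, (t (ed g i) - t' (ed g i)) :=
    Finset.sum_image fun i hi' j hj e =>
      hi.ed_inj (Finset.mem_range.1 hi') (Finset.mem_range.1 hj) e
  rw [cst, cst, ← Finset.sum_sub_distrib, ← h1]
  refine (Finset.sum_subset Finset.inter_subset_right fun e he he' => ?_).symm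
  rw [h.2 e fun hS => he' (Finset.mem_inter.2 ⟨hS, he⟩), sub_self]
theorem Low.cst_ge (h : Low t t' S) (hi : Inj g n) :
    cst t g n - ∑ e ∈ S, (t e - t' e) ≤ cst t' g n := by
  have h1 := a3_diff h hi
  have h2 : ∑ e ∈ S ∩ (Finset.range n).image (ed g), (t e - t' e) ≤ ∑ e ∈ S, (t e - t' e) :=
    Finset.sum_le_sum_of_subset_of_nonneg Finset.inter_subset_left fun e _ _ =>
      sub_nonneg.2 (h.1 e)
  linarith
theorem Low.cst_sub (h : Low t t' S) (hi : Inj g n) (hS : ∀ e ∈ S, ∃ i < n, ed g i = e) :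
    cst t' g n = cst t g n - ∑ e ∈ S, (t e - t' e) := by
  have h1 := a3_diff h hi
  rw [Finset.inter_eq_left.2 fun e he => by
    obtain ⟨i, hi', e'⟩ := hS e he
    exact Finset.mem_image.2 ⟨i, Finset.mem_range.2 hi', e'⟩] at h1
  linarith
theorem Low.cst_le_sub (h : Low t t' S) (g : ℕ → Z2) {I : Finset ℕ} (hI : I ⊆ Finset.range n) :
    cst t' g n ≤ cst t g n - ∑ i ∈ I, (t (ed g i) - t' (ed g i)) := by
  have h1 : ∑ i ∈ I, (t (ed g i) - t' (ed g i)) ≤
      ∑ i ∈ Finset.range n, (t (ed g i) - t' (ed g i)) :=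
    Finset.sum_le_sum_of_subset_of_nonneg hI fun i _ _ => sub_nonneg.2 (h.1 _)
  rw [Finset.sum_sub_distrib (s := Finset.range n)] at h1
  unfold cst
  linarith
theorem Low.le_T (h : Low t t' S) (ht' : Good t') (x y : Z2) :
    T t x y - ∑ e ∈ S, (t e - t' e) ≤ T t' x y := by
  obtain ⟨g, n, hg, rfl, rfl⟩ := ht'.ex x y
  have h1 := h.cst_ge (hg.inj ht')
  have h2 := T_le_cst (h.nn ht'.nn) hg.1
  rw [← hg.2]
  linarith
theorem Low.geo_off (h : Low t t' S) (ht' : NN t') (hg : Geo t' g n) (ho : ∀ i < n, ed g i ∉ S) :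
    Geo t g n ∧ T t' (g 0) (g n) = T t (g 0) (g n) := by
  have h1 := h.cst_eq ho
  have h2 := h.T_le ht' (g 0) (g n)
  have h3 := T_le_cst (h.nn ht') hg.1
  have h4 := hg.2
  exact ⟨⟨hg.1, by linarith⟩, by linarith⟩
theorem Low.geo_on (h : Low t t' S) (ht : Good t) (ht' : Good t') (hg : Geo t g n)
    (hS : ∀ e ∈ S, ∃ i < n, ed g i = e) :
    Geo t' g n ∧ T t' (g 0) (g n) = T t (g 0) (g n) - ∑ e ∈ S, (t e - t' e) := by
  have h1 := h.cst_sub (hg.inj ht) hS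
  have h2 := h.le_T ht' (g 0) (g n)
  have h3 := T_le_cst ht'.nn hg.1
  have h4 := hg.2
  exact ⟨⟨hg.1, by linarith⟩, by linarith⟩
theorem Low.uses (h : Low t t' S) (ht' : Good t') (hT : T t' x y < T t x y) :
    ∃ u u', s(u, u') ∈ S ∧ Btw t' x u y ∧ Btw t' x u' y := by
  obtain ⟨g, n, hg, rfl, rfl⟩ := ht'.ex x y
  by_contra hc
  refine hT.ne (h.geo_off ht'.nn hg fun i hi hS => hc ?_).2
  exact ⟨g i, g (i + 1), hS, hg.btw ht'.nn (Nat.zero_le _) hi.le le_rfl,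
    hg.btw ht'.nn (Nat.zero_le _) hi le_rfl⟩
theorem a3_eq_of_not (ht' : Good t') {i : ℕ} (h : Low t t' {ed g i}) {x y : Z2}
    (hn : ¬ Btw t' x (g i) y) : T t x y ≤ T t' x y := by
  by_contra hc
  obtain ⟨u, u', hu, h1, h2⟩ := h.uses ht' (not_le.mp hc)
  rw [Finset.mem_singleton, ed, Sym2.eq_iff] at hu
  rcases hu with ⟨hu, -⟩ | ⟨-, hu⟩
  · exact hn (hu ▸ h1)
  · exact hn (hu ▸ h2)

theorem Low.mgp (ht : Good t) (ht' : Good t') (hg : Geo t g n) {i : ℕ} (hi : i < n)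
    (h : Low t t' {ed g i}) {δ : ℝ} (hδ : δ ≤ t (ed g i) - t' (ed g i)) :
    MgP t' (g 0) (g n) (g i) δ := by
  obtain ⟨hg', hT⟩ := h.geo_on ht ht' hg
    (fun e he => ⟨i, hi, (Finset.mem_singleton.mp he).symm⟩)
  rw [Finset.sum_singleton] at hT
  refine ⟨hg'.btw ht'.nn (Nat.zero_le i) hi.le le_rfl, fun u u' hlt => ?_⟩
  by_contra hc
  push Not at hc
  obtain ⟨h1, h2, h3⟩ := hc
  have e1 := a3_eq_of_not ht' h h1
  have e2 := a3_eq_of_not ht' h h2
  have e3 := a3_eq_of_not ht' h h3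
  have f1 := T_tri ht.nn (g 0) u (g n)
  have f2 := T_tri ht.nn u u' (g n)
  linarith
theorem Low.lin (ht : Good t) (ht' : Good t') {γ : ℤ → Z2} (hγ : Lin t γ) {k : ℤ}
    (h : Low t t' {s(γ k, γ (k + 1))}) {δ : ℝ}
    (hδ : δ ≤ t s(γ k, γ (k + 1)) - t' s(γ k, γ (k + 1))) : Lin t' γ ∧ Mg t' γ (γ k) δ := by
  have hed : ∀ (b : ℤ) (c : ℕ), b + c = k → ed (fw γ b) c = s(γ k, γ (k + 1)) := by
    intro b c hc
    simp only [ed, fw]
    rw [hc, Nat.cast_succ, ← add_assoc, hc]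
  have hlin : Lin t' γ := by
    intro a m
    obtain ⟨b, c, d, hb, hc⟩ : ∃ (b : ℤ) (c d : ℕ), b + c = k ∧ b + d = a :=
      ⟨min a k, (k - min a k).toNat, (a - min a k).toNat, by omega, by omega⟩
    have hG := (h.geo_on ht ht' (hγ b (c + d + m + 1))
      (fun e he => ⟨c, by omega, by rw [hed b c hb, Finset.mem_singleton.mp he]⟩)).1
    have h2 := hG.sub ht'.nn (i := d) (m := m) (by omega)
    have e : tl (fw γ b) d = fw γ a := by
      funext i
      simp only [tl, fw]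
      rw [Nat.cast_add, ← add_assoc, hc]
    rwa [e] at h2
  refine ⟨hlin, k, rfl, fun i hi j hj => ?_⟩
  rcases hj.eq_or_lt with hj | hj
  · subst hj
    exact ⟨btw_right ht'.nn _ _, fun u u' _ => Or.inr (Or.inr (btw_right ht'.nn _ _))⟩
  · obtain ⟨c, hc⟩ : ∃ c : ℕ, i + c = k := ⟨(k - i).toNat, by omega⟩
    obtain ⟨d, hd⟩ : ∃ d : ℕ, i + d = j := ⟨(j - i).toNat, by omega⟩
    have := Low.mgp ht ht' (hγ i d) (i := c) (by omega) (by rw [hed i c hc]; exact h)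
      (δ := δ) (by rw [hed i c hc]; exact hδ)
    simpa only [fw, hc, hd, Nat.cast_zero, add_zero] using this
theorem Low.opp (h : Low t t' S) (ht' : Good t') {a b : ℕ → Z2} (ho : Opp t' a b) : Opp t a b := by
  obtain ⟨C, hC⟩ := ho
  refine ⟨C + 2 * ∑ e ∈ S, (t e - t' e), fun m n => ?_⟩
  have h1 := h.le_T ht' 0 (a m)
  have h2 := h.le_T ht' 0 (b n)
  have h3 := h.T_le ht'.nn (a m) (b n)
  have h4 := hC m n
  linarith

end

end Crest.Agent.R151.A
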