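import Crest.Agent.R151.A23
import Crest.Agent.R151.A17
import Crest.Agent.R151.A3

/-! Row 151 (A): lines that pass near a point, deterministic part -/

set_option autoImplicit false

open MeasureTheory Set Filter Topology
open Crest.ProbabilityR.FirstPassage

namespace Crest.Agent.R151.A

open Crest.Agent.R151.B

noncomputable section

variable {t t' : Env} {S : Finset (Sym2 Z2)}

theorem a23b_gain (ht : Good t) (ht' : NN t') (hl : Low t t' S) {A : Set ℝ} {R : ℕ} {δ : ℝ}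
    (hδ : 0 ≤ δ) (hr : Rich A t 0 R) (hS : ∀ e ∈ (bx 0 R).sym2, t e ∈ A → δ ≤ t e - t' e)
    {y : Z2} (hy : R ≤ ni (y - 0)) : T t' 0 y ≤ T t 0 y - R * δ / 2 := by
  classical
  obtain ⟨g, n, hg, g0, gn⟩ := ht.ex 0 y
  have hR : R ≤ n := by
    have := hg.1.ni_le (Nat.zero_le n) le_rfl
    rw [g0, gn] at this
    omega
  have h1 := hr g g0 (hg.1.mono hR) ((hg.inj ht).mono hR)
  set I := (Finset.range R).filter fun i => t (ed g i) ∈ A with hI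
  have hsub : I ⊆ Finset.range n := fun i hi =>
    Finset.mem_range.2 ((Finset.mem_range.1 (Finset.mem_filter.1 hi).1).trans_le hR)
  have h2 := hl.cst_le_sub g hsub
  have hb : ∀ i ≤ R, g i ∈ bx 0 R := fun i hi => by
    have := hg.1.ni_le (Nat.zero_le i) (hi.trans hR)
    rw [g0] at this
    exact mem_bx.2 (by omega)
  have h3 : (I.card : ℝ) * δ ≤ ∑ i ∈ I, (t (ed g i) - t' (ed g i)) := by
    rw [← nsmul_eq_mul]
    refine Finset.card_nsmul_le_sum _ _ _ fun i hi => ?_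
    obtain ⟨a, b⟩ := Finset.mem_filter.1 hi
    have a' := Finset.mem_range.1 a
    exact hS _ (Finset.mk_mem_sym2_iff.2 ⟨hb i a'.le, hb (i + 1) a'⟩) b
  have h4 := T_le_cst ht' hg.1
  have h5 := hg.2
  rw [g0, gn] at h4 h5
  have h6 : (R : ℝ) ≤ 2 * I.card := by exact_mod_cast h1
  have h7 := mul_le_mul_of_nonneg_right h6 hδ
  linarith

theorem a23b_tail (ht' : NN t') (hl : Low t t' S) {R : ℕ} (hS : S ⊆ (bx 0 R).sym2) {r : ℕ → Z2}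
    (hr : Ray t' r) {k : ℕ} (h : ∀ i, R + 1 ≤ ni (r (k + i) - 0)) : Ray t (tl r k) := by
  intro n
  refine (hl.geo_off ht' (hr.tl ht' k n) fun i _ he => ?_).1
  have h1 : r (k + i) ∈ bx 0 R := (Finset.mk_mem_sym2_iff.1 (hS he)).1
  have h2 := mem_bx.1 h1
  have h3 := h i
  omega

theorem a23b_opp (ht : Good t) (ht' : Good t') (hl : Low t t' S) {a r : ℕ → Z2} (hr : Ray t r)
    {z : Z2} (h : ∀ m N, ∃ n ≥ N, Btw t' (a m) z (r n)) : Opp t a r := by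
  refine ⟨2 * T t' 0 z + 2 * ∑ e ∈ S, (t e - t' e) + 2 * T t 0 (r 0), fun m k => ?_⟩
  obtain ⟨n, hn, hb⟩ := h m k
  have h1 := grom_mono ht.nn hr (a m) hn
  have h2 := hl.le_T ht' 0 (a m)
  have h3 := hl.le_T ht' 0 (r n)
  have h4 := hl.T_le ht'.nn (a m) (r n)
  have h5 := T_tri ht'.nn 0 z (a m)
  have h6 := T_tri ht'.nn 0 z (r n)
  have h7 := T_symm t' z (a m)
  have h8 : T t' (a m) z + T t' z (r n) = T t' (a m) (r n) := hb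
  linarith

theorem a23b_same (ht : Good2 t) {γ₁ γ₂ γ : ℤ → Z2} (h₁ : ML t γ₁) (h₂ : Lin t γ₂) {k₁ : ℕ}
    (hr : Ray t (tl (rN γ) k₁)) (o₁ : Opp t (rN γ) (rP γ₁)) {b : ℕ → Z2} (o₂ : Opp t b (rP γ₂))
    {k : ℤ} (hb : ∀ i : ℕ, b i = γ (k - i)) : Same γ₁ γ₂ := by
  have nn := ht.toGood.nn
  obtain ⟨j', hj'⟩ : ∃ j' : ℕ, (j' : ℤ) = k₁ + k.natAbs + k := Int.eq_ofNat_of_zero_le (by omega) |>.imp
    fun _ h => h.symm
  have e1 : tl (tl (rN γ) k₁) k.natAbs = tl (rN γ) (k₁ + k.natAbs) := by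
    funext i
    show rN γ (k₁ + (k.natAbs + i)) = rN γ (k₁ + k.natAbs + i)
    rw [add_assoc]
  have e2 : tl (rN γ) (k₁ + k.natAbs) = tl b j' := by
    funext i
    show γ (-((k₁ + k.natAbs + i : ℕ) : ℤ)) = b (j' + i)
    rw [hb]
    congr 1
    omega
  have ra : Ray t (tl (rN γ) (k₁ + k.natAbs)) := e1 ▸ hr.tl nn k.natAbs
  have c1 := ht.ends γ₁ _ h₁.1 ra (o₁.tl _)
  have c2 := ht.ends γ₂ _ h₂ ra (e2 ▸ o₂.tl j')
  exact sep ht h₁ h₂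
    (Opp.of_cl nn h₁.1.rayN h₂.rayN h₁.1.rayP (h₁.1.opp nn) (c1.symm.trans c2))

theorem k_gain (ht : Good t) (ht' : NN t') (hl : Low t t' S) {A : Set ℝ} {R : ℕ} {δ K : ℝ}
    (hδ : 0 ≤ δ) (hr : Rich A t 0 R) (hS : ∀ e ∈ (bx 0 R).sym2, t e ∈ A → δ ≤ t e - t' e)
    (hK : K < R * δ / 2) {γ : ℤ → Z2} (hγ : Lin t γ) (hX : X t γ 0 ≤ K) :
    ∃ N : ℕ, ∀ n ≥ N, T t' (γ (-(n : ℕ))) (γ n) < T t (γ (-(n : ℕ))) (γ n) := by
  have h1 := (hγ.three_tendsto ht.nn 0 0).eventually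
    (gt_mem_nhds (show bus t (rN γ) 0 + bus t (rP γ) 0 < R * δ / 2 by
      have : X t γ 0 = bus t (rP γ) 0 + bus t (rN γ) 0 := rfl
      linarith))
  obtain ⟨N₁, hN₁⟩ := eventually_atTop.1 h1
  obtain ⟨N₂, hN₂⟩ := hγ.escape ht 0 R
  refine ⟨max N₁ N₂, fun n hn => ?_⟩
  have a1 := hN₁ n (le_of_max_le_left hn)
  have a2 := a23b_gain ht ht' hl hδ hr hS (hN₂ n (by
    have := le_of_max_le_right hn
    rw [abs_of_nonneg (Int.natCast_nonneg n)]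
    exact_mod_cast this))
  have a3 := hl.T_le ht' (γ (-(n : ℕ))) 0
  have a4 := T_tri ht' (γ (-(n : ℕ))) 0 (γ n)
  linarith

theorem k_lift (ht : Good t) (ht' : Good t') (hl : Low t t' S) {R : ℕ} (hS : S ⊆ (bx 0 R).sym2)
    {γ : ℤ → Z2} (hγ : Lin t γ)
    (h : ∃ N : ℕ, ∀ n ≥ N, T t' (γ (-(n : ℕ))) (γ n) < T t (γ (-(n : ℕ))) (γ n)) :
    ∃ γ', Lin t' γ' ∧ γ' 0 ∈ bx 0 R ∧ ((∃ k, Ray t (tl (rN γ') k) ∧ Ray t (tl (rP γ') k)) ∧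
      Opp t (rN γ') (rP γ) ∧ Opp t (rP γ') (rN γ)) := by
  have esc : ∀ {s : Env} {η : ℤ → Z2}, Good s → Lin s η → ∀ R : ℕ, ∃ N : ℕ, ∀ n ≥ N,
      R ≤ ni (η (-(n : ℕ)) - 0) ∧ R ≤ ni (η n - 0) := by
    intro s η hs hη R
    obtain ⟨N, hN⟩ := hη.escape hs 0 R
    refine ⟨N, fun n hn => ⟨hN _ ?_, hN _ ?_⟩⟩
    · rw [abs_neg, abs_of_nonneg (Int.natCast_nonneg n)]
      exact_mod_cast hn
    · rw [abs_of_nonneg (Int.natCast_nonneg n)]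
      exact_mod_cast hn
  obtain ⟨γ', hγ', h0, hb⟩ := konig ht' (fun n => γ (-(n : ℕ))) (fun n => γ n)
    (fun R => (esc ht hγ R).imp fun N hN n hn => by simpa only [sub_zero] using (hN n hn).1)
    (fun R => (esc ht hγ R).imp fun N hN n hn => by simpa only [sub_zero] using (hN n hn).2)
    (R := R) (h.imp fun N hN n hn => by
      obtain ⟨u, u', hu, b1, -⟩ := hl.uses ht' (hN n hn)
      exact ⟨u, (Finset.mk_mem_sym2_iff.1 (hS hu)).1, b1⟩)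
  obtain ⟨k, hk⟩ := esc ht' hγ' (R + 1)
  refine ⟨γ', hγ', h0, ⟨k, a23b_tail ht'.nn hl hS hγ'.rayN fun i => (hk _ (Nat.le_add_right k i)).1,
    a23b_tail ht'.nn hl hS hγ'.rayP fun i => (hk _ (Nat.le_add_right k i)).2⟩,
    a23b_opp ht ht' hl hγ.rayP (z := γ' 0) fun m N => ?_,
    a23b_opp ht ht' hl hγ.rayN (z := γ' 0) fun m N => ?_⟩
  · exact (hb m N).imp fun n hn => ⟨hn.1, hn.2.1⟩
  · exact (hb m N).imp fun n hn => ⟨hn.1, hn.2.2.symm⟩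

theorem k_inj (ht : Good2 t) {γ₁ γ₂ γ₁' γ₂' : ℤ → Z2} (h₁ : ML t γ₁) (h₂ : Lin t γ₂)
    (l₁ : ((∃ k, Ray t (tl (rN γ₁') k) ∧ Ray t (tl (rP γ₁') k)) ∧
      Opp t (rN γ₁') (rP γ₁) ∧ Opp t (rP γ₁') (rN γ₁)))
    (l₂ : ((∃ k, Ray t (tl (rN γ₂') k) ∧ Ray t (tl (rP γ₂') k)) ∧
      Opp t (rN γ₂') (rP γ₂) ∧ Opp t (rP γ₂') (rN γ₂)))
    (hs : Same γ₁' γ₂') : Same γ₁ γ₂ := by
  obtain ⟨⟨k₁, hr, -⟩, o₁, -⟩ := l₁
  obtain ⟨-, o₂, o₃⟩ := l₂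
  obtain ⟨k, hk | hk⟩ := hs
  · exact a23b_same ht h₁ h₂ hr o₁ o₂ (k := k) fun i => (hk _).trans (by rw [sub_eq_add_neg])
  · rw [← rP_rv] at o₃
    exact (a23b_same ht h₁ h₂.rv hr o₁ o₃ (k := k) fun i => hk _).trans (same_rv γ₂).symm


end

end Crest.Agent.R151.A
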