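import Crest.Agent.R151.A23b
import Crest.Agent.R151.A22c

/-! Row 151 (A): finitely many lines pass near a point -/

set_option autoImplicit false

open MeasureTheory Set Filter Topology
open Crest.ProbabilityR.FirstPassage

namespace Crest.Agent.R151.A

open Crest.Agent.R151.B

noncomputable section

variable {G : Measure ℝ}

theorem a23c_step {t t' : Env} {S : Finset (Sym2 Z2)} (ht : Good2 t) (ht' : Good t') {A : Set ℝ}
    {R : ℕ} {δ K : ℝ} (hδ : 0 ≤ δ) (hl : Low t t' S) (hS : S ⊆ (bx 0 R).sym2) (hr : Rich A t 0 R)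
    (hg : ∀ e ∈ (bx 0 R).sym2, t e ∈ A → δ ≤ t e - t' e) (hK : K < R * δ / 2) (m : ℕ)
    (hn : t ∈ Near ((bx 0 R).card * m + 1) K 0) : ∃ z ∈ bx 0 R, t' ∈ Thru m z := by
  classical
  obtain ⟨γ, hγ, hne⟩ := hn
  have h0 := fun i => k_lift ht.toGood ht' hl hS (hγ i).1.1
    (k_gain ht.toGood (fun e => (ht'.pos e).le) hl hδ hr hg hK (hγ i).1.1 (hγ i).2)
  choose γ' h1 h2 h3 using h0
  obtain ⟨z, hz, hc⟩ := Finset.exists_lt_card_fiber_of_mul_lt_card_of_maps_to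
    (s := Finset.univ) (t := bx 0 R) (f := fun i => γ' i 0) (n := m) (fun i _ => h2 i) (by simp)
  obtain ⟨F, hF, hcard⟩ := Finset.exists_subset_card_eq hc.le
  let e := F.equivFinOfCardEq hcard
  refine ⟨z, hz, fun j => γ' (e.symm j), fun j => ⟨h1 _, 0, ?_⟩, fun i j hij hs =>
    hne _ _ (fun h => hij (e.symm.injective (Subtype.ext h)))
      (k_inj ht (hγ _).1 (hγ _).1.1 (h3 _) (h3 _) hs)⟩
  exact (Finset.mem_filter.1 (hF (e.symm j).2)).2

theorem a23c_det {t t' : Env} {S : Finset (Sym2 Z2)} (ht : Good2 t) (ht' : Good t') {A : Set ℝ}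
    {R : ℕ} {δ K : ℝ} (hδ : 0 ≤ δ) (hl : Low t t' S) (hS : S ⊆ (bx 0 R).sym2) (hr : Rich A t 0 R)
    (hg : ∀ e ∈ (bx 0 R).sym2, t e ∈ A → δ ≤ t e - t' e) (hK : K < R * δ / 2)
    (hn : ∀ m, t ∈ Near m K 0) : ∃ z ∈ bx 0 R, ∀ m, t' ∈ Thru m z := by
  classical
  by_contra hc
  have hc' : ∀ z : Z2, ∃ m, z ∈ bx 0 R → t' ∉ Thru m z := fun z => by
    by_contra h
    refine hc ⟨z, ?_, fun m => ?_⟩
    · by_contra hz
      exact h ⟨0, fun h' => (hz h').elim⟩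
    · by_contra hm
      exact h ⟨m, fun _ => hm⟩
  choose M hM using hc'
  obtain ⟨z, hz, h⟩ := a23c_step ht ht' hδ hl hS hr hg hK ((bx 0 R).sup M) (hn _)
  exact hM z hz (thru_anti z (Finset.le_sup (f := M) hz) h)

theorem a23c_zero (hG : ALaw G) (K : ℝ) : Pr G {t | ∀ m, t ∈ Near m K 0} = 0 := by
  classical
  refine hG.pr_null (hG.null_of fun ε hε => ?_)
  obtain ⟨δ, p, hδ, -, hp, hp1, hw⟩ := hG.lw (η := 1) (ε := 1 / 256) one_pos (by norm_num)
  have e1 : ∀ᶠ R : ℕ in atTop, K < R * δ / 2 :=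
    ((tendsto_natCast_atTop_atTop.atTop_mul_const hδ).atTop_div_const two_pos).eventually
      (eventually_gt_atTop K)
  have e2 : ∀ᶠ R : ℕ in atTop, (1 / 2 : ℝ) ^ R ≤ ε :=
    (tendsto_pow_atTop_nhds_zero_of_lt_one (by norm_num) (by norm_num)).eventually
      (eventually_le_nhds hε)
  obtain ⟨R, hK, hR⟩ := (e1.and e2).exists
  have hA : Pr G {t | ∃ z ∈ bx 0 R, ∀ m, t ∈ Thru m z} = 0 := by
    refine hG.pr_null ?_
    filter_upwards [ae_all_iff.2 hG.thru_null] with t ht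
    rintro ⟨z, -, hz⟩
    obtain ⟨m, hm⟩ := ht z
    exact hm (hz m)
  have hfe := hG.fe hG.good (bx 0 R).sym2 hp hp1 {t | ∃ z ∈ bx 0 R, ∀ m, t ∈ Thru m z}
  rw [hA, mul_zero] at hfe
  have hr := hG.rich (hG.lw_meas 1 δ p) hw 0 R
  refine (hG.mono_ae (B := {t | ¬ Rich (Lw G 1 δ p) t 0 R} ∪
    Src G (bx 0 R).sym2 p {t | ∃ z ∈ bx 0 R, ∀ m, t ∈ Thru m z}) ?_).trans
      ((hG.union _ _).trans (by linarith))
  filter_upwards [hG.good2] with t ht hn
  by_cases hri : Rich (Lw G 1 δ p) t 0 R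
  · refine Or.inr ⟨(bx 0 R).sym2.filter fun e => t e ∈ Lw G 1 δ p, Finset.filter_subset _ _,
      fun e => Icc (t e - 1) (t e - δ), fun e he => ⟨measurableSet_Icc, (Finset.mem_filter.1 he).2⟩,
      fun t' h1 h2 ht' => ?_⟩
    refine a23c_det ht ht' hδ.le ⟨fun e => ?_, h2⟩ (Finset.filter_subset _ _) hri
      (fun e he ha => ?_) hK hn
    · by_cases he : e ∈ (bx 0 R).sym2.filter fun e => t e ∈ Lw G 1 δ p
      · have := (h1 e he).2
        linarith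
      · exact (h2 e he).le
    · have := (h1 e (Finset.mem_filter.2 ⟨he, ha⟩)).2
      linarith
  · exact Or.inl hri

theorem ALaw.near_null (hG : ALaw G) : ∀ᵐ t ∂iidLaw G, ∀ (z : Z2) (K : ℕ), ∃ m, t ∉ Near m K z := by
  refine ae_all_iff.2 fun z => ae_all_iff.2 fun K => ?_
  have h : ∀ᵐ t ∂iidLaw G, t ∉ sh z ⁻¹' {t | ∀ m, t ∈ Near m K 0} :=
    hG.null_of fun ε hε => by rw [hG.pr_sh, a23c_zero hG]; exact hε.le
  filter_upwards [h] with t ht
  by_contra hc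
  refine ht fun m => ?_
  by_contra hm
  exact hc ⟨m, by rw [near_sh]; exact hm⟩

end

end Crest.Agent.R151.A
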