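import Crest.Agent.R151.A21b

/-! Row 151 (A): final count, deterministic part -/

set_option autoImplicit false

open MeasureTheory Set Filter Topology
open Crest.ProbabilityR.FirstPassage

namespace Crest.Agent.R151.A

open Crest.Agent.R151.B

noncomputable section

variable {t : Env}

theorem bad_anti (K δ : ℝ) (z : Z2) : Antitone fun r => Bad r K δ z := by
  rintro a b hab t ⟨γ, γ', h1, h2, h3, h4, h5, h6⟩
  refine ⟨γ, γ', h1, h2, h3, h4, h5, h6.mono (Finset.coe_subset.2 (bx_mono ?_)) le_rfl⟩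
  rw [sub_self, ni_zero, zero_add]; exact hab

theorem a24_max {K : ℝ} {z : Z2} (h : ∃ m, t ∉ Near m K z) : ∃ (m : ℕ) (ρ : Fin m → ℤ → Z2),
    (∀ a, ML t (ρ a)) ∧ ∀ γ, ML t γ → X t γ z ≤ K → ∃ a, Same γ (ρ a) := by
  classical
  have h0 : Nat.find h ≠ 0 := fun e => by
    have := Nat.find_spec h
    rw [e] at this
    exact this ⟨Fin.elim0, fun i => i.elim0, fun i => i.elim0⟩
  obtain ⟨m, hm⟩ := Nat.exists_eq_succ_of_ne_zero h0
  have h1 := Nat.find_spec h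
  rw [hm] at h1
  obtain ⟨ρ, h2, h3⟩ := not_not.1 (Nat.find_min h (m := m) (by omega))
  refine ⟨m, ρ, fun a => (h2 a).1, fun γ hγ hX => ?_⟩
  by_contra hn
  push Not at hn
  refine h1 ⟨Fin.cons γ ρ, fun i => ?_, fun i j hij => ?_⟩
  · refine Fin.cases ?_ (fun i => ?_) i
    · exact ⟨hγ, hX⟩
    · exact h2 i
  · revert hij
    refine Fin.cases ?_ (fun i => ?_) i <;> refine Fin.cases ?_ (fun j => ?_) j <;> intro hij
    · exact absurd rfl hij
    · exact hn j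
    · exact fun hs => hn i hs.symm
    · exact h3 i j fun e => hij (by rw [e])

theorem bad_det (ht : Good2 t) {K δ : ℝ} (hδ : 0 < δ) {z : Z2}
    (h : ∀ K : ℕ, ∃ m, t ∉ Near m K z) : ∃ r, t ∉ Bad r K δ z := by
  have nn := ht.toGood.nn
  obtain ⟨m, ρ, h1, h2⟩ := a24_max (h ⌈2 * K⌉₊)
  have h3 : ∀ p : (Fin m × Fin m) × Bool × Bool, ∃ r : ℕ, ¬ Same (ρ p.1.1) (ρ p.1.2) →
      ¬ Cl t (rP (orn p.2.1 (ρ p.1.1))) (rP (orn p.2.2 (ρ p.1.2))) (bx z r) K := fun p => by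
    by_cases hs : Same (ρ p.1.1) (ρ p.1.2)
    · exact ⟨0, fun h => absurd hs h⟩
    · obtain ⟨r, hr⟩ := cl_box (sep_cl ht (h1 _) (h1 _).1 hs p.2.1 p.2.2 K) z
      exact ⟨r, fun _ => hr⟩
  choose R hR using h3
  refine ⟨Finset.univ.sup R, ?_⟩
  rintro ⟨γ, γ', a1, a2, a3, a4, a5, a6⟩
  obtain ⟨k, hk⟩ := a2.mem
  obtain ⟨a, ha⟩ := h2 γ (ml_of a1 a2 hδ) (by rw [← hk, a1.X_on nn]; positivity)
  obtain ⟨a', ha'⟩ := h2 γ' a3 (a5.trans (Nat.le_ceil _))
  obtain ⟨o, ho, -⟩ := ha.cl nn a1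
  obtain ⟨o', ho', -⟩ := ha'.cl nn a3.1
  refine hR ((a, a'), o, o') (fun hs => a4 ((ha.trans hs).trans ha'.symm)) ?_
  refine (((ho.mono (subset_univ _) le_rfl).trans a6).trans
    (ho'.symm.mono (subset_univ _) le_rfl)).mono (Finset.coe_subset.2 (bx_mono ?_)) (by linarith)
  rw [sub_self, ni_zero, zero_add]
  exact Finset.le_sup (f := R) (Finset.mem_univ _)

theorem a24_floor {a b K : ℝ} (hK : 0 < K) (ha : 0 ≤ a) (hb : 0 ≤ b) (h : ⌊a / K⌋₊ = ⌊b / K⌋₊) :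
    |a - b| ≤ K := by
  have h1 := Nat.floor_le (div_nonneg ha hK.le)
  have h2 := Nat.lt_floor_add_one (a / K)
  have h3 := Nat.floor_le (div_nonneg hb hK.le)
  have h4 := Nat.lt_floor_add_one (b / K)
  rw [h] at h1 h2
  rw [le_div_iff₀ hK] at h1 h3
  rw [div_lt_iff₀ hK] at h2 h4
  rw [abs_le]; constructor <;> nlinarith

open Classical in
theorem fin_count (ht : Good2 t) {r l L : ℕ} {δ C S K : ℝ} (hδ : 0 < δ) (hK : 0 < K) (hC : 0 ≤ C)
    (hl : l + r ≤ L) (hh : Hit t 0 l C) (hW : W t 0 L ≤ S) :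
    (((bx 0 l).filter fun z => t ∈ MgE δ z ∧ t ∉ Bad r K δ z).card : ℝ) ≤
      (64 * S / K + 1) * (C * l) := by
  have nn := ht.toGood.nn
  obtain ⟨Φ, hΦ⟩ : ∃ Φ, Φ = (bx 0 l).filter fun z => t ∈ MgE δ z ∧ t ∉ Bad r K δ z := ⟨_, rfl⟩
  rw [← hΦ]
  have hm : ∀ z : Φ, z.1 ∈ bx 0 l ∧ t ∈ MgE δ z ∧ t ∉ Bad r K δ z := fun z =>
    Finset.mem_filter.1 (hΦ.le z.2)
  choose γ hγ hγ' using fun z : Φ => (hm z).2.1
  obtain ⟨o, s, hs, hc⟩ := mass ht γ (fun z => ml_of (hγ z) (hγ' z) hδ) 0 L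
  have hS : 0 ≤ S := (W_nonneg nn _ _).trans hW
  have e : Φ.card = ∑ q ∈ Finset.range (⌊64 * S / K⌋₊ + 1),
      (Finset.univ.filter fun z : Φ => ⌊s z / K⌋₊ = q).card := by
    rw [← Finset.card_eq_sum_card_fiberwise, Finset.card_univ, Fintype.card_coe]
    intro z _
    refine Finset.mem_coe.2 (Finset.mem_range.2 (Nat.lt_succ_of_le (Nat.floor_mono ?_)))
    exact div_le_div_of_nonneg_right (by linarith [(hs z).2]) hK.le
  have hL : ∀ z : Φ, z.1 ∈ (bx 0 L : Set Z2) := fun z =>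
    Finset.mem_coe.2 (mem_bx.2 ((mem_bx.1 (hm z).1).trans (by omega)))
  have fib : ∀ q, ((Finset.univ.filter fun z : Φ => ⌊s z / K⌋₊ = q).card : ℝ) ≤ C * l := by
    intro q
    rcases (Finset.univ.filter fun z : Φ => ⌊s z / K⌋₊ = q).eq_empty_or_nonempty with h0 | ⟨z₀, h0⟩
    · rw [h0, Finset.card_empty, Nat.cast_zero]; positivity
    refine le_trans ?_ (((hγ z₀).orn (o z₀)).hit ht.toGood hh)
    refine Nat.cast_le.2 (Finset.card_le_card_of_injOn Subtype.val (fun z hz => ?_)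
      Subtype.val_injective.injOn)
    have hd := a24_floor hK (hs z).1 (hs z₀).1
      ((Finset.mem_filter.1 hz).2.trans (Finset.mem_filter.1 h0).2.symm)
    obtain ⟨c1, c2⟩ := hc z z₀
    refine Finset.mem_coe.2 (Finset.mem_filter.2 ⟨(hm z).1, ?_⟩)
    have hsame : Same (orn (o z) (γ z)) (orn (o z₀) (γ z₀)) := by
      by_contra hn
      refine (hm z).2.2 ⟨_, _, (hγ z).orn (o z), (hγ' z).orn (o z),
        (ml_of (hγ z₀) (hγ' z₀) hδ).orn (o z₀), hn, ?_, c1.mono (Finset.coe_subset.2 (bx_mono ?_)) hd⟩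
      · have b1 := abs_le.1 ((c1 _ (hL z) _ (hL z₀)).trans hd)
        have b2 := abs_le.1 ((c2 _ (hL z) _ (hL z₀)).trans hd)
        obtain ⟨k, hk⟩ := ((hγ' z).orn (o z)).mem
        obtain ⟨k₀, hk₀⟩ := ((hγ' z₀).orn (o z₀)).mem
        have b3 := ((hγ z).orn (o z)).X_on nn k
        have b4 := ((hγ z₀).orn (o z₀)).X_on nn k₀
        have b5 := ((hγ z).orn (o z)).X_nonneg nn z₀
        rw [hk] at b3
        rw [hk₀] at b4
        unfold X at b3 b4 b5 ⊢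
        linarith [b1.1, b2.1]
      · have := mem_bx.1 (hm z).1
        omega
    rw [hsame.range_eq]
    exact ((hγ' z).orn (o z)).mem
  rw [e, Nat.cast_sum]
  refine (Finset.sum_le_sum fun q _ => fib q).trans ?_
  rw [Finset.sum_const, Finset.card_range, nsmul_eq_mul]
  refine mul_le_mul_of_nonneg_right ?_ (by positivity)
  push_cast
  linarith [Nat.floor_le (show 0 ≤ 64 * S / K by positivity)]

end

end Crest.Agent.R151.A
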