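import Crest.Agent.R151.A24
import Crest.Agent.R151.A23c

/-! Row 151 (A): no lines -/

set_option autoImplicit false

open MeasureTheory Set Filter Topology
open Crest.ProbabilityR.FirstPassage

namespace Crest.Agent.R151.A

open Crest.Agent.R151.B

noncomputable section

variable {G : Measure ℝ}

theorem a24b_small (hG : ALaw G) {δ ε : ℝ} (hδ : 0 < δ) (hε : 0 < ε) :
    Pr G (MgE δ 0) ≤ 5 * ε := by
  classical
  obtain ⟨C, hC, hhit⟩ := hG.ev_hit hε
  obtain ⟨Cw, hCw, hwt⟩ := hG.wt ε hε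
  have hK : 0 < 128 * Cw * C / ε := by positivity
  obtain ⟨r, hr⟩ := hG.ev_anti (fun r => Bad r (128 * Cw * C / ε) δ 0)
    (fun r => hG.bad_null r _ δ 0) (bad_anti _ δ 0)
    (by filter_upwards [hG.good2, hG.near_null] with t ht hn using bad_det ht hδ (hn 0)) hε
  obtain ⟨l, hl1, hlr, hlC⟩ : ∃ l : ℕ, 1 ≤ l ∧ r ≤ l ∧ C ≤ ε * l := by
    refine ⟨r + ⌈C / ε⌉₊ + 1, by omega, by omega, ?_⟩
    have h1 := Nat.le_ceil (C / ε)
    rw [div_le_iff₀ hε] at h1
    have h2 : (0 : ℝ) ≤ r := Nat.cast_nonneg r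
    push_cast
    nlinarith
  have hl0 : (0 : ℝ) ≤ l := Nat.cast_nonneg l
  set E : Set Env := {t | ¬ Hit t 0 l C} ∪ {t | Cw * (2 * l : ℕ) < W t 0 (2 * l)} with hE
  have hPE : Pr G E ≤ 2 * ε := by
    have := hG.union {t | ¬ Hit t 0 l C} {t | Cw * (2 * l : ℕ) < W t 0 (2 * l)}
    have h1 := hhit 0 l hl1
    have h2 := hwt 0 (2 * l) (by omega)
    linarith
  obtain ⟨H', hH'⟩ : ∃ H' : Z2 → Set Env, ∀ z, H' z = Bad r (128 * Cw * C / ε) δ z ∪ E :=
    ⟨_, fun _ => rfl⟩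
  have key := hG.count_le (bx 0 l) (fun z => MgE δ z) (bx 0 l) H' (a := 1) (b := 2 * ε * (l : ℝ) ^ 2) zero_le_one
    (fun z _ => hG.mgE_null δ z) (by
      filter_upwards [hG.good2] with t ht
      rw [one_mul, one_mul]
      by_cases hte : t ∈ E
      · refine le_add_of_nonneg_of_le (by positivity) (Nat.cast_le.2 (Finset.card_le_card ?_))
        intro z hz
        rw [Finset.mem_filter] at hz ⊢
        exact ⟨hz.1, hH' z ▸ Or.inr hte⟩
      · have h1 : Hit t 0 l C := by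
          by_contra h
          exact hte (Or.inl h)
        have h2 : W t 0 (2 * l) ≤ Cw * (2 * l : ℕ) := by
          by_contra h
          exact hte (Or.inr (not_le.1 h))
        have h3 := fin_count ht (r := r) hδ hK hC.le (show l + r ≤ 2 * l by omega) h1 h2
        have h4 : (64 * (Cw * (2 * l : ℕ)) / (128 * Cw * C / ε) + 1) * (C * l) ≤
            2 * ε * (l : ℝ) ^ 2 := by
          have e : (64 * (Cw * (2 * l : ℕ)) / (128 * Cw * C / ε) + 1) * (C * l) =
              ε * (l : ℝ) ^ 2 + C * l := by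
            push_cast
            field_simp
            ring
          rw [e]
          nlinarith [mul_le_mul_of_nonneg_right hlC hl0]
        refine le_trans ?_ (add_le_add_left (h3.trans h4) _)
        rw [← Nat.cast_add, Nat.cast_le]
        refine le_trans (Finset.card_le_card ?_) (Finset.card_union_le _ _)
        intro z hz
        rw [Finset.mem_filter] at hz
        rw [Finset.mem_union, Finset.mem_filter, Finset.mem_filter]
        by_cases hb : t ∈ Bad r (128 * Cw * C / ε) δ z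
        · exact Or.inr ⟨hz.1, hH' z ▸ Or.inl hb⟩
        · exact Or.inl ⟨hz.1, hz.2, hb⟩)
  have s1 : ∑ z ∈ bx 0 l, Pr G (MgE δ z) = (2 * l + 1 : ℝ) ^ 2 * Pr G (MgE δ 0) := by
    rw [Finset.sum_congr rfl fun z _ => show Pr G (MgE δ z) = Pr G (MgE δ 0) by
      rw [mgE_sh, hG.pr_sh], Finset.sum_const, card_bx, nsmul_eq_mul]
    push_cast
    ring
  have s2 : ∑ z ∈ bx 0 l, Pr G (H' z) ≤ (2 * l + 1 : ℝ) ^ 2 * (3 * ε) := by
    refine (Finset.sum_le_card_nsmul _ _ (3 * ε) fun z _ => ?_).trans ?_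
    · have h1 := hG.union (Bad r (128 * Cw * C / ε) δ z) E
      rw [← hH', bad_sh, hG.pr_sh] at h1
      linarith
    · rw [card_bx, nsmul_eq_mul]
      push_cast
      exact le_rfl
  rw [one_mul, one_mul, s1] at key
  have hpos : (0 : ℝ) < (2 * l + 1 : ℝ) ^ 2 := by positivity
  refine le_of_mul_le_mul_left ?_ hpos
  have : (l : ℝ) ^ 2 ≤ (2 * l + 1 : ℝ) ^ 2 := by nlinarith
  nlinarith [mul_le_mul_of_nonneg_left this hε.le]

theorem ALaw.mgE_zero (hG : ALaw G) {δ : ℝ} (hδ : 0 < δ) (z : Z2) : Pr G (MgE δ z) = 0 := by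
  rw [mgE_sh, hG.pr_sh]
  refine le_antisymm (le_of_forall_pos_le_add fun ε hε => ?_) (Pr_nonneg G _)
  have := a24b_small hG hδ (show 0 < ε / 5 by positivity)
  linarith

theorem a24b_thru (hG : ALaw G) (z : Z2) {ε : ℝ} (hε : 0 < ε) :
    Pr G {t | ∃ γ, Lin t γ ∧ γ 0 = z} ≤ ε := by
  obtain ⟨δ, p, hδ, -, hp, hp1, hlw⟩ := hG.lw one_pos (show 0 < ε / 4 by positivity)
  obtain ⟨F, hF, hFz⟩ := nbr_fin z
  have h1 : Pr G {t | ∃ γ, Lin t γ ∧ γ 0 = z} ≤
      Pr G ((⋃ e ∈ F, {t : Env | t e ∈ (Lw G 1 δ p)ᶜ}) ∪ Src G F p (MgE δ z)) := by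
    refine hG.mono_ae ?_
    filter_upwards [hG.good] with t ht
    rintro ⟨γ, hγ, h0⟩
    have he : s(γ 0, γ (0 + 1)) ∈ F := by
      have := hγ.adj 0
      rw [h0] at this ⊢
      exact hFz _ this
    by_cases hl : t s(γ 0, γ (0 + 1)) ∈ Lw G 1 δ p
    · refine Or.inr ⟨{s(γ 0, γ (0 + 1))}, Finset.singleton_subset_iff.2 he,
        fun e => Icc (t e - 1) (t e - δ), fun e he => ⟨measurableSet_Icc, ?_⟩,
        fun t' hI hoff ht' => ?_⟩
      · rw [Finset.mem_singleton.1 he]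
        exact hl
      · have hd := (hI _ (Finset.mem_singleton_self _)).2
        have hlow : Low t t' {s(γ 0, γ (0 + 1))} := by
          refine ⟨fun e => ?_, hoff⟩
          by_cases hes : e ∈ ({s(γ 0, γ (0 + 1))} : Finset (Sym2 Z2))
          · have := (hI e hes).2
            linarith
          · exact (hoff e hes).le
        have := Low.lin ht ht' hγ hlow (δ := δ) (by linarith)
        exact ⟨γ, this.1, h0 ▸ this.2⟩
    · exact Or.inl (mem_biUnion he hl)
  have h2 := hG.union (⋃ e ∈ F, {t : Env | t e ∈ (Lw G 1 δ p)ᶜ}) (Src G F p (MgE δ z))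
  have h3 := hG.fe hG.good F hp hp1 (MgE δ z)
  rw [hG.mgE_zero hδ, mul_zero] at h3
  have h4 := hG.biUnion F fun e => {t : Env | t e ∈ (Lw G 1 δ p)ᶜ}
  have h5 : ∑ e ∈ F, Pr G {t : Env | t e ∈ (Lw G 1 δ p)ᶜ} ≤ F.card • (ε / 4) :=
    Finset.sum_le_card_nsmul _ _ _ fun e _ => by
      rw [hG.edge e (hG.lw_meas 1 δ p).compl]
      exact hlw
  rw [nsmul_eq_mul] at h5
  have h6 : (F.card : ℝ) ≤ 4 := by exact_mod_cast hF
  nlinarith

theorem ALaw.no_line (hG : ALaw G) : ∀ᵐ t ∂iidLaw G, ∀ γ, ¬ Lin t γ := by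
  have h : ∀ᵐ t ∂iidLaw G, ∀ z : Z2, t ∉ {t | ∃ γ, Lin t γ ∧ γ 0 = z} :=
    ae_all_iff.2 fun z => hG.null_of fun ε hε => a24b_thru hG z hε
  filter_upwards [h] with t ht γ hγ using ht (γ 0) ⟨γ, hγ, rfl⟩

theorem lin_of_big {t : Env} {γ : ℤ → Z2} (ht : NN t) (h : IsBigeodesic t γ) : Lin t γ := by
  intro k n
  refine ⟨fun i _ => ?_, ?_⟩
  · have := h.2.1 (k + i)
    simpa only [fw, Nat.cast_add, Nat.cast_one, add_assoc] using this
  · rcases Nat.eq_zero_or_pos n with rfl | hn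
    · simp only [cst, Finset.range_zero, Finset.sum_empty, T_self ht]
    · have := h.2.2 k (k + n) (by omega)
      rw [Int.Ico_eq_finset_map, Finset.sum_map] at this
      simpa [cst, ed, fw, add_assoc] using this

end

end Crest.Agent.R151.A
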