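import Crest.Agent.R151.A5

/-! Row 151 (A): counting walks -/

set_option autoImplicit false

open MeasureTheory Set Filter Topology
open Crest.ProbabilityR.FirstPassage

namespace Crest.Agent.R151.A

open Crest.Agent.R151.B

noncomputable section

variable {G : Measure ℝ}

theorem a5b_walks (x : Z2) (n : ℕ) : ∃ F : Finset (ℕ → Z2), F.card ≤ 4 ^ n ∧
    ∀ g, g 0 = x → IsP g n → ∃ f ∈ F, ∀ i ≤ n, f i = g i := by
  classical
  induction n with
  | zero =>
    refine ⟨{fun _ => x}, by simp, fun g h _ => ⟨_, Finset.mem_singleton_self _, fun i hi => ?_⟩⟩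
    rw [Nat.le_zero.1 hi, h]
  | succ n ih =>
    obtain ⟨F, h1, h2⟩ := ih
    refine ⟨(F ×ˢ ({(1, 0), (-1, 0), (0, 1), (0, -1)} : Finset Z2)).image
      fun p => Function.update p.1 (n + 1) (p.1 n + p.2), ?_, fun g h hg => ?_⟩
    · refine Finset.card_image_le.trans ?_
      rw [Finset.card_product, pow_succ]
      exact Nat.mul_le_mul h1 Finset.card_le_four
    · obtain ⟨f, hf, e⟩ := h2 g h fun i hi => hg i (by omega)
      have h3 := adj_iff.1 (hg n (by omega))
      rw [n1_natAbs, Nat.cast_eq_one] at h3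
      refine ⟨_, Finset.mem_image.2 ⟨(f, g (n + 1) - g n), Finset.mem_product.2 ⟨hf, ?_⟩, rfl⟩,
        fun i hi => ?_⟩
      · simp only [Finset.mem_insert, Finset.mem_singleton, Prod.ext_iff]
        omega
      · rcases hi.eq_or_lt with rfl | hi
        · simp only [Function.update_self, e n le_rfl, add_sub_cancel]
        · rw [Function.update_of_ne hi.ne]
          exact e i (by omega)

theorem a5b_pr (hG : ALaw G) {B : Set ℝ} (hB : MeasurableSet B) {g : ℕ → Z2} {n : ℕ}
    (hg : Inj g n) {I : Finset ℕ} (hI : I ⊆ Finset.range n) :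
    Pr G {t | ∀ i ∈ I, t (ed g i) ∈ B} = G.real B ^ I.card := by
  classical
  have := hG.prob
  have e : {t : Env | ∀ i ∈ I, t (ed g i) ∈ B} = Set.pi (I.image (ed g)) fun _ => B := by
    ext t
    simp
  rw [e, Pr, iidLaw, Measure.real, Measure.infinitePi_pi _ fun _ _ => hB, Finset.prod_const,
    ENNReal.toReal_pow, Finset.card_image_of_injOn fun i hi j hj h =>
      hg.ed_inj (Finset.mem_range.1 (hI hi)) (Finset.mem_range.1 (hI hj)) h]
  rfl

/-- at most `4 ^ n` walks, `2 ^ n` sets of indices, each has probability `≤ (1/256)^(n/2)` -/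
theorem ALaw.rich (hG : ALaw G) {A : Set ℝ} (hA : MeasurableSet A) (h : G.real Aᶜ ≤ 1 / 256)
    (x : Z2) (n : ℕ) : Pr G {t | ¬ Rich A t x n} ≤ (1 / 2) ^ n := by
  classical
  obtain ⟨F, h1, h2⟩ := a5b_walks x n
  refine (hG.mono (B := ⋃ p ∈ (F.filter (Inj · n)) ×ˢ
    ((Finset.range n).powerset.filter fun I => n ≤ 2 * I.card),
    {t | ∀ i ∈ p.2, t (ed p.1 i) ∈ Aᶜ}) fun t ht => ?_).trans ((hG.biUnion _ _).trans ?_)
  · simp only [Rich, mem_ofPred_eq, not_forall, not_le] at ht
    obtain ⟨g, g0, g1, g2, g3⟩ := ht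
    obtain ⟨f, hf, e⟩ := h2 g g0 g1
    have h3 := Finset.card_filter_add_card_filter_not (s := Finset.range n)
      fun i => t (ed g i) ∈ A
    rw [Finset.card_range] at h3
    refine mem_iUnion₂.2 ⟨(f, (Finset.range n).filter fun i => ¬ t (ed g i) ∈ A),
      Finset.mem_product.2 ⟨Finset.mem_filter.2 ⟨hf, fun i hi j hj h => g2 i hi j hj ?_⟩,
        Finset.mem_filter.2 ⟨Finset.mem_powerset.2 (Finset.filter_subset _ _), ?_⟩⟩,
      fun i hi => ?_⟩
    · rwa [← e i hi, ← e j hj]
    · change n ≤ 2 * ((Finset.range n).filter fun i => ¬ t (ed g i) ∈ A).card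
      omega
    · obtain ⟨h4, h5⟩ := Finset.mem_filter.1 hi
      rw [Finset.mem_range] at h4
      change t s(f i, f (i + 1)) ∈ Aᶜ
      rwa [e i h4.le, e (i + 1) h4]
  · refine (Finset.sum_le_card_nsmul _ _ ((1 / 16 : ℝ) ^ n) fun p hp => ?_).trans ?_
    · obtain ⟨p1, p2⟩ := Finset.mem_product.1 hp
      obtain ⟨p3, p4⟩ := Finset.mem_filter.1 p2
      rw [a5b_pr hG hA.compl (Finset.mem_filter.1 p1).2 (Finset.mem_powerset.1 p3)]
      calc G.real Aᶜ ^ p.2.card ≤ ((1 / 16) ^ 2) ^ p.2.card :=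
            pow_le_pow_left₀ measureReal_nonneg (h.trans_eq (by norm_num)) _
        _ ≤ _ := by
          rw [← pow_mul]
          exact pow_le_pow_of_le_one (by norm_num) (by norm_num) p4
    · have h3 : ((F.filter (Inj · n)) ×ˢ
          ((Finset.range n).powerset.filter fun I => n ≤ 2 * I.card)).card ≤ 4 ^ n * 2 ^ n := by
        rw [Finset.card_product]
        refine Nat.mul_le_mul ((Finset.card_filter_le _ _).trans h1)
          ((Finset.card_filter_le _ _).trans ?_)
        rw [Finset.card_powerset, Finset.card_range]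
      rw [nsmul_eq_mul]
      calc _ ≤ ((4 ^ n * 2 ^ n : ℕ) : ℝ) * (1 / 16) ^ n :=
            mul_le_mul_of_nonneg_right (Nat.cast_le.2 h3) (by positivity)
        _ = _ := by
          push_cast
          rw [← mul_pow, ← mul_pow]
          norm_num

end

end Crest.Agent.R151.A
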