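import Crest.Agent.R151.A5b

/-! Row 151 (A): almost every environment is good -/

set_option autoImplicit false

open MeasureTheory Set Filter Topology
open Crest.ProbabilityR.FirstPassage

namespace Crest.Agent.R151.A

open Crest.Agent.R151.B

noncomputable section

variable {G : Measure ℝ}

theorem ALaw.ae_pos (hG : ALaw G) : ∀ᵐ t ∂iidLaw G, ∀ e, 0 < t e := by
  have := hG.prob
  rw [ae_all_iff]
  intro e
  have h1 : ∀ᵐ x ∂G, (0 : ℝ) < x := by
    rw [ae_iff]
    refine measure_mono_null (fun x hx => ?_) (measure_union_null hG.pos (hG.atom 0))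
    exact (lt_or_eq_of_le (not_lt.1 hx)).imp id id
  exact (measurePreserving_eval_infinitePi (fun _ : Sym2 (ℤ × ℤ) => G) e).quasiMeasurePreserving.ae h1

/-- a non trivial finite linear form in the weights does not vanish -/
theorem a6_lin (hG : ALaw G) (c : Sym2 Z2 → ℝ) (U : Finset (Sym2 Z2)) {e₀ : Sym2 Z2}
    (h : e₀ ∉ U) (hc : c e₀ ≠ 0) : ∀ᵐ t ∂iidLaw G, ∑ e ∈ U, c e * t e + c e₀ * t e₀ ≠ 0 := by
  have := hG.prob
  have := hG.isP
  have hm : ∀ e, Measurable fun t : Env => c e * t e := fun e => by fun_prop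
  have hI : ProbabilityTheory.iIndepFun (fun e (t : Env) => c e * t e) (iidLaw G) :=
    ProbabilityTheory.iIndepFun_infinitePi (P := fun _ : Sym2 (ℤ × ℤ) => G)
      (X := fun e x => c e * x) fun e => by fun_prop
  have h1 := hI.indepFun_finsetSum_of_notMem hm h
  have e1 : (∑ e ∈ U, fun t : Env => c e * t e) = fun t => ∑ e ∈ U, c e * t e := by
    funext t; simp
  rw [e1] at h1
  have hY : Measurable fun t : Env => ∑ e ∈ U, c e * t e := Finset.measurable_sum _ fun e _ => hm e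
  have h2 := (ProbabilityTheory.indepFun_iff_map_prod_eq_prod_map_map hY.aemeasurable
    (hm e₀).aemeasurable).1 h1
  have hD : MeasurableSet {p : ℝ × ℝ | p.1 + p.2 = 0} :=
    measurableSet_eq_fun (by fun_prop) measurable_const
  have h3 : Measure.map (fun t : Env => (∑ e ∈ U, c e * t e, c e₀ * t e₀)) (iidLaw G)
      {p : ℝ × ℝ | p.1 + p.2 = 0} = 0 := by
    rw [h2, Measure.prod_apply hD]
    refine (lintegral_congr fun y => ?_).trans lintegral_zero
    rw [Measure.map_apply (hm e₀) (measurable_prodMk_left hD)]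
    have h4 : ∀ᵐ x ∂G, x ≠ -y / c e₀ := compl_mem_ae_iff.2 (hG.atom _)
    have h5 := (measurePreserving_eval_infinitePi (fun _ : Sym2 (ℤ × ℤ) => G)
      e₀).quasiMeasurePreserving.ae h4
    refine measure_mono_null (fun t ht => ?_) (ae_iff.1 h5)
    have h6 : y + c e₀ * t e₀ = 0 := ht
    refine fun h7 => h7 ?_
    change t e₀ = _
    field_simp
    linarith
  rw [Measure.map_apply (hY.prodMk (hm e₀)) hD] at h3
  exact compl_mem_ae_iff.2 h3

theorem a6_sum (c : Sym2 Z2 → ℝ) {S U : Finset (Sym2 Z2)} (h : S ⊆ U) [DecidableEq (Sym2 Z2)] :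
    ∑ e ∈ U, (if e ∈ S then 1 else 0) * c e = ∑ e ∈ S, c e := by
  rw [← Finset.sum_subset h fun e _ he => by simp [he]]
  exact Finset.sum_congr rfl fun e he => by simp [he]

theorem ALaw.ae_sums (hG : ALaw G) : ∀ᵐ t ∂iidLaw G, ∀ S S' : Finset (Sym2 Z2), S ≠ S' →
    ∑ e ∈ S, t e ≠ ∑ e ∈ S', t e := by
  classical
  rw [ae_all_iff]
  intro S
  rw [ae_all_iff]
  intro S'
  by_cases hS : S = S'
  · exact ae_of_all _ fun t h => absurd hS h
  obtain ⟨e₀, he⟩ : ∃ e₀, ¬ (e₀ ∈ S ↔ e₀ ∈ S') := by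
    by_contra hc
    push Not at hc
    exact hS (Finset.ext hc)
  have h0 : e₀ ∈ S ∪ S' := by
    rw [Finset.mem_union]; tauto
  have h1 := a6_lin hG (fun e => (if e ∈ S then 1 else 0) - (if e ∈ S' then 1 else 0))
    ((S ∪ S').erase e₀) (Finset.notMem_erase e₀ _) (by
      by_cases a : e₀ ∈ S <;> by_cases b : e₀ ∈ S' <;> simp_all)
  filter_upwards [h1] with t ht _ h2
  refine ht ?_
  rw [Finset.sum_erase_add _
    (fun e => ((if e ∈ S then (1 : ℝ) else 0) - (if e ∈ S' then 1 else 0)) * t e) h0]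
  simp only [sub_mul, Finset.sum_sub_distrib]
  rw [a6_sum t Finset.subset_union_left, a6_sum t Finset.subset_union_right, h2, sub_self]

theorem ALaw.ae_long (hG : ALaw G) : ∃ c : ℝ, 0 < c ∧
    ∀ᵐ t ∂iidLaw G, ∀ x, ∃ N, ∀ n ≥ N, Rich (Ici c) t x n := by
  have := hG.isP
  obtain ⟨c, hc, h⟩ := hG.c0
  refine ⟨c, hc, ae_all_iff.2 fun x => ?_⟩
  have h1 : ∑' n : ℕ, iidLaw G {t | ¬ Rich (Ici c) t x n} ≠ ⊤ := by
    refine ne_top_of_le_ne_top (b := ∑' n : ℕ, ENNReal.ofReal ((1 / 2) ^ n)) ?_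
      (ENNReal.tsum_le_tsum fun n => ?_)
    · rw [← ENNReal.ofReal_tsum_of_nonneg (fun n => by positivity) summable_geometric_two]
      exact ENNReal.ofReal_ne_top
    · rw [← ofReal_measureReal (measure_ne_top _ _)]
      exact ENNReal.ofReal_le_ofReal (hG.rich measurableSet_Ici h x n)
  filter_upwards [ae_eventually_notMem h1] with t ht
  obtain ⟨N, hN⟩ := eventually_atTop.1 ht
  exact ⟨N, fun n hn => not_not.1 (hN n hn)⟩

end

end Crest.Agent.R151.A
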