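import Crest.Agent.R151.A2

/-! Row 151 (A): the moment hypothesis -/

set_option autoImplicit false

open MeasureTheory Set Filter Topology
open Crest.ProbabilityR.FirstPassage

namespace Crest.Agent.R151.A

open Crest.Agent.R151.B

noncomputable section

theorem A7_nn (G : Measure ℝ) [IsProbabilityMeasure G] (hG : G (Iio 0) = 0) :
    ∀ᵐ t ∂iidLaw G, NN t := by
  unfold NN
  rw [ae_all_iff]
  intro e
  have h1 : ∀ᵐ x ∂G, (0 : ℝ) ≤ x := by
    rw [ae_iff]
    refine measure_mono_null (fun x hx => ?_) hG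
    simp only [mem_ofPred_eq, not_le] at hx
    exact hx
  exact (measurePreserving_eval_infinitePi (fun _ : Sym2 (ℤ × ℤ) => G) e).quasiMeasurePreserving.ae h1

theorem A7_edge {t : Env} (ht : NN t) {a b : Z2} (h : squareLattice.Adj a b) : T t a b ≤ t s(a, b) := by
  have := T_le_walk ht (SimpleGraph.Walk.cons h SimpleGraph.Walk.nil : Wk a b)
  simpa [walkCost] using this

theorem A7_path {t : Env} (ht : NN t) (g : ℕ → Z2) (n : ℕ)
    (h : ∀ j < n, squareLattice.Adj (g j) (g (j + 1))) :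
    T t (g 0) (g n) ≤ ∑ j ∈ Finset.range n, t s(g j, g (j + 1)) := by
  induction n with
  | zero => simp [T_self ht]
  | succ n ih =>
    rw [Finset.sum_range_succ]
    have h1 := ih fun j hj => h j (by omega)
    have h2 := A7_edge ht (h n (by omega))
    have h3 := T_tri ht (g 0) (g n) (g (n + 1))
    linarith

theorem A7_min (G : Measure ℝ) [IsProbabilityMeasure G] (f : Fin 4 → Sym2 Z2)
    (hf : Function.Injective f) :
    ∫⁻ t, ENNReal.ofReal (⨅ k, t (f k)) ∂iidLaw G ≤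
      1 + ∫⁻ x, ENNReal.ofReal ((⨅ i, x i) ^ 2) ∂(Measure.pi fun _ : Fin 4 => G) := by
  have hm : Measurable fun x : Fin 4 → ℝ => ⨅ i, x i :=
    Measurable.iInf fun i => measurable_pi_apply i
  have hφ : Measurable fun (t : Env) (k : Fin 4) => t (f k) :=
    measurable_pi_lambda _ fun k => measurable_pi_apply _
  have hmap : (iidLaw G).map (fun (t : Env) (k : Fin 4) => t (f k)) =
      Measure.pi fun _ : Fin 4 => G := by
    unfold iidLaw
    rw [Measure.map_infinitePi_infinitePi_of_inj (P := fun _ : Sym2 (ℤ × ℤ) => G) hf,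
      Measure.infinitePi_eq_pi]
  have h1 : ∫⁻ t, ENNReal.ofReal (⨅ k, t (f k)) ∂iidLaw G =
      ∫⁻ x, ENNReal.ofReal (⨅ i, x i) ∂(Measure.pi fun _ : Fin 4 => G) := by
    rw [← hmap, lintegral_map (f := fun x : Fin 4 → ℝ => ENNReal.ofReal (⨅ i, x i))
      hm.ennreal_ofReal hφ]
  rw [h1]
  calc ∫⁻ x, ENNReal.ofReal (⨅ i, x i) ∂(Measure.pi fun _ : Fin 4 => G)
      ≤ ∫⁻ x, (1 + ENNReal.ofReal ((⨅ i, x i) ^ 2)) ∂(Measure.pi fun _ : Fin 4 => G) := by
        refine lintegral_mono fun x => ?_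
        calc ENNReal.ofReal (⨅ i, x i) ≤ ENNReal.ofReal (1 + (⨅ i, x i) ^ 2) :=
              ENNReal.ofReal_le_ofReal (by nlinarith [sq_nonneg ((⨅ i, x i) - 1)])
          _ = 1 + ENNReal.ofReal ((⨅ i, x i) ^ 2) := by
              rw [ENNReal.ofReal_add zero_le_one (sq_nonneg _), ENNReal.ofReal_one]
    _ = _ := by
        rw [lintegral_add_left measurable_const, lintegral_const, measure_univ, mul_one]

theorem A7_gen (G : Measure ℝ) [IsProbabilityMeasure G] (hG : G (Iio 0) = 0) (x y : Z2)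
    (e : Fin 4 → Fin 9 → Sym2 Z2) (hinj : ∀ k k' j j', e k j = e k' j' → k = k')
    (hT : ∀ t : Env, NN t → ∀ k, T t x y ≤ ∑ j, t (e k j)) :
    ∫⁻ t, ENNReal.ofReal (T t x y) ∂iidLaw G ≤
      9 * (6561 * (1 + ∫⁻ x, ENNReal.ofReal ((⨅ i, x i) ^ 2) ∂(Measure.pi fun _ : Fin 4 => G))) := by
  have hm : ∀ c : Fin 4 → Fin 9, Measurable fun t : Env => ENNReal.ofReal (⨅ k, t (e k (c k))) :=
    fun c => (Measurable.iInf (f := fun k (t : Env) => t (e k (c k)))
      fun k => measurable_pi_apply (e k (c k))).ennreal_ofReal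
  calc ∫⁻ t, ENNReal.ofReal (T t x y) ∂iidLaw G
      ≤ ∫⁻ t, 9 * ∑ c : Fin 4 → Fin 9, ENNReal.ofReal (⨅ k, t (e k (c k))) ∂iidLaw G := by
        refine lintegral_mono_ae ?_
        filter_upwards [A7_nn G hG] with t ht
        have hc : ∀ k, ∃ j, ∀ j', t (e k j') ≤ t (e k j) := fun k =>
          Finite.exists_max fun j => t (e k j)
        choose c hc using hc
        obtain ⟨k, hk⟩ := exists_eq_ciInf_of_finite (f := fun k => t (e k (c k)))
        have h1 : T t x y ≤ 9 * ⨅ k, t (e k (c k)) := by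
          rw [← hk]
          refine (hT t ht k).trans ?_
          calc ∑ j, t (e k j) ≤ ∑ _j : Fin 9, t (e k (c k)) := Finset.sum_le_sum fun j _ => hc k j
            _ = 9 * t (e k (c k)) := by simp
        calc ENNReal.ofReal (T t x y) ≤ ENNReal.ofReal (9 * ⨅ k, t (e k (c k))) :=
              ENNReal.ofReal_le_ofReal h1
          _ = 9 * ENNReal.ofReal (⨅ k, t (e k (c k))) := by
              rw [ENNReal.ofReal_mul (by norm_num)]
              simp
          _ ≤ 9 * ∑ c : Fin 4 → Fin 9, ENNReal.ofReal (⨅ k, t (e k (c k))) := by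
              gcongr
              exact Finset.single_le_sum (f := fun c : Fin 4 → Fin 9 =>
                ENNReal.ofReal (⨅ k, t (e k (c k)))) (fun _ _ => zero_le) (Finset.mem_univ c)
    _ = 9 * ∑ c : Fin 4 → Fin 9, ∫⁻ t, ENNReal.ofReal (⨅ k, t (e k (c k))) ∂iidLaw G := by
        rw [lintegral_const_mul _ (Finset.measurable_sum _ fun c _ => hm c),
          lintegral_finsetSum _ fun c _ => hm c]
    _ ≤ 9 * ∑ _c : Fin 4 → Fin 9,
          (1 + ∫⁻ x, ENNReal.ofReal ((⨅ i, x i) ^ 2) ∂(Measure.pi fun _ : Fin 4 => G)) := by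
        gcongr with c
        exact A7_min G (fun k => e k (c k)) fun k k' h => hinj k k' _ _ h
    _ = _ := by
        rw [Finset.sum_const, Finset.card_univ, Fintype.card_fun, nsmul_eq_mul]
        norm_num

theorem A7_gen2 (G : Measure ℝ) [IsProbabilityMeasure G] (hG : G (Iio 0) = 0) (x d : Z2)
    (p : Fin 4 → ℕ → Z2) (h0 : ∀ k, p k 0 = 0) (h9 : ∀ k, p k 9 = d)
    (hadj : ∀ k, ∀ j : Fin 9, p k j ≠ p k (j + 1) ∧
      (((p k j).1 = (p k (j + 1)).1 ∧ (p k (j + 1)).2 = (p k j).2 + 1 ∨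
        (p k j).2 = (p k (j + 1)).2 ∧ (p k (j + 1)).1 = (p k j).1 + 1) ∨
       ((p k (j + 1)).1 = (p k j).1 ∧ (p k j).2 = (p k (j + 1)).2 + 1 ∨
        (p k (j + 1)).2 = (p k j).2 ∧ (p k j).1 = (p k (j + 1)).1 + 1)))
    (hinj : ∀ k k' : Fin 4, ∀ j j' : Fin 9,
      (p k j = p k' j' ∧ p k (j + 1) = p k' (j' + 1) ∨
        p k j = p k' (j' + 1) ∧ p k (j + 1) = p k' j') → k = k') :
    ∫⁻ t, ENNReal.ofReal (T t x (x + d)) ∂iidLaw G ≤
      9 * (6561 * (1 + ∫⁻ x, ENNReal.ofReal ((⨅ i, x i) ^ 2) ∂(Measure.pi fun _ : Fin 4 => G))) := by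
  refine A7_gen G hG x (x + d) (fun k j => s(p k j + x, p k (j + 1) + x)) ?_ ?_
  · intro k k' j j' h
    refine hinj k k' j j' ?_
    simpa only [Sym2.eq_iff, add_left_inj] using h
  · intro t ht k
    have h := A7_path ht (fun j => p k j + x) 9 fun j hj => by
      refine (adj_add x).2 ?_
      unfold squareLattice
      rw [SimpleGraph.fromRel_adj]
      exact hadj k ⟨j, hj⟩
    simp only [h0, h9, zero_add] at h
    rw [add_comm x d, ← Fin.sum_univ_eq_sum_range (fun j => t s(p k j + x, p k (j + 1) + x)) 9] at *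
    exact h

/-- the four walks -/
def A7p (k : Fin 4) (j : ℕ) : Z2 :=
  (![[(0, 0), (1, 0), (0, 0), (1, 0), (0, 0), (1, 0), (0, 0), (1, 0), (0, 0), (1, 0)],
    [(0, 0), (0, 1), (1, 1), (0, 1), (1, 1), (0, 1), (1, 1), (0, 1), (1, 1), (1, 0)],
    [(0, 0), (0, -1), (1, -1), (0, -1), (1, -1), (0, -1), (1, -1), (0, -1), (1, -1), (1, 0)],
    [(0, 0), (-1, 0), (-1, 1), (-1, 2), (0, 2), (1, 2), (2, 2), (2, 1), (2, 0), (1, 0)]] k :
      List Z2).getD j 0

/-- four edge disjoint walks of lengths `1, 3, 3, 9` join the ends of an edge -/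
theorem T_step_int (G : Measure ℝ) [IsProbabilityMeasure G] (hG : G (Iio 0) = 0)
    (hmom : ∫⁻ x, ENNReal.ofReal ((⨅ i, x i) ^ 2) ∂(Measure.pi fun _ : Fin 4 => G) < ⊤) :
    ∃ M : ℝ, 0 ≤ M ∧ ∀ x : Z2, ∫⁻ t, ENNReal.ofReal (T t x (x + (1, 0))) ∂iidLaw G ≤ ENNReal.ofReal M ∧
      ∫⁻ t, ENNReal.ofReal (T t x (x + (0, 1))) ∂iidLaw G ≤ ENNReal.ofReal M := by
  have hfin : (9 * (6561 * (1 + ∫⁻ x, ENNReal.ofReal ((⨅ i, x i) ^ 2)
      ∂(Measure.pi fun _ : Fin 4 => G))) : ENNReal) ≠ ⊤ :=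
    ENNReal.mul_ne_top (by norm_num) (ENNReal.mul_ne_top (by norm_num)
      (ENNReal.add_ne_top.2 ⟨ENNReal.one_ne_top, hmom.ne⟩))
  refine ⟨_, ENNReal.toReal_nonneg (a := 9 * (6561 * (1 + ∫⁻ x, ENNReal.ofReal ((⨅ i, x i) ^ 2)
      ∂(Measure.pi fun _ : Fin 4 => G)))), fun x => ?_⟩
  rw [ENNReal.ofReal_toReal hfin]
  exact ⟨A7_gen2 G hG x (1, 0) A7p (by decide) (by decide) (by decide) (by decide +kernel),
    A7_gen2 G hG x (0, 1) (fun k j => (A7p k j).swap) (by decide) (by decide) (by decide)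
      (by decide +kernel)⟩

end

end Crest.Agent.R151.A
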