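import Crest.Agent.R151.A7

/-! Row 151 (A): the moment hypothesis -/

set_option autoImplicit false

open MeasureTheory Set Filter Topology
open Crest.ProbabilityR.FirstPassage

namespace Crest.Agent.R151.A

open Crest.Agent.R151.B

noncomputable section

theorem alaw_of (G : Measure ℝ) [IsProbabilityMeasure G] [NullSingletonClass G] (hG : G (Iio 0) = 0)
    (hmom : ∫⁻ x, ENNReal.ofReal ((⨅ i, x i) ^ 2) ∂(Measure.pi fun _ : Fin 4 => G) < ⊤) :
    ALaw G := by
  obtain ⟨M, M0, hM⟩ := T_step_int G hG hmom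
  refine ⟨inferInstance, fun x => measure_singleton x, hG, fun ε hε =>
    ⟨18 * (M + 1) / ε, by positivity, fun z n hn => ?_⟩⟩
  have n1 : (1 : ℝ) ≤ n := by exact_mod_cast hn
  have hm : ∀ x y : Z2, Measurable fun t : Env => ENNReal.ofReal (T t x y) := fun x y =>
    (T_meas x y).ennreal_ofReal
  have hmW : Measurable fun t : Env => ∑ x ∈ sp z n,
      (ENNReal.ofReal (T t x (x + (1, 0))) + ENNReal.ofReal (T t x (x + (0, 1)))) :=
    Finset.measurable_sum _ fun x _ => (hm _ _).add (hm _ _)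
  have h1 : ∫⁻ t, ∑ x ∈ sp z n, (ENNReal.ofReal (T t x (x + (1, 0))) +
      ENNReal.ofReal (T t x (x + (0, 1)))) ∂iidLaw G ≤ ENNReal.ofReal (18 * (M + 1) * n) := by
    rw [lintegral_finsetSum (f := fun x t => ENNReal.ofReal (T t x (x + (1, 0))) +
      ENNReal.ofReal (T t x (x + (0, 1)))) _ fun x _ => (hm _ _).add (hm _ _)]
    refine (Finset.sum_le_card_nsmul _ _ (ENNReal.ofReal (2 * M)) fun x _ => ?_).trans ?_
    · rw [lintegral_add_left (hm _ _), two_mul, ENNReal.ofReal_add M0 M0]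
      exact add_le_add (hM x).1 (hM x).2
    · rw [← ENNReal.ofReal_nsmul, nsmul_eq_mul]
      refine ENNReal.ofReal_le_ofReal ?_
      have h2 : ((sp z n).card : ℝ) ≤ 8 * n + 1 := by exact_mod_cast card_sp z n
      nlinarith
  have hc : 0 < 18 * (M + 1) / ε * n := by positivity
  have h2 := meas_ge_le_lintegral_div (μ := iidLaw G) hmW.aemeasurable
    (ε := ENNReal.ofReal (18 * (M + 1) / ε * n)) (ENNReal.ofReal_pos.2 hc).ne'
    ENNReal.ofReal_ne_top
  refine ENNReal.toReal_le_of_le_ofReal hε.le (le_trans (measure_mono fun t ht => ?_)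
    (h2.trans ((ENNReal.div_le_div_right h1 _).trans (le_of_eq ?_))))
  · refine (ENNReal.ofReal_le_ofReal (le_of_lt ht)).trans ?_
    exact Finset.le_sum_of_subadditive ENNReal.ofReal ENNReal.ofReal_zero.le
      (fun _ _ => ENNReal.ofReal_add_le) _ _ |>.trans
      (Finset.sum_le_sum fun x _ => ENNReal.ofReal_add_le)
  · rw [← ENNReal.ofReal_div_of_pos hc]
    congr 1
    field_simp

end

end Crest.Agent.R151.A
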