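import Crest.Agent.R151.ADefs

/-! Row 151 (A): projections of measurable sets are null measurable -/

set_option autoImplicit false

open MeasureTheory Set Filter Topology
open Crest.ProbabilityR.FirstPassage

namespace Crest.Agent.R151.A

open Crest.Agent.R151.B

noncomputable section

theorem a8_nhds {n : ℕ → ℕ} {C : ℕ → Set (ℕ → ℕ)} (hC : ∀ k, ∀ x ∈ C k, ∀ i < k, x i ≤ n i)
    {W : Set (ℕ → ℕ)} (hW : IsOpen W) (hK : univ.pi (fun i => Iic (n i)) ⊆ W) : ∃ k, C k ⊆ W := by
  by_contra h
  push Not at h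
  choose x hx hx' using fun k => not_subset.1 (h k)
  have hc : IsCompact (univ.pi fun i => Iic (n i)) :=
    isCompact_univ_pi fun i => (finite_Iic (n i)).isCompact
  obtain ⟨z, hz, φ, hφ, ht⟩ := hc.tendsto_subseq (x := fun k i => min (x k i) (n i))
    fun k i _ => mem_Iic.2 (min_le_right _ _)
  have h1 : Tendsto (fun k => x (φ k)) atTop (𝓝 z) := by
    rw [tendsto_pi_nhds] at ht ⊢
    intro i
    refine (ht i).congr' ?_
    filter_upwards [hφ.tendsto_atTop.eventually (eventually_gt_atTop i)] with k hk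
    exact min_eq_left (hC _ _ (hx _) i hk)
  obtain ⟨k, hk⟩ := (h1.eventually (hW.mem_nhds (hK hz))).exists
  exact hx' _ hk

theorem a8_inner {α : Type*} [TopologicalSpace α] [T2Space α] [MeasurableSpace α] [BorelSpace α]
    (ν : Measure α) [IsFiniteMeasure ν] {f : (ℕ → ℕ) → α} (hf : Continuous f) {r : ENNReal}
    (hr : r < ν (range f)) : ∃ B ⊆ range f, MeasurableSet B ∧ r ≤ ν B := by
  have step : ∀ (S : Set (ℕ → ℕ)) (k : ℕ), ∃ n : ℕ,
      r < ν (f '' S) → r < ν (f '' (S ∩ {x | x k ≤ n})) := by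
    intro S k
    by_cases h : r < ν (f '' S)
    · have e : f '' S = ⋃ n : ℕ, f '' (S ∩ {x | x k ≤ n}) := by
        rw [← image_iUnion, ← inter_iUnion]
        congr 1
        exact (inter_eq_left.2 fun x _ => mem_iUnion.2 ⟨x k, le_refl (x k)⟩).symm
      have hm : Monotone fun n : ℕ => f '' (S ∩ {x | x k ≤ n}) := fun a b hab =>
        image_mono (inter_subset_inter_right _ fun x hx => le_trans (b := a) hx hab)
      rw [e, hm.measure_iUnion, lt_iSup_iff] at h
      obtain ⟨n, hn⟩ := h
      exact ⟨n, fun _ => hn⟩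
    · exact ⟨0, fun h' => absurd h' h⟩
  choose N hN using step
  let C : ℕ → Set (ℕ → ℕ) := fun k => Nat.rec univ (fun k S => S ∩ {x | x k ≤ N S k}) k
  have h1 : ∀ k, r < ν (f '' C k) := fun k => by
    induction k with
    | zero => exact image_univ ▸ hr
    | succ k ih => exact hN _ _ ih
  have h2 : ∀ k, ∀ x ∈ C k, ∀ i < k, x i ≤ N (C i) i := fun k => by
    induction k with
    | zero => exact fun x _ i hi => absurd hi (Nat.not_lt_zero i)
    | succ k ih =>
      intro x hx i hi
      rcases Nat.lt_succ_iff_lt_or_eq.1 hi with h | rfl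
      · exact ih x hx.1 i h
      · exact hx.2
  have h3 : Antitone C := antitone_nat_of_succ_le fun k => inter_subset_left
  have hc : IsCompact (f '' univ.pi fun i => Iic (N (C i) i)) :=
    (isCompact_univ_pi fun i => (finite_Iic _).isCompact).image hf
  refine ⟨⋂ k, closure (f '' C k), fun y hy => ?_,
    MeasurableSet.iInter fun k => isClosed_closure.measurableSet, ?_⟩
  · by_contra hy'
    obtain ⟨U, V, hU, hV, hKU, hyV, hd⟩ := hc.separation_of_notMem (x := y)
      fun h => hy' (image_subset_range _ _ h)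
    obtain ⟨k, hk⟩ := a8_nhds h2 (hU.preimage hf) (image_subset_iff.1 hKU)
    obtain ⟨w, hw, hw'⟩ := mem_closure_iff.1 (mem_iInter.1 hy k) V hV hyV
    exact disjoint_left.1 hd (image_subset_iff.2 hk hw') hw
  · refine ge_of_tendsto' (tendsto_measure_iInter_atTop (μ := ν)
      (fun k => isClosed_closure.measurableSet.nullMeasurableSet)
      (fun a b hab => closure_mono (image_mono (h3 hab))) ⟨0, measure_ne_top _ _⟩) fun k => ?_
    exact (h1 k).le.trans (measure_mono subset_closure)

theorem analytic_null {α : Type*} [TopologicalSpace α] [PolishSpace α] [MeasurableSpace α]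
    [BorelSpace α] (ν : Measure α) [IsFiniteMeasure ν] {A : Set α} (hA : AnalyticSet A) :
    NullMeasurableSet A ν := by
  rw [AnalyticSet] at hA
  rcases hA with rfl | ⟨f, hf, rfl⟩
  · exact MeasurableSet.empty.nullMeasurableSet
  refine (measurableSet_toMeasurable ν (range f)).nullMeasurableSet.congr (ae_eq_set.2 ⟨?_, ?_⟩)
  · by_contra h0
    obtain ⟨d, hd⟩ : ∃ d, d = ν (toMeasurable ν (range f) \ range f) := ⟨_, rfl⟩
    rw [← hd] at h0
    have h1 : d ≤ ν (range f) := by
      rw [hd, ← measure_toMeasurable (range f)]; exact measure_mono sdiff_subset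
    have h2 : ν (range f) ≠ ⊤ := measure_ne_top _ _
    have h3 : d ≠ ⊤ := ne_top_of_le_ne_top h2 h1
    obtain ⟨B, hB, hm, hr⟩ := a8_inner ν hf (r := ν (range f) - d / 2)
      (ENNReal.sub_lt_self h2 (fun h => h0 (le_antisymm (h ▸ h1) bot_le)) (by simp [h0]))
    have h4 : d + (ν (range f) - d / 2) ≤ ν (range f) := by
      refine (add_le_add (hd.trans_le (measure_mono (sdiff_subset_sdiff_right hB))) hr).trans ?_
      rw [← measure_toMeasurable (range f), ← measure_sdiff_add_inter (toMeasurable ν (range f)) hm,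
        inter_eq_right.2 (hB.trans (subset_toMeasurable _ _))]
    have h5 := ENNReal.le_sub_of_add_le_right (ENNReal.sub_ne_top h2) h4
    rw [ENNReal.sub_sub_cancel h2 (ENNReal.half_le_self.trans h1)] at h5
    exact absurd h5 (not_le.2 (ENNReal.half_lt_self h0 h3))
  · rw [sdiff_eq_empty.2 (subset_toMeasurable _ _), measure_empty]

theorem proj_null {Y : Type*} [MeasurableSpace Y] [StandardBorelSpace Y] (ν : Measure Env)
    [IsFiniteMeasure ν] {P : Env → Y → Prop} (hP : MeasurableSet {q : Env × Y | P q.1 q.2}) :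
    NullMeasurableSet {t | ∃ y, P t y} ν := by
  have h := analytic_null ν (hP.analyticSet_image measurable_fst)
  have e : {t | ∃ y, P t y} = Prod.fst '' {q : Env × Y | P q.1 q.2} := by
    ext t
    exact ⟨fun ⟨y, hy⟩ => ⟨(t, y), hy, rfl⟩, fun ⟨q, hq, h⟩ => ⟨q.2, h ▸ hq⟩⟩
  rwa [e]

end

end Crest.Agent.R151.A
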