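import Crest.Agent.R151.A3
import Crest.Agent.R151.A5

/-! Row 151 (A): branching lemma, second modification -/

set_option autoImplicit false

open MeasureTheory Set Filter Topology
open Crest.ProbabilityR.FirstPassage

namespace Crest.Agent.R151.A

open Crest.Agent.R151.B

noncomputable section

variable {t t' : Env} {A y : Z2} {ν : ℕ → Z2} {n : ℕ}

theorem pick_block (f : ℕ → ℝ) {J b : ℕ} {K c : ℝ} (h0 : f 0 ≤ K) (h1 : 0 ≤ f (J * b))
    (hJ : K < J * c) : ∃ j < J, f (j * b) - f ((j + 1) * b) ≤ c := by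
  by_contra hc
  push Not at hc
  have key : ∀ j ≤ J, (j : ℝ) * c ≤ f 0 - f (j * b) := by
    intro j hj
    induction j with
    | zero => simp
    | succ k ih =>
      have h2 := ih (Nat.le_of_succ_le hj)
      have h3 := hc k hj
      push_cast
      linarith
  have := key J le_rfl
  linarith
theorem pick_sub (I : Finset ℕ) (l : ℕ → ℝ) {η ξ : ℝ} (hl : ∀ i ∈ I, l i ≤ η) (h0 : 0 ≤ ξ)
    (h : ξ < ∑ i ∈ I, l i) : ∃ I' ⊆ I, ξ < ∑ i ∈ I', l i ∧ ∑ i ∈ I', l i ≤ ξ + η := by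
  classical
  induction I using Finset.induction_on with
  | empty => simp at h; linarith
  | insert i I hi ih =>
    by_cases hc : ξ < ∑ j ∈ I, l j
    · obtain ⟨I', h1, h2⟩ := ih (fun j hj => hl j (Finset.mem_insert_of_mem hj)) hc
      exact ⟨I', h1.trans (Finset.subset_insert _ _), h2⟩
    · refine ⟨insert i I, Finset.Subset.refl _, h, ?_⟩
      rw [Finset.sum_insert hi]
      have := hl i (Finset.mem_insert_self _ _)
      linarith [not_lt.1 hc]
theorem a9_seg (ht : NN t) (hν : IsP ν n) {i j : ℕ} (hij : i ≤ j) (hj : j ≤ n) :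
    T t (ν i) (ν j) ≤ cst t ν j - cst t ν i := by
  obtain ⟨d, rfl⟩ := Nat.exists_eq_add_of_le hij
  have h1 := T_le_cst ht (hν.tl (k := i) (m := d) hj)
  have h2 := cst_add t ν i d
  have e6 : tl ν i 0 = ν i := rfl
  have e7 : tl ν i d = ν (i + d) := rfl
  rw [e6, e7] at h1
  linarith
theorem xi_anti (ht : NN t) (hν : IsP ν n) {i j : ℕ} (hij : i ≤ j) (hj : j ≤ n) :
    xi t A ν n j ≤ xi t A ν n i := by
  have h1 := a9_seg ht hν hij hj
  have h2 := T_tri ht A (ν i) (ν j)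
  unfold xi
  linarith
theorem xi_nonneg (ht : NN t) (hν : IsP ν n) {i : ℕ} (hi : i ≤ n) : 0 ≤ xi t A ν n i := by
  have h := xi_anti (A := A) ht hν hi le_rfl
  have h0 : xi t A ν n n = 0 := by
    unfold xi
    ring
  linarith
/-- after lowering the block `[a, a+b]` of `ν` by more than `xi a` but less than the detour cost for `y`,
the geodesics to `y` and to `ν n` branch near the origin -/
theorem y2_core (ht : Good t) (ht' : Good t') {S : Finset (Sym2 Z2)} (hl : Low t t' S)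
    (hν : IsP ν n) (hi : Inj ν n) {a b D D' : ℕ} (hab : a + b ≤ n)
    (hS : ∀ e ∈ S, ∃ k, a ≤ k ∧ k < a + b ∧ ed ν k = e)
    (h1 : xi t A ν n a < ∑ e ∈ S, (t e - t' e))
    (h2 : ∀ i, a ≤ i → i ≤ a + b → ∑ e ∈ S, (t e - t' e) < T t A (ν i) + T t (ν i) y - T t A y)
    (h3 : ∀ i, a ≤ i → i ≤ a + b → ν i ∈ bx 0 D)
    (h4 : ∀ i, a ≤ i → i ≤ a + b → ∀ g m, IsP g m → g 0 = A → g m = ν i →
      cst t g m ≤ T t A (ν i) → ∃ j ≤ m, g j ∈ bx 0 D ∧ Btw t A (g j) y)
    {K : ℝ} (hK : ∑ e ∈ S, (t e - t' e) ≤ K) (h5 : Nr t D K D') :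
    ∃ p ∈ bx 0 D', Br t' A y (ν n) p := by
  classical
  have hn := ht.nn
  have hn' := ht'.nn
  -- an endpoint of an edge of `S` is a block vertex
  have hblk : ∀ u u', s(u, u') ∈ S → ∃ i, a ≤ i ∧ i ≤ a + b ∧ ν i = u := by
    intro u u' hu
    obtain ⟨k, hk1, hk2, hk⟩ := hS _ hu
    rcases Sym2.eq_iff.1 hk with h | h
    · exact ⟨k, hk1, hk2.le, h.1⟩
    · exact ⟨k + 1, by omega, by omega, h.2⟩
  -- (i)
  have hI : T t' A (ν n) < T t A (ν n) := by
    obtain ⟨d, rfl⟩ := Nat.exists_eq_add_of_le ((Nat.le_add_right a b).trans hab)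
    have e1 := T_tri hn' A (ν a) (ν (a + d))
    have e2 := hl.T_le hn' A (ν a)
    have e3 := T_le_cst hn' (hν.tl (k := a) (m := d) le_rfl)
    have e4 := hl.cst_sub (hi.tl (k := a) (m := d) le_rfl) fun e he => by
      obtain ⟨k, hk1, hk2, hk⟩ := hS e he
      refine ⟨k - a, by omega, ?_⟩
      rw [ed_tl, show a + (k - a) = k by omega, hk]
    have e5 := cst_add t ν a d
    have e6 : tl ν a 0 = ν a := rfl
    have e7 : tl ν a d = ν (a + d) := rfl
    rw [e6, e7] at e3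
    unfold xi at h1
    linarith
  -- (ii)
  have hII : ∀ i, a ≤ i → i ≤ a + b → ¬ Btw t' A (ν i) y := by
    intro i hi1 hi2 hb
    obtain ⟨f, m, hf, f0, fm⟩ := ht'.ex A y
    obtain ⟨k, hk, fk⟩ := ht'.uniq f m (ν i) hf (by rw [f0, fm]; exact hb)
    have e1 := hl.cst_ge (hf.inj ht')
    have e2 := a9_seg hn hf.1 (Nat.zero_le k) hk
    have e3 := a9_seg hn hf.1 hk le_rfl
    have e4 : cst t f 0 = 0 := by simp [cst]
    have e5 := hf.2
    have e6 := hl.T_le hn' A y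
    have e7 := h2 i hi1 hi2
    rw [f0, fk] at e2
    rw [fk, fm] at e3
    rw [f0, fm] at e5
    linarith
  have hTy : T t' A y = T t A y := by
    refine le_antisymm (hl.T_le hn' A y) (not_lt.1 fun hlt => ?_)
    obtain ⟨u, u', hu, hb, -⟩ := hl.uses ht' hlt
    obtain ⟨i, hi1, hi2, rfl⟩ := hblk u u' hu
    exact hII i hi1 hi2 hb
  have hBy : ∀ u, Btw t A u y → Btw t' A u y := by
    intro u hu
    have e1 := hl.T_le hn' A u
    have e2 := hl.T_le hn' u y
    have e3 := T_tri hn' A u y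
    unfold Btw at hu ⊢
    linarith
  -- (iii)
  obtain ⟨g, m, hg, g0, gm⟩ := ht'.ex A (ν n)
  have hex : ∃ i, i < m ∧ ed g i ∈ S := by
    by_contra hc
    push Not at hc
    have := (hl.geo_off hn' hg hc).2
    rw [g0, gm] at this
    linarith
  obtain ⟨hi0, hS0⟩ := Nat.find_spec hex
  have hmin : ∀ i < Nat.find hex, ed g i ∉ S := fun i hi' hs =>
    Nat.find_min hex hi' ⟨hi'.trans hi0, hs⟩
  generalize Nat.find hex = i₀ at hi0 hS0 hmin
  obtain ⟨i, hi1, hi2, hw⟩ := hblk _ _ hS0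
  have hc : cst t g i₀ ≤ T t A (ν i) := by
    have e1 := hl.cst_eq hmin
    have e2 := (hg.mono hn' hi0.le).2
    have e3 := hl.T_le hn' A (ν i)
    rw [g0, ← hw] at e2
    linarith
  obtain ⟨j, hj, hu, hb⟩ := h4 i hi1 hi2 g i₀ (hg.1.mono hi0.le) g0 hw.symm hc
  have b1 : Btw t' A (g j) (ν n) := by
    have := hg.btw hn' (Nat.zero_le j) (hj.trans hi0.le) le_rfl
    rwa [g0, gm] at this
  have b2 : Btw t' A (ν i) (ν n) := by
    have := hg.btw hn' (Nat.zero_le i₀) hi0.le le_rfl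
    rwa [g0, gm, ← hw] at this
  obtain ⟨p, hp, hmax⟩ := ht'.exists_br A y (ν n)
  have b3 := hmax _ (hBy _ hb) b1
  have b4 : Btw t' A p (ν i) := by
    rcases ht'.cmp hp.2.1 b2 with h | h
    · exact h
    · exact absurd (hp.1.trans2 hn' h).1 (hII i hi1 hi2)
  have b5 := (b4.trans2 hn' b3).2
  refine ⟨p, h5 _ hu _ (h3 i hi1 hi2) p ?_, hp⟩
  have e1 := hl.le_T ht' (g j) p
  have e2 := hl.T_le hn' (g j) (ν i)
  have e3 := T_nonneg hn' p (ν i)
  unfold Btw at b5
  linarith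

end

end Crest.Agent.R151.A
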