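import Crest.Agent.R151.A9

/-! Row 151 (A): branching lemma, second modification -/

set_option autoImplicit false

open MeasureTheory Set Filter Topology
open Crest.ProbabilityR.FirstPassage

namespace Crest.Agent.R151.A

open Crest.Agent.R151.B

noncomputable section

theorem y2 {G : Measure ℝ} (hG : ALaw G) {η' δ p K η : ℝ} {R Y : Set Z2} {D D' J b N : ℕ}
    (hδ : 0 < δ) (hδη : δ ≤ η') (hη' : η' ≤ η / 6) (hN : 1 ≤ N) (hb : (b : ℝ) * η' ≤ N * (η / 6))
    (hJ : K < J * (η / 3)) (hbK : K < b * δ / 2) {t : Env} (ht : Good t)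
    (h : t ∈ E1 (Lw G η' δ p) R Y D D' J b K η) :
    t ∈ Src G (bx 0 D).sym2 (p / N) (E0 R Y 0 D') := by
  classical
  obtain ⟨A, hA, y, hy, ν, n, hνY, hP, hI, hJb, hbx, hxi0, hη, h4, hNr, hrich⟩ := h
  obtain ⟨j, hj, hblock⟩ := pick_block (fun i => xi t A ν n i) hxi0 (xi_nonneg ht.nn hP hJb) hJ
  have hab' : j * b + b ≤ J * b := by
    have := Nat.mul_le_mul_right b (Nat.succ_le_of_lt hj)
    rwa [Nat.succ_mul] at this
  have hab : j * b + b ≤ n := hab'.trans hJb
  have hblock' : xi t A ν n (j * b) - xi t A ν n (j * b + b) ≤ η / 3 := by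
    have e : (j + 1) * b = j * b + b := Nat.succ_mul j b
    simpa only [e] using hblock
  have hrj := hrich j hj
  generalize j * b = a at hab hab' hblock' hrj
  have hex : ∀ x : ℝ, ∃ l : ℝ, x ∈ Lw G η' δ p →
      δ ≤ l ∧ l ≤ η' ∧ p / N ≤ G.real (Icc (x - l - η' / N) (x - l)) := by
    intro x
    by_cases hx : x ∈ Lw G η' δ p
    · obtain ⟨l, hl⟩ := hG.lw_sub hδ.le hδη hN hx
      exact ⟨l, fun _ => hl⟩
    · exact ⟨0, fun h => absurd h hx⟩
  choose l hl using hex
  obtain ⟨I₀, hI₀, hI₀c⟩ : ∃ I₀ : Finset ℕ, (∀ k ∈ I₀, k < b ∧ t (ed ν (a + k)) ∈ Lw G η' δ p) ∧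
      b ≤ 2 * I₀.card :=
    ⟨_, fun k hk => ⟨Finset.mem_range.mp (Finset.mem_filter.mp hk).1, (Finset.mem_filter.mp hk).2⟩,
      hrj⟩
  have hxa : xi t A ν n a ≤ K := (xi_anti ht.nn hP (Nat.zero_le a) (by omega)).trans hxi0
  have hsum : xi t A ν n a < ∑ k ∈ I₀, l (t (ed ν (a + k))) := by
    have h1 : (I₀.card : ℝ) * δ ≤ ∑ k ∈ I₀, l (t (ed ν (a + k))) := by
      have := Finset.card_nsmul_le_sum I₀ (fun k => l (t (ed ν (a + k)))) δ
        (fun k hk => (hl _ (hI₀ k hk).2).1)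
      simpa only [nsmul_eq_mul] using this
    have h2 : (b : ℝ) ≤ 2 * I₀.card := by exact_mod_cast hI₀c
    nlinarith
  obtain ⟨I', hI', hs1, hs2⟩ := pick_sub I₀ (fun k => l (t (ed ν (a + k)))) (η := η')
    (fun k hk => (hl _ (hI₀ k hk).2).2.1) (xi_nonneg ht.nn hP (by omega : a ≤ n)) hsum
  have hinj : ∀ k ∈ I', ∀ k' ∈ I', ed ν (a + k) = ed ν (a + k') → k = k' := by
    intro k hk k' hk' e
    have h1 := (hI₀ k (hI' hk)).1
    have h2 := (hI₀ k' (hI' hk')).1
    have := hI.ed_inj (by omega) (by omega) e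
    omega
  refine ⟨I'.image fun k => ed ν (a + k), ?_,
    fun e => Icc (t e - l (t e) - η' / N) (t e - l (t e)), ?_, ?_⟩
  · intro e he
    obtain ⟨k, hk, rfl⟩ := Finset.mem_image.mp he
    have h1 := (hI₀ k (hI' hk)).1
    exact Finset.mk_mem_sym2_iff.mpr ⟨hbx _ (by omega), hbx _ (by omega)⟩
  · intro e he
    obtain ⟨k, hk, rfl⟩ := Finset.mem_image.mp he
    exact ⟨measurableSet_Icc, (hl _ (hI₀ k (hI' hk)).2).2.2⟩
  · intro t' h1 h2 ht'
    have hk1 : ∀ k ∈ I', t' (ed ν (a + k)) ∈ Icc (t (ed ν (a + k)) - l (t (ed ν (a + k))) - η' / N)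
        (t (ed ν (a + k)) - l (t (ed ν (a + k)))) :=
      fun k hk => h1 _ (Finset.mem_image_of_mem _ hk)
    have hlow : Low t t' (I'.image fun k => ed ν (a + k)) := by
      refine ⟨fun e => ?_, h2⟩
      by_cases he : e ∈ I'.image fun k => ed ν (a + k)
      · obtain ⟨k, hk, rfl⟩ := Finset.mem_image.mp he
        have := (hk1 k hk).2
        have := (hl _ (hI₀ k (hI' hk)).2).1
        linarith
      · exact (h2 e he).le
    have hρ : ∑ e ∈ I'.image (fun k => ed ν (a + k)), (t e - t' e) =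
        ∑ k ∈ I', (t (ed ν (a + k)) - t' (ed ν (a + k))) := Finset.sum_image hinj
    have hlo : ∑ k ∈ I', l (t (ed ν (a + k))) ≤
        ∑ k ∈ I', (t (ed ν (a + k)) - t' (ed ν (a + k))) :=
      Finset.sum_le_sum fun k hk => by have := (hk1 k hk).2; linarith
    have hhi : ∑ k ∈ I', (t (ed ν (a + k)) - t' (ed ν (a + k))) ≤
        ∑ k ∈ I', l (t (ed ν (a + k))) + I'.card * (η' / N) := by
      have : ∑ k ∈ I', (t (ed ν (a + k)) - t' (ed ν (a + k))) ≤
          ∑ k ∈ I', (l (t (ed ν (a + k))) + η' / N) :=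
        Finset.sum_le_sum fun k hk => by have := (hk1 k hk).1; linarith
      rwa [Finset.sum_add_distrib, Finset.sum_const, nsmul_eq_mul] at this
    have hcard : (I'.card : ℝ) ≤ b := by
      have : I' ⊆ Finset.range b := fun k hk => Finset.mem_range.mpr (hI₀ k (hI' hk)).1
      have := Finset.card_le_card this
      rw [Finset.card_range] at this
      exact_mod_cast this
    have hN0 : (0 : ℝ) < N := by exact_mod_cast hN
    have hη0 : 0 ≤ η' := hδ.le.trans hδη
    have hc2 : (I'.card : ℝ) * (η' / N) ≤ η / 6 := by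
      calc (I'.card : ℝ) * (η' / N) ≤ b * (η' / N) :=
            mul_le_mul_of_nonneg_right hcard (div_nonneg hη0 hN0.le)
        _ = b * η' / N := by ring
        _ ≤ η / 6 := by rw [div_le_iff₀ hN0]; linarith
    obtain ⟨q, hq, hbr⟩ := y2_core (A := A) (y := y) (a := a) (b := b) (D := D) (D' := D')
      (K := K + η) ht ht' hlow hP hI hab
      (fun e he => by
        obtain ⟨k, hk, rfl⟩ := Finset.mem_image.mp he
        have h1 := (hI₀ k (hI' hk)).1
        exact ⟨a + k, by omega, by omega, rfl⟩)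
      (by rw [hρ]; linarith)
      (fun i hi1 hi2 => by
        rw [hρ]
        have e1 := hη i (by omega)
        have e2 : xi t A ν n (a + b) ≤ xi t A ν n i := xi_anti ht.nn hP hi2 hab
        linarith)
      (fun i _ hi2 => hbx i (by omega))
      (fun i _ hi2 => h4 i (by omega))
      (by rw [hρ]; linarith) hNr
    exact ⟨A, hA, y, hy, ν n, hνY, q, hq, hbr⟩

end

end Crest.Agent.R151.A
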