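import Crest.Agent.R151.B3

/-!
Row 151, part (A) (S0213, no bigeodesics): definitions.
-/

set_option autoImplicit false

open MeasureTheory Set Filter Topology
open Crest.ProbabilityR.FirstPassage

namespace Crest.Agent.R151.A

open Crest.Agent.R151.B

noncomputable section

/-- sup norm -/
def ni (x : Z2) : ℕ := max x.1.natAbs x.2.natAbs
/-- box of radius `n` -/
def bx (z : Z2) (n : ℕ) : Finset Z2 :=
  Finset.Icc (z.1 - n) (z.1 + n) ×ˢ Finset.Icc (z.2 - n) (z.2 + n)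
/-- boundary of the box -/
def sp (z : Z2) (n : ℕ) : Finset Z2 := (bx z n).filter fun x => ni (x - z) = n
/-- sum of `d` over the unit steps that start on the boundary of the box -/
def Wd (d : Z2 → Z2 → ℝ) (z : Z2) (n : ℕ) : ℝ :=
  ∑ x ∈ sp z n, (d x (x + (1, 0)) + d x (x + (0, 1)))
def W (t : Env) (z : Z2) (n : ℕ) : ℝ := Wd (T t) z n
/-- perimeter coordinate on `sp 0 R` -/
def per (R : ℕ) (x : Z2) : ℤ :=
  if x.2 = -R then x.1 + R else if x.1 = R then 3 * R + x.2 else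
  if x.2 = R then 5 * R - x.1 else 7 * R - x.2

/-- `b` is between `a` and `c` -/
def Btw (t : Env) (a b c : Z2) : Prop := T t a b + T t b c = T t a c
def ed (g : ℕ → Z2) (i : ℕ) : Sym2 Z2 := s(g i, g (i + 1))
/-- `g 0, …, g n` is a lattice walk -/
def IsP (g : ℕ → Z2) (n : ℕ) : Prop := ∀ i < n, squareLattice.Adj (g i) (g (i + 1))
def Inj (g : ℕ → Z2) (n : ℕ) : Prop := ∀ i ≤ n, ∀ j ≤ n, g i = g j → i = j
def cst (t : Env) (g : ℕ → Z2) (n : ℕ) : ℝ := ∑ i ∈ Finset.range n, t (ed g i)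
def tl (g : ℕ → Z2) (k : ℕ) : ℕ → Z2 := fun i => g (k + i)
/-- finite geodesic -/
def Geo (t : Env) (g : ℕ → Z2) (n : ℕ) : Prop := IsP g n ∧ cst t g n = T t (g 0) (g n)

/-- the almost sure properties of the environment used everywhere -/
structure Good (t : Env) : Prop where
  pos : ∀ e, 0 < t e
  ex : ∀ x y, ∃ g n, Geo t g n ∧ g 0 = x ∧ g n = y
  uniq : ∀ g n z, Geo t g n → Btw t (g 0) z (g n) → ∃ i ≤ n, g i = z
  prop : ∀ x (K : ℝ), {y | T t x y ≤ K}.Finite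

/-- `t'` is `t` lowered on `S` -/
def Low (t t' : Env) (S : Finset (Sym2 Z2)) : Prop := (∀ e, t' e ≤ t e) ∧ ∀ e ∉ S, t' e = t e

/-- the law of one weight -/
structure ALaw (G : Measure ℝ) : Prop where
  prob : IsProbabilityMeasure G
  atom : ∀ x, G {x} = 0
  pos : G (Iio 0) = 0
  wt : ∀ ε : ℝ, 0 < ε → ∃ C : ℝ, 0 < C ∧ ∀ z (n : ℕ), 1 ≤ n → Pr G {t | C * n < W t z n} ≤ ε

/-- environments that a modification of some weights in `F` moves into `A` -/
def Src (G : Measure ℝ) (F : Finset (Sym2 Z2)) (p : ℝ) (A : Set Env) : Set Env :=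
  {t | ∃ S ⊆ F, ∃ I : Sym2 Z2 → Set ℝ, (∀ e ∈ S, MeasurableSet (I e) ∧ p ≤ G.real (I e)) ∧
    ∀ t' : Env, (∀ e ∈ S, t' e ∈ I e) → (∀ e ∉ S, t' e = t e) → Good t' → t' ∈ A}
/-- values that can be lowered by an amount in `[δ, η]` with probability `p` -/
def Lw (G : Measure ℝ) (η δ p : ℝ) : Set ℝ := {x | p ≤ G.real (Icc (x - η) (x - δ))}
open Classical in
/-- half of the edges of every self avoiding walk of length `n` from `x` have weights in `A` -/
def Rich (A : Set ℝ) (t : Env) (x : Z2) (n : ℕ) : Prop :=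
  ∀ g, g 0 = x → IsP g n → Inj g n → n ≤ 2 * ((Finset.range n).filter fun i => t (ed g i) ∈ A).card
/-- points that are cheap from the box `D` are in the box `D'` -/
def Nr (t : Env) (D : ℕ) (K : ℝ) (D' : ℕ) : Prop :=
  ∀ u ∈ bx 0 D, ∀ w ∈ bx 0 D, ∀ p, T t u p ≤ T t u w + K → p ∈ bx 0 D'
open Classical in
/-- geodesics crossing the box meet it in few points -/
def Hit (t : Env) (z : Z2) (D : ℕ) (C : ℝ) : Prop :=
  ∀ x y, x ∉ bx z D → y ∉ bx z D → (((bx z D).filter fun u => Btw t x u y).card : ℝ) ≤ C * D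
def Gap (t : Env) (l L : ℕ) (δ : ℝ) : Prop :=
  ∀ x ∈ bx 0 l, ∀ w ∈ sp 0 L, 12 * W t 0 l + δ ≤ T t x w

/-- the geodesics from `A` to `y` and `y'` branch at `p` -/
def Br (t : Env) (A y y' p : Z2) : Prop :=
  Btw t A p y ∧ Btw t A p y' ∧ ∀ c, Btw t A p c → Btw t A c y → Btw t A c y' → c = p
def E0 (R Y : Set Z2) (z : Z2) (D : ℕ) : Set Env :=
  {t | ∃ A ∈ R, ∃ y ∈ Y, ∃ y' ∈ Y, ∃ p ∈ bx z D, Br t A y y' p}
def E2 (R Y : Set Z2) (z : Z2) (D : ℕ) (K η : ℝ) : Set Env :=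
  {t | ∃ A ∈ R, ∃ y ∈ Y, ∃ y' ∈ Y, ∃ s ∈ bx z D, ∃ v ∈ bx z D, Btw t A s y ∧
    (∀ w, Btw t v w y' → ¬ Btw t A w y) ∧ T t A s + T t v y' - K ≤ T t A y' ∧
    η ≤ T t v y - T t v y' - T t s y + T t s y'}
/-- excess of the walk `A → ν i → (ν) → ν n` -/
def xi (t : Env) (A : Z2) (ν : ℕ → Z2) (n i : ℕ) : ℝ :=
  T t A (ν i) + (cst t ν n - cst t ν i) - T t A (ν n)
open Classical in
/-- the intermediate event of the branching lemma -/
def E1 (𝒜 : Set ℝ) (R Y : Set Z2) (D D' J b : ℕ) (K η : ℝ) : Set Env :=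
  {t | ∃ A ∈ R, ∃ y ∈ Y, ∃ ν : ℕ → Z2, ∃ n, ν n ∈ Y ∧ IsP ν n ∧ Inj ν n ∧ J * b ≤ n ∧
    (∀ i ≤ J * b, ν i ∈ bx 0 D) ∧ xi t A ν n 0 ≤ K ∧
    (∀ i ≤ J * b, xi t A ν n i + η ≤ T t A (ν i) + T t (ν i) y - T t A y) ∧
    (∀ i ≤ J * b, ∀ g m, IsP g m → g 0 = A → g m = ν i → cst t g m ≤ T t A (ν i) →
      ∃ j ≤ m, g j ∈ bx 0 D ∧ Btw t A (g j) y) ∧
    Nr t D (K + η) D' ∧
    ∀ j < J, b ≤ 2 * ((Finset.range b).filter fun k => t (ed ν (j * b + k)) ∈ 𝒜).card}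
def Far (o : Z2) (R : ℕ) : Set Z2 := {y | R ≤ ni (y - o)}
/-- `z` is on the geodesic from `x` to `y`, and avoiding it costs `δ` -/
def MgP (t : Env) (x y z : Z2) (δ : ℝ) : Prop :=
  Btw t x z y ∧ ∀ u u', T t x u + T t u u' + T t u' y < T t x y + δ →
    Btw t x z u ∨ Btw t u z u' ∨ Btw t u' z y
def On (o : Z2) (R : ℕ) (x : Z2) : Set Env := {t | ∃ y ∈ Far o R, Btw t o x y}
def OnM (o : Z2) (R : ℕ) (x : Z2) (δ : ℝ) : Set Env := {t | ∃ y ∈ Far o R, MgP t o y x δ}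
def Trif (p : Z2) (R : ℕ) : Set Env :=
  {t | ∃ A ∈ Far p R, ∃ y ∈ Far p R, ∃ y' ∈ Far p R, Br t A y y' p}

/-- geodesic ray -/
def Ray (t : Env) (r : ℕ → Z2) : Prop := ∀ n, Geo t r n
def fw (γ : ℤ → Z2) (k : ℤ) : ℕ → Z2 := fun i => γ (k + i)
def rv (γ : ℤ → Z2) : ℤ → Z2 := fun i => γ (-i)
def orn (o : Bool) (γ : ℤ → Z2) : ℤ → Z2 := if o then rv γ else γ
def rP (γ : ℤ → Z2) : ℕ → Z2 := fun i => γ i
def rN (γ : ℤ → Z2) : ℕ → Z2 := fun i => γ (-i)
/-- geodesic line -/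
def Lin (t : Env) (γ : ℤ → Z2) : Prop := ∀ k, Ray t (fw γ k)
/-- Busemann function -/
def bus (t : Env) (r : ℕ → Z2) (v : Z2) : ℝ := ⨅ n, (T t v (r n) - T t (r 0) (r n))
/-- excess of `v` over the line -/
def X (t : Env) (γ : ℤ → Z2) (v : Z2) : ℝ := bus t (rP γ) v + bus t (rN γ) v
/-- bounded Gromov products -/
def Opp (t : Env) (a b : ℕ → Z2) : Prop :=
  ∃ C : ℝ, ∀ m n, T t 0 (a m) + T t 0 (b n) - T t (a m) (b n) ≤ C
/-- the Busemann functions are `K`-close on `F` up to a constant -/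
def Cl (t : Env) (r r' : ℕ → Z2) (F : Set Z2) (K : ℝ) : Prop :=
  ∀ x ∈ F, ∀ y ∈ F, |(bus t r x - bus t r y) - (bus t r' x - bus t r' y)| ≤ K
def Apart (t : Env) (r r' : ℕ → Z2) : Prop :=
  ∀ C : ℝ, ∃ N, ∀ i ≥ N, ∀ j ≥ N, C < T t (r i) (r' j)
def Same (γ γ' : ℤ → Z2) : Prop := ∃ k : ℤ, (∀ i, γ' i = γ (k + i)) ∨ ∀ i, γ' i = γ (k - i)
def Mg (t : Env) (γ : ℤ → Z2) (z : Z2) (δ : ℝ) : Prop :=
  ∃ k, γ k = z ∧ ∀ i ≤ k, ∀ j ≥ k, MgP t (γ i) (γ j) z δ
/-- a line with a margin somewhere -/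
def ML (t : Env) (γ : ℤ → Z2) : Prop := Lin t γ ∧ ∃ z, ∃ n : ℕ, Mg t γ z (1 / (n + 1))

structure Good2 (t : Env) : Prop extends Good t where
  notrif : ∀ p, ∃ R, t ∉ Trif p R
  ends : ∀ γ a, Lin t γ → Ray t a → Opp t a (rP γ) → Cl t a (rN γ) univ 0

/-- `θ` orders the rays as their first hits of infinitely many squares -/
def Ord {κ : Type} (r : κ → ℕ → Z2) (θ : κ → ℕ) : Prop :=
  Function.Injective θ ∧ ∀ R₀, ∃ R ≥ R₀, ∃ n : κ → ℕ,
    (∀ k, ni (r k (n k)) = R ∧ ∀ i < n k, ni (r k i) < R) ∧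
    ∀ k k', θ k < θ k' → per R (r k (n k)) < per R (r k' (n k'))

def MgE (δ : ℝ) (z : Z2) : Set Env := {t | ∃ γ, Lin t γ ∧ Mg t γ z δ}
def HE (m r : ℕ) (δ : ℝ) (z : Z2) : Set Env :=
  {t | ∃ γ : Fin m → ℤ → Z2, (∀ i, Lin t (γ i) ∧ Mg t (γ i) z δ) ∧ ∀ i j, i ≠ j → ∀ o o',
    ¬ Cl t (rP (orn o (γ i))) (rP (orn o' (γ j))) (bx z r) (δ / 4)}
def Many (m : ℕ) (δ : ℝ) (z : Z2) : Set Env :=
  {t | ∃ γ : Fin m → ℤ → Z2, (∀ i, Lin t (γ i) ∧ Mg t (γ i) z δ) ∧
    ∀ i j, i ≠ j → ¬ Same (γ i) (γ j)}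
def Thru (m : ℕ) (z : Z2) : Set Env :=
  {t | ∃ γ : Fin m → ℤ → Z2, (∀ i, Lin t (γ i) ∧ z ∈ range (γ i)) ∧
    ∀ i j, i ≠ j → ¬ Same (γ i) (γ j)}
def Near (m : ℕ) (K : ℝ) (z : Z2) : Set Env :=
  {t | ∃ γ : Fin m → ℤ → Z2, (∀ i, ML t (γ i) ∧ X t (γ i) z ≤ K) ∧
    ∀ i j, i ≠ j → ¬ Same (γ i) (γ j)}
def Bad (r : ℕ) (K δ : ℝ) (z : Z2) : Set Env :=
  {t | ∃ γ γ', Lin t γ ∧ Mg t γ z δ ∧ ML t γ' ∧ ¬ Same γ γ' ∧ X t γ' z ≤ 2 * K ∧
    Cl t (rP γ) (rP γ') (bx z r) K}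

theorem aDefs_anchor : True := by
  have := @ni.eq_1
  have := @ni.eq_def
  have := @ni.eq_unfold
  have := @ni.congr_simp
  have := @bx.eq_1
  have := @bx.eq_def
  have := @bx.eq_unfold
  have := @bx.congr_simp
  have := @sp.eq_1
  have := @sp.eq_def
  have := @sp.eq_unfold
  have := @sp.congr_simp
  have := @Wd.eq_1
  have := @Wd.eq_def
  have := @Wd.eq_unfold
  have := @Wd.congr_simp
  have := @W.eq_1
  have := @W.eq_def
  have := @W.eq_unfold
  have := @W.congr_simp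
  have := @per.eq_1
  have := @per.eq_def
  have := @per.eq_unfold
  have := @per.congr_simp
  have := @Btw.eq_1
  have := @Btw.eq_def
  have := @Btw.eq_unfold
  have := @Btw.congr_simp
  have := @ed.eq_1
  have := @ed.eq_def
  have := @ed.eq_unfold
  have := @ed.congr_simp
  have := @IsP.eq_1
  have := @IsP.eq_def
  have := @IsP.eq_unfold
  have := @IsP.congr_simp
  have := @Inj.eq_1
  have := @Inj.eq_def
  have := @Inj.eq_unfold
  have := @Inj.congr_simp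
  have := @cst.eq_1
  have := @cst.eq_def
  have := @cst.eq_unfold
  have := @cst.congr_simp
  have := @tl.eq_1
  have := @tl.eq_def
  have := @tl.eq_unfold
  have := @tl.congr_simp
  have := @Geo.eq_1
  have := @Geo.eq_def
  have := @Geo.eq_unfold
  have := @Geo.congr_simp
  have := @Low.eq_1
  have := @Low.eq_def
  have := @Low.eq_unfold
  have := @Low.congr_simp
  have := @Src.eq_1
  have := @Src.eq_def
  have := @Src.eq_unfold
  have := @Src.congr_simp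
  have := @Lw.eq_1
  have := @Lw.eq_def
  have := @Lw.eq_unfold
  have := @Lw.congr_simp
  have := @Rich.eq_1
  have := @Rich.eq_def
  have := @Rich.eq_unfold
  have := @Rich.congr_simp
  have := @Nr.eq_1
  have := @Nr.eq_def
  have := @Nr.eq_unfold
  have := @Nr.congr_simp
  have := @Hit.eq_1
  have := @Hit.eq_def
  have := @Hit.eq_unfold
  have := @Hit.congr_simp
  have := @Gap.eq_1
  have := @Gap.eq_def
  have := @Gap.eq_unfold
  have := @Gap.congr_simp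
  have := @Br.eq_1
  have := @Br.eq_def
  have := @Br.eq_unfold
  have := @Br.congr_simp
  have := @E0.eq_1
  have := @E0.eq_def
  have := @E0.eq_unfold
  have := @E0.congr_simp
  have := @E2.eq_1
  have := @E2.eq_def
  have := @E2.eq_unfold
  have := @E2.congr_simp
  have := @xi.eq_1
  have := @xi.eq_def
  have := @xi.eq_unfold
  have := @xi.congr_simp
  have := @E1.eq_1
  have := @E1.eq_def
  have := @E1.eq_unfold
  have := @E1.congr_simp
  have := @Far.eq_1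
  have := @Far.eq_def
  have := @Far.eq_unfold
  have := @Far.congr_simp
  have := @MgP.eq_1
  have := @MgP.eq_def
  have := @MgP.eq_unfold
  have := @MgP.congr_simp
  have := @On.eq_1
  have := @On.eq_def
  have := @On.eq_unfold
  have := @On.congr_simp
  have := @OnM.eq_1
  have := @OnM.eq_def
  have := @OnM.eq_unfold
  have := @OnM.congr_simp
  have := @Trif.eq_1
  have := @Trif.eq_def
  have := @Trif.eq_unfold
  have := @Trif.congr_simp
  have := @Ray.eq_1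
  have := @Ray.eq_def
  have := @Ray.eq_unfold
  have := @Ray.congr_simp
  have := @fw.eq_1
  have := @fw.eq_def
  have := @fw.eq_unfold
  have := @fw.congr_simp
  have := @rv.eq_1
  have := @rv.eq_def
  have := @rv.eq_unfold
  have := @rv.congr_simp
  have := @orn.eq_1
  have := @orn.eq_def
  have := @orn.eq_unfold
  have := @orn.congr_simp
  have := @rP.eq_1
  have := @rP.eq_def
  have := @rP.eq_unfold
  have := @rP.congr_simp
  have := @rN.eq_1
  have := @rN.eq_def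
  have := @rN.eq_unfold
  have := @rN.congr_simp
  have := @Lin.eq_1
  have := @Lin.eq_def
  have := @Lin.eq_unfold
  have := @Lin.congr_simp
  have := @bus.eq_1
  have := @bus.eq_def
  have := @bus.eq_unfold
  have := @bus.congr_simp
  have := @X.eq_1
  have := @X.eq_def
  have := @X.eq_unfold
  have := @X.congr_simp
  have := @Opp.eq_1
  have := @Opp.eq_def
  have := @Opp.eq_unfold
  have := @Opp.congr_simp
  have := @Cl.eq_1
  have := @Cl.eq_def
  have := @Cl.eq_unfold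
  have := @Cl.congr_simp
  have := @Apart.eq_1
  have := @Apart.eq_def
  have := @Apart.eq_unfold
  have := @Apart.congr_simp
  have := @Same.eq_1
  have := @Same.eq_def
  have := @Same.eq_unfold
  have := @Same.congr_simp
  have := @Mg.eq_1
  have := @Mg.eq_def
  have := @Mg.eq_unfold
  have := @Mg.congr_simp
  have := @ML.eq_1
  have := @ML.eq_def
  have := @ML.eq_unfold
  have := @ML.congr_simp
  have := @Ord.eq_1
  have := @Ord.eq_def
  have := @Ord.eq_unfold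
  have := @Ord.congr_simp
  have := @MgE.eq_1
  have := @MgE.eq_def
  have := @MgE.eq_unfold
  have := @MgE.congr_simp
  have := @HE.eq_1
  have := @HE.eq_def
  have := @HE.eq_unfold
  have := @HE.congr_simp
  have := @Many.eq_1
  have := @Many.eq_def
  have := @Many.eq_unfold
  have := @Many.congr_simp
  have := @Thru.eq_1
  have := @Thru.eq_def
  have := @Thru.eq_unfold
  have := @Thru.congr_simp
  have := @Near.eq_1
  have := @Near.eq_def
  have := @Near.eq_unfold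
  have := @Near.congr_simp
  have := @Bad.eq_1
  have := @Bad.eq_def
  have := @Bad.eq_unfold
  have := @Bad.congr_simp
  trivial

end

end Crest.Agent.R151.A
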