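import Crest.Agent.R151.B6c

set_option autoImplicit false

open MeasureTheory ProbabilityTheory Set Filter Topology
open Crest.ProbabilityR.FirstPassage

namespace Crest.Agent.R151.B

noncomputable section

/-! square integrable upper tails at the scale of the median -/

variable {G : Measure ℝ}

theorem sq_of_tail_sum (n : ℕ) :
    ((n : ℝ) + 1) ^ 2 = 1 + ∑ K ∈ Finset.range n, (2 * (K : ℝ) + 3) := by
  induction n with
  | zero => simp
  | succ n ih => rw [Finset.sum_range_succ, ← add_assoc, ← ih]; push_cast; ring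
theorem sq_of_tail_pt {x s : ℝ} (h0 : 0 ≤ x) (hs : 0 < s) : ∃ n : ℕ,
    x ^ 2 ≤ s ^ 2 + ∑ K ∈ Finset.range n, (2 * (K : ℝ) + 3) * s ^ 2 ∧
      ∀ K < n, ((K + 1 : ℕ) : ℝ) * s < x := by
  refine ⟨⌈x / s⌉₊ - 1, ?_, fun K hK => ?_⟩
  · have h1 : x / s ≤ ((⌈x / s⌉₊ - 1 : ℕ) : ℝ) + 1 := by
      refine (Nat.le_ceil _).trans ?_
      exact_mod_cast (show ⌈x / s⌉₊ ≤ ⌈x / s⌉₊ - 1 + 1 by omega)
    rw [div_le_iff₀ hs] at h1
    rw [← Finset.sum_mul, ← one_add_mul, ← sq_of_tail_sum, ← mul_pow]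
    exact pow_le_pow_left₀ h0 h1 2
  · rw [← lt_div_iff₀ hs]
    exact Nat.lt_ceil.1 (by omega)
theorem sq_of_tail_geo : HasSum (fun K : ℕ => (2 * (K : ℝ) + 3) * (1 / 2) ^ (K + 1)) 5 := by
  have h1 := hasSum_coe_mul_geometric_of_norm_lt_one (𝕜 := ℝ) (r := 1 / 2) (by norm_num)
  have h2 := hasSum_geometric_two
  have h3 := h1.add (h2.mul_left (3 / 2))
  have e : (fun K : ℕ => (2 * (K : ℝ) + 3) * (1 / 2) ^ (K + 1)) =
      fun K : ℕ => (K : ℝ) * (1 / 2) ^ K + 3 / 2 * (1 / 2) ^ K := by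
    funext K
    rw [pow_succ]
    ring
  have e' : (5 : ℝ) = 1 / 2 / (1 - 1 / 2) ^ 2 + 3 / 2 * 2 := by norm_num
  rw [e, e']
  exact h3
/-- discrete layer cake: `X² ≤ s² + ∑_{K ≥ 1} (2 K + 1) s² 1 {K s < X}` -/
theorem sq_of_tail {Ω : Type*} [MeasurableSpace Ω] {P : Measure Ω} [IsProbabilityMeasure P]
    {X : Ω → ℝ} (hX : Measurable X) (h0 : ∀ ω, 0 ≤ X ω) {s D : ℝ} (hs : 0 < s) (hD : 0 ≤ D)
    (h : ∀ K : ℕ, 1 ≤ K → P.real {ω | K * s < X ω} ≤ D * (1 / 2) ^ K) :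
    ∫ ω, X ω ^ 2 ∂P ≤ s ^ 2 * (1 + 5 * D) := by
  have hm : ∀ K : ℕ, MeasurableSet {ω | ((K + 1 : ℕ) : ℝ) * s < X ω} := fun K =>
    measurableSet_lt measurable_const hX
  have hg := sq_of_tail_geo.mul_left (s ^ 2 * D)
  rw [integral_eq_lintegral_of_nonneg_ae (Eventually.of_forall fun ω => sq_nonneg _)
    (hX.pow_const 2).aestronglyMeasurable]
  refine ENNReal.toReal_le_of_le_ofReal (by positivity) ?_
  calc ∫⁻ ω, ENNReal.ofReal (X ω ^ 2) ∂P
      ≤ ∫⁻ ω, (ENNReal.ofReal (s ^ 2) + ∑' K : ℕ, {ω | ((K + 1 : ℕ) : ℝ) * s < X ω}.indicator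
          (fun _ => ENNReal.ofReal ((2 * (K : ℝ) + 3) * s ^ 2)) ω) ∂P := by
        refine lintegral_mono fun ω => ?_
        obtain ⟨n, h1, h2⟩ := sq_of_tail_pt (h0 ω) hs
        refine (ENNReal.ofReal_le_ofReal h1).trans ?_
        rw [ENNReal.ofReal_add (sq_nonneg _) (Finset.sum_nonneg fun K _ => by positivity),
          ENNReal.ofReal_sum_of_nonneg fun K _ => by positivity]
        refine add_le_add le_rfl (le_trans (le_of_eq ?_) (ENNReal.sum_le_tsum (Finset.range n)))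
        refine Finset.sum_congr rfl fun K hK => ?_
        have h3 : ω ∈ {ω | ((K + 1 : ℕ) : ℝ) * s < X ω} := h2 K (Finset.mem_range.1 hK)
        rw [Set.indicator_of_mem h3]
    _ = ENNReal.ofReal (s ^ 2) + ∑' K : ℕ, ENNReal.ofReal ((2 * (K : ℝ) + 3) * s ^ 2) *
          P {ω | ((K + 1 : ℕ) : ℝ) * s < X ω} := by
        rw [lintegral_add_left measurable_const, lintegral_const, measure_univ, mul_one,
          lintegral_tsum fun K => (measurable_const.indicator (hm K)).aemeasurable]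
        simp only [lintegral_indicator_const (hm _)]
    _ ≤ ENNReal.ofReal (s ^ 2) + ∑' K : ℕ,
          ENNReal.ofReal (s ^ 2 * D * ((2 * (K : ℝ) + 3) * (1 / 2) ^ (K + 1))) := by
        refine add_le_add le_rfl (ENNReal.tsum_le_tsum fun K => ?_)
        rw [← ofReal_measureReal, ← ENNReal.ofReal_mul (by positivity)]
        refine ENNReal.ofReal_le_ofReal ?_
        calc (2 * (K : ℝ) + 3) * s ^ 2 * P.real {ω | ((K + 1 : ℕ) : ℝ) * s < X ω}
            ≤ (2 * (K : ℝ) + 3) * s ^ 2 * (D * (1 / 2) ^ (K + 1)) :=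
              mul_le_mul_of_nonneg_left (h (K + 1) (by omega)) (by positivity)
          _ = _ := by ring
    _ = ENNReal.ofReal (s ^ 2 * (1 + 5 * D)) := by
        rw [← ENNReal.ofReal_tsum_of_nonneg (fun K => by positivity) hg.summable, hg.tsum_eq,
          ← ENNReal.ofReal_add (sq_nonneg _) (by positivity)]
        congr 1
        ring
theorem Law.U1_num {R : ℝ} {K : ℕ} (h : 2 * (K : ℝ) ≤ R) :
    (2 * R + 1) ^ 2 * Real.exp (-R) ≤ 64 * (1 / 2) ^ K := by
  have hK : (0 : ℝ) ≤ K := Nat.cast_nonneg K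
  have hR : 0 ≤ R := by linarith
  have h1 : 2 * R + 1 ≤ 8 * Real.exp (R / 4) := by linarith [Real.add_one_le_exp (R / 4)]
  have h2 : (2 * R + 1) ^ 2 ≤ (8 * Real.exp (R / 4)) ^ 2 := by gcongr
  have h3 : Real.exp (R / 4) ^ 2 * Real.exp (-R) = Real.exp (-(R / 2)) := by
    rw [sq, ← Real.exp_add, ← Real.exp_add]
    congr 1
    ring
  have h4 : Real.exp (-1) ≤ 1 / 2 := by
    rw [Real.exp_neg, one_div]
    exact inv_anti₀ two_pos (by linarith [Real.add_one_le_exp (1 : ℝ)])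
  have h5 : Real.exp (-(R / 2)) ≤ (1 / 2) ^ K := by
    calc Real.exp (-(R / 2)) ≤ Real.exp (K * (-1)) := Real.exp_le_exp.2 (by linarith)
      _ = Real.exp (-1) ^ K := Real.exp_nat_mul _ _
      _ ≤ (1 / 2) ^ K := pow_le_pow_left₀ (Real.exp_pos _).le h4 K
  calc (2 * R + 1) ^ 2 * Real.exp (-R) ≤ (8 * Real.exp (R / 4)) ^ 2 * Real.exp (-R) := by gcongr
    _ = 64 * (Real.exp (R / 4) ^ 2 * Real.exp (-R)) := by ring
    _ ≤ 64 * (1 / 2) ^ K := by rw [h3]; gcongr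
theorem Law.U1_det {f : Fr} (hf : f.OK) {m ρ θ : ℝ} (hρ : 4 * f.C ≤ ρ) {x : Z2}
    (h1 : |f.p x - m| ≤ 2 * f.C) (h2 : |f.q x| ≤ 2 * f.C) {t : Env} (ht : NN t)
    (hg : t ∈ f.Gd 0 0 m ρ) {F : Set Z2} (h0 : 0 ∈ F) (hx : x ∈ F)
    (hc : t ∈ Con F (4 * f.C * ρ) θ) : T t 0 x ≤ f.p x + 4 * ρ + 2 * θ := by
  obtain ⟨u, ⟨hu1, hu2⟩, v, ⟨hv1, hv2⟩, c, hc1, hc2⟩ := hg
  have hC := hf.C1
  simp only [sub_zero, zero_add] at hu1 hu2 hv1 hv2
  simp only [map_sub] at hc1
  have a1 : n1 (u - 0) ≤ 4 * f.C * ρ := by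
    rw [sub_zero]
    refine (hf.dn u).trans ?_
    rw [mul_comm 4, mul_assoc]
    exact mul_le_mul_of_nonneg_left (by linarith) (by linarith)
  have a2 : n1 (v - x) ≤ 4 * f.C * ρ := by
    refine (hf.dn _).trans ?_
    rw [mul_comm 4, mul_assoc, map_sub, map_sub]
    refine mul_le_mul_of_nonneg_left ?_ (by linarith)
    have b1 := abs_sub_le (f.p v) m (f.p x)
    rw [abs_sub_comm m] at b1
    have b2 := abs_sub (f.q v) (f.q x)
    linarith
  obtain ⟨c₁, d1, e1⟩ := hc 0 h0 u a1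
  obtain ⟨c₂, d2, e2⟩ := hc x hx v a2
  have := T_le (S := univ) ht (((e1.mono (subset_univ _)).trans (hc2.mono (subset_univ _))).trans
    (e2.symm.mono (subset_univ _)))
  have b1 := (abs_le.1 hu1).1
  have b2 := (abs_le.1 hv1).2
  have b3 := (abs_le.1 h1).1
  linarith
/-- with `ρ = 4 K (r + C)`: on `Gd 0 0 m ρ` and `Con {0, x} (4 C ρ) _` one has
`T 0 x ≤ p x + 4 ρ + 8 C₁ C ρ`; `Gd_tail`, `Con_tail`, `sq_of_tail` -/
theorem Law.U1 (hG : Law G) {f : Fr} (hf : f.OK) : ∃ D : ℝ, 1 ≤ D ∧ ∀ m r : ℝ, 1 ≤ r →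
    1 / 2 ≤ Pr G (f.Gd 0 0 m r) → ∀ x, |f.p x - m| ≤ 2 * f.C → |f.q x| ≤ 2 * f.C →
      ∫ t, max (T t 0 x - f.p x) 0 ^ 2 ∂iidLaw G ≤ (D * r) ^ 2 := by
  classical
  obtain ⟨C₁, hC₁, hcon⟩ := hG.Con_tail
  have hC := hf.C1
  have := hG.isP
  have hA : 0 ≤ C₁ * f.C := by positivity
  refine ⟨26 * ((4 + 8 * (C₁ * f.C)) * (4 * (1 + f.C))), by nlinarith, fun m r hr h x h1 h2 => ?_⟩
  have hs : 0 < (4 + 8 * (C₁ * f.C)) * (4 * (r + f.C)) := by positivity
  have key := sq_of_tail (P := iidLaw G) (X := fun t => max (T t 0 x - f.p x) 0)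
    (((T_meas 0 x).sub_const _).max measurable_const) (fun t => le_max_right _ _) hs
    (D := 129) (by norm_num) fun K hK => ?_
  · refine key.trans ?_
    have a1 : (4 + 8 * (C₁ * f.C)) * (4 * (r + f.C)) ≤
        (4 + 8 * (C₁ * f.C)) * (4 * (1 + f.C)) * r := by
      rw [mul_assoc (4 + 8 * (C₁ * f.C))]
      refine mul_le_mul_of_nonneg_left ?_ (by positivity)
      nlinarith
    have a2 := pow_le_pow_left₀ hs.le a1 2
    rw [mul_assoc 26, mul_pow 26]
    nlinarith [sq_nonneg ((4 + 8 * (C₁ * f.C)) * (4 * (1 + f.C)) * r)]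
  · have hK' : (1 : ℝ) ≤ K := by exact_mod_cast hK
    set ρ : ℝ := 4 * K * (r + f.C) with hρ
    have hρ1 : 4 * f.C ≤ ρ := by rw [hρ]; nlinarith
    have hρ2 : 2 * (K : ℝ) ≤ 4 * f.C * ρ := by
      have : 2 * (K : ℝ) ≤ ρ := by rw [hρ]; nlinarith
      nlinarith
    have b1 := hG.Gd_tail hf (by linarith) h 0 0 K
    have b2 := hcon {0, x} (4 * f.C * ρ) (by linarith)
    have b3 : ((({0, x} : Finset Z2).card : ℕ) : ℝ) ≤ 2 := by
      exact_mod_cast Finset.card_le_two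
    have b4 := Law.U1_num hρ2
    have b5 : ((({0, x} : Finset Z2).card : ℕ) : ℝ) * (2 * (4 * f.C * ρ) + 1) ^ 2 *
        Real.exp (-(4 * f.C * ρ)) ≤ 2 * (64 * (1 / 2) ^ K) := by
      rw [mul_assoc]
      exact mul_le_mul b3 b4 (by positivity) (by norm_num)
    have b6 : Pr G {t | K * ((4 + 8 * (C₁ * f.C)) * (4 * (r + f.C))) < max (T t 0 x - f.p x) 0} ≤
        Pr G ((f.Gd 0 0 m ρ)ᶜ ∪
          (Con (({0, x} : Finset Z2) : Set Z2) (4 * f.C * ρ) (C₁ * (4 * f.C * ρ)))ᶜ) := by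
      refine hG.mono_nn fun t ht hlt => ?_
      by_contra hn
      rw [← compl_inter, notMem_compl_iff] at hn
      have c1 := Law.U1_det hf hρ1 h1 h2 ht hn.1 (by simp) (by simp) hn.2
      have c2 : K * ((4 + 8 * (C₁ * f.C)) * (4 * (r + f.C))) =
          4 * ρ + 2 * (C₁ * (4 * f.C * ρ)) := by rw [hρ]; ring
      have c3 : 0 ≤ K * ((4 + 8 * (C₁ * f.C)) * (4 * (r + f.C))) := by positivity
      exact absurd (max_le (by linarith) c3) (not_le.2 hlt)
    have b7 := hG.union (f.Gd 0 0 m ρ)ᶜ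
      (Con (({0, x} : Finset Z2) : Set Z2) (4 * f.C * ρ) (C₁ * (4 * f.C * ρ)))ᶜ
    exact b6.trans (by linarith)
theorem Law.U_int (hG : Law G) (x y : Z2) (c : ℝ) :
    Integrable (fun t => max (T t x y - c) 0 ^ 2) (iidLaw G) := by
  have := hG.isP
  exact ((hG.T_mem x y).sub (memLp_const c)).pos_part.integrable_sq
/-- `k = 0`: `T_mom`. Otherwise go through lattice points near `(i ℓ, 0)` (`den`), use `T_tri`,
`int_T`, and `(∑_{i<k} a i)² ≤ k ∑ (a i)²` -/
theorem Law.U (hG : Law G) {f : Fr} (hf : f.OK) : ∃ D : ℝ, 1 ≤ D ∧ ∀ ℓ r : ℝ, 1 ≤ r →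
    1 / 2 ≤ Pr G (f.Gd 0 0 ℓ r) → ∀ k : ℕ, UB G f (k * ℓ) (D * (k + 1) * r) := by
  have := hG.isP
  obtain ⟨D, hD, hU⟩ := hG.U1 hf
  obtain ⟨C₁, hC₁, hT⟩ := hG.T_mom
  have hC := hf.C1
  have hD0 : 0 ≤ 2 * (C₁ * (f.C * (f.C + f.C))) + 2 * f.C := by positivity
  refine ⟨D + (2 * (C₁ * (f.C * (f.C + f.C))) + 2 * f.C), by linarith, ?_⟩
  intro ℓ r hr hGd k x hp hq
  rcases Nat.eq_zero_or_pos k with rfl | hk
  · simp only [Nat.cast_zero, zero_mul, sub_zero, zero_add, mul_one] at hp ⊢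
    have hn : n1 (x - 0) ≤ f.C * (f.C + f.C) := by
      rw [sub_zero]
      exact (hf.dn x).trans (mul_le_mul_of_nonneg_left (add_le_add hp hq) (by linarith))
    have h1 : ∫ t, T t 0 x ^ 2 ∂iidLaw G ≤ (C₁ * (f.C * (f.C + f.C))) ^ 2 :=
      (hT 0 x).1.trans (pow_le_pow_left₀ (mul_nonneg (by linarith) (n1_nonneg _))
        (mul_le_mul_of_nonneg_left hn (by linarith)) 2)
    have hi := (hG.T_mem 0 x).integrable_sq
    have h2 : ∫ t, max (T t 0 x - f.p x) 0 ^ 2 ∂iidLaw G ≤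
        ∫ t, (2 * T t 0 x ^ 2 + 2 * f.C ^ 2) ∂iidLaw G := by
      refine integral_mono (hG.U_int 0 x _) ((hi.const_mul 2).add (integrable_const _)) fun t => ?_
      have h3 : max (T t 0 x - f.p x) 0 ^ 2 ≤ (T t 0 x - f.p x) ^ 2 := by
        rcases le_total (T t 0 x - f.p x) 0 with h | h
        · rw [max_eq_right h]; nlinarith [sq_nonneg (T t 0 x - f.p x)]
        · rw [max_eq_left h]
      have h4 : f.p x ^ 2 ≤ f.C ^ 2 := by
        rw [← sq_abs]; exact pow_le_pow_left₀ (abs_nonneg _) hp 2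
      show max (T t 0 x - f.p x) 0 ^ 2 ≤ 2 * T t 0 x ^ 2 + 2 * f.C ^ 2
      nlinarith [sq_nonneg (T t 0 x + f.p x)]
    rw [integral_add (hi.const_mul 2) (integrable_const _), integral_const_mul, integral_const,
      probReal_univ, one_smul] at h2
    set A := C₁ * (f.C * (f.C + f.C)) with hA
    have hA0 : 0 ≤ A := by positivity
    have h5 : 2 * A + 2 * f.C ≤ (D + (2 * A + 2 * f.C)) * r := by nlinarith
    have h6 := pow_le_pow_left₀ hD0 h5 2
    nlinarith [mul_nonneg hA0 (by linarith : 0 ≤ f.C)]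
  · classical
    choose y hy1 hy2 using hf.den
    let z : ℕ → Z2 := fun i => if i = 0 then 0 else if i = k then x else y (i * ℓ) 0
    have hz0 : z 0 = 0 := if_pos rfl
    have hzk : z k = x := by simp [z, hk.ne']
    have hz : ∀ i : ℕ, |f.p (z i) - i * ℓ| ≤ f.C ∧ |f.q (z i)| ≤ f.C := by
      intro i
      by_cases h0 : i = 0
      · subst h0
        rw [hz0]
        simp only [map_zero, Nat.cast_zero, zero_mul, sub_zero, abs_zero]
        constructor <;> linarith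
      · by_cases h1 : i = k
        · subst h1
          rw [hzk]
          exact ⟨hp, hq⟩
        · have e : z i = y (i * ℓ) 0 := by simp [z, h0, h1]
          rw [e]
          exact ⟨hy1 _ _, by simpa using hy2 (i * ℓ) 0⟩
    have hstep : ∀ i : ℕ, ∫ t, max (T t (z i) (z (i + 1)) - f.p (z (i + 1) - z i)) 0 ^ 2 ∂iidLaw G
        ≤ (D * r) ^ 2 := by
      intro i
      rw [hG.int_T (F := fun s => max (s - f.p (z (i + 1) - z i)) 0 ^ 2) (by fun_prop)]
      obtain ⟨a1, a2⟩ := hz i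
      obtain ⟨b1, b2⟩ := hz (i + 1)
      rw [abs_le] at a1 a2 b1 b2
      push_cast at b1
      refine hU ℓ r hr hGd _ ?_ ?_
      · rw [map_sub, abs_le]
        constructor <;> linarith [a1.1, a1.2, b1.1, b1.2]
      · rw [map_sub, abs_le]
        constructor <;> linarith [a2.1, a2.2, b2.1, b2.2]
    have hdet : ∀ t, NN t → ∀ j : ℕ, max (T t 0 (z j) - f.p (z j)) 0 ≤
        ∑ i ∈ Finset.range j, max (T t (z i) (z (i + 1)) - f.p (z (i + 1) - z i)) 0 := by
      intro t ht j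
      induction j with
      | zero => rw [hz0, T_self ht]; simp
      | succ j ih =>
        rw [Finset.sum_range_succ]
        have h1 := T_tri ht 0 (z j) (z (j + 1))
        have h2 := le_max_left (T t 0 (z j) - f.p (z j)) 0
        have h3 := le_max_right (T t 0 (z j) - f.p (z j)) 0
        have h4 := le_max_left (T t (z j) (z (j + 1)) - f.p (z (j + 1) - z j)) 0
        have h5 := le_max_right (T t (z j) (z (j + 1)) - f.p (z (j + 1) - z j)) 0
        have h6 : f.p (z (j + 1) - z j) = f.p (z (j + 1)) - f.p (z j) := map_sub _ _ _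
        exact max_le (by linarith) (by linarith)
    have hint : ∀ i ∈ Finset.range k, Integrable
        (fun t => max (T t (z i) (z (i + 1)) - f.p (z (i + 1) - z i)) 0 ^ 2) (iidLaw G) :=
      fun i _ => hG.U_int _ _ _
    calc ∫ t, max (T t 0 x - f.p x) 0 ^ 2 ∂iidLaw G
        ≤ ∫ t, (k : ℝ) * ∑ i ∈ Finset.range k,
            max (T t (z i) (z (i + 1)) - f.p (z (i + 1) - z i)) 0 ^ 2 ∂iidLaw G := by
          refine integral_mono_ae (hG.U_int 0 x _) ((integrable_finsetSum _ hint).const_mul _) ?_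
          filter_upwards [hG.nn] with t ht
          have h1 := hdet t ht k
          rw [hzk] at h1
          refine (pow_le_pow_left₀ (le_max_right _ _) h1 2).trans ?_
          have h2 := sq_sum_le_card_mul_sum_sq (s := Finset.range k)
            (f := fun i => max (T t (z i) (z (i + 1)) - f.p (z (i + 1) - z i)) 0)
          rwa [Finset.card_range] at h2
      _ = (k : ℝ) * ∑ i ∈ Finset.range k, ∫ t,
            max (T t (z i) (z (i + 1)) - f.p (z (i + 1) - z i)) 0 ^ 2 ∂iidLaw G := by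
          rw [integral_const_mul, integral_finsetSum _ hint]
      _ ≤ (k : ℝ) * ∑ _i ∈ Finset.range k, (D * r) ^ 2 :=
          mul_le_mul_of_nonneg_left (Finset.sum_le_sum fun i _ => hstep i) (Nat.cast_nonneg _)
      _ = (D * k * r) ^ 2 := by
          rw [Finset.sum_const, Finset.card_range, nsmul_eq_mul]; ring
      _ ≤ _ := by
          have hk0 : (0 : ℝ) ≤ k := Nat.cast_nonneg _
          refine pow_le_pow_left₀ (by positivity) (mul_le_mul_of_nonneg_right ?_ (by linarith)) 2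
          exact mul_le_mul (by linarith) (by linarith) hk0 (by linarith)
theorem UB.mono {f : Fr} {m B B' : ℝ} (h : UB G f m B) (h0 : 0 ≤ B) (h1 : B ≤ B') : UB G f m B' :=
  fun x a b => (h x a b).trans (pow_le_pow_left₀ h0 h1 2)

end

end Crest.Agent.R151.B
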