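import Crest.Agent.R151.BDefs

set_option autoImplicit false

open Set Filter Topology

namespace Crest.Agent.R151.B

/-! auxiliary lemmas for `corner` -/

/-- one dimensional corner of a convex function -/
theorem corner_one {φ : ℝ → ℝ} (hφ : ConvexOn ℝ univ φ) :
    ∃ m k : ℝ, 0 ≤ k ∧ (∀ σ, φ 0 + m * σ + k * |σ| ≤ φ σ) ∧
      ∀ ε : ℝ, 0 < ε → ∃ s : ℝ, 0 < s ∧ ∀ σ, |σ| ≤ s → φ σ ≤ φ 0 + m * σ + (k + ε) * |σ| := by
  have h0 : (0 : ℝ) ∈ interior (univ : Set ℝ) := by simp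
  obtain ⟨p, hp⟩ : ∃ p, p = derivWithin φ (Ioi 0) 0 := ⟨_, rfl⟩
  obtain ⟨q, hq⟩ : ∃ q, q = derivWithin φ (Iio 0) 0 := ⟨_, rfl⟩
  have hqp : q ≤ p := hp ▸ hq ▸ hφ.leftDeriv_le_rightDeriv_of_mem_interior h0
  have hP : HasDerivWithinAt φ p (Ioi 0) 0 :=
    hp ▸ hφ.hasDerivWithinAt_rightDeriv_of_mem_interior h0
  have hQ : HasDerivWithinAt φ q (Iio 0) 0 :=
    hq ▸ hφ.hasDerivWithinAt_leftDeriv_of_mem_interior h0
  refine ⟨(p + q) / 2, (p - q) / 2, by linarith, fun σ => ?_, fun ε hε => ?_⟩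
  · rcases lt_trichotomy σ 0 with h | h | h
    · have h1 := hφ.slope_le_leftDeriv_of_mem_interior (mem_univ σ) h0 h
      rw [← hq, slope_def_field, div_le_iff₀ (by linarith)] at h1
      rw [abs_of_neg h]
      linarith
    · subst h
      simp
    · have h1 := hφ.rightDeriv_le_slope_of_mem_interior h0 (mem_univ σ) h
      rw [← hp, slope_def_field, le_div_iff₀ (by linarith)] at h1
      rw [abs_of_pos h]
      linarith
  · have a1 := (hP.isLittleO.bound hε)
    have a2 := (hQ.isLittleO.bound hε)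
    rw [eventually_nhdsWithin_iff, Metric.eventually_nhds_iff] at a1 a2
    obtain ⟨s1, hs1, a1⟩ := a1
    obtain ⟨s2, hs2, a2⟩ := a2
    refine ⟨min s1 s2 / 2, by positivity, fun σ hσ => ?_⟩
    have b1 : dist σ 0 < s1 := by
      rw [Real.dist_eq, sub_zero]
      linarith [min_le_left s1 s2, lt_min hs1 hs2]
    have b2 : dist σ 0 < s2 := by
      rw [Real.dist_eq, sub_zero]
      linarith [min_le_right s1 s2, lt_min hs1 hs2]
    rcases lt_trichotomy σ 0 with h | h | h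
    · have h1 := a2 b2 h
      simp only [sub_zero, smul_eq_mul, Real.norm_eq_abs] at h1
      have h2 := (abs_le.1 h1).2
      rw [abs_of_neg h] at h2 ⊢
      linarith
    · subst h
      simp
    · have h1 := a1 b1 h
      simp only [sub_zero, smul_eq_mul, Real.norm_eq_abs] at h1
      have h2 := (abs_le.1 h1).2
      rw [abs_of_pos h] at h2 ⊢
      linarith

variable {μ : ℝ × ℝ → ℝ}

theorem corner_zero (hμ : Nm μ) : μ 0 = 0 := by
  have := hμ.smul 0 0 le_rfl
  simpa using this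

theorem corner_convex (hμ : Nm μ) (v u : ℝ × ℝ) :
    ConvexOn ℝ univ fun σ : ℝ => μ (v + σ • u) := by
  refine ⟨convex_univ, fun x _ y _ a b ha hb hab => ?_⟩
  have h1 : v + (a • x + b • y) • u = a • (v + x • u) + b • (v + y • u) := by
    rw [smul_add, smul_add, add_add_add_comm, ← add_smul a b v, hab, one_smul, add_smul,
      smul_assoc, smul_assoc]
  show μ (v + (a • x + b • y) • u) ≤ a • μ (v + x • u) + b • μ (v + y • u)
  rw [h1, smul_eq_mul, smul_eq_mul, ← hμ.smul a _ ha, ← hμ.smul b _ hb]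
  exact hμ.add _ _

/-- the two dimensional statement in coordinates -/
theorem corner_two (hμ : Nm μ) (v u : ℝ × ℝ) :
    ∃ m k : ℝ, 0 ≤ k ∧ (∀ a b : ℝ, a * μ v + m * b + k * |b| ≤ μ (a • v + b • u)) ∧
      ∀ ε : ℝ, 0 < ε → ∃ s : ℝ, 0 < s ∧ ∀ a b : ℝ, |b| ≤ s * a →
        μ (a • v + b • u) ≤ a * μ v + m * b + (k + ε) * |b| := by
  obtain ⟨m, k, hk, h1, h2⟩ := corner_one (corner_convex hμ v u)
  simp only [zero_smul, add_zero] at h1 h2
  have key : ∀ a b : ℝ, 0 < a → μ (a • v + b • u) = a * μ (v + (b / a) • u) := by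
    intro a b ha
    rw [← hμ.smul a _ ha.le, smul_add, smul_smul, mul_div_cancel₀ _ ha.ne']
  have lin : ∀ a b c : ℝ, 0 < a →
      a * (μ v + m * (b / a) + c * |b / a|) = a * μ v + m * b + c * |b| := by
    intro a b c ha
    rw [abs_div, abs_of_pos ha]
    field_simp
  have pos : ∀ a b : ℝ, 0 < a → a * μ v + m * b + k * |b| ≤ μ (a • v + b • u) := by
    intro a b ha
    rw [key a b ha, ← lin a b k ha]
    exact mul_le_mul_of_nonneg_left (h1 _) ha.le
  refine ⟨m, k, hk, fun a b => ?_, fun ε hε => ?_⟩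
  · have ht : 0 ≤ |a| + 1 := by positivity
    have h3 := pos (a + (|a| + 1)) b (by linarith [neg_abs_le a])
    have h4 : (a + (|a| + 1)) • v + b • u = (a • v + b • u) + (|a| + 1) • v := by
      rw [add_smul]
      abel
    have h5 := hμ.add (a • v + b • u) ((|a| + 1) • v)
    rw [hμ.smul _ _ ht] at h5
    rw [h4] at h3
    linarith
  · obtain ⟨s, hs, h3⟩ := h2 ε hε
    refine ⟨s, hs, fun a b hab => ?_⟩
    have ha : 0 ≤ a := by
      by_contra h
      have : s * a < 0 := mul_neg_of_pos_of_neg hs (not_le.1 h)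
      linarith [abs_nonneg b]
    rcases ha.eq_or_lt with h | h
    · subst h
      have hb : b = 0 := by simpa using hab
      subst hb
      simp [corner_zero hμ]
    · rw [key a b h, ← lin a b (k + ε) h]
      refine mul_le_mul_of_nonneg_left (h3 _ ?_) ha
      rw [abs_div, abs_of_pos h, div_le_iff₀ h]
      exact hab

theorem corner_coord {v : ℝ × ℝ} (hv : v ≠ 0) :
    ∃ (u : ℝ × ℝ) (A B : ℝ × ℝ →L[ℝ] ℝ), A v = 1 ∧ B v = 0 ∧ A u = 0 ∧ B u = 1 ∧
      ∀ w, w = A w • v + B w • u := by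
  have hN : v.1 ^ 2 + v.2 ^ 2 ≠ 0 := by
    intro h
    apply hv
    have h1 : v.1 = 0 := by nlinarith [sq_nonneg v.1, sq_nonneg v.2]
    have h2 : v.2 = 0 := by nlinarith [sq_nonneg v.1, sq_nonneg v.2]
    exact Prod.ext h1 h2
  refine ⟨(-v.2, v.1),
    (v.1 / (v.1 ^ 2 + v.2 ^ 2)) • ContinuousLinearMap.fst ℝ ℝ ℝ +
      (v.2 / (v.1 ^ 2 + v.2 ^ 2)) • ContinuousLinearMap.snd ℝ ℝ ℝ,
    (-v.2 / (v.1 ^ 2 + v.2 ^ 2)) • ContinuousLinearMap.fst ℝ ℝ ℝ +
      (v.1 / (v.1 ^ 2 + v.2 ^ 2)) • ContinuousLinearMap.snd ℝ ℝ ℝ, ?_, ?_, ?_, ?_, fun w => ?_⟩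
  · simp
    field_simp
  · simp
    field_simp
    ring
  · simp
    field_simp
    ring
  · simp
    field_simp
    ring
  · ext
    · simp
      field_simp
      ring
    · simp
      field_simp
      ring

theorem corner_aux (hμ : Nm μ) {v : ℝ × ℝ} (hv : v ≠ 0) (h : ¬DifferentiableAt ℝ μ v) :
    ∃ P Q : ℝ × ℝ →ₗ[ℝ] ℝ, (∃ v u, P v = 1 ∧ Q v = 0 ∧ P u = 0 ∧ Q u = 1) ∧
      (∀ w, P w + |Q w| ≤ μ w) ∧ ∀ ε : ℝ, 0 < ε → ∃ s : ℝ, 0 < s ∧
        ∀ w, |Q w| ≤ s * P w → μ w ≤ P w + (1 + ε) * |Q w| := by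
  obtain ⟨u, A, B, hAv, hBv, hAu, hBu, hw⟩ := corner_coord hv
  obtain ⟨m, k, hk, h1, h2⟩ := corner_two hμ v u
  have h1' : ∀ w, A w * μ v + m * B w + k * |B w| ≤ μ w := fun w => by
    have := h1 (A w) (B w)
    rwa [← hw w] at this
  have h2' : ∀ ε : ℝ, 0 < ε → ∃ s : ℝ, 0 < s ∧ ∀ w, |B w| ≤ s * A w →
      μ w ≤ A w * μ v + m * B w + (k + ε) * |B w| := fun ε hε => by
    obtain ⟨s, hs, h3⟩ := h2 ε hε
    refine ⟨s, hs, fun w hw' => ?_⟩
    have := h3 (A w) (B w) hw'
    rwa [← hw w] at this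
  have hμv : 0 < μ v := by
    obtain ⟨c, hc, hc'⟩ := hμ.low
    exact lt_of_lt_of_le (mul_pos hc (norm_pos_iff.2 hv)) (hc' v)
  rcases hk.eq_or_lt with hk0 | hk0
  · exfalso
    subst hk0
    apply h
    refine HasFDerivAt.differentiableAt (f' := μ v • A + m • B) ?_
    rw [hasFDerivAt_iff_isLittleO, Asymptotics.isLittleO_iff]
    intro c hc
    obtain ⟨s, hs, h3⟩ := h2' (c / (‖B‖ + 1)) (by positivity)
    have ev : ∀ᶠ w in 𝓝 v, |B w| < s * A w := by
      refine ContinuousAt.eventually_lt (by fun_prop) (by fun_prop) ?_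
      simp [hAv, hBv, hs]
    filter_upwards [ev] with w hw'
    have a1 := h1' w
    have a2 := h3 w hw'.le
    have a3 : |B w| ≤ (‖B‖ + 1) * ‖w - v‖ := by
      have : B w = B (w - v) := by rw [map_sub, hBv, sub_zero]
      rw [this, ← Real.norm_eq_abs]
      refine (B.le_opNorm _).trans ?_
      gcongr
      linarith
    have a4 : c / (‖B‖ + 1) * |B w| ≤ c * ‖w - v‖ := by
      calc c / (‖B‖ + 1) * |B w| ≤ c / (‖B‖ + 1) * ((‖B‖ + 1) * ‖w - v‖) := by gcongr
        _ = _ := by field_simp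
    have a5 : (μ v • A + m • B) (w - v) = μ v * (A w - 1) + m * B w := by
      simp [hAv, hBv]
    rw [a5, Real.norm_eq_abs, abs_le]
    have a6 : 0 ≤ c * ‖w - v‖ := by positivity
    constructor <;> nlinarith
  · refine ⟨μ v • (A : ℝ × ℝ →ₗ[ℝ] ℝ) + m • (B : ℝ × ℝ →ₗ[ℝ] ℝ), k • (B : ℝ × ℝ →ₗ[ℝ] ℝ),
      ⟨(μ v)⁻¹ • v, k⁻¹ • (u - (m / μ v) • v), ?_, ?_, ?_, ?_⟩, fun w => ?_, fun ε hε => ?_⟩
    · simp [hAv, hBv, hμv.ne']
    · simp [hBv]
    · simp only [LinearMap.add_apply, LinearMap.smul_apply, smul_eq_mul,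
        ContinuousLinearMap.coe_coe, map_smul, map_sub, hAv, hBv, hAu, hBu]
      field_simp
      ring
    · simp [hBv, hBu, hk0.ne']
    · have := h1' w
      simp only [LinearMap.add_apply, LinearMap.smul_apply, smul_eq_mul,
        ContinuousLinearMap.coe_coe, abs_mul, abs_of_pos hk0]
      linarith
    · obtain ⟨s, hs, h3⟩ := h2' (ε * k) (by positivity)
      refine ⟨min (k / (2 * (|m| + 1))) (k * s / (2 * μ v)), by positivity, fun w hw' => ?_⟩
      obtain ⟨s', hs'⟩ : ∃ s', s' = min (k / (2 * (|m| + 1))) (k * s / (2 * μ v)) := ⟨_, rfl⟩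
      have b0 : 0 < s' := by rw [hs']; positivity
      have b1 : s' * (2 * (|m| + 1)) ≤ k := by
        rw [← le_div_iff₀ (by positivity), hs']
        exact min_le_left _ _
      have b2 : s' * (2 * μ v) ≤ k * s := by
        rw [← le_div_iff₀ (by positivity), hs']
        exact min_le_right _ _
      rw [← hs'] at hw'
      simp only [LinearMap.add_apply, LinearMap.smul_apply, smul_eq_mul,
        ContinuousLinearMap.coe_coe, abs_mul, abs_of_pos hk0] at hw' ⊢
      have b3 : m * B w ≤ |m| * |B w| := by rw [← abs_mul]; exact le_abs_self _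
      have b4 : s' * (m * B w) ≤ k / 2 * |B w| := by
        calc s' * (m * B w) ≤ s' * ((|m| + 1) * |B w|) := by
              refine mul_le_mul_of_nonneg_left (b3.trans ?_) b0.le
              gcongr
              linarith
          _ = s' * (2 * (|m| + 1)) / 2 * |B w| := by ring
          _ ≤ _ := by gcongr
      have b5 : k / 2 * |B w| ≤ s' * μ v * A w := by linarith
      have b6 : 0 ≤ A w := by
        by_contra hh
        have : s' * μ v * A w < 0 := mul_neg_of_pos_of_neg (by positivity) (not_le.1 hh)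
        have : 0 ≤ k / 2 * |B w| := by positivity
        linarith
      have b7 : |B w| ≤ s * A w := by
        have : k / 2 * |B w| ≤ k / 2 * (s * A w) := by
          refine b5.trans ?_
          calc s' * μ v * A w = s' * (2 * μ v) / 2 * A w := by ring
            _ ≤ k * s / 2 * A w := by gcongr
            _ = _ := by ring
        exact le_of_mul_le_mul_left this (by positivity)
      have := h3 w b7
      linarith

end Crest.Agent.R151.B
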