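import Crest.Agent.R151.B1a
import Crest.Agent.R151.B8bAux1

set_option autoImplicit false

open MeasureTheory ProbabilityTheory Set Filter Topology
open Crest.ProbabilityR.FirstPassage

namespace Crest.Agent.R151.B

noncomputable section

/-! a point of non differentiability gives a corner -/

variable {G : Measure ℝ} {μ : ℝ × ℝ → ℝ}

/-- `u₀ = (-v.2, v.1)`, `φ σ = μ (v + σ • u₀)` is convex with one sided derivatives `d₋ ≤ d₊` at `0`.
Write `w = a • v + b • u₀`. If `d₋ = d₊ = d` then `μ w = a φ (b / a)` shows that `μ` has derivative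
`a μ v + b d` at `v`. Otherwise `P w = a μ v + b (d₊ + d₋) / 2`, `Q w = b (d₊ - d₋) / 2`; for `a ≤ 0`
add a large multiple of `v` and use subadditivity. -/
theorem corner (hμ : Nm μ) {v : ℝ × ℝ} (hv : v ≠ 0) (h : ¬DifferentiableAt ℝ μ v) :
    ∃ P Q : ℝ × ℝ →ₗ[ℝ] ℝ, (∃ v u, P v = 1 ∧ Q v = 0 ∧ P u = 0 ∧ Q u = 1) ∧
      (∀ w, P w + |Q w| ≤ μ w) ∧ ∀ ε : ℝ, 0 < ε → ∃ s : ℝ, 0 < s ∧
        ∀ w, |Q w| ≤ s * P w → μ w ≤ P w + (1 + ε) * |Q w| :=
  corner_aux hμ hv h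
theorem frame_of_cR (x y : Z2) : cR (x + y) = cR x + cR y := by
  simp [cR]
theorem frame_of_lin (P : ℝ × ℝ →ₗ[ℝ] ℝ) (w : ℝ × ℝ) : P w = w.1 * P (1, 0) + w.2 * P (0, 1) := by
  have : w = w.1 • ((1, 0) : ℝ × ℝ) + w.2 • ((0, 1) : ℝ × ℝ) := by simp
  conv_lhs => rw [this]
  rw [map_add, map_smul, map_smul, smul_eq_mul, smul_eq_mul]
theorem frame_of_abs {x y a b C : ℝ} (ha : |a| ≤ C) (hb : |b| ≤ C) :
    |x * a + y * b| ≤ C * (|x| + |y|) := by
  refine (abs_add_le _ _).trans ?_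
  rw [abs_mul, abs_mul]
  nlinarith [mul_le_mul_of_nonneg_left ha (abs_nonneg x), mul_le_mul_of_nonneg_left hb (abs_nonneg y)]
/-- `p = P ∘ cR`, `q = Q ∘ cR`; `w = P w • v + Q w • u`; integer parts for `den` -/
theorem frame_of {P Q : ℝ × ℝ →ₗ[ℝ] ℝ} (h : ∃ v u, P v = 1 ∧ Q v = 0 ∧ P u = 0 ∧ Q u = 1) :
    ∃ f : Fr, f.OK ∧ ∀ x, f.p x = P (cR x) ∧ f.q x = Q (cR x) := by
  obtain ⟨v, u, h1, h2, h3, h4⟩ := h
  have hdec : ∀ w : ℝ × ℝ, w.1 = P w * v.1 + Q w * u.1 ∧ w.2 = P w * v.2 + Q w * u.2 := by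
    intro w
    rw [frame_of_lin P] at h1 h3
    rw [frame_of_lin Q] at h2 h4
    rw [frame_of_lin P w, frame_of_lin Q w]
    generalize P (1, 0) = a at *
    generalize P (0, 1) = b at *
    generalize Q (1, 0) = c at *
    generalize Q (0, 1) = d at *
    have hD : (a * d - b * c) * (v.1 * u.2 - v.2 * u.1) = 1 := by
      have : (a * d - b * c) * (v.1 * u.2 - v.2 * u.1)
          = (v.1 * a + v.2 * b) * (u.1 * c + u.2 * d) - (u.1 * a + u.2 * b) * (v.1 * c + v.2 * d) := by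
        ring
      rw [this, h1, h2, h3, h4]
      norm_num
    have hD0 : a * d - b * c ≠ 0 := left_ne_zero_of_mul_eq_one hD
    have e1 : (a * d - b * c) * v.1 = d := by linear_combination d * h1 - b * h2
    have e2 : (a * d - b * c) * u.1 = -b := by linear_combination d * h3 - b * h4
    have e3 : (a * d - b * c) * v.2 = -c := by linear_combination a * h2 - c * h1
    have e4 : (a * d - b * c) * u.2 = a := by linear_combination a * h4 - c * h3
    constructor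
    · apply mul_left_cancel₀ hD0
      linear_combination (-(w.1 * a + w.2 * b)) * e1 - (w.1 * c + w.2 * d) * e2
    · apply mul_left_cancel₀ hD0
      linear_combination (-(w.1 * a + w.2 * b)) * e3 - (w.1 * c + w.2 * d) * e4
  set D : ℝ := 1 + |P (1, 0)| + |P (0, 1)| + |Q (1, 0)| + |Q (0, 1)| + |v.1| + |v.2| + |u.1| + |u.2|
    with hD
  have a1 := abs_nonneg (P (1, 0))
  have a2 := abs_nonneg (P (0, 1))
  have a3 := abs_nonneg (Q (1, 0))
  have a4 := abs_nonneg (Q (0, 1))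
  have a5 := abs_nonneg v.1
  have a6 := abs_nonneg v.2
  have a7 := abs_nonneg u.1
  have a8 := abs_nonneg u.2
  have hP : ∀ w : ℝ × ℝ, |P w| ≤ D * (|w.1| + |w.2|) := fun w => by
    rw [frame_of_lin P w]
    exact frame_of_abs (by linarith) (by linarith)
  have hQ : ∀ w : ℝ × ℝ, |Q w| ≤ D * (|w.1| + |w.2|) := fun w => by
    rw [frame_of_lin Q w]
    exact frame_of_abs (by linarith) (by linarith)
  have hD1 : 1 ≤ D := by linarith
  refine ⟨⟨AddMonoidHom.mk' (fun x => P (cR x)) fun x y => by rw [frame_of_cR, map_add],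
    AddMonoidHom.mk' (fun x => Q (cR x)) fun x y => by rw [frame_of_cR, map_add], 2 * D⟩,
    ⟨?_, fun x => ?_, fun x => ?_, fun a b => ?_⟩, fun x => ⟨rfl, rfl⟩⟩
  · show 1 ≤ 2 * D
    linarith
  · show |P (cR x)| ≤ 2 * D * n1 x ∧ |Q (cR x)| ≤ 2 * D * n1 x
    have b1 : |P (cR x)| ≤ D * n1 x := hP (cR x)
    have b2 : |Q (cR x)| ≤ D * n1 x := hQ (cR x)
    have b3 : 0 ≤ D * n1 x := mul_nonneg (by linarith) (n1_nonneg x)
    constructor <;> linarith
  · show n1 x ≤ 2 * D * (|P (cR x)| + |Q (cR x)|)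
    obtain ⟨b1, b2⟩ := hdec (cR x)
    have b3 : |(cR x).1| ≤ D * (|P (cR x)| + |Q (cR x)|) := by
      conv_lhs => rw [b1]
      exact frame_of_abs (by linarith) (by linarith)
    have b4 : |(cR x).2| ≤ D * (|P (cR x)| + |Q (cR x)|) := by
      conv_lhs => rw [b2]
      exact frame_of_abs (by linarith) (by linarith)
    have b5 : n1 x = |(cR x).1| + |(cR x).2| := rfl
    linarith
  · set w : ℝ × ℝ := a • v + b • u with hw
    have b1 : P w = a := by simp [hw, h1, h3]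
    have b2 : Q w = b := by simp [hw, h2, h4]
    refine ⟨(⌊w.1⌋, ⌊w.2⌋), ?_⟩
    show |P (cR (⌊w.1⌋, ⌊w.2⌋)) - a| ≤ 2 * D ∧ |Q (cR (⌊w.1⌋, ⌊w.2⌋)) - b| ≤ 2 * D
    have c1 : |(cR (⌊w.1⌋, ⌊w.2⌋) - w).1| ≤ 1 := by
      show |((⌊w.1⌋ : ℤ) : ℝ) - w.1| ≤ 1
      rw [abs_le]
      constructor <;> linarith [Int.floor_le w.1, Int.lt_floor_add_one w.1]
    have c2 : |(cR (⌊w.1⌋, ⌊w.2⌋) - w).2| ≤ 1 := by
      show |((⌊w.2⌋ : ℤ) : ℝ) - w.2| ≤ 1
      rw [abs_le]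
      constructor <;> linarith [Int.floor_le w.2, Int.lt_floor_add_one w.2]
    have c3 := hP (cR (⌊w.1⌋, ⌊w.2⌋) - w)
    have c4 := hQ (cR (⌊w.1⌋, ⌊w.2⌋) - w)
    rw [map_sub, b1] at c3
    rw [map_sub, b2] at c4
    have c5 := mul_le_mul_of_nonneg_left (add_le_add c1 c2) (show 0 ≤ D by linarith)
    constructor <;> linarith
theorem cor_of (hμ : Nm μ) (h1 : ∀ x, μ (cR x) ≤ mE G x)
    (h2 : ∀ η : ℝ, 0 < η → ∃ B : ℝ, ∀ x, mE G x ≤ μ (cR x) + η * n1 x + B)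
    {v : ℝ × ℝ} (hv : v ≠ 0) (h : ¬DifferentiableAt ℝ μ v) : ∃ f, Cor G f := by
  obtain ⟨P, Q, hb, hl, ht⟩ := corner hμ hv h
  obtain ⟨f, hf, he⟩ := frame_of hb
  refine ⟨f, hf, fun x => ?_, fun ε hε => ?_⟩
  · rw [(he x).1, (he x).2]
    refine le_trans ?_ (h1 x)
    have b1 := hl (cR x)
    have b2 := hl (-cR x)
    rw [hμ.neg, map_neg, map_neg, abs_neg] at b2
    rcases abs_cases (P (cR x)) with ⟨e, -⟩ | ⟨e, -⟩ <;> linarith
  · obtain ⟨s, hs, hs'⟩ := ht ε hε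
    refine ⟨s, hs, fun η hη => ?_⟩
    have hC : 0 < f.C * (1 + s) := mul_pos (by linarith [hf.C1]) (by linarith)
    obtain ⟨B, hB⟩ := h2 (η / (f.C * (1 + s))) (div_pos hη hC)
    refine ⟨B, fun x hx => ?_⟩
    have hp : 0 ≤ f.p x := (mul_nonneg_iff_of_pos_left hs).1 ((abs_nonneg _).trans hx)
    have b1 := hs' (cR x) (by rw [← (he x).1, ← (he x).2]; exact hx)
    rw [← (he x).1, ← (he x).2] at b1
    have b2 : n1 x ≤ f.C * (1 + s) * f.p x := by
      have b3 := hf.dn x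
      rw [abs_of_nonneg hp] at b3
      have b4 := mul_le_mul_of_nonneg_left hx (show 0 ≤ f.C by linarith [hf.C1])
      nlinarith
    have b5 : η / (f.C * (1 + s)) * n1 x ≤ η * f.p x := by
      refine (mul_le_mul_of_nonneg_left b2 (div_pos hη hC).le).trans (le_of_eq ?_)
      rw [← mul_assoc, div_mul_cancel₀ _ hC.ne']
    have b6 := hB x
    linarith
theorem Cor.flip {f : Fr} (h : Cor G f) : Cor G f.flip := by
  have e1 : ∀ x, f.flip.p x = f.p x := fun _ => rfl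
  have e2 : ∀ x, |f.flip.q x| = |f.q x| := fun x => by simp [Fr.flip]
  refine ⟨h.ok.flip, fun x => ?_, fun ε hε => ?_⟩
  · rw [e1, e2]
    exact h.low x
  · simp only [e1, e2]
    exact h.tight ε hε

end

end Crest.Agent.R151.B
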