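import Crest.Agent.R151.B10
import Crest.Agent.R151.B8b

set_option autoImplicit false

open MeasureTheory ProbabilityTheory Set Filter Topology
open Crest.ProbabilityR.FirstPassage

namespace Crest.Agent.R151.B

noncomputable section

/-! the sharp floor -/

variable {G : Measure ℝ}

/-- `tight` with `η' = η / (4 C Λ + 1)`-like constants; `UC` with `n = (Λ + 1) a`, `s = η a / 2`-like
values; `E (T - mE)₊ ≤ √(Var T)` (`T_var`) -/
theorem Cor.tw (hG : Law G) {f : Fr} (hc : Cor G f) {ε : ℝ} (hε : 0 < ε) : ∃ s : ℝ, 0 < s ∧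
    ∀ Λ η : ℝ, 0 < Λ → 0 < η → ∀ᶠ a : ℝ in atTop,
      (∀ z, Pr G {t | ∃ x y, n1 (x - z) ≤ Λ * a ∧ n1 (y - z) ≤ Λ * a ∧
        |f.q (y - x)| ≤ s * f.p (y - x) ∧
        f.p (y - x) + (1 + ε) * |f.q (y - x)| + η * a < T t x y} ≤ η) ∧
      ∀ x y, n1 (y - x) ≤ Λ * a → |f.q (y - x)| ≤ s * f.p (y - x) →
        ∫ t, max (T t x y - f.p (y - x) - (1 + ε) * |f.q (y - x)|) 0 ∂iidLaw G ≤ η * a := by
  obtain ⟨s, s0, hs⟩ := hc.tight ε hε
  obtain ⟨CU, CU1, hU⟩ := hG.UC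
  obtain ⟨CV, CV1, hV⟩ := hG.T_var
  have := hG.isP
  have C1 := hc.ok.C1
  refine ⟨s, s0, fun Λ η hΛ hη => ?_⟩
  obtain ⟨B, hB⟩ := hs (η / (4 * f.C * Λ)) (by positivity)
  have key : ∀ (a : ℝ) (d : Z2), 0 ≤ a → n1 d ≤ 2 * (Λ * a) → |f.q d| ≤ s * f.p d →
      mE G d ≤ f.p d + (1 + ε) * |f.q d| + η * a / 2 + B := by
    intro a d ha h1 h2
    have h3 := hB d h2
    have h4 : f.p d ≤ f.C * (2 * (Λ * a)) := (le_abs_self _).trans ((hc.ok.up d).1.trans
      (mul_le_mul_of_nonneg_left h1 (by linarith)))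
    have h5 := mul_le_mul_of_nonneg_left h4 (show 0 ≤ η / (4 * f.C * Λ) by positivity)
    have h6 : η / (4 * f.C * Λ) * (f.C * (2 * (Λ * a))) = η * a / 2 := by
      field_simp
      norm_num
    linarith
  filter_upwards [eventually_ge_atTop (4 / η), eventually_ge_atTop (8 * B / η),
    eventually_ge_atTop (CU * (Λ + η) ^ 5 * 4 ^ 6 / η ^ 7),
    eventually_ge_atTop (16 * CV * Λ / η ^ 2)] with a a1 a2 a3 a4
  have a0 : 0 < a := lt_of_lt_of_le (by positivity) a1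
  rw [div_le_iff₀ (by positivity)] at a1 a2 a3 a4
  have hηa : 0 < η * a := by positivity
  have hΛa : 0 < Λ * a := by positivity
  refine ⟨fun z => ?_, fun x y h1 h2 => ?_⟩
  · refine le_trans (hG.mono ?_) ((hU z ((Λ + η) * a) (η * a / 4) (by linarith)
      (by linarith)).trans ?_)
    · rintro t ⟨x, y, h1, h2, h3, h4⟩
      refine ⟨x, y, by linarith, by linarith, lt_of_lt_of_le ?_ (le_abs_self _)⟩
      have h5 := n1_tri x z y
      rw [n1_sub_comm z x] at h5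
      linarith [key a (y - x) a0.le (by linarith) h3]
    · rw [div_le_iff₀ (by positivity)]
      calc CU * ((Λ + η) * a) ^ 5 = CU * (Λ + η) ^ 5 * 4 ^ 6 * (a ^ 5 / 4 ^ 6) := by ring
        _ ≤ a * η ^ 7 * (a ^ 5 / 4 ^ 6) := mul_le_mul_of_nonneg_right a3 (by positivity)
        _ = _ := by ring
  · have h3 := key a (y - x) a0.le (by linarith) h2
    have hm := hG.T_mem x y
    have hi : Integrable (fun t => (T t x y - mE G (y - x)) ^ 2) (iidLaw G) :=
      (hm.sub (memLp_const _)).integrable_sq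
    have hv : ∫ t, (T t x y - mE G (y - x)) ^ 2 ∂iidLaw G ≤ CV * (Λ * a) := by
      have h4 := hV x y
      rw [variance_eq_integral hm.aestronglyMeasurable.aemeasurable, hG.int_T'] at h4
      exact h4.trans (mul_le_mul_of_nonneg_left h1 (by linarith))
    have h5 := integral_mono_of_nonneg (μ := iidLaw G)
      (f := fun t => max (T t x y - f.p (y - x) - (1 + ε) * |f.q (y - x)|) 0)
      (g := fun t => 2 / (η * a) * (T t x y - mE G (y - x)) ^ 2 + 3 * (η * a) / 4)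
      (Eventually.of_forall fun t => le_max_right _ _)
      ((hi.const_mul _).add (integrable_const _)) (Eventually.of_forall fun t => by
        refine max_le ?_ (by positivity)
        have h6 : T t x y - mE G (y - x) ≤
            2 / (η * a) * (T t x y - mE G (y - x)) ^ 2 + η * a / 8 := by
          rw [div_mul_eq_mul_div, ← sub_le_iff_le_add, le_div_iff₀ hηa]
          nlinarith [sq_nonneg (T t x y - mE G (y - x) - η * a / 4)]
        linarith)
    rw [integral_add (hi.const_mul _) (integrable_const _), integral_const_mul, integral_const,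
      probReal_univ, one_smul] at h5
    have h7 := mul_le_mul_of_nonneg_left hv (show 0 ≤ 2 / (η * a) by positivity)
    have h8 : 2 / (η * a) * (CV * (Λ * a)) ≤ η * a / 4 := by
      rw [div_mul_eq_mul_div, div_le_iff₀ hηa]
      have := mul_le_mul_of_nonneg_right a4 a0.le
      nlinarith [mul_pos hηa hηa]
    linarith
/-- replace `N` by `toMeasurable`; `0 ≤ E X ≤ -d (1 - η) + E U + E (V; N)`, Cauchy-Schwarz -/
theorem mean_ineq {Ω : Type*} [MeasurableSpace Ω] {P : Measure Ω} [IsProbabilityMeasure P]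
    {X U V : Ω → ℝ} {N : Set Ω} {d u B η : ℝ} (hX : Integrable X P) (hU : Integrable U P)
    (hV : MemLp V 2 P) (h0 : 0 ≤ ∫ ω, X ω ∂P) (hd : 0 ≤ d) (hB : 0 ≤ B) (hN : P.real N ≤ η)
    (h1 : ∀ᵐ ω ∂P, 0 ≤ U ω ∧ 0 ≤ V ω ∧ X ω ≤ U ω + V ω ∧ (ω ∉ N → X ω ≤ -d))
    (h2 : ∫ ω, U ω ∂P ≤ u) (h3 : ∫ ω, V ω ^ 2 ∂P ≤ B ^ 2) : d * (1 - η) ≤ u + B * √η := by
  have hm := measurableSet_toMeasurable P N
  have hr : P.real (toMeasurable P N) = P.real N := congrArg ENNReal.toReal (measure_toMeasurable N)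
  have hs := subset_toMeasurable P N
  generalize toMeasurable P N = M at hm hr hs
  have hI : MemLp (M.indicator fun _ => (1 : ℝ)) 2 P := (memLp_const 1).indicator hm
  have hI1 : ∫ ω, M.indicator (fun _ => (1 : ℝ)) ω ∂P = P.real N := by
    rw [integral_indicator_const _ hm, smul_eq_mul, mul_one, hr]
  have hVI : Integrable (fun ω => V ω * M.indicator (fun _ => (1 : ℝ)) ω) P :=
    hV.integrable_mul hI
  have hI2 : Integrable (M.indicator fun _ => (1 : ℝ)) P := hI.integrable one_le_two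
  have i1 : Integrable (fun ω => d * M.indicator (fun _ => (1 : ℝ)) ω - d) P :=
    (hI2.const_mul d).sub (integrable_const d)
  have i2 : Integrable (fun ω => d * M.indicator (fun _ => (1 : ℝ)) ω - d + U ω) P := i1.add hU
  have h4 : ∫ ω, X ω ∂P ≤ ∫ ω, (d * M.indicator (fun _ => (1 : ℝ)) ω - d + U ω +
      V ω * M.indicator (fun _ => (1 : ℝ)) ω) ∂P := by
    refine integral_mono_ae hX (i2.add hVI) ?_
    filter_upwards [h1] with ω hω
    by_cases h : ω ∈ M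
    · rw [indicator_of_mem h]
      linarith [hω.2.2.1]
    · rw [indicator_of_notMem h]
      linarith [hω.2.2.2 fun h' => h (hs h'), hω.1]
  rw [integral_add i2 hVI, integral_add i1 hU,
    integral_sub (hI2.const_mul d) (integrable_const d), integral_const_mul, hI1, integral_const,
    probReal_univ, one_smul] at h4
  have h5 := integral_mul_le_Lp_mul_Lq_of_nonneg (μ := P) Real.HolderConjugate.two_two
    (f := V) (g := M.indicator fun _ => (1 : ℝ)) (h1.mono fun ω hω => hω.2.1)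
    (Eventually.of_forall (indicator_nonneg fun _ _ => zero_le_one))
    (by simpa using hV) (by simpa using hI)
  have e : ∀ ω, M.indicator (fun _ => (1 : ℝ)) ω ^ 2 = M.indicator (fun _ => (1 : ℝ)) ω := by
    intro ω
    by_cases h : ω ∈ M <;> simp [h]
  simp only [Real.rpow_two, e, hI1, ← Real.sqrt_eq_rpow] at h5
  have h6 : √(∫ ω, V ω ^ 2 ∂P) ≤ B := Real.sqrt_le_iff.2 ⟨hB, h3⟩
  have h7 := mul_le_mul h6 (Real.sqrt_le_sqrt hN) (Real.sqrt_nonneg _) hB
  have h8 := mul_le_mul_of_nonneg_left hN hd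
  linarith
/-- deterministic core: a cheap crossing in one of the strips centred at `3 w (j + 1)`, `j < K`,
joined to `0` and to `ξ` inside the cone of tightness. All `q`-increments `q x`, `q (ξ - y)` lie in
`[0, 5 K w]`. -/
theorem floor_det {f : Fr} {t : Env} (ht : NN t) {ξ : Z2} {K j : ℕ} {H m w s ε e δ : ℝ}
    (hw : f.C ≤ w) (h0 : 0 ≤ f.C) (hj : j < K) (hε : 0 ≤ ε) (hs : 0 < s)
    (hH : 5 * K * w ≤ s * (H - 2 * w))
    (h1 : |f.p ξ - (2 * H + m)| ≤ f.C) (h2 : |f.q ξ - 3 * w * (K + 1)| ≤ f.C)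
    (ha : ∀ x, |f.p x - H| ≤ 2 * w → |f.q x| ≤ 5 * K * w → |f.q x| ≤ s * f.p x →
      T t 0 x ≤ f.p x + (1 + ε) * |f.q x| + e)
    (hb : ∀ y, |f.p (ξ - y) - H| ≤ 2 * w → |f.q (ξ - y)| ≤ 5 * K * w →
      |f.q (ξ - y)| ≤ s * f.p (ξ - y) → T t y ξ ≤ f.p (ξ - y) + (1 + ε) * |f.q (ξ - y)| + e)
    (h : t ∈ f.Ev H (0 + 3 * w * (j + 1)) m w fun d => f.p d + f.q d - δ) :
    T t 0 ξ ≤ f.p ξ + f.q ξ - δ + 2 * e + 10 * ε * K * w := by
  obtain ⟨x, ⟨hx1, hx2⟩, y, ⟨hy1, hy2⟩, c, hc, hr⟩ := h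
  have hw0 : 0 ≤ w := h0.trans hw
  have hj0 : 0 ≤ (j : ℝ) * w := mul_nonneg (Nat.cast_nonneg j) hw0
  have hjK : ((j : ℝ) + 1) * w ≤ K * w :=
    mul_le_mul_of_nonneg_right (by exact_mod_cast hj) hw0
  obtain ⟨a1, a2⟩ := abs_le.1 hx1
  obtain ⟨a3, a4⟩ := abs_le.1 hx2
  obtain ⟨a5, a6⟩ := abs_le.1 hy1
  obtain ⟨a7, a8⟩ := abs_le.1 hy2
  obtain ⟨b1, b2⟩ := abs_le.1 h1
  obtain ⟨b3, b4⟩ := abs_le.1 h2
  have qx0 : 0 ≤ f.q x := by linarith
  have qx1 : f.q x ≤ 5 * K * w := by linarith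
  have e1 : f.p (ξ - y) = f.p ξ - f.p y := map_sub _ _ _
  have e2 : f.q (ξ - y) = f.q ξ - f.q y := map_sub _ _ _
  have qy0 : 0 ≤ f.q (ξ - y) := by linarith
  have qy1 : f.q (ξ - y) ≤ 5 * K * w := by linarith
  have i1 := ha x (abs_le.2 ⟨by linarith, by linarith⟩) (by rwa [abs_of_nonneg qx0]) (by
    rw [abs_of_nonneg qx0]
    exact qx1.trans (hH.trans (mul_le_mul_of_nonneg_left (by linarith) hs.le)))
  have i2 := hb y (abs_le.2 ⟨by linarith, by linarith⟩) (by rwa [abs_of_nonneg qy0]) (by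
    rw [abs_of_nonneg qy0]
    exact qy1.trans (hH.trans (mul_le_mul_of_nonneg_left (by linarith) hs.le)))
  rw [abs_of_nonneg qx0] at i1
  rw [abs_of_nonneg qy0] at i2
  have i3 := (T_le ht hr).trans hc
  simp only [map_sub] at i3
  have i4 := T_tri ht 0 x ξ
  have i5 := T_tri ht x y ξ
  have i6 := mul_le_mul_of_nonneg_left qx1 hε
  have i7 := mul_le_mul_of_nonneg_left qy1 hε
  linarith
/-- Suppose the probability is `> η`. Put `w = W a + C ≤ 2 W a`; by `recentre` and `par` one of `K`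
strips is crossed with probability `≥ 1 - (1 - η) ^ K`. Choose a small `η₁` (depending on `δ, B`), `K`
with `(1 - η) ^ K ≤ η₁`, `ε` with `20 ε K W ≤ δ / 10`, `s` from `tw`, `H = Λ₀ a` with
`10 K W ≤ s (Λ₀ - 4 W)`, `ξ` from `den`; `tw` centred at `0` and at `ξ`. `X = T 0 ξ - p ξ - q ξ` has
mean `≥ 0` (`low`), `X ≤ -δ a / 2` off a set of probability `≤ 3 η₁` (`floor_det`). Always
`X ≤ U + V`: `x₀` near `(H, 3 w)`, `y₀ = x₀ + d`, `d` near `(m, 0)`, `V = (T x₀ y₀ - p d)₊`,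
`U = ` the two positive parts of `tw` `+ C + 10 ε K w`. Conclude with `mean_ineq`. -/
theorem Cor.floor_plus (hG : Law G) {f : Fr} (hc : Cor G f) {W δ η B : ℝ} (hW : 0 < W)
    (hδ : 0 < δ) (hη : 0 < η) (hB : 0 < B) : ∀ᶠ a : ℝ in atTop, ∀ m, UB G f m (B * a) → ∀ α β,
      Pr G (f.Ev α β m (W * a) fun d => f.p d + f.q d - δ * a) ≤ η := by
  have hP := hG.isP
  have hf := hc.ok
  have hC := hf.C1
  obtain ⟨ρ, hρ0, hρ1, hρ2⟩ : ∃ ρ : ℝ, 0 < ρ ∧ ρ ≤ 1 / 2 ∧ B * ρ ≤ δ / 16 := by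
    refine ⟨min (1 / 2) (δ / 16 / B), lt_min (by norm_num) (by positivity), min_le_left _ _, ?_⟩
    rw [mul_comm, ← le_div_iff₀ hB]
    exact min_le_right _ _
  have hρ3 : ρ ^ 2 ≤ 1 / 4 := by nlinarith
  obtain ⟨K, hK⟩ := exists_pow_lt_of_lt_one (show 0 < ρ ^ 2 / 3 by positivity)
    (show 1 - η < 1 by linarith)
  have hK1 : (1 : ℝ) ≤ K := by
    rcases Nat.eq_zero_or_pos K with h | h
    · rw [h, pow_zero] at hK
      linarith
    · exact_mod_cast h
  obtain ⟨ε, hε, hε1⟩ : ∃ ε : ℝ, 0 < ε ∧ ε * (K * W) = δ / 200 :=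
    ⟨δ / 200 / (K * W), by positivity, by field_simp⟩
  obtain ⟨s, hs, htw⟩ := hc.tw hG hε
  obtain ⟨Λ₀, hΛ0, hΛ1⟩ : ∃ Λ₀ : ℝ, 0 < Λ₀ ∧ s * (Λ₀ - 4 * W) = 10 * K * W :=
    ⟨4 * W + 10 * K * W / s, by positivity, by field_simp; ring⟩
  obtain ⟨η₂, hη0, hη1, hη2⟩ : ∃ η₂ : ℝ, 0 < η₂ ∧ η₂ ≤ ρ ^ 2 / 3 ∧ η₂ ≤ δ / 100 :=
    ⟨min (ρ ^ 2 / 3) (δ / 100), lt_min (by positivity) (by positivity), min_le_left _ _,
      min_le_right _ _⟩
  filter_upwards [htw (f.C * (Λ₀ + 4 * W + 10 * K * W)) η₂ (by positivity) hη0,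
    (tendsto_id.const_mul_atTop hW).eventually_ge_atTop f.C,
    (tendsto_id.const_mul_atTop hδ).eventually_ge_atTop (200 * f.C), eventually_gt_atTop 0]
    with a ⟨ht1, ht2⟩ ha1 ha2 ha0 m hU α β
  simp only [id] at ha1 ha2
  by_contra hlt
  push Not at hlt
  obtain ⟨w, hw⟩ : ∃ w, w = W * a + f.C := ⟨_, rfl⟩
  obtain ⟨H, hH⟩ : ∃ H, H = Λ₀ * a := ⟨_, rfl⟩
  have hw0 : 0 < w := by linarith
  have hw2 : w ≤ 2 * W * a := by linarith
  have hKw : w ≤ K * w := le_mul_of_one_le_left hw0.le hK1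
  have hKw2 : K * w ≤ 2 * (K * W) * a := by nlinarith
  have hεw : ε * K * w ≤ δ * a / 100 := by
    have := mul_le_mul_of_nonneg_left hKw2 hε.le
    have e : ε * (2 * (K * W) * a) = δ * a / 100 := by
      rw [show ε * (2 * (K * W) * a) = 2 * (ε * (K * W)) * a by ring, hε1]
      ring
    linarith
  have hsH : 5 * K * w ≤ s * (H - 2 * w) := by
    have e : s * (H - 4 * W * a) = 10 * K * W * a := by
      rw [hH, ← hΛ1]
      ring
    have := mul_le_mul_of_nonneg_left (show H - 4 * W * a ≤ H - 2 * w by linarith) hs.le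
    linarith
  have hηa : η₂ * a ≤ δ * a / 100 := by nlinarith
  have hn : ∀ x, |f.p x - H| ≤ 2 * w → |f.q x| ≤ 5 * K * w →
      n1 x ≤ f.C * (Λ₀ + 4 * W + 10 * K * W) * a := by
    intro x h1 h2
    have h3 : |f.p x| ≤ H + 2 * w := by
      have hH0 : 0 < H := hH ▸ mul_pos hΛ0 ha0
      obtain ⟨b1, b2⟩ := abs_le.1 h1
      exact abs_le.2 ⟨by linarith, by linarith⟩
    refine (hf.dn x).trans ?_
    rw [mul_assoc]
    exact mul_le_mul_of_nonneg_left (by linarith) (by linarith)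
  have hΛa : 0 ≤ f.C * (Λ₀ + 4 * W + 10 * K * W) * a := by positivity
  obtain ⟨ξ, hξ1, hξ2⟩ := hf.den (2 * H + m) (3 * w * (K + 1))
  obtain ⟨x₀, hx1, hx2⟩ := hf.den H (3 * w)
  obtain ⟨d, hd1, hd2⟩ := hf.den m 0
  rw [sub_zero] at hd2
  have hpar := hG.par f (a := H) (m := m) (η := η) (θ := fun d => f.p d + f.q d - δ * a) hw0
    (fun β' => hlt.le.trans (hw ▸ hG.recentre hf H β' α β m (W * a) _)) 0 K
  obtain ⟨a1, a2⟩ := abs_le.1 hξ1
  obtain ⟨a3, a4⟩ := abs_le.1 hξ2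
  obtain ⟨a5, a6⟩ := abs_le.1 hx1
  obtain ⟨a7, a8⟩ := abs_le.1 hx2
  obtain ⟨a9, a10⟩ := abs_le.1 hd1
  obtain ⟨a11, a12⟩ := abs_le.1 hd2
  have e1 : f.p (ξ - (x₀ + d)) = f.p ξ - f.p x₀ - f.p d := by
    rw [map_sub, map_add]
    ring
  have e2 : f.q (ξ - (x₀ + d)) = f.q ξ - f.q x₀ - f.q d := by
    rw [map_sub, map_add]
    ring
  have qx0 : 0 ≤ f.q x₀ := by linarith
  have qx1 : f.q x₀ ≤ 5 * K * w := by linarith
  have qy0 : 0 ≤ f.q (ξ - (x₀ + d)) := by linarith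
  have qy1 : f.q (ξ - (x₀ + d)) ≤ 5 * K * w := by linarith
  have j1 := ht2 0 x₀ (by
      rw [sub_zero]
      exact hn x₀ (abs_le.2 ⟨by linarith, by linarith⟩) (by rwa [abs_of_nonneg qx0])) (by
      rw [sub_zero, abs_of_nonneg qx0]
      exact qx1.trans (hsH.trans (mul_le_mul_of_nonneg_left (by linarith) hs.le)))
  have j2 := ht2 (x₀ + d) ξ
    (hn _ (abs_le.2 ⟨by linarith, by linarith⟩) (by rwa [abs_of_nonneg qy0])) (by
      rw [abs_of_nonneg qy0]
      exact qy1.trans (hsH.trans (mul_le_mul_of_nonneg_left (by linarith) hs.le)))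
  rw [sub_zero, abs_of_nonneg qx0] at j1
  rw [abs_of_nonneg qy0] at j2
  have k1 : Integrable (fun t => max (T t 0 x₀ - f.p x₀ - (1 + ε) * f.q x₀) 0) (iidLaw G) :=
    (((hG.T_int 0 x₀).sub (integrable_const _)).sub (integrable_const _)).pos_part
  have k2 : Integrable (fun t => max (T t (x₀ + d) ξ - f.p (ξ - (x₀ + d)) -
      (1 + ε) * f.q (ξ - (x₀ + d))) 0) (iidLaw G) :=
    (((hG.T_int (x₀ + d) ξ).sub (integrable_const _)).sub (integrable_const _)).pos_part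
  have key := mean_ineq (P := iidLaw G) (X := fun t => T t 0 ξ - (f.p ξ + f.q ξ))
    (U := fun t => max (T t 0 x₀ - f.p x₀ - (1 + ε) * f.q x₀) 0 +
      max (T t (x₀ + d) ξ - f.p (ξ - (x₀ + d)) - (1 + ε) * f.q (ξ - (x₀ + d))) 0 +
      (f.C + 10 * ε * K * w))
    (V := fun t => max (T t x₀ (x₀ + d) - f.p d) 0)
    (N := (⋂ j ∈ Finset.range K, (f.Ev H (0 + 3 * w * (j + 1)) m w
        fun d => f.p d + f.q d - δ * a)ᶜ) ∪
      ({t | ∃ x y, n1 (x - 0) ≤ f.C * (Λ₀ + 4 * W + 10 * K * W) * a ∧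
        n1 (y - 0) ≤ f.C * (Λ₀ + 4 * W + 10 * K * W) * a ∧ |f.q (y - x)| ≤ s * f.p (y - x) ∧
        f.p (y - x) + (1 + ε) * |f.q (y - x)| + η₂ * a < T t x y} ∪
      {t | ∃ x y, n1 (x - ξ) ≤ f.C * (Λ₀ + 4 * W + 10 * K * W) * a ∧
        n1 (y - ξ) ≤ f.C * (Λ₀ + 4 * W + 10 * K * W) * a ∧ |f.q (y - x)| ≤ s * f.p (y - x) ∧
        f.p (y - x) + (1 + ε) * |f.q (y - x)| + η₂ * a < T t x y}))
    (d := δ * a / 2) (u := δ * a / 8) (B := B * a) (η := ρ ^ 2)
    ((hG.T_int 0 ξ).sub (integrable_const _)) ((k1.add k2).add (integrable_const _))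
    ((hG.T_mem x₀ (x₀ + d)).sub (memLp_const _)).pos_part ?_ (by positivity) (by positivity) ?_ ?_ ?_ ?_
  · rw [Real.sqrt_sq hρ0.le] at key
    have hδa : 0 < δ * a := mul_pos hδ ha0
    have l1 := mul_le_mul_of_nonneg_left hρ3 hδa.le
    have l2 := mul_le_mul_of_nonneg_left hρ2 ha0.le
    linarith
  · rw [integral_sub (hG.T_int 0 ξ) (integrable_const _), integral_const, probReal_univ, one_smul]
    have l1 := hc.low ξ
    have l2 := le_abs_self (f.p ξ)
    have l3 := le_abs_self (f.q ξ)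
    change 0 ≤ mE G ξ - _
    linarith
  · refine (hG.union _ _).trans ((add_le_add hpar ((hG.union _ _).trans
      (add_le_add (ht1 0) (ht1 ξ)))).trans ?_)
    linarith
  · filter_upwards [hG.nn] with t ht
    have hεKw : 0 ≤ ε * K * w := by positivity
    refine ⟨add_nonneg (add_nonneg (le_max_right _ _) (le_max_right _ _)) (by linarith),
      le_max_right _ _, ?_, fun hN => ?_⟩
    · have l1 := le_max_left (T t 0 x₀ - f.p x₀ - (1 + ε) * f.q x₀) 0
      have l2 := le_max_left (T t (x₀ + d) ξ - f.p (ξ - (x₀ + d)) - (1 + ε) * f.q (ξ - (x₀ + d))) 0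
      have l3 := le_max_left (T t x₀ (x₀ + d) - f.p d) 0
      have l4 := T_tri ht 0 x₀ ξ
      have l5 := T_tri ht x₀ (x₀ + d) ξ
      have l6 := mul_le_mul_of_nonneg_left qx1 hε.le
      have l7 := mul_le_mul_of_nonneg_left qy1 hε.le
      linarith
    · rw [mem_union, mem_union, not_or, not_or] at hN
      obtain ⟨n1', n2, n3⟩ := hN
      simp only [mem_iInter, mem_compl_iff, not_forall, not_not] at n1'
      obtain ⟨j, hj, hev⟩ := n1'
      have := floor_det (e := η₂ * a) ht (by linarith) (by linarith) (Finset.mem_range.1 hj) hε.le hs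
        hsH hξ1 hξ2 (fun x b1 b2 b3 => by
          by_contra b4
          refine n2 ⟨0, x, by rwa [sub_zero, n1_zero], by rw [sub_zero]; exact hn x b1 b2, ?_, ?_⟩
          · rwa [sub_zero]
          · rw [sub_zero]
            exact not_le.1 b4)
        (fun y b1 b2 b3 => by
          by_contra b4
          exact n3 ⟨y, ξ, by rw [n1_sub_comm]; exact hn _ b1 b2, by rwa [sub_self, n1_zero], b3,
            not_le.1 b4⟩) hev
      linarith
  · have k3 : Integrable (fun t => max (T t 0 x₀ - f.p x₀ - (1 + ε) * f.q x₀) 0 +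
        max (T t (x₀ + d) ξ - f.p (ξ - (x₀ + d)) - (1 + ε) * f.q (ξ - (x₀ + d))) 0) (iidLaw G) :=
      k1.add k2
    rw [integral_add k3 (integrable_const _), integral_add k1 k2, integral_const,
      probReal_univ, one_smul]
    linarith
  · have := hG.int_T (F := fun s => max (s - f.p d) 0 ^ 2) (by fun_prop) x₀ (x₀ + d)
    rw [this, add_sub_cancel_left]
    exact hU d hd1 hd2
/-- `floor_plus` for `f` and `f.flip` (`f.flip.Ev α (-β) = f.Ev α β`) -/
theorem Cor.floor (hG : Law G) {f : Fr} (hc : Cor G f) {W δ η B : ℝ} (hW : 0 < W)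
    (hδ : 0 < δ) (hη : 0 < η) (hB : 0 < B) : ∀ᶠ a : ℝ in atTop, ∀ m, UB G f m (B * a) → ∀ α β,
      Pr G (f.Bad α β m (W * a) (δ * a)) ≤ η := by
  filter_upwards [hc.floor_plus hG hW hδ (half_pos hη) hB,
    hc.flip.floor_plus hG hW hδ (half_pos hη) hB] with a h1 h2 m hU α β
  have hU' : UB G f.flip m (B * a) := fun x b1 b2 => hU x b1 (by simpa [Fr.flip] using b2)
  refine le_trans (hG.mono ?_) ((hG.union _ _).trans
    ((add_le_add (h1 m hU α β) (h2 m hU' α (-β))).trans (add_halves η).le))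
  have hab : ∀ x, |f.flip.q x - -β| = |f.q x - β| := fun x => by
    rw [← abs_neg]
    simp only [Fr.flip, AddMonoidHom.neg_apply]
    congr 1
    ring
  rintro t ⟨x, hx, y, hy, c, hc', hr⟩
  rcases le_total 0 (f.q (y - x)) with h | h
  · exact Or.inl ⟨x, hx, y, hy, c, by simpa only [abs_of_nonneg h] using hc', hr⟩
  · refine Or.inr ⟨x, ⟨hx.1, (hab x).le.trans hx.2⟩, y, ⟨hy.1, (hab y).le.trans hy.2⟩, c, ?_,
      hr.mono fun u hu => (hab u).le.trans hu⟩
    simp only [abs_of_nonpos h] at hc'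
    exact hc'

end

end Crest.Agent.R151.B
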