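import Crest.Agent.R151.B11

set_option autoImplicit false

open MeasureTheory ProbabilityTheory Set Filter Topology
open Crest.ProbabilityR.FirstPassage

namespace Crest.Agent.R151.B

noncomputable section

/-! lower bound for the fluctuation scale -/

variable {G : Measure ℝ}

/-- `θ = 8 b / n`; `F` = edges at the points of the box `|p - n / 2| ≤ n`, `|q| ≤ b` (`box`,
`edges_fin`), so `θ² |F| ≤ 256 D`. For `t ∈ Gd`, `NN t`: the piece given by `Rch.slab` with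
`α = b`, `β = n - b` costs `≤ n + 3 b`, after scaling `≤ n - 5 b`; so `scl F (1 - θ) t ∈ Bad` -/
theorem Law.low1 (hG : Law G) (hS : Scal G) {f : Fr} (hf : f.OK) : ∃ η : ℝ, 0 < η ∧ ∀ n b : ℝ,
    f.C ≤ b → b ^ 3 ≤ n → 16 * b ≤ n → 1 / 2 ≤ Pr G (f.Gd 0 0 n b) →
      η ≤ Pr G (f.Bad 0 0 n (2 * b) b) := by
  obtain ⟨K, hK, hS⟩ := hS
  obtain ⟨D, hD, hbox⟩ := hf.box
  refine ⟨1 / 4 / Real.exp (K * (256 * D)), by positivity, fun n b hb hb3 hbn hgd => ?_⟩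
  have hC := hf.C1
  have hb0 : 0 < b := by linarith
  have hn0 : 0 < n := by linarith
  obtain ⟨F, hF1, hF2⟩ := hbox (n / 2) 0 n b (by linarith) (by linarith)
  obtain ⟨E, hE1, hE2⟩ := edges_fin F
  set θ := 8 * b / n with hθ
  have hθ0 : 0 ≤ θ := by positivity
  have hθ1 : θ ≤ 1 / 2 := by rw [hθ, div_le_iff₀ hn0]; linarith
  have hθn : θ * n = 8 * b := by rw [hθ]; field_simp
  have h1 := hS E θ (f.Bad 0 0 n (2 * b) b) hθ0 hθ1
    (by unfold Fr.Bad Fr.Ev; exact Cr_meas _ _ _ _)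
  have h2 : Pr G (f.Gd 0 0 n b) ≤ Pr G (scl E (1 - θ) ⁻¹' f.Bad 0 0 n (2 * b) b) := by
    refine hG.mono_nn fun t ht h => ?_
    obtain ⟨x, ⟨hx1, hx2⟩, y, ⟨hy1, hy2⟩, c, hc, hr⟩ := h
    rw [abs_le] at hx1 hy1
    dsimp only at hc
    rw [map_sub] at hc
    obtain ⟨x', y', c₁, c₂, c₃, r1, r2, r3, e, l1, l2⟩ := hr.slab (φ := f.p) (C := f.C) (α := b)
      (β := n - b) (fun u v h => (hf.adj h).1) (by linarith) (by linarith) (by linarith)
      (by linarith)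
    have n1 := r1.nonneg ht
    have n2 := r2.nonneg ht
    have n3 := r3.nonneg ht
    obtain ⟨⟨mx1, mx2, mx3⟩, ⟨my1, my2, my3⟩⟩ := r2.mem
    have hw : ∀ u : Z2, |f.q u - 0| ≤ b → |f.q u - 0| ≤ 2 * b := fun u h => by linarith
    refine ⟨x', ⟨abs_le.2 ⟨by linarith, by linarith⟩, hw _ mx1⟩, y',
      ⟨abs_le.2 ⟨by linarith, by linarith⟩, hw _ my1⟩, (1 - θ) * c₂, ?_, ?_⟩
    · dsimp only
      rw [map_sub]
      have a1 : (1 - θ) * c₂ ≤ (1 - θ) * (n + 3 * b) :=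
        mul_le_mul_of_nonneg_left (by linarith) (by linarith)
      have a2 : 0 ≤ θ * b := by positivity
      have a3 := abs_nonneg (f.q (y' - x'))
      nlinarith
    · refine (r2.scl (1 - θ) fun u hu v huv => hE1 u (hF1 u ?_ hu.1) v huv).mono
        fun u hu => hw u hu.1
      obtain ⟨-, u1, u2⟩ := hu
      exact abs_le.2 ⟨by linarith, by linarith⟩
  have h3 : (1 / 2 : ℝ) ^ 2 ≤ Pr G (scl E (1 - θ) ⁻¹' f.Bad 0 0 n (2 * b) b) ^ 2 :=
    pow_le_pow_left₀ (by norm_num) (hgd.trans h2) 2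
  have h4 : θ ^ 2 * E.card ≤ 256 * D := by
    have a1 : (E.card : ℝ) ≤ 4 * (D * n * b) := by
      have : (E.card : ℝ) ≤ 4 * F.card := by exact_mod_cast hE2
      linarith
    calc θ ^ 2 * E.card ≤ θ ^ 2 * (4 * (D * n * b)) := by gcongr
      _ = 256 * D * (b ^ 3 / n) := by rw [hθ]; field_simp; norm_num
      _ ≤ 256 * D * 1 := by
          have : b ^ 3 / n ≤ 1 := (div_le_one hn0).2 hb3
          gcongr
      _ = _ := mul_one _
  have h5 : Real.exp (K * θ ^ 2 * E.card) ≤ Real.exp (K * (256 * D)) := by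
    rw [mul_assoc]
    gcongr
  rw [div_le_iff₀ (Real.exp_pos _)]
  have h6 := mul_le_mul_of_nonneg_right h5 (Pr_nonneg G (f.Bad 0 0 n (2 * b) b))
  linarith
/-- otherwise `a < b = n ^ (1 / 3)`; `low1`, `U` (with `k = 1`) and `floor` at scale `b` -/
theorem Cor.low2 (hG : Law G) (hS : Scal G) {f : Fr} (hc : Cor G f) :
    ∀ᶠ n : ℝ in atTop, ∀ a : ℝ, 1 / 2 ≤ Pr G (f.Gd 0 0 n a) → n ≤ a ^ 3 := by
  obtain ⟨η, hη, h1⟩ := hG.low1 hS hc.ok
  obtain ⟨D, hD, h2⟩ := hG.U hc.ok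
  have h3 := hc.floor hG (W := 2) (δ := 1) (η := η / 2) (B := 2 * D) two_pos one_pos (half_pos hη)
    (by linarith)
  have ht : Tendsto (fun n : ℝ => n ^ (1 / 3 : ℝ)) atTop atTop := tendsto_rpow_atTop (by norm_num)
  filter_upwards [ht.eventually h3, ht.eventually_ge_atTop f.C, ht.eventually_ge_atTop 4,
    eventually_ge_atTop 0] with n a1 a2 a3 a4 a ha
  set b := n ^ (1 / 3 : ℝ) with hb
  have hb3 : b ^ 3 = n := by
    rw [hb, ← Real.rpow_natCast, ← Real.rpow_mul a4]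
    norm_num
  by_contra hlt
  have hab : a ≤ b := by
    by_contra h
    exact hlt (hb3 ▸ pow_le_pow_left₀ (by linarith) (not_le.mp h).le 3)
  have hGd : 1 / 2 ≤ Pr G (f.Gd 0 0 n b) := ha.trans (hG.mono (f.Gd_mono 0 0 n hab))
  have h16 : 16 * b ≤ n := by
    rw [← hb3]
    nlinarith [mul_le_mul a3 a3 (by norm_num) (by linarith : (0 : ℝ) ≤ b)]
  have h4 := h1 n b a2 hb3.le h16 hGd
  have h5 := h2 n b (by linarith) hGd 1
  have e1 : ((1 : ℕ) : ℝ) * n = n := by simp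
  have e2 : D * (((1 : ℕ) : ℝ) + 1) * b = 2 * D * b := by push_cast; ring
  rw [e1, e2] at h5
  have h6 := a1 n h5 0 0
  rw [one_mul] at h6
  linarith

end

end Crest.Agent.R151.B
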