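import Crest.Agent.R151.B13Aux1
import Crest.Agent.R151.B11

set_option autoImplicit false

open MeasureTheory ProbabilityTheory Set Filter Topology
open Crest.ProbabilityR.FirstPassage

namespace Crest.Agent.R151.B

noncomputable section

/-! walls confine cheap crossings -/

variable {G : Measure ℝ}

/-- Let the crossing go from `x` to `y` at cost `c`, cut at `z` (`Rch.confine`). Take
`i = ⌊(p z - α) / ℓ⌋`, `j` with `|q z - (b + j r)| ≤ r`, the wall from `x'` to `y'`, a cut point `z'`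
of the wall with `|p z' - p z| ≤ 2 r` (`x'`, `y'` or `Rch.ivt`), and the link `z → z'`. The two hybrid
walks `x → z → z' → y'` and `x' → z' → z → y` obey the floors; adding up,
`|q (y' - x)| ≤ 4 r + 8 C C₁ r`, so `|q z - b| ≤ (7 + 8 C C₁) r`. -/
theorem wall {f : Fr} (hf : f.OK) {t : Env} {C₁ α b ℓ r R : ℝ} {k : ℕ} (h1 : 1 ≤ C₁) (hr : f.C ≤ r)
    (hℓ : 0 < ℓ) (hR : 0 ≤ R)
    (hW : ∀ i : ℕ, i < k → ∀ j : ℤ, |j * r| ≤ R + r → t ∈ f.Gd (α + i * ℓ) (b + j * r) ℓ r)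
    (hK : t ∈ Con {x | |f.p x - α| ≤ k * ℓ ∧ |f.q x - b| ≤ R} (4 * f.C * r) (C₁ * (4 * f.C * r)))
    (hF : ∀ i : ℕ, i ≤ k → t ∉ f.Bad α b (i * ℓ) (R + 6 * f.C ^ 2 * r) r ∧
      t ∉ f.Bad (α + i * ℓ) b ((k - i : ℕ) * ℓ) (R + 6 * f.C ^ 2 * r) r)
    (h : t ∈ f.Lc α b (k * ℓ) r R) : t ∈ f.Gd α b (k * ℓ) (15 * f.C * C₁ * r) := by
  exact wall_main hf h1 hr hℓ hR hW hK hF h
theorem pos_small {κ D : ℝ} (hκ : 0 < κ) (hD : 0 ≤ D) :
    ∀ᶠ a : ℝ in atTop, D * a ^ 4 * (2 * (κ * a) + 1) ^ 2 * Real.exp (-(κ * a)) ≤ 1 / 16 := by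
  have h1 : Tendsto (fun a : ℝ => κ * a) atTop atTop := tendsto_id.const_mul_atTop hκ
  have h2 := ((Real.tendsto_pow_mul_exp_neg_atTop_nhds_zero 6).comp h1).const_mul (9 * D / κ ^ 4)
  rw [mul_zero] at h2
  filter_upwards [h2.eventually_le_const (show (0 : ℝ) < 1 / 16 by norm_num),
    h1.eventually_ge_atTop 1] with a h3 h4
  refine le_trans ?_ h3
  have h5 : (2 * (κ * a) + 1) ^ 2 ≤ (3 * (κ * a)) ^ 2 :=
    pow_le_pow_left₀ (by linarith) (by linarith) 2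
  have e : 9 * D / κ ^ 4 * ((κ * a) ^ 6 * Real.exp (-(κ * a))) =
      D * a ^ 4 * (3 * (κ * a)) ^ 2 * Real.exp (-(κ * a)) := by
    field_simp
    ring
  rw [Function.comp_apply, e]
  gcongr
theorem pos_card {x : ℝ} (hx : 0 ≤ x) : ∃ J : Finset ℤ, (J.card : ℝ) ≤ 2 * x + 3 ∧
    ∀ j : ℤ, |(j : ℝ)| ≤ x + 1 → j ∈ J := by
  have h0 : 0 ≤ ⌊x + 1⌋ := Int.floor_nonneg.2 (by linarith)
  refine ⟨Finset.Icc (-⌊x + 1⌋) ⌊x + 1⌋, ?_, fun j hj => ?_⟩
  · rw [ball_fin_card _ _ (by omega)]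
    have := Int.floor_le (x + 1)
    push_cast
    linarith
  · rw [abs_le] at hj
    rw [Finset.mem_Icc, neg_le, Int.le_floor, Int.le_floor]
    push_cast
    constructor <;> linarith [hj.1, hj.2]
/-- `ε = 1 / (30 C C₁)` with `C₁` from `Con_tail`, `r = ε a`, `R = W a`. `wall` gives
`Lc ⊆ Gd α β (M ℓ) (a / 2) ∪` failures; `recentre` and `a / 2 + C ≤ a - 1` bound the first by `1 / 2`;
walls (`Gd_tail` with `K = L`, `4 L (a' + C) ≤ r`, at most `M (2 W / ε + 3)` of them), links (`box`,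
`Con_tail`, `M ℓ ≤ a³`), floors (`U`, `UB.mono`, `floor` with `η = 1 / (32 (M + 1))`) fail with
probability `≤ 1 / 16` each. -/
theorem Cor.pos (hG : Law G) {f : Fr} (hc : Cor G f) : ∃ ε : ℝ, 0 < ε ∧ ε ≤ 1 ∧
    ∀ (M L : ℕ) (W : ℝ), 1 ≤ L → 1 ≤ W → M * (2 * W / ε + 3) * (1 / 2) ^ L ≤ 1 / 16 →
      ∀ᶠ a : ℝ in atTop, ∀ ℓ a' : ℝ, 0 < ℓ → 1 ≤ a' → 8 * L * a' ≤ ε * a → M * ℓ ≤ a ^ 3 →
        1 / 2 ≤ Pr G (f.Gd 0 0 ℓ a') → Pr G (f.Gd 0 0 (M * ℓ) (a - 1)) < 1 / 2 →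
        ∀ α β, Pr G (f.Lc α β (M * ℓ) (ε * a) (W * a)) ≤ 3 / 4 := by
  have hf := hc.ok
  have hC := hf.C1
  obtain ⟨C₁, hC₁, hCon⟩ := hG.Con_tail
  obtain ⟨D, hD, hbox⟩ := hf.box
  obtain ⟨E, hE, hU⟩ := hG.U hf
  have hCC : 1 ≤ f.C * C₁ := one_le_mul_of_one_le_of_one_le hC hC₁
  obtain ⟨ε, hε, hε1, hεe⟩ : ∃ ε : ℝ, 0 < ε ∧ ε ≤ 1 ∧ 30 * (f.C * C₁) * ε = 1 :=
    ⟨1 / (30 * (f.C * C₁)), by positivity, (div_le_one (by positivity)).2 (by linarith),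
      by field_simp⟩
  refine ⟨ε, hε, hε1, fun M L W hL hW hM => ?_⟩
  have hL' : (1 : ℝ) ≤ L := by exact_mod_cast hL
  have hM0 : (0 : ℝ) ≤ M := Nat.cast_nonneg _
  have hεa : Tendsto (fun a : ℝ => ε * a) atTop atTop := tendsto_id.const_mul_atTop hε
  filter_upwards [pos_small (κ := 4 * f.C * ε) (D := D * W) (by positivity) (by positivity),
    hc.floor hG (W := W + 6 * f.C ^ 2 * ε) (δ := ε) (η := 1 / (32 * (M + 1))) (B := E * (M + 1))
      (by positivity) hε (by positivity) (by positivity),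
    eventually_ge_atTop (2 * f.C + 2), hεa.eventually_ge_atTop (8 * L * f.C)]
    with a hsm hfl ha1 ha2 ℓ a' hℓ ha' h8 hMℓ hG1 hG2 α β
  have ha0 : 1 ≤ a := by linarith
  have hr : f.C ≤ ε * a := by nlinarith
  have hr0 : 0 < ε * a := by linarith
  obtain ⟨J, hJ, hJm⟩ := pos_card (x := W / ε) (by positivity)
  obtain ⟨F, hF, hFc⟩ := hbox α β (a ^ 3) (W * a) (one_le_pow₀ ha0)
    (one_le_mul_of_one_le_of_one_le hW ha0)
  let A₁ : Set Env := ⋃ p ∈ Finset.range M ×ˢ J,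
    (f.Gd (α + (p.1 : ℕ) * ℓ) (β + (p.2 : ℤ) * (ε * a)) ℓ (ε * a))ᶜ
  let A₂ : Set Env := (Con F (4 * f.C * (ε * a)) (C₁ * (4 * f.C * (ε * a))))ᶜ
  let A₃ : Set Env := ⋃ i ∈ Finset.range (M + 1),
    (f.Bad α β ((i : ℕ) * ℓ) ((W + 6 * f.C ^ 2 * ε) * a) (ε * a) ∪
      f.Bad (α + (i : ℕ) * ℓ) β ((M - i : ℕ) * ℓ) ((W + 6 * f.C ^ 2 * ε) * a) (ε * a))
  have hsub : f.Lc α β (M * ℓ) (ε * a) (W * a) ⊆ f.Gd α β (M * ℓ) (a / 2) ∪ (A₁ ∪ (A₂ ∪ A₃)) := by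
    intro t ht
    by_contra hn
    simp only [A₁, A₂, A₃, mem_union, not_or, mem_iUnion, not_exists, mem_compl_iff, not_not] at hn
    obtain ⟨h0, h1, h2, h3⟩ := hn
    have e1 : W * a + 6 * f.C ^ 2 * (ε * a) = (W + 6 * f.C ^ 2 * ε) * a := by ring
    have e2 : 15 * f.C * C₁ * (ε * a) = a / 2 := by linear_combination (a / 2) * hεe
    refine h0 (e2 ▸ wall hf hC₁ hr hℓ (by positivity) (fun i hi j hj => ?_)
      (fun z hz => h2 z (hF z (hz.1.trans hMℓ) hz.2)) (fun i hi => ?_) ht)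
    · refine h1 (i, j) (Finset.mem_product.2 ⟨Finset.mem_range.2 hi, hJm j ?_⟩)
      rw [abs_mul, abs_of_pos hr0] at hj
      refine le_of_mul_le_mul_right (hj.trans (le_of_eq ?_)) hr0
      field_simp
    · rw [e1]
      exact h3 i (Finset.mem_range.2 (by omega))
  have p0 : Pr G (f.Gd α β (M * ℓ) (a / 2)) ≤ 1 / 2 :=
    ((hG.recentre hf 0 0 α β _ _ _).trans (hG.mono (f.Ev_mono 0 0 _ (by linarith)
      fun d => by linarith))).trans hG2.le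
  have p1 : Pr G A₁ ≤ 1 / 16 := by
    refine (hG.biUnion _ _).trans (le_trans ?_ hM)
    refine (Finset.sum_le_card_nsmul _ _ ((1 / 2 : ℝ) ^ L) fun p _ => ?_).trans ?_
    · refine le_trans (hG.mono (compl_subset_compl.2 (f.Gd_mono _ _ _ ?_)))
        (hG.Gd_tail hf (by linarith) hG1 _ _ L)
      linarith
    · rw [nsmul_eq_mul, Finset.card_product, Finset.card_range, Nat.cast_mul]
      refine mul_le_mul_of_nonneg_right (mul_le_mul_of_nonneg_left ?_ hM0) (by positivity)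
      rwa [mul_div_assoc]
  have p2 : Pr G A₂ ≤ 1 / 16 := by
    refine (hCon F _ (by positivity)).trans (le_trans ?_ hsm)
    rw [show 4 * f.C * ε * a = 4 * f.C * (ε * a) by ring]
    refine mul_le_mul_of_nonneg_right (mul_le_mul_of_nonneg_right (hFc.trans (le_of_eq ?_))
      (by positivity)) (by positivity)
    ring
  have hUB : ∀ k : ℕ, k ≤ M → UB G f (k * ℓ) (E * (M + 1) * a) := fun k hk => by
    have hk' : (k : ℝ) ≤ M := by exact_mod_cast hk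
    refine (hU ℓ a' ha' hG1 k).mono (by positivity) ?_
    have : a' ≤ a := by nlinarith
    gcongr
  have p3 : Pr G A₃ ≤ 1 / 16 := by
    refine (hG.biUnion _ _).trans ?_
    refine (Finset.sum_le_card_nsmul _ _ (1 / (32 * (M + 1)) + 1 / (32 * (M + 1)) : ℝ)
      fun i hi => ?_).trans (le_of_eq ?_)
    · have hi' : i ≤ M := Nat.lt_succ_iff.1 (Finset.mem_range.1 hi)
      exact (hG.union _ _).trans (add_le_add (hfl _ (hUB i hi') _ _)
        (hfl _ (hUB (M - i) (Nat.sub_le _ _)) _ _))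
    · rw [nsmul_eq_mul, Finset.card_range]
      push_cast
      field_simp
      norm_num
  have := (hG.mono hsub).trans ((hG.union _ _).trans (add_le_add p0
    ((hG.union _ _).trans (add_le_add p1 ((hG.union _ _).trans (add_le_add p2 p3))))))
  linarith

end

end Crest.Agent.R151.B
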