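import Crest.Agent.R151.B1b

set_option autoImplicit false

open MeasureTheory ProbabilityTheory Set Filter Topology
open Crest.ProbabilityR.FirstPassage

namespace Crest.Agent.R151.B

noncomputable section

/-! walls confine cheap crossings: the deterministic part -/

/-- a cut point of a wall near a prescribed abscissa -/
theorem wall_cut {f : Fr} (hf : f.OK) {t : Env} {S : Set Z2} {x y : Z2} {c r s : ℝ} (hr : f.C ≤ r)
    (h : Rch S t x y c) (hx : f.p x ≤ s + r) (hy : s - r ≤ f.p y) :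
    ∃ z c₁ c₂, Rch S t x z c₁ ∧ Rch S t z y c₂ ∧ c₁ + c₂ = c ∧ |f.p z - s| ≤ r := by
  have C1 := hf.C1
  rcases le_total s (f.p x) with h1 | h1
  · exact ⟨x, 0, c, Rch.refl t h.mem.1, h, zero_add _, abs_le.2 ⟨by linarith, by linarith⟩⟩
  rcases le_total (f.p y) s with h2 | h2
  · exact ⟨y, c, 0, h, Rch.refl t h.mem.2, add_zero _, abs_le.2 ⟨by linarith, by linarith⟩⟩
  obtain ⟨z, c₁, c₂, r1, r2, e, l1, l2⟩ :=
    Rch.ivt (φ := fun u => f.p u) (by linarith) (fun u v huv => (hf.adj huv).1) h h1 h2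
  exact ⟨z, c₁, c₂, r1.mono inter_subset_left, r2, e, abs_le.2 ⟨by linarith, by linarith⟩⟩

theorem wall_floor {f : Fr} {t : Env} {a b m ρ δ c : ℝ} {x y : Z2} (h : t ∉ f.Bad a b m ρ δ)
    (hx : x ∈ f.Q a b ρ) (hy : y ∈ f.Q (a + m) b ρ) (hc : Rch (f.St b ρ) t x y c) :
    f.p y - f.p x + |f.q y - f.q x| - δ < c := by
  by_contra hn
  exact h ⟨x, hx, y, hy, c, by simpa only [map_sub] using not_lt.1 hn, hc⟩

theorem wall_main {f : Fr} (hf : f.OK) {t : Env} {C₁ α b ℓ r R : ℝ} {k : ℕ} (h1 : 1 ≤ C₁)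
    (hr : f.C ≤ r) (hℓ : 0 < ℓ) (hR : 0 ≤ R)
    (hW : ∀ i : ℕ, i < k → ∀ j : ℤ, |j * r| ≤ R + r → t ∈ f.Gd (α + i * ℓ) (b + j * r) ℓ r)
    (hK : t ∈ Con {x | |f.p x - α| ≤ k * ℓ ∧ |f.q x - b| ≤ R} (4 * f.C * r) (C₁ * (4 * f.C * r)))
    (hF : ∀ i : ℕ, i ≤ k → t ∉ f.Bad α b (i * ℓ) (R + 6 * f.C ^ 2 * r) r ∧
      t ∉ f.Bad (α + i * ℓ) b ((k - i : ℕ) * ℓ) (R + 6 * f.C ^ 2 * r) r)
    (h : t ∈ f.Lc α b (k * ℓ) r R) : t ∈ f.Gd α b (k * ℓ) (15 * f.C * C₁ * r) := by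
  obtain ⟨x, hx, y, hy, c, hc, hw⟩ := h
  have C1 := hf.C1
  have r0 : 0 < r := by linarith
  have a1 : r ≤ f.C * C₁ * r := le_mul_of_one_le_left r0.le (one_le_mul_of_one_le_of_one_le C1 h1)
  have a2 : r ≤ f.C ^ 2 * r := le_mul_of_one_le_left r0.le (one_le_pow₀ C1)
  have a3 : r ≤ 15 * f.C * C₁ * r := by linarith
  refine ⟨x, ⟨hx.1.trans a3, hx.2.trans a3⟩, y, ⟨hy.1.trans a3, hy.2.trans a3⟩, c, by linarith,
    (hw.confine (S' := f.St b (15 * f.C * C₁ * r)) fun z c₁ c₂ w1 w2 e => ?_).mono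
      inter_subset_right⟩
  obtain ⟨⟨z1, z2⟩, z3⟩ := w1.mem.2
  have z3' : |f.q z - b| ≤ R := z3
  obtain ⟨z4, z5⟩ := abs_le.1 z3'
  obtain ⟨i, i1, i2⟩ : ∃ i : ℕ, (i : ℝ) * ℓ ≤ f.p z - α ∧ f.p z - α < (i + 1) * ℓ := by
    have h0 : 0 ≤ (f.p z - α) / ℓ := div_nonneg (by linarith) hℓ.le
    exact ⟨⌊(f.p z - α) / ℓ⌋₊, (le_div_iff₀ hℓ).1 (Nat.floor_le h0),
      (div_lt_iff₀ hℓ).1 (Nat.lt_floor_add_one _)⟩
  have ik : i < k := by
    have : (i : ℝ) * ℓ < k * ℓ := by linarith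
    exact_mod_cast lt_of_mul_lt_mul_right this hℓ.le
  obtain ⟨j, j1, j2⟩ : ∃ j : ℤ, (j : ℝ) * r ≤ f.q z - b ∧ f.q z - b < (j + 1) * r :=
    ⟨⌊(f.q z - b) / r⌋, (le_div_iff₀ r0).1 (Int.floor_le _),
      (div_lt_iff₀ r0).1 (Int.lt_floor_add_one _)⟩
  obtain ⟨x', hx', y', hy', c', hc', hw'⟩ := hW i ik j (abs_le.2 ⟨by linarith, by linarith⟩)
  obtain ⟨x1, x2⟩ := abs_le.1 hx'.1
  obtain ⟨x3, x4⟩ := abs_le.1 hx'.2
  obtain ⟨y1, y2⟩ := abs_le.1 hy'.1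
  obtain ⟨y3, y4⟩ := abs_le.1 hy'.2
  obtain ⟨z', d₁, d₂, v1, v2, e', hz'⟩ :=
    wall_cut hf (s := f.p z) hr hw' (by linarith) (by linarith)
  have hz'' : |f.q z' - (b + j * r)| ≤ r := v1.mem.2
  obtain ⟨q1, q2⟩ := abs_le.1 hz''
  have hn : n1 (z' - z) ≤ 4 * f.C * r := by
    have b1 := hf.dn (z' - z)
    rw [map_sub, map_sub] at b1
    have b2 : |f.q z' - f.q z| ≤ 2 * r := abs_le.2 ⟨by linarith, by linarith⟩
    have b3 : f.C * (|f.p z' - f.p z| + |f.q z' - f.q z|) ≤ f.C * (4 * r) :=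
      mul_le_mul_of_nonneg_left (by linarith) (by linarith)
    linarith
  obtain ⟨c₀, hc₀, l⟩ := hK z ⟨abs_le.2 ⟨by linarith, by linarith⟩, z3'⟩ z' hn
  have s1 : f.Sb α (k * ℓ) ∩ f.St b R ⊆ f.St b (R + 6 * f.C ^ 2 * r) := fun u hu =>
    le_trans (b := R) hu.2 (by linarith)
  have s2 : {u | n1 (u - z) ≤ 4 * f.C * r} ⊆ f.St b (R + 6 * f.C ^ 2 * r) := fun u hu => by
    have b1 := (hf.up (u - z)).2
    rw [map_sub] at b1
    have b2 : f.C * n1 (u - z) ≤ f.C * (4 * f.C * r) := mul_le_mul_of_nonneg_left hu (by linarith)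
    obtain ⟨b3, b4⟩ := abs_le.1 b1
    change |f.q u - b| ≤ R + 6 * f.C ^ 2 * r
    exact abs_le.2 ⟨by linarith, by linarith⟩
  have s3 : f.St (b + j * r) r ⊆ f.St b (R + 6 * f.C ^ 2 * r) := fun u hu => by
    obtain ⟨b3, b4⟩ := abs_le.1 (show |f.q u - (b + j * r)| ≤ r from hu)
    change |f.q u - b| ≤ R + 6 * f.C ^ 2 * r
    exact abs_le.2 ⟨by linarith, by linarith⟩
  have a4 : r ≤ R + 6 * f.C ^ 2 * r := by linarith
  have f1 := wall_floor (hF (i + 1) ik).1 ⟨hx.1.trans a4, hx.2.trans a4⟩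
    (y := y') ⟨by push_cast; exact abs_le.2 ⟨by linarith, by linarith⟩, s3 hy'.2⟩
    (((w1.mono s1).trans (l.mono s2)).trans (v2.mono s3))
  have f2 := wall_floor (hF i ik.le).2 (x := x') ⟨hx'.1.trans a4, s3 hx'.2⟩
    (y := y) ⟨by
      rw [Nat.cast_sub ik.le, show α + i * ℓ + (k - i) * ℓ = α + k * ℓ by ring]
      exact hy.1.trans a4, hy.2.trans a4⟩
    (((v1.mono s3).trans (l.symm.mono s2)).trans (w2.mono s1))
  simp only [map_sub] at hc hc'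
  have f3 : |f.q y' - f.q x| ≤ 4 * r + 8 * (f.C * C₁ * r) := by
    linarith [abs_nonneg (f.q y - f.q x')]
  obtain ⟨g1, g2⟩ := abs_le.1 f3
  obtain ⟨g3, g4⟩ := abs_le.1 hx.2
  change |f.q z - b| ≤ 15 * f.C * C₁ * r
  exact abs_le.2 ⟨by linarith, by linarith⟩

end

end Crest.Agent.R151.B
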