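import Crest.Agent.R151.B4

set_option autoImplicit false

open MeasureTheory ProbabilityTheory Set Filter Topology
open Crest.ProbabilityR.FirstPassage

namespace Crest.Agent.R151.B

noncomputable section

/-! cutting a long crossing into slabs -/

variable {G : Measure ℝ}

/-- iterate `Rch.slab` (induction on `k`, generalising `α x c`) -/
theorem decomp {f : Fr} (hf : f.OK) {S : Set Z2} {t : Env} {n : ℝ} (hn : f.C < n) (k : ℕ) {α c : ℝ}
    {x y : Z2} (h : Rch S t x y c) (hx : f.p x ≤ α) (hy : α + k * n ≤ f.p y) :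
    ∃ (X Y : ℕ → Z2) (a b : ℕ → ℝ), Y 0 = x ∧ X k = y ∧ (∀ j, j ≤ k → Rch S t (Y j) (X j) (a j)) ∧
      (∀ j, j < k → Rch (f.Sb (α + j * n) n ∩ S) t (X j) (Y (j + 1)) (b j) ∧
        f.p (X j) ≤ α + j * n + f.C ∧ α + j * n + n - f.C ≤ f.p (Y (j + 1))) ∧
      c = ∑ j ∈ Finset.range k, (a j + b j) + a k := by
  induction k generalizing α x c with
  | zero =>
    exact ⟨fun _ => y, fun _ => x, fun _ => c, fun _ => 0, rfl, rfl, fun _ _ => h,
      fun j hj => absurd hj (Nat.not_lt_zero j), by simp⟩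
  | succ k ih =>
    have hC := hf.C1
    have hk : (0 : ℝ) ≤ k * n := mul_nonneg (Nat.cast_nonneg k) (by linarith)
    push_cast at hy
    obtain ⟨x', y', c₁, c₂, c₃, r₁, r₂, r₃, hc, hx', hy'⟩ := h.slab (φ := f.p) (C := f.C) (α := α)
      (β := α + n) (fun u v huv => (hf.adj huv).1) hx (by linarith) (by linarith) (by linarith)
    obtain ⟨X, Y, a, b, e₁, e₂, h₁, h₂, h₃⟩ := ih (α := α + n) r₃ r₂.mem.2.2.2.le (by linarith)
    refine ⟨fun j => Nat.casesOn j x' X, fun j => Nat.casesOn j x Y, fun j => Nat.casesOn j c₁ a,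
      fun j => Nat.casesOn j c₂ b, rfl, e₂, fun j hj => ?_, fun j hj => ?_, ?_⟩
    · cases j with
      | zero => exact r₁
      | succ j => exact h₁ j (by omega)
    · cases j with
      | zero =>
        simp only [Nat.cast_zero, zero_mul, add_zero]
        refine ⟨?_, hx', ?_⟩
        · show Rch _ t x' (Y 0) c₂
          rw [e₁]
          exact r₂.mono fun u hu => ⟨hu.2, hu.1⟩
        · show _ ≤ f.p (Y 0)
          rw [e₁]
          exact hy'
      | succ j =>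
        have e : α + ((j + 1 : ℕ) : ℝ) * n = α + n + j * n := by push_cast; ring
        rw [e]
        exact h₂ j (by omega)
    · rw [Finset.sum_range_succ']
      show c = ∑ j ∈ Finset.range k, (a j + b j) + (c₁ + c₂) + a k
      linarith
/-- pigeonhole: some block of `L` consecutive indices in `[1, k)` carries a small sum -/
theorem block {e : ℕ → ℝ} {k L g : ℕ} {s : ℝ} (hg : 0 < g) (hk : 1 + g * L ≤ k)
    (h0 : ∀ j, j < k → 0 ≤ e j) (h : ∑ j ∈ Finset.range k, e j ≤ s) :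
    ∃ j₀, 1 ≤ j₀ ∧ j₀ + L ≤ k ∧ ∑ j ∈ Finset.Ico j₀ (j₀ + L), e j ≤ s / g := by
  have key : ∀ m : ℕ, ∑ i ∈ Finset.range m, ∑ j ∈ Finset.Ico (1 + i * L) (1 + i * L + L), e j =
      ∑ j ∈ Finset.Ico 1 (1 + m * L), e j := by
    intro m
    induction m with
    | zero => simp
    | succ m ih =>
      rw [Finset.sum_range_succ, ih, Finset.sum_Ico_consecutive _ (by omega) (by omega)]
      congr 2
      ring
  have hg' : (0 : ℝ) < g := by exact_mod_cast hg
  have h1 : ∑ i ∈ Finset.range g, ∑ j ∈ Finset.Ico (1 + i * L) (1 + i * L + L), e j ≤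
      ∑ _i ∈ Finset.range g, s / g := by
    rw [key, Finset.sum_const, Finset.card_range, nsmul_eq_mul, mul_div_cancel₀ _ hg'.ne']
    refine le_trans (Finset.sum_le_sum_of_subset_of_nonneg (fun j hj => ?_) fun j hj _ => ?_) h
    · exact Finset.mem_range.2 ((Finset.mem_Ico.1 hj).2.trans_le hk)
    · exact h0 j (Finset.mem_range.1 hj)
  obtain ⟨i, hi, h2⟩ := Finset.exists_le_of_sum_le ⟨0, Finset.mem_range.2 hg⟩ h1
  refine ⟨1 + i * L, by omega, ?_, h2⟩
  have h3 : (i + 1) * L ≤ g * L := Nat.mul_le_mul_right L (Finset.mem_range.1 hi)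
  rw [Nat.add_mul] at h3
  omega
theorem fin_det_floor {f : Fr} {t : Env} {α m A δ c : ℝ} {x y : Z2} (h : t ∉ f.Bad α 0 m A δ)
    (hc : Rch (f.St 0 A) t x y c) (hx : |f.p x - α| ≤ A) (hy : |f.p y - (α + m)| ≤ A) :
    |f.q y - f.q x| ≤ c - (f.p y - f.p x) + δ := by
  by_contra hn
  refine h ⟨x, ⟨hx, hc.mem.1⟩, y, ⟨hy, hc.mem.2⟩, c, ?_, hc⟩
  simp only [map_sub]
  linarith [not_le.1 hn]
theorem fin_det_tel (u v a b : ℕ → ℝ) (δ : ℝ) (k : ℕ) :
    ∑ j ∈ Finset.range k, ((a j - (u j - v j) + δ) + (b j - (v (j + 1) - u j) + δ)) =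
      ∑ j ∈ Finset.range k, (a j + b j) - (v k - v 0) + 2 * k * δ := by
  induction k with
  | zero => simp
  | succ k ih => rw [Finset.sum_range_succ, Finset.sum_range_succ, ih]; push_cast; ring
theorem fin_det_drift {u v ea eb : ℕ → ℝ} {k j₀ : ℕ} (ha : ∀ j, j < k → |u j - v j| ≤ ea j)
    (hb : ∀ j, j < k → |v (j + 1) - u j| ≤ eb j) (j : ℕ) (h0 : j₀ ≤ j) (hj : j ≤ k) :
    |v j - v j₀| ≤ ∑ l ∈ Finset.Ico j₀ j, (ea l + eb l) := by
  induction j, h0 using Nat.le_induction with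
  | base => simp
  | succ j h0 ih =>
    rw [Finset.sum_Ico_succ_top h0]
    have h1 := abs_le.1 (ih (by omega))
    have h2 := abs_le.1 (ha j (by omega))
    have h3 := abs_le.1 (hb j (by omega))
    rw [abs_le]
    constructor <;> linarith [h1.1, h1.2, h2.1, h2.2, h3.1, h3.2]
/-- `decomp` with `α = n`, `k = M - 2`. Every piece has `cost - Δp + δ ≥ |Δq|` by the floors (first
and last link and slab pieces: length `n`; other links: length `0`), total `≤ A + 2 M δ`. `block`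
with `g = (M - 3) / L ≥ M / (2 L)` gives a group with total `≤ r / 2`; centre
`i = ⌊q (X j₀) / (r / 2)⌋`; slab `j` of `decomp` is level `j + 1`. -/
theorem fin_det {f : Fr} (hf : f.OK) {t : Env} {n A r δ : ℝ} {M L : ℕ} (hL : 1 ≤ L) (hM : 8 * L ≤ M)
    (hr : f.C ≤ r) (hA : f.C ≤ A) (hn : f.C < n) (hAn : A ≤ n) (hδ : 0 ≤ δ)
    (h1 : 8 * L * A ≤ M * r) (h2 : 16 * L * δ ≤ r)
    (hF : ∀ j : ℕ, j ≤ M → t ∉ f.Bad (j * n) 0 0 A δ ∧ t ∉ f.Bad (j * n) 0 n A δ)
    (h : t ∈ f.Gd 0 0 (M * n) A) : ∃ j₀ : ℕ, j₀ < M ∧ ∃ i : ℤ, |i * (r / 2)| ≤ A + r ∧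
      ∀ j ∈ Finset.Ico j₀ (j₀ + L), t ∈ f.Lc (j * n) (i * (r / 2)) n r (2 * A + r) := by
  obtain ⟨x, ⟨x1, -⟩, y, ⟨y1, -⟩, c, hc, hR⟩ := h
  have hC := hf.C1
  obtain ⟨k, rfl⟩ : ∃ k, M = k + 2 := ⟨M - 2, by omega⟩
  have x1' := abs_le.1 x1
  have y1' := abs_le.1 y1
  push_cast at y1' h1
  obtain ⟨X, Y, a, b, e0, ek, ha, hb, hs⟩ := decomp hf hn k (α := n) hR (by linarith [x1'.2])
    (by linarith [y1'.1])
  have pX : ∀ j, j < k → |f.p (X j) - ((j + 1 : ℕ) : ℝ) * n| ≤ f.C := fun j hj => by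
    obtain ⟨p1, p2, -⟩ := hb j hj
    have := p1.mem.1.1.1
    push_cast
    rw [abs_le]
    constructor <;> linarith
  have pY : ∀ j, j < k → |f.p (Y (j + 1)) - (((j + 1 : ℕ) : ℝ) * n + n)| ≤ f.C := fun j hj => by
    obtain ⟨p1, -, p2⟩ := hb j hj
    have := p1.mem.2.1.2
    push_cast
    rw [abs_le]
    constructor <;> linarith
  have fb : ∀ j, j < k → |f.q (Y (j + 1)) - f.q (X j)| ≤
      b j - (f.p (Y (j + 1)) - f.p (X j)) + δ := fun j hj =>
    fin_det_floor (hF (j + 1) (by omega)).2 ((hb j hj).1.mono inter_subset_right)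
      ((pX j hj).trans hA) ((pY j hj).trans hA)
  have fa : ∀ j, j ≤ k → |f.q (X j) - f.q (Y j)| ≤ a j - (f.p (X j) - f.p (Y j)) + δ := by
    intro j hj
    rcases Nat.eq_zero_or_pos j with rfl | j0
    · refine fin_det_floor (hF 0 (by omega)).2 (ha 0 hj) (by rw [e0]; simpa using x1) ?_
      simpa using (pX 0 (by omega)).trans hA
    obtain ⟨j, rfl⟩ : ∃ i, j = i + 1 := ⟨j - 1, by omega⟩
    have q1 : |f.p (Y (j + 1)) - ((j + 1 + 1 : ℕ) : ℝ) * n| ≤ A := by
      have := (pY j (by omega)).trans hA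
      push_cast at this ⊢
      rwa [add_mul (j + 1 : ℝ) 1 n, one_mul]
    rcases hj.eq_or_lt with hj' | hj'
    · refine fin_det_floor (hF (j + 1 + 1) (by omega)).2 (ha _ hj) q1 ?_
      rw [hj', ek, abs_le]
      push_cast
      constructor <;> linarith [y1'.1, y1'.2]
    · refine fin_det_floor (hF (j + 1 + 1) (by omega)).1 (ha _ hj) q1 ?_
      rw [add_zero]
      exact (pX _ hj').trans hA
  set ea : ℕ → ℝ := fun j => a j - (f.p (X j) - f.p (Y j)) + δ with hea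
  set eb : ℕ → ℝ := fun j => b j - (f.p (Y (j + 1)) - f.p (X j)) + δ with heb
  have ea0 : ∀ j, j < k → 0 ≤ ea j := fun j hj => (abs_nonneg _).trans (fa j hj.le)
  have eb0 : ∀ j, j < k → 0 ≤ eb j := fun j hj => (abs_nonneg _).trans (fb j hj)
  have tot : ∑ j ∈ Finset.range k, (ea j + eb j) ≤ A + 2 * (k + 2) * δ := by
    have t1 := fin_det_tel (fun j => f.p (X j)) (fun j => f.p (Y j)) a b δ k
    have t2 := (abs_nonneg _).trans (fa k le_rfl)
    simp only [map_sub] at hc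
    rw [ek] at t2
    simp only [e0] at t1
    simp only [hea, heb]
    rw [t1]
    linarith
  have g1 : (k - 1) / L * L ≤ k - 1 := Nat.div_mul_le_self _ _
  have g2 : k - 1 < (k - 1) / L * L + L := by
    have := Nat.lt_div_mul_add (a := k - 1) (show 0 < L by omega)
    omega
  set g := (k - 1) / L
  have g3 : k + 2 ≤ 2 * (g * L) := by omega
  have g0 : 0 < g := Nat.pos_of_ne_zero fun h => by rw [h] at g3; omega
  obtain ⟨j₀, j1, j2, hj⟩ := block (e := fun j => ea j + eb j) (L := L) g0 (by omega)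
    (fun j hj => add_nonneg (ea0 j hj) (eb0 j hj)) tot
  have r0 : 0 < r := by linarith
  have hj' : ∑ j ∈ Finset.Ico j₀ (j₀ + L), (ea j + eb j) ≤ r / 2 := by
    refine hj.trans ?_
    have g0' : (0 : ℝ) < g := by exact_mod_cast g0
    have L0 : (0 : ℝ) < L := by exact_mod_cast (show 0 < L by omega)
    have g3' : (k : ℝ) + 2 ≤ 2 * (g * L) := by exact_mod_cast g3
    rw [div_le_iff₀ g0']
    refine le_of_mul_le_mul_left ?_ (show (0 : ℝ) < 8 * L by positivity)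
    have k0 : (0 : ℝ) ≤ k + 2 := by positivity
    nlinarith [mul_le_mul_of_nonneg_left h2 k0, mul_le_mul_of_nonneg_right g3' r0.le]
  have part : ∀ j, j ≤ j₀ + L → ∑ l ∈ Finset.Ico j₀ j, (ea l + eb l) ≤ r / 2 := fun j h =>
    (Finset.sum_le_sum_of_subset_of_nonneg (Finset.Ico_subset_Ico_right h) fun l hl _ => by
      have := (Finset.mem_Ico.1 hl).2
      exact add_nonneg (ea0 l (by omega)) (eb0 l (by omega))).trans hj'
  have dr := fin_det_drift (u := fun j => f.q (X j)) (v := fun j => f.q (Y j)) (j₀ := j₀)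
    (ea := ea) (eb := eb) (fun j hj => fa j hj.le) fb
  have q0 : |f.q (Y j₀) - 0| ≤ A := (ha j₀ (by omega)).mem.1
  rw [sub_zero] at q0
  have r2 : 0 < r / 2 := by positivity
  have i1 : (⌊f.q (Y j₀) / (r / 2)⌋ : ℝ) * (r / 2) ≤ f.q (Y j₀) :=
    (le_div_iff₀ r2).1 (Int.floor_le _)
  have i2 : f.q (Y j₀) < ((⌊f.q (Y j₀) / (r / 2)⌋ : ℝ) + 1) * (r / 2) :=
    (div_lt_iff₀ r2).1 (Int.lt_floor_add_one _)
  set i := ⌊f.q (Y j₀) / (r / 2)⌋
  have q0' := abs_le.1 q0
  have hi : |(i : ℝ) * (r / 2)| ≤ A + r := by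
    rw [abs_le]
    constructor <;> linarith [q0'.1, q0'.2]
  refine ⟨j₀ + 1, by omega, i, hi, fun j hj => ?_⟩
  obtain ⟨m1, m2⟩ := Finset.mem_Ico.1 hj
  obtain ⟨j, rfl⟩ : ∃ l, j = l + 1 := ⟨j - 1, by omega⟩
  have jk : j < k := by omega
  have d1 := abs_le.1 (dr j (by omega) jk.le)
  have d2 := abs_le.1 (dr (j + 1) (by omega) jk)
  have d3 := part (j + 1) (by omega)
  have d4 := part j (by omega)
  have d5 : 0 ≤ ∑ l ∈ Finset.Ico j₀ j, (ea l + eb l) := (abs_nonneg _).trans (dr j (by omega) jk.le)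
  rw [Finset.sum_Ico_succ_top (by omega)] at d2 d3
  have d6 : |f.q (X j) - f.q (Y j)| ≤ ea j := fa j jk.le
  have d6' := abs_le.1 d6
  have d7 := ea0 j jk
  have d8 := eb0 j jk
  refine ⟨X j, ⟨(pX j jk).trans hr, ?_⟩, Y (j + 1), ⟨(pY j jk).trans hr, ?_⟩, b j, ?_,
    (hb j jk).1.mono ?_⟩
  · rw [abs_le]
    constructor <;> linarith [d1.1, d1.2, d6'.1, d6'.2]
  · rw [abs_le]
    constructor <;> linarith [d2.1, d2.2]
  · have : eb j = b j - (f.p (Y (j + 1)) - f.p (X j)) + δ := rfl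
    simp only [map_sub]
    linarith
  · rintro z ⟨⟨z1, z2⟩, z3⟩
    have z4 : |f.q z - 0| ≤ A := z3
    have z5 := abs_le.1 z4
    have z6 := abs_le.1 hi
    refine ⟨⟨by push_cast; linarith, by push_cast; linarith⟩, ?_⟩
    show |f.q z - i * (r / 2)| ≤ 2 * A + r
    rw [abs_le]
    constructor <;> linarith [z5.1, z5.2, z6.1, z6.2]
/-- union bound; the slabs are disjoint (`Cr_indep`) -/
theorem Law.fin_prob (hG : Law G) {f : Fr} (hf : f.OK) {n A r δ η : ℝ} {M L : ℕ} (hL : 1 ≤ L)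
    (hM : 8 * L ≤ M) (hr : f.C ≤ r) (hA : f.C ≤ A) (hn : f.C < n) (hAn : A ≤ n) (hδ : 0 ≤ δ)
    (h1 : 8 * L * A ≤ M * r) (h2 : 16 * L * δ ≤ r)
    (hB : ∀ α, Pr G (f.Bad α 0 0 A δ) ≤ η ∧ Pr G (f.Bad α 0 n A δ) ≤ η)
    (hC : ∀ α β, Pr G (f.Lc α β n r (2 * A + r)) ≤ 3 / 4) :
    Pr G (f.Gd 0 0 (M * n) A) ≤ 2 * (M + 1) * η + M * (4 * A / r + 5) * (3 / 4) ^ L := by
  have hC1 := hf.C1
  have hr0 : 0 < r := by linarith
  have hn0 : 0 < n := by linarith
  have hA0 : 0 < A := by linarith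
  obtain ⟨K, hK⟩ : ∃ K : ℕ, K = ⌊2 * A / r + 2⌋₊ := ⟨_, rfl⟩
  have hK1 : (K : ℝ) ≤ 2 * A / r + 2 := by rw [hK]; exact Nat.floor_le (by positivity)
  have hsub : f.Gd 0 0 (M * n) A ⊆
      (⋃ j ∈ Finset.range (M + 1), (f.Bad (j * n) 0 0 A δ ∪ f.Bad (j * n) 0 n A δ)) ∪
      ⋃ j₀ ∈ Finset.range M, ⋃ i ∈ Finset.Icc (-(K : ℤ)) K, ⋂ j ∈ Finset.Ico j₀ (j₀ + L),
        f.Lc (j * n) (i * (r / 2)) n r (2 * A + r) := by
    intro t ht
    by_cases hb : t ∈ ⋃ j ∈ Finset.range (M + 1), (f.Bad (j * n) 0 0 A δ ∪ f.Bad (j * n) 0 n A δ)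
    · exact Or.inl hb
    · right
      simp only [mem_iUnion, mem_union, not_exists, not_or, Finset.mem_range] at hb
      obtain ⟨j₀, hj₀, i, hi, h⟩ := fin_det hf hL hM hr hA hn hAn hδ h1 h2
        (fun j hj => hb j (by omega)) ht
      simp only [mem_iUnion, mem_iInter]
      refine ⟨j₀, Finset.mem_range.2 hj₀, i, ?_, h⟩
      rw [abs_mul, abs_of_pos (half_pos hr0)] at hi
      have h3 : ((i.natAbs : ℕ) : ℝ) ≤ 2 * A / r + 2 := by
        rw [Nat.cast_natAbs, Int.cast_abs, div_add' _ _ _ hr0.ne', le_div_iff₀ hr0]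
        linarith
      have h4 : i.natAbs ≤ K := by rw [hK]; exact Nat.le_floor h3
      rw [Finset.mem_Icc]
      omega
  have hI : ∀ (j₀ : ℕ) (i : ℤ), Pr G (⋂ j ∈ Finset.Ico j₀ (j₀ + L),
      f.Lc (j * n) (i * (r / 2)) n r (2 * A + r)) ≤ (3 / 4) ^ L := by
    intro j₀ i
    have h3 := (hG.Cr_indep (Finset.Ico j₀ (j₀ + L))
      (fun j : ℕ => f.Sb (j * n) n ∩ f.St (i * (r / 2)) (2 * A + r))
      (fun j : ℕ => f.Q (j * n) (i * (r / 2)) r) (fun j : ℕ => f.Q (j * n + n) (i * (r / 2)) r)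
      (fun _ d => f.p d + r) (by
        intro a _ b _ hab
        rw [Set.disjoint_left]
        rintro u ⟨⟨ha1, ha2⟩, -⟩ ⟨⟨hb1, hb2⟩, -⟩
        have e1 : (a : ℝ) < b + 1 := lt_of_mul_lt_mul_right (by linarith) hn0.le
        have e2 : (b : ℝ) < a + 1 := lt_of_mul_lt_mul_right (by linarith) hn0.le
        have e3 : a < b + 1 := by exact_mod_cast e1
        have e4 : b < a + 1 := by exact_mod_cast e2
        omega)).1
    refine le_trans (le_of_eq h3) ?_
    calc _ ≤ ∏ _j ∈ Finset.Ico j₀ (j₀ + L), (3 / 4 : ℝ) :=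
          Finset.prod_le_prod (fun j _ => Pr_nonneg _ _) fun j _ => hC _ _
      _ = (3 / 4) ^ L := by rw [Finset.prod_const, Nat.card_Ico, Nat.add_sub_cancel_left]
  refine (hG.mono hsub).trans ((hG.union _ _).trans (add_le_add ?_ ?_))
  · refine (hG.biUnion _ _).trans ?_
    calc _ ≤ ∑ _j ∈ Finset.range (M + 1), 2 * η := Finset.sum_le_sum fun j _ =>
          (hG.union _ _).trans (by linarith [(hB (j * n)).1, (hB (j * n)).2])
      _ = 2 * (M + 1) * η := by
          rw [Finset.sum_const, Finset.card_range, nsmul_eq_mul]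
          push_cast
          ring
  · refine (hG.biUnion _ _).trans ?_
    calc _ ≤ ∑ _j ∈ Finset.range M, (4 * A / r + 5) * (3 / 4) ^ L := by
          refine Finset.sum_le_sum fun j₀ _ => (hG.biUnion _ _).trans ?_
          refine (Finset.sum_le_sum fun i _ => hI j₀ i).trans ?_
          have e : (Finset.Icc (-(K : ℤ)) K).card = 2 * K + 1 := by
            rw [Int.card_Icc]
            omega
          rw [Finset.sum_const, e, nsmul_eq_mul]
          gcongr
          push_cast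
          have : 4 * A / r = 2 * (2 * A / r) := by ring
          linarith
      _ = M * (4 * A / r + 5) * (3 / 4) ^ L := by
          rw [Finset.sum_const, Finset.card_range, nsmul_eq_mul, mul_assoc]

end

end Crest.Agent.R151.B
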