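import Crest.Agent.R151.B6c

set_option autoImplicit false

open MeasureTheory ProbabilityTheory Set Filter Topology
open Crest.ProbabilityR.FirstPassage

namespace Crest.Agent.R151.B

noncomputable section

/-! the time constant is a norm -/

variable {G : Measure ℝ} {μ : ℝ × ℝ → ℝ} {m : Z2 → ℝ}

theorem mu_lim_fl (a : ℝ) : |((⌊a⌋ : ℤ) : ℝ) - a| ≤ 1 := by
  rw [abs_le]
  constructor <;> linarith [Int.floor_le a, Int.lt_floor_add_one a]
theorem mu_lim_n1 (v : ℝ × ℝ) {s : ℝ} (hs : 0 ≤ s) :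
    n1 (⌊s * v.1⌋, ⌊s * v.2⌋) ≤ s * (|v.1| + |v.2|) + 2 ∧
      s * (|v.1| + |v.2|) ≤ n1 (⌊s * v.1⌋, ⌊s * v.2⌋) + 2 := by
  have h1 := (abs_abs_sub_abs_le _ _).trans (mu_lim_fl (s * v.1))
  have h2 := (abs_abs_sub_abs_le _ _).trans (mu_lim_fl (s * v.2))
  rw [abs_mul, abs_of_nonneg hs, abs_le] at h1 h2
  simp only [n1]
  constructor <;> linarith [h1.1, h1.2, h2.1, h2.2]
/-- almost sure convergence gives convergence in probability, and `T_var` with Chebyshev shows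
`(T - mE) / s → 0` in probability -/
theorem Law.mu_lim (hG : Law G) (v : ℝ × ℝ) {l : ℝ} (h : ∀ᵐ t ∂iidLaw G,
    Tendsto (fun s : ℝ => passageTime t (0, 0) (⌊s * v.1⌋, ⌊s * v.2⌋) / s) atTop (𝓝 l)) :
    Tendsto (fun s : ℝ => mE G (⌊s * v.1⌋, ⌊s * v.2⌋) / s) atTop (𝓝 l) := by
  have := hG.isP
  obtain ⟨C, hC1, hC⟩ := hG.T_var
  rw [Metric.tendsto_nhds]
  intro ε hε
  have hA := tendsto_measure_of_ae_tendsto_indicator_of_isFiniteMeasure (μ := iidLaw G)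
    (atTop : Filter ℝ) (A := ∅)
    (As := fun s : ℝ => {t : Env | ε / 2 ≤ |T t 0 (⌊s * v.1⌋, ⌊s * v.2⌋) / s - l|})
    MeasurableSet.empty
    (fun s => measurableSet_le measurable_const
      (((T_meas _ _).div_const s).sub_const l).abs) (by
      filter_upwards [h] with t ht
      filter_upwards [Metric.tendsto_nhds.1 ht (ε / 2) (half_pos hε)] with s hs
      rw [Real.dist_eq] at hs
      exact ⟨fun h' => absurd hs (not_lt.2 h'), fun h' => h'.elim⟩)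
  rw [measure_empty] at hA
  have hA' : Tendsto (fun s : ℝ =>
      Pr G {t : Env | ε / 2 ≤ |T t 0 (⌊s * v.1⌋, ⌊s * v.2⌋) / s - l|}) atTop (𝓝 0) :=
    (ENNReal.tendsto_toReal ENNReal.zero_ne_top).comp hA
  filter_upwards [hA'.eventually (gt_mem_nhds (show (0 : ℝ) < 1 / 2 by norm_num)),
    eventually_ge_atTop (1 : ℝ),
    eventually_gt_atTop (8 * C * (|v.1| + |v.2| + 2) / ε ^ 2)] with s h1 h2 h3
  have hs : 0 < s := by linarith
  have hB := UC_cheb hG hC 0 (⌊s * v.1⌋, ⌊s * v.2⌋) (show 0 < ε / 2 * s by positivity)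
  rw [sub_zero] at hB
  have hn := (mu_lim_n1 v hs.le).1
  have hB' : C * n1 (⌊s * v.1⌋, ⌊s * v.2⌋) / (ε / 2 * s) ^ 2 < 1 / 2 := by
    rw [div_lt_iff₀ (by positivity)] at h3 ⊢
    have h4 : n1 (⌊s * v.1⌋, ⌊s * v.2⌋) ≤ s * (|v.1| + |v.2| + 2) := by linarith
    have h5 := mul_le_mul_of_nonneg_left h4 (show 0 ≤ C by linarith)
    nlinarith [mul_lt_mul_of_pos_left h3 hs]
  have hU := (hG.union _ _).trans_lt (add_lt_add h1 (hB.trans_lt hB'))
  rw [add_halves] at hU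
  obtain ⟨t, -, ht⟩ := hG.exists_not hU
  simp only [mem_union, mem_ofPred_eq, not_or, not_le] at ht
  obtain ⟨t1, t2⟩ := ht
  have t3 : |T t 0 (⌊s * v.1⌋, ⌊s * v.2⌋) / s - mE G (⌊s * v.1⌋, ⌊s * v.2⌋) / s| < ε / 2 := by
    rw [← sub_div, abs_div, abs_of_pos hs, div_lt_iff₀ hs]
    exact t2
  rw [Real.dist_eq, abs_lt]
  rw [abs_lt] at t1 t3
  constructor <;> linarith [t1.1, t1.2, t3.1, t3.2]
theorem mu_norm_le {f g : ℝ → ℝ} {a b B : ℝ} (hf : Tendsto (fun s => f s / s) atTop (𝓝 a))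
    (hg : Tendsto (fun s => g s / s) atTop (𝓝 b)) (h : ∀ s, 0 < s → f s ≤ g s + B) : a ≤ b := by
  have h0 : Tendsto (fun s : ℝ => B / s) atTop (𝓝 0) := tendsto_const_nhds.div_atTop tendsto_id
  have h1 := hg.add h0
  rw [add_zero] at h1
  refine le_of_tendsto_of_tendsto hf h1 ?_
  filter_upwards [eventually_gt_atTop (0 : ℝ)] with s hs
  rw [← add_div]
  exact div_le_div_of_nonneg_right (h s hs) hs.le
theorem mu_norm_lin (a : ℝ) : Tendsto (fun s : ℝ => a * s / s) atTop (𝓝 a) := by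
  refine tendsto_const_nhds.congr' ?_
  filter_upwards [eventually_gt_atTop (0 : ℝ)] with s hs
  rw [mul_div_assoc, div_self hs.ne', mul_one]
theorem mu_norm_fl (a b : ℝ) : |((⌊a + b⌋ - (⌊a⌋ + ⌊b⌋) : ℤ) : ℝ)| ≤ 1 := by
  have h1 := Int.le_floor_add a b
  have h2 := Int.le_floor_add_floor a b
  have h3 : |⌊a + b⌋ - (⌊a⌋ + ⌊b⌋)| ≤ 1 := by
    rw [abs_le]; constructor <;> omega
  exact_mod_cast h3
/-- `|m x - m y| ≤ C n1 (x - y)`; integer parts are additive up to `n1 ≤ 2`; `m (k x) ≤ k m x` -/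
theorem mu_norm {c C : ℝ} (hc : 0 < c) (ha : ∀ x y, m (x + y) ≤ m x + m y) (hn : ∀ x, m (-x) = m x)
    (hb : ∀ x, c * n1 x ≤ m x ∧ m x ≤ C * n1 x)
    (h : ∀ v : ℝ × ℝ, Tendsto (fun s : ℝ => m (⌊s * v.1⌋, ⌊s * v.2⌋) / s) atTop (𝓝 (μ v))) :
    Nm μ ∧ ∀ x, μ (cR x) ≤ m x := by
  have hC : 0 < C := by
    have h1 := (hb (1, 0)).1.trans (hb (1, 0)).2
    simp only [n1, Int.cast_one, abs_one, Int.cast_zero, abs_zero, add_zero, mul_one] at h1
    linarith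
  have h0 : m 0 = 0 := by
    have := hb 0
    rw [n1_zero, mul_zero, mul_zero] at this
    exact le_antisymm this.2 this.1
  have hL : ∀ x y, n1 (x - y) ≤ 2 → m x ≤ m y + C * 2 := by
    intro x y hxy
    have h1 := ha y (x - y)
    rw [add_sub_cancel] at h1
    linarith [(hb (x - y)).2, mul_le_mul_of_nonneg_left hxy hC.le]
  have hneg : ∀ v, μ (-v) ≤ μ v := by
    intro v
    refine mu_norm_le (B := C * 2) (h (-v)) (h v) fun s _ => ?_
    rw [← hn]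
    refine hL _ _ ?_
    have h1 := mu_norm_fl (s * v.1) (s * (-v).1)
    have h2 := mu_norm_fl (s * v.2) (s * (-v).2)
    rw [show s * v.1 + s * (-v).1 = 0 by simp, Int.floor_zero] at h1
    rw [show s * v.2 + s * (-v).2 = 0 by simp, Int.floor_zero] at h2
    simp only [n1, Prod.fst_sub, Prod.snd_sub, Prod.fst_neg, Prod.snd_neg] at h1 h2 ⊢
    push_cast at h1 h2 ⊢
    rw [abs_le] at h1 h2
    have e1 : |-((⌊s * -v.1⌋ : ℤ) : ℝ) - (⌊s * v.1⌋ : ℤ)| ≤ 1 := by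
      rw [abs_le]; constructor <;> linarith [h1.1, h1.2]
    have e2 : |-((⌊s * -v.2⌋ : ℤ) : ℝ) - (⌊s * v.2⌋ : ℤ)| ≤ 1 := by
      rw [abs_le]; constructor <;> linarith [h2.1, h2.2]
    linarith
  refine ⟨⟨fun v w => ?_, fun a v ha0 => ?_, fun v => ?_, ⟨c, hc, fun v => ?_⟩,
    ⟨2 * C, by positivity, fun v => ?_⟩⟩, fun x => ?_⟩
  · have h1 := (h v).add (h w)
    simp only [← add_div] at h1
    refine mu_norm_le (B := C * 2) (h (v + w)) h1 fun s _ => ?_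
    refine (hL _ ((⌊s * v.1⌋, ⌊s * v.2⌋) + (⌊s * w.1⌋, ⌊s * w.2⌋)) ?_).trans ?_
    · have h1 := mu_norm_fl (s * v.1) (s * w.1)
      have h2 := mu_norm_fl (s * v.2) (s * w.2)
      simp only [n1, Prod.fst_sub, Prod.snd_sub, Prod.fst_add, Prod.snd_add, mul_add]
      linarith
    · linarith [ha (⌊s * v.1⌋, ⌊s * v.2⌋) (⌊s * w.1⌋, ⌊s * w.2⌋)]
  · rcases ha0.eq_or_lt with rfl | ha0
    · rw [zero_smul, zero_mul]
      refine tendsto_nhds_unique (h 0) (tendsto_const_nhds.congr fun s => ?_)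
      simp only [Prod.fst_zero, Prod.snd_zero, mul_zero, Int.floor_zero]
      rw [show ((0, 0) : Z2) = 0 from rfl, h0, zero_div]
    · have h1 := ((h v).comp (tendsto_id.atTop_mul_const ha0)).const_mul a
      refine tendsto_nhds_unique (h (a • v)) (h1.congr fun s => ?_)
      simp only [Function.comp, id, Prod.smul_fst, Prod.smul_snd, smul_eq_mul, mul_assoc]
      by_cases hs : s = 0
      · simp [hs]
      · field_simp
  · refine le_antisymm (hneg v) ?_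
    have := hneg (-v)
    rwa [neg_neg] at this
  · refine mu_norm_le (B := c * 2) (mu_norm_lin (c * ‖v‖)) (h v) fun s hs => ?_
    have h1 := (mu_lim_n1 v hs.le).2
    have h2 : ‖v‖ ≤ |v.1| + |v.2| := by
      rw [Prod.norm_def, Real.norm_eq_abs, Real.norm_eq_abs]
      exact max_le (by linarith [abs_nonneg v.2]) (by linarith [abs_nonneg v.1])
    have h3 := (mul_le_mul_of_nonneg_left h2 hs.le).trans h1
    nlinarith [(hb (⌊s * v.1⌋, ⌊s * v.2⌋)).1, mul_le_mul_of_nonneg_left h3 hc.le]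
  · refine mu_norm_le (B := C * 2) (h v) (mu_norm_lin (2 * C * ‖v‖)) fun s hs => ?_
    have h1 := (mu_lim_n1 v hs.le).1
    have h2 : |v.1| + |v.2| ≤ 2 * ‖v‖ := by
      have a1 : |v.1| ≤ ‖v‖ := norm_fst_le v
      have a2 : |v.2| ≤ ‖v‖ := norm_snd_le v
      linarith
    have h3 := h1.trans (add_le_add (mul_le_mul_of_nonneg_left h2 hs.le) le_rfl)
    nlinarith [(hb (⌊s * v.1⌋, ⌊s * v.2⌋)).2, mul_le_mul_of_nonneg_left h3 hC.le]
  · have hk : ∀ k : ℕ, m (k • x) ≤ k * m x := by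
      intro k
      induction k with
      | zero => simp [h0]
      | succ k ih =>
        rw [succ_nsmul]
        push_cast
        linarith [ha (k • x) x]
    refine le_of_tendsto ((h (cR x)).comp tendsto_natCast_atTop_atTop) ?_
    filter_upwards [eventually_gt_atTop 0] with k hk0
    have hk' : (0 : ℝ) < k := by exact_mod_cast hk0
    have e : ((⌊(k : ℝ) * (cR x).1⌋, ⌊(k : ℝ) * (cR x).2⌋) : Z2) = k • x := by
      refine Prod.ext ?_ ?_
      · show ⌊(k : ℝ) * (x.1 : ℝ)⌋ = k • x.1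
        rw [nsmul_eq_mul, ← Int.floor_intCast (R := ℝ) ((k : ℤ) * x.1)]
        push_cast; rfl
      · show ⌊(k : ℝ) * (x.2 : ℝ)⌋ = k • x.2
        rw [nsmul_eq_mul, ← Int.floor_intCast (R := ℝ) ((k : ℤ) * x.2)]
        push_cast; rfl
    simp only [Function.comp]
    rw [e, div_le_iff₀ hk', mul_comm]
    exact hk k
theorem mu_unif_loc {C : ℝ} (hC : 0 ≤ C) (hμ : Nm μ) (ha : ∀ x y, m (x + y) ≤ m x + m y)
    (hb : ∀ x, m x ≤ C * n1 x) (v : ℝ × ℝ)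
    (h : Tendsto (fun s : ℝ => m (⌊s * v.1⌋, ⌊s * v.2⌋) / s) atTop (𝓝 (μ v)))
    {η : ℝ} (hη : 0 < η) : ∃ δ : ℝ, 0 < δ ∧ ∃ B : ℝ, ∀ (x : Z2) (s : ℝ) (w : ℝ × ℝ), 0 < s →
      w ∈ Metric.ball v δ → cR x = s • w → m x ≤ μ (cR x) + η * s + B := by
  obtain ⟨K, hK, hup⟩ := hμ.up
  obtain ⟨c, hc, hlow⟩ := hμ.low
  have h0 : ∀ w, 0 ≤ μ w := fun w => (mul_nonneg hc.le (norm_nonneg w)).trans (hlow w)
  obtain ⟨s₀, hs₀⟩ := eventually_atTop.1 (h.eventually (gt_mem_nhds (show μ v < μ v + η / 2 by linarith)))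
  have hKC : 0 < 2 * C + K := by linarith
  set δ : ℝ := η / 2 / (2 * C + K) with hδ
  have hδ0 : 0 < δ := div_pos (half_pos hη) hKC
  have hδ1 : (2 * C + K) * δ = η / 2 := by rw [hδ]; field_simp
  refine ⟨δ, hδ0, 2 * C + C * (2 * (|s₀| * (‖v‖ + δ))), fun x s w hs hw hx => ?_⟩
  rw [mem_ball_iff_norm] at hw
  have x1 : (x.1 : ℝ) = s * w.1 := congrArg Prod.fst hx
  have x2 : (x.2 : ℝ) = s * w.2 := congrArg Prod.snd hx
  have hB : 0 ≤ C * (2 * (|s₀| * (‖v‖ + δ))) := by positivity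
  rcases le_or_gt s₀ s with hs1 | hs1
  · have b1 := hs₀ s hs1
    rw [div_lt_iff₀ hs] at b1
    have b2 := ha (⌊s * v.1⌋, ⌊s * v.2⌋) (x - (⌊s * v.1⌋, ⌊s * v.2⌋))
    rw [add_sub_cancel] at b2
    have d1 : |w.1 - v.1| ≤ δ := (norm_fst_le (w - v)).trans hw.le
    have d2 : |w.2 - v.2| ≤ δ := (norm_snd_le (w - v)).trans hw.le
    have d3 : ∀ a b : ℝ, |a - b| ≤ δ → |s * a - (⌊s * b⌋ : ℤ)| ≤ s * δ + 1 := by
      intro a b hab
      obtain ⟨l1, l2⟩ := abs_le.1 hab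
      have l3 := mul_le_mul_of_nonneg_left l1 hs.le
      have l4 := mul_le_mul_of_nonneg_left l2 hs.le
      rw [abs_le]
      constructor <;> nlinarith [Int.floor_le (s * b), Int.lt_floor_add_one (s * b)]
    have b3 : n1 (x - (⌊s * v.1⌋, ⌊s * v.2⌋)) ≤ 2 * (s * δ) + 2 := by
      have := add_le_add (d3 _ _ d1) (d3 _ _ d2)
      simp only [n1, Prod.fst_sub, Prod.snd_sub, Int.cast_sub, x1, x2]
      linarith
    have b4 := (hb (x - (⌊s * v.1⌋, ⌊s * v.2⌋))).trans (mul_le_mul_of_nonneg_left b3 hC)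
    have b5 : μ v ≤ μ w + K * δ := by
      have e1 := hμ.add w (v - w)
      rw [add_sub_cancel] at e1
      have e2 := hup (v - w)
      rw [norm_sub_rev] at e2
      have e3 := mul_le_mul_of_nonneg_left hw.le hK.le
      linarith
    have b6 : μ (cR x) = s * μ w := by rw [hx, hμ.smul s w hs.le]
    have b7 := mul_le_mul_of_nonneg_left b5 hs.le
    have b8 : s * ((2 * C + K) * δ) = s * (η / 2) := by rw [hδ1]
    nlinarith
  · have d0 : ‖w‖ ≤ ‖v‖ + δ := by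
      have := norm_add_le v (w - v)
      rw [add_sub_cancel] at this
      linarith
    have d1 : |w.1| ≤ ‖v‖ + δ := (norm_fst_le w).trans d0
    have d2 : |w.2| ≤ ‖v‖ + δ := (norm_snd_le w).trans d0
    have d3 : s ≤ |s₀| := hs1.le.trans (le_abs_self _)
    have b3 : n1 x ≤ 2 * (|s₀| * (‖v‖ + δ)) := by
      have e1 := mul_le_mul d3 d1 (abs_nonneg _) (abs_nonneg _)
      have e2 := mul_le_mul d3 d2 (abs_nonneg _) (abs_nonneg _)
      simp only [n1, x1, x2, abs_mul, abs_of_pos hs]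
      linarith
    have b4 := (hb x).trans (mul_le_mul_of_nonneg_left b3 hC)
    have b5 := h0 (cR x)
    have b6 := mul_pos hη hs
    linarith
/-- finite net of directions of the unit sphere, Lipschitz bounds for `m` and `μ` -/
theorem mu_unif {C : ℝ} (hμ : Nm μ) (ha : ∀ x y, m (x + y) ≤ m x + m y)
    (hb : ∀ x, m x ≤ C * n1 x)
    (h : ∀ v : ℝ × ℝ, Tendsto (fun s : ℝ => m (⌊s * v.1⌋, ⌊s * v.2⌋) / s) atTop (𝓝 (μ v)))
    {η : ℝ} (hη : 0 < η) : ∃ B : ℝ, ∀ x, m x ≤ μ (cR x) + η * n1 x + B := by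
  have hb' : ∀ x, m x ≤ |C| * n1 x := fun x =>
    (hb x).trans (mul_le_mul_of_nonneg_right (le_abs_self C) (n1_nonneg x))
  have key : ∃ B : ℝ, ∀ (x : Z2) (s : ℝ) (w : ℝ × ℝ), 0 < s →
      w ∈ Metric.closedBall (0 : ℝ × ℝ) 1 → cR x = s • w → m x ≤ μ (cR x) + η * s + B := by
    refine (isCompact_closedBall (0 : ℝ × ℝ) 1).induction_on
      (p := fun U => ∃ B : ℝ, ∀ (x : Z2) (s : ℝ) (w : ℝ × ℝ), 0 < s →
        w ∈ U → cR x = s • w → m x ≤ μ (cR x) + η * s + B) ⟨0, fun _ _ _ _ hw => absurd hw (by simp)⟩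
      ?_ ?_ ?_
    · rintro U V hUV ⟨B, hB⟩
      exact ⟨B, fun x s w hs hw => hB x s w hs (hUV hw)⟩
    · rintro U V ⟨B, hB⟩ ⟨B', hB'⟩
      refine ⟨max B B', fun x s w hs hw hx => ?_⟩
      rcases hw with hw | hw
      · linarith [hB x s w hs hw hx, le_max_left B B']
      · linarith [hB' x s w hs hw hx, le_max_right B B']
    · intro v _
      obtain ⟨δ, hδ, hB⟩ := mu_unif_loc (abs_nonneg C) hμ ha hb' v (h v) hη
      exact ⟨_, mem_nhdsWithin_of_mem_nhds (Metric.ball_mem_nhds v hδ), hB⟩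
  obtain ⟨B, hB⟩ := key
  refine ⟨max B 0, fun x => ?_⟩
  rcases (n1_nonneg x).eq_or_lt with h0 | h0
  · obtain ⟨c, hc, hlow⟩ := hμ.low
    have b1 := (mul_nonneg hc.le (norm_nonneg _)).trans (hlow (cR x))
    have b2 := hb x
    rw [← h0] at b2 ⊢
    linarith [le_max_right B 0]
  · have b1 : (n1 x)⁻¹ • cR x ∈ Metric.closedBall (0 : ℝ × ℝ) 1 := by
      rw [mem_closedBall_zero_iff, norm_smul, norm_inv, Real.norm_of_nonneg h0.le,
        inv_mul_le_iff₀ h0, mul_one]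
      refine max_le ?_ ?_
      · show |(x.1 : ℝ)| ≤ |(x.1 : ℝ)| + |(x.2 : ℝ)|
        linarith [abs_nonneg (x.2 : ℝ)]
      · show |(x.2 : ℝ)| ≤ |(x.1 : ℝ)| + |(x.2 : ℝ)|
        linarith [abs_nonneg (x.1 : ℝ)]
    have b2 := hB x (n1 x) _ h0 b1 (by rw [smul_inv_smul₀ h0.ne'])
    linarith [le_max_left B 0]
/-- summary -/
theorem Law.mu (hG : Law G) (h : ∀ v : ℝ × ℝ, ∀ᵐ t ∂iidLaw G,
    Tendsto (fun s : ℝ => passageTime t (0, 0) (⌊s * v.1⌋, ⌊s * v.2⌋) / s) atTop (𝓝 (μ v))) :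
    Nm μ ∧ (∀ x, μ (cR x) ≤ mE G x) ∧
      ∀ η : ℝ, 0 < η → ∃ B : ℝ, ∀ x, mE G x ≤ μ (cR x) + η * n1 x + B := by
  obtain ⟨c, hc, h1⟩ := hG.mE_ge
  obtain ⟨C, -, h2⟩ := hG.T_mom
  have h3 := fun v => hG.mu_lim v (h v)
  obtain ⟨h4, h5⟩ := mu_norm hc hG.mE_add hG.mE_neg (fun x => ⟨h1 x, (h2 x x).2⟩) h3
  exact ⟨h4, h5, fun η hη => mu_unif h4 hG.mE_add (fun x => (h2 x x).2) h3 hη⟩

end

end Crest.Agent.R151.B
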