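import Crest.Agent.R151.B6c

set_option autoImplicit false

open MeasureTheory ProbabilityTheory Set Filter Topology
open Crest.ProbabilityR.FirstPassage

namespace Crest.Agent.R151.B

noncomputable section

variable {G : Measure ℝ}

theorem p2l_unit (ξ : Z2 →+ ℝ) {c : ℝ} {y : Z2} (hy : 0 < ξ y) (h : c * n1 y ≤ 2 * ξ y) :
    ∃ e : Z2, n1 e = 1 ∧ c ≤ 2 * ξ e := by
  have e1 : ξ y = (y.1 : ℝ) * ξ (1, 0) + (y.2 : ℝ) * ξ (0, 1) := by
    have : y = y.1 • ((1, 0) : Z2) + y.2 • ((0, 1) : Z2) := by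
      ext <;> simp
    conv_lhs => rw [this]
    rw [map_add, map_zsmul, map_zsmul, zsmul_eq_mul, zsmul_eq_mul]
  have hM : ∃ e : Z2, n1 e = 1 ∧ |ξ (1, 0)| ≤ ξ e ∧ |ξ (0, 1)| ≤ ξ e := by
    have n10 : n1 (1, 0) = 1 := by simp [n1]
    have n01 : n1 (0, 1) = 1 := by simp [n1]
    rcases le_total |ξ (1, 0)| |ξ (0, 1)| with h1 | h1
    · rcases abs_cases (ξ (0, 1)) with h2 | h2
      · exact ⟨(0, 1), n01, h1.trans h2.1.le, h2.1.le⟩
      · refine ⟨-(0, 1), by rw [n1_neg, n01], ?_, ?_⟩ <;> rw [map_neg]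
        · exact h1.trans h2.1.le
        · exact h2.1.le
    · rcases abs_cases (ξ (1, 0)) with h2 | h2
      · exact ⟨(1, 0), n10, h2.1.le, h1.trans h2.1.le⟩
      · refine ⟨-(1, 0), by rw [n1_neg, n10], ?_, ?_⟩ <;> rw [map_neg]
        · exact h2.1.le
        · exact h1.trans h2.1.le
  obtain ⟨e, he, h1, h2⟩ := hM
  refine ⟨e, he, ?_⟩
  have a1 : (y.1 : ℝ) * ξ (1, 0) ≤ |(y.1 : ℝ)| * ξ e :=
    (le_abs_self _).trans (by rw [abs_mul]; exact mul_le_mul_of_nonneg_left h1 (abs_nonneg _))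
  have a2 : (y.2 : ℝ) * ξ (0, 1) ≤ |(y.2 : ℝ)| * ξ e :=
    (le_abs_self _).trans (by rw [abs_mul]; exact mul_le_mul_of_nonneg_left h2 (abs_nonneg _))
  have a3 : ξ y ≤ n1 y * ξ e := by rw [e1, n1, add_mul]; linarith
  have a4 : 0 < n1 y := by
    rcases (n1_nonneg y).lt_or_eq with h0 | h0
    · exact h0
    · rw [← h0, zero_mul] at a3; linarith
  have a5 : n1 y * c ≤ n1 y * (2 * ξ e) := by linarith
  exact le_of_mul_le_mul_left a5 a4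

theorem p2l_two : (2 : ℝ) ^ (7 / 8 : ℝ) ≤ 13 / 7 := by
  have h : ((2 : ℝ) ^ (7 / 8 : ℝ)) ^ 8 ≤ (13 / 7) ^ 8 := by
    rw [← Real.rpow_natCast, ← Real.rpow_mul (by norm_num)]
    norm_num
  exact le_of_pow_le_pow_left₀ (by norm_num) (by norm_num) h

theorem p2l_iter {ξ m : Z2 → ℝ} {D : ℝ} (hD : 0 ≤ D)
    (h : ∀ s : ℝ, 1 ≤ s → ∀ y, 2 * s ≤ ξ y → ∃ y', s ≤ ξ y' ∧ 2 * m y' ≤ m y + D * s ^ (7 / 8 : ℝ))
    (k : ℕ) : ∀ s : ℝ, 1 ≤ s → ∀ y, 2 ^ k * s ≤ ξ y →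
      ∃ y', s ≤ ξ y' ∧ m y' ≤ m y / 2 ^ k + 7 * D * s ^ (7 / 8 : ℝ) := by
  induction k with
  | zero =>
    intro s hs y hy
    refine ⟨y, by simpa using hy, ?_⟩
    have : 0 ≤ 7 * D * s ^ (7 / 8 : ℝ) := by positivity
    simp only [pow_zero, div_one]
    linarith
  | succ k ih =>
    intro s hs y hy
    obtain ⟨y₁, h1, h2⟩ := ih (2 * s) (by linarith) y (by rw [pow_succ] at hy; linarith)
    obtain ⟨y₂, h3, h4⟩ := h s hs y₁ h1
    refine ⟨y₂, h3, ?_⟩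
    rw [Real.mul_rpow (by norm_num) (by linarith)] at h2
    have h5 : 0 ≤ D * s ^ (7 / 8 : ℝ) := by positivity
    have h6 := mul_le_mul_of_nonneg_right p2l_two h5
    have h7 : m y / 2 ^ (k + 1) = m y / 2 ^ k / 2 := by rw [pow_succ, div_div]
    rw [h7]
    nlinarith

theorem p2l_main (hG : Law G)
    (hd : ∀ {c : ℝ}, 0 < c → ∃ D : ℝ, 1 ≤ D ∧ ∀ (ξ : Z2 →+ ℝ) (e : Z2),
      (∀ x, ξ x ≤ mE G x) → n1 e = 1 → c ≤ 2 * ξ e → ∀ s : ℝ, 1 ≤ s → ∀ y, 2 * s ≤ ξ y →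
        ∃ y', s ≤ ξ y' ∧ 2 * mE G y' ≤ mE G y + D * s ^ (7 / 8 : ℝ)) :
    ∃ D : ℝ, 1 ≤ D ∧ ∀ ξ : Z2 →+ ℝ, (∀ x, ξ x ≤ mE G x) →
    (∀ η : ℝ, 0 < η → ∀ᶠ s : ℝ in atTop, ∃ y, s ≤ ξ y ∧ mE G y ≤ (1 + η) * s) →
    ∀ s : ℝ, 1 ≤ s → ∃ y, s ≤ ξ y ∧ mE G y ≤ s + D * s ^ (7 / 8 : ℝ) := by
  obtain ⟨c, hc, hc'⟩ := hG.mE_ge
  obtain ⟨D, hD, hD'⟩ := hd hc
  refine ⟨7 * D + 1, by linarith, fun ξ hξ hη s hs => ?_⟩
  obtain ⟨s₀, ⟨y₀, a1, a2⟩, a3⟩ := ((hη 1 one_pos).and (eventually_gt_atTop 0)).exists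
  obtain ⟨e, he, he'⟩ := p2l_unit ξ (c := c) (y := y₀) (by linarith) (by linarith [hc' y₀])
  have hs0 : 0 < s := by linarith
  have ht : Tendsto (fun k : ℕ => (2 : ℝ) ^ k * s) atTop atTop :=
    (tendsto_pow_atTop_atTop_of_one_lt one_lt_two).atTop_mul_const hs0
  obtain ⟨k, y, b1, b2⟩ := (ht.eventually (hη (1 / s) (by positivity))).exists
  obtain ⟨y', b3, b4⟩ := p2l_iter (ξ := ξ) (m := mE G) (by linarith : 0 ≤ D)
    (hD' ξ e hξ he he') k s hs y b1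
  refine ⟨y', b3, ?_⟩
  have b5 : mE G y / 2 ^ k ≤ s + 1 := by
    rw [div_le_iff₀ (by positivity)]
    refine b2.trans (le_of_eq ?_)
    field_simp
  have b6 : 1 ≤ s ^ (7 / 8 : ℝ) := Real.one_le_rpow hs (by norm_num)
  linarith

theorem up_main (hG : Law G) {f : Fr} (hc : Cor G f)
    (hp : ∃ D : ℝ, 1 ≤ D ∧ ∀ ξ : Z2 →+ ℝ, (∀ x, ξ x ≤ mE G x) →
      (∀ η : ℝ, 0 < η → ∀ᶠ s : ℝ in atTop, ∃ y, s ≤ ξ y ∧ mE G y ≤ (1 + η) * s) →
      ∀ s : ℝ, 1 ≤ s → ∃ y, s ≤ ξ y ∧ mE G y ≤ s + D * s ^ (7 / 8 : ℝ)) :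
    ∀ᶠ n : ℝ in atTop, 1 / 2 ≤ Pr G (f.Gd 0 0 n (n ^ (9 / 10 : ℝ))) := by
  obtain ⟨D, hD, hp⟩ := hp
  have C1 := hc.ok.C1
  have hp1 : ∀ x, f.p x ≤ mE G x := fun x => by
    linarith [hc.low x, le_abs_self (f.p x), abs_nonneg (f.q x)]
  have hp2 : ∀ η : ℝ, 0 < η → ∀ᶠ s : ℝ in atTop, ∃ y, s ≤ f.p y ∧ mE G y ≤ (1 + η) * s := by
    intro η hη
    obtain ⟨σ, hσ, h1⟩ := hc.tight 1 one_pos
    obtain ⟨B, h2⟩ := h1 (η / 2) (by positivity)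
    filter_upwards [eventually_ge_atTop (f.C / σ),
      eventually_ge_atTop (((1 + η / 2) * (2 * f.C) + 2 * f.C + B) / (η / 2))] with s a1 a2
    obtain ⟨x, b1, b2⟩ := hc.ok.den (s + f.C) 0
    rw [sub_zero] at b2
    rw [abs_le] at b1
    rw [div_le_iff₀ hσ] at a1
    rw [div_le_iff₀ (by positivity)] at a2
    have b3 : s ≤ f.p x := by linarith [b1.1]
    have b4 := h2 x (by nlinarith)
    refine ⟨x, b3, b4.trans ?_⟩
    have b5 : (1 + η / 2) * f.p x ≤ (1 + η / 2) * (s + 2 * f.C) :=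
      mul_le_mul_of_nonneg_left (by linarith [b1.2]) (by positivity)
    nlinarith
  obtain ⟨c, h0, hc'⟩ := hG.mE_ge
  obtain ⟨C, hC, hUC⟩ := hG.UC
  obtain ⟨K, hK⟩ : ∃ K : ℝ, K = (D + 5) / c + 1 := ⟨_, rfl⟩
  have hK1 : 1 ≤ K := by
    have : 0 ≤ (D + 5) / c := by positivity
    linarith
  have hK2 : c * K = D + 5 + c := by rw [hK]; field_simp
  filter_upwards [eventually_ge_atTop (1 : ℝ),
    (tendsto_rpow_atTop (by norm_num : (0 : ℝ) < 1 / 40)).eventually_ge_atTop (D + 4),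
    (tendsto_rpow_atTop (by norm_num : (0 : ℝ) < 1 / 4)).eventually_ge_atTop (2 * C * K ^ 5)]
    with n hn e1 e2
  have hn0 : 0 < n := by linarith
  obtain ⟨y, y1, y2⟩ := hp f.p hp1 hp2 n hn
  set s : ℝ := n ^ (7 / 8 : ℝ) with hs
  have s1 : 1 ≤ s := Real.one_le_rpow hn (by norm_num)
  have s2 : s ≤ n := by
    calc s ≤ n ^ (1 : ℝ) := Real.rpow_le_rpow_of_exponent_le hn (by norm_num)
      _ = n := Real.rpow_one n
  have s3 : (D + 4) * s ≤ n ^ (9 / 10 : ℝ) := by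
    have : n ^ (9 / 10 : ℝ) = n ^ (1 / 40 : ℝ) * s := by
      rw [hs, ← Real.rpow_add hn0]; norm_num
    rw [this]
    exact mul_le_mul_of_nonneg_right e1 (by linarith)
  have s4 : C * (K * n) ^ 5 / s ^ 6 ≤ 1 / 2 := by
    have : s ^ 6 = n ^ (1 / 4 : ℝ) * n ^ 5 := by
      rw [hs, ← Real.rpow_natCast, ← Real.rpow_mul hn0.le, ← Real.rpow_natCast n 5,
        ← Real.rpow_add hn0]
      norm_num
    rw [div_le_iff₀ (by positivity), this, mul_pow]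
    have h5 : 0 < n ^ 5 := by positivity
    nlinarith
  have hKn : n ≤ K * n := le_mul_of_one_le_left hn0.le hK1
  have hb := (hUC 0 (K * n) s s1 (s2.trans hKn)).trans s4
  refine le_trans (by linarith) ((hG.compl_ge _).trans (hG.mono_nn (A := {t | ∃ x y,
    n1 (x - 0) ≤ K * n ∧ n1 (y - 0) ≤ K * n ∧ s < |T t x y - mE G (y - x)|}ᶜ) fun t ht hg => ?_))
  have hg' : ∀ x y, n1 x ≤ K * n → n1 y ≤ K * n → |T t x y - mE G (y - x)| ≤ s := by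
    intro x y hx hy
    by_contra hcon
    exact hg ⟨x, y, by rwa [sub_zero], by rwa [sub_zero], not_le.1 hcon⟩
  have hDs : D * s ≤ D * n := mul_le_mul_of_nonneg_left s2 (by linarith)
  obtain ⟨k, k1, k2⟩ := geo (y := y) h0 hc' ht (by linarith) hg' (by
    have : c * (K * n - 1) = (D + 5) * n + c * (n - 1) := by
      rw [mul_sub, ← mul_assoc, hK2]; ring
    rw [this]
    have : 0 ≤ c * (n - 1) := mul_nonneg h0.le (by linarith)
    nlinarith)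
  have l1 := hc.low y
  have l2 := le_abs_self (f.p y)
  have l3 := abs_nonneg (f.q y)
  have h00 : n1 0 ≤ K * n := by rw [n1_zero]; positivity
  have r0 : 0 ≤ n ^ (9 / 10 : ℝ) := by positivity
  refine ⟨0, ⟨by simpa using r0, by simpa using r0⟩, y, ⟨?_, ?_⟩, k, ?_, ?_⟩
  · rw [zero_add, abs_le]
    constructor <;> linarith
  · rw [sub_zero]
    linarith
  · rw [sub_zero]
    linarith
  · refine (k2.confine (S' := f.St 0 (n ^ (9 / 10 : ℝ))) ?_).mono inter_subset_right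
    intro z c₁ c₂ r1 r2 e
    have a1 := hg' 0 z h00 r1.mem.2
    have a2 := hg' z y r1.mem.2 r2.mem.2
    rw [sub_zero] at a1
    rw [abs_le] at a1 a2
    have a3 := T_le ht r1
    have a4 := T_le ht r2
    have a5 := hc.low z
    have a6 := hc.low (y - z)
    rw [map_sub] at a6
    have a7 := le_abs_self (f.p z)
    have a8 := le_abs_self (f.p y - f.p z)
    have a9 := abs_nonneg (f.q (y - z))
    change |f.q z - 0| ≤ _
    rw [sub_zero]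
    linarith [a1.1, a2.1]

end

end Crest.Agent.R151.B
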