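import Crest.Agent.R151.B6c
import Crest.Agent.R151.B9Aux2

set_option autoImplicit false

open MeasureTheory ProbabilityTheory Set Filter Topology
open Crest.ProbabilityR.FirstPassage

namespace Crest.Agent.R151.B

noncomputable section

/-! polynomial upper bound for the excess -/

variable {G : Measure ℝ}

theorem Law.dbl_u {c C : ℝ} (hc : 0 < c) (hC0 : 0 ≤ C) (hC : ∀ x, mE G x ≤ C * n1 x) {ξ : Z2 →+ ℝ}
    {e : Z2} (he : n1 e = 1) (hξ : c ≤ 2 * ξ e) {r : ℝ} (hr : 0 ≤ r) :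
    ∃ u, r ≤ ξ u ∧ mE G u ≤ C * (2 * r / c + 1) := by
  have h0 : 0 ≤ 2 * r / c := by positivity
  refine ⟨⌈2 * r / c⌉₊ • e, ?_, (hC _).trans (mul_le_mul_of_nonneg_left ?_ hC0)⟩
  · rw [map_nsmul, nsmul_eq_mul]
    have h1 : 2 * r / c * c ≤ ⌈2 * r / c⌉₊ * (2 * ξ e) :=
      mul_le_mul (Nat.le_ceil _) hξ hc.le (Nat.cast_nonneg _)
    rw [div_mul_cancel₀ _ hc.ne'] at h1
    linarith
  · have h1 : ∀ k : ℕ, n1 (k • e) = k * n1 e := fun k => by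
      simp [n1, abs_mul, mul_add]
    rw [h1, he, mul_one]
    exact (Nat.ceil_lt_add_one h0).le

theorem Law.dbl_num {K D s : ℝ} (hs : 1 ≤ s) (h : (K * D ^ 5) ^ 4 < s) :
    K * (D * s) ^ 5 / (s ^ (7 / 8 : ℝ)) ^ 6 < 1 := by
  have h0 : 0 < s := by linarith
  obtain ⟨a, ha, rfl⟩ : ∃ a : ℝ, 0 < a ∧ s = a ^ 8 :=
    ⟨s ^ ((8 : ℕ) : ℝ)⁻¹, Real.rpow_pos_of_pos h0 _,
      (Real.rpow_inv_natCast_pow h0.le (by norm_num)).symm⟩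
  have e : (a ^ 8) ^ (7 / 8 : ℝ) = a ^ 7 := by
    rw [← Real.rpow_natCast, ← Real.rpow_mul ha.le, ← Real.rpow_natCast]
    norm_num
  have h1 : K * D ^ 5 < a ^ 2 :=
    lt_of_pow_lt_pow_left₀ 4 (sq_nonneg a) (by rw [← pow_mul]; exact h)
  rw [e, div_lt_one (by positivity)]
  calc K * (D * a ^ 8) ^ 5 = K * D ^ 5 * a ^ 40 := by ring
    _ < a ^ 2 * a ^ 40 := mul_lt_mul_of_pos_right h1 (by positivity)
    _ = _ := by ring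

/-- doubling. Let `c₀ n1 ≤ mE ≤ C n1` (`mE_ge`, `T_mom`; `c₀` is used in `geo`), so `ξ` moves by `≤ C` along an edge; `u = ⌈2 s / c⌉ • e` has
`s ≤ ξ u`, `mE u ≤ D₀ s`, which settles bounded `s` and `mE y ≥ 2 D₀ s`. Otherwise `UC` with
`n = D₁ s` and deviation `s ^ (7 / 8)` has probability `< 1`: pick a good environment
(`exists_not`), a confined near geodesic (`geo`), cut it at `z` with `s ≤ ξ z ≤ s + C` (`Rch.ivt`):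
`mE z + mE (y - z) ≤ mE y + 3 s ^ (7 / 8) + 1`; take the better of `z` and `y - z + ⌈2 C / c⌉ • e`. -/
theorem Law.dbl (hG : Law G) {c : ℝ} (hc : 0 < c) : ∃ D : ℝ, 1 ≤ D ∧ ∀ (ξ : Z2 →+ ℝ) (e : Z2),
    (∀ x, ξ x ≤ mE G x) → n1 e = 1 → c ≤ 2 * ξ e → ∀ s : ℝ, 1 ≤ s → ∀ y, 2 * s ≤ ξ y →
      ∃ y', s ≤ ξ y' ∧ 2 * mE G y' ≤ mE G y + D * s ^ (7 / 8 : ℝ) := by
  obtain ⟨c₀, hc₀, hge⟩ := hG.mE_ge
  obtain ⟨C, hC1, hC'⟩ := hG.T_mom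
  obtain ⟨K, hK, hUC⟩ := hG.UC
  have hC : ∀ x, mE G x ≤ C * n1 x := fun x => (hC' x x).2
  have hC0 : 0 ≤ C := by linarith
  have hm0 : ∀ x, 0 ≤ mE G x := fun x => (mul_nonneg hc₀.le (n1_nonneg x)).trans (hge x)
  obtain ⟨D₀, hD₀⟩ : ∃ D₀, D₀ = C * (2 / c + 1) := ⟨_, rfl⟩
  obtain ⟨D₁, hD₁⟩ : ∃ D₁, D₁ = (2 * D₀ + 3) / c₀ + 1 := ⟨_, rfl⟩
  obtain ⟨D₂, hD₂⟩ : ∃ D₂, D₂ = C * (2 * C / c + 1) := ⟨_, rfl⟩
  obtain ⟨s₀, hs₀⟩ : ∃ s₀, s₀ = (K * D₁ ^ 5) ^ 4 := ⟨_, rfl⟩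
  have p₀ : 0 ≤ D₀ := by rw [hD₀]; positivity
  have p₁ : 1 ≤ D₁ := by
    rw [hD₁]
    exact le_add_of_nonneg_left (by positivity)
  have p₂ : 0 ≤ D₂ := by rw [hD₂]; positivity
  have p₃ : 0 ≤ s₀ := by rw [hs₀]; positivity
  have p₄ : 0 ≤ D₀ * s₀ := mul_nonneg p₀ p₃
  refine ⟨2 * (D₀ * s₀) + 2 * D₂ + 4, by linarith, fun ξ e hξ he hce s hs y hy => ?_⟩
  obtain ⟨σ, hσ⟩ : ∃ σ, σ = s ^ (7 / 8 : ℝ) := ⟨_, rfl⟩
  have hσ1 : 1 ≤ σ := by rw [hσ]; exact Real.one_le_rpow hs (by norm_num)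
  have hσs : σ ≤ s := by
    rw [hσ]
    exact (Real.rpow_le_rpow_of_exponent_le hs (by norm_num : (7 / 8 : ℝ) ≤ 1)).trans_eq
      (Real.rpow_one s)
  rw [← hσ]
  have q₁ : D₀ * s₀ ≤ D₀ * s₀ * σ := le_mul_of_one_le_right p₄ hσ1
  have q₂ : D₂ ≤ D₂ * σ := le_mul_of_one_le_right p₂ hσ1
  obtain ⟨u, hu, hu'⟩ := Law.dbl_u hc hC0 hC he hce (by linarith : 0 ≤ s)
  have hu₀ : mE G u ≤ D₀ * s := by
    refine hu'.trans ?_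
    rw [hD₀, mul_assoc, add_mul, one_mul, div_mul_eq_mul_div]
    exact mul_le_mul_of_nonneg_left (by linarith) hC0
  by_cases h₁ : 2 * (D₀ * s) ≤ mE G y
  · exact ⟨u, hu, by linarith⟩
  by_cases h₂ : s ≤ s₀
  · have := mul_le_mul_of_nonneg_left h₂ p₀
    exact ⟨u, hu, by linarith [hm0 y]⟩
  push Not at h₁ h₂
  have hsn : s ≤ D₁ * s := le_mul_of_one_le_left (by linarith) p₁
  have hP := hUC 0 (D₁ * s) σ hσ1 (hσs.trans hsn)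
  obtain ⟨t, ht, hgood⟩ := hG.exists_not
    (hP.trans_lt (by rw [hσ]; exact Law.dbl_num hs (hs₀ ▸ h₂)))
  have hg : ∀ a b, n1 a ≤ D₁ * s → n1 b ≤ D₁ * s → |T t a b - mE G (b - a)| ≤ σ :=
    fun a b ha hb => not_lt.1 fun h => hgood ⟨a, b, by rwa [sub_zero], by rwa [sub_zero], h⟩
  obtain ⟨k, hk, hR⟩ := geo (y := y) hc₀ hge ht (by linarith) hg (by
    have e₁ : c₀ * (D₁ * s - 1) = (2 * D₀ + 3) * s + c₀ * (s - 1) := by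
      rw [hD₁]; field_simp; ring
    have := mul_nonneg hc₀.le (sub_nonneg.2 hs)
    rw [e₁]
    linarith)
  have hadj : ∀ a b, squareLattice.Adj a b → |ξ b - ξ a| ≤ C := fun a b hab => by
    have e₁ := (hξ (b - a)).trans (hC _)
    have e₂ := (hξ (a - b)).trans (hC _)
    rw [n1_sub_comm a b] at e₂
    rw [adj_iff.1 hab, map_sub, mul_one] at e₁ e₂
    exact abs_le.2 ⟨by linarith, e₁⟩
  obtain ⟨z, c₁, c₂, hR₁, hR₂, hsum, hz₁, hz₂⟩ := Rch.ivt (φ := fun a => ξ a) (α := s) hC0 hadj hR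
    (by rw [map_zero]; linarith) (by linarith)
  have g₁ := (abs_le.1 (hg 0 z hR.mem.1 hR₂.mem.1)).1
  have g₂ := (abs_le.1 (hg z y hR₂.mem.1 hR₂.mem.2)).1
  rw [sub_zero] at g₁
  have g₃ := T_le ht hR₁
  have g₄ := T_le ht hR₂
  rcases le_total (mE G z) (mE G (y - z)) with h | h
  · exact ⟨z, hz₁, by linarith⟩
  · obtain ⟨v, hv, hv'⟩ := Law.dbl_u hc hC0 hC he hce hC0
    rw [← hD₂] at hv'
    refine ⟨y - z + v, by rw [map_add, map_sub]; linarith, ?_⟩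
    have := hG.mE_add (y - z) v
    linarith
/-- point to line bound, uniform in the supporting functional. With `c` from `mE_ge` and `η = 1`
one finds `y` with `c n1 y ≤ 2 ξ y`, hence a unit vector `e` with `c ≤ 2 ξ e`. Iterate `dbl`
downwards from `2 ^ k s`: `mE y ≤ mE y_k / 2 ^ k + (D / 2) s ^ (7 / 8) ∑ 2 ^ (-j / 8)`. -/
theorem Law.p2l (hG : Law G) : ∃ D : ℝ, 1 ≤ D ∧ ∀ ξ : Z2 →+ ℝ, (∀ x, ξ x ≤ mE G x) →
    (∀ η : ℝ, 0 < η → ∀ᶠ s : ℝ in atTop, ∃ y, s ≤ ξ y ∧ mE G y ≤ (1 + η) * s) →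
    ∀ s : ℝ, 1 ≤ s → ∃ y, s ≤ ξ y ∧ mE G y ≤ s + D * s ^ (7 / 8 : ℝ) :=
  p2l_main hG fun hc => hG.dbl hc
/-- `p2l` for `ξ = p` (use `den` at `(s + C, 0)` and `tight`); `low` gives `|q y|, p y - n ≤ D n ^ (7/8)`.
On the good event of `UC` take the walk of `geo`; a cut point `z` has
`mE z + mE (y - z) ≤ mE y + 3 n ^ (7/8) + 1`, so `|q z| ≤ (D + 4) n ^ (7/8)` (`Rch.confine`). -/
theorem Cor.up (hG : Law G) {f : Fr} (hc : Cor G f) :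
    ∀ᶠ n : ℝ in atTop, 1 / 2 ≤ Pr G (f.Gd 0 0 n (n ^ (9 / 10 : ℝ))) :=
  up_main hG hc hG.p2l

end

end Crest.Agent.R151.B
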