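import Crest.Agent.R151.B7
import Crest.Agent.R151.B8a
import Crest.Agent.R151.B9
import Crest.Agent.R151.B12
import Crest.Agent.R151.B13
import Crest.Agent.R151.B14

set_option autoImplicit false

open MeasureTheory ProbabilityTheory Set Filter Topology
open Crest.ProbabilityR.FirstPassage

namespace Crest.Agent.R151.B

noncomputable section

/-! record scales and conclusion -/

variable {G : Measure ℝ}

/-- `ν = ⌈8 L / ε⌉` is linear in `L`; exponential beats polynomial -/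
theorem num {ε : ℝ} (h0 : 0 < ε) (h1 : ε ≤ 1) : ∃ ν L : ℕ, 1 ≤ L ∧ 8 * L ≤ ε * ν ∧
    (ν : ℝ) ^ 16 * (6 * (ν : ℝ) ^ 16 / ε + 5) * (3 / 4) ^ L ≤ 1 / 16 := by
  have t := (tendsto_pow_const_mul_const_pow_of_abs_lt_one 32
    (show |(3 / 4 : ℝ)| < 1 by norm_num [abs_of_pos])).const_mul ((9 / ε) ^ 32 * (11 / ε))
  rw [mul_zero] at t
  obtain ⟨L, h2, h3⟩ := ((t.eventually_le_const (show (0 : ℝ) < 1 / 16 by norm_num)).and
    (eventually_ge_atTop 1)).exists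
  have L1 : (1 : ℝ) ≤ L := by exact_mod_cast h3
  have a0 : 1 ≤ L / ε := (one_le_div h0).2 (h1.trans L1)
  have a1 : 8 * (L / ε) ≤ ⌈8 * (L / ε)⌉₊ := Nat.le_ceil _
  have a2 : (⌈8 * (L / ε)⌉₊ : ℝ) < 8 * (L / ε) + 1 := Nat.ceil_lt_add_one (by positivity)
  refine ⟨⌈8 * (L / ε)⌉₊, L, h3, ?_, le_trans ?_ h2⟩
  · rwa [← div_le_iff₀' h0, mul_div_assoc]
  generalize (⌈8 * (L / ε)⌉₊ : ℝ) = ν at a1 a2
  have a3 : ν ^ 32 ≤ (9 / ε * L) ^ 32 :=
    pow_le_pow_left₀ (by linarith) (by rw [div_mul_eq_mul_div, mul_div_assoc]; linarith) _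
  have a4 : 1 ≤ ν ^ 16 / ε := (one_le_div h0).2 (h1.trans (one_le_pow₀ (by linarith)))
  rw [← mul_assoc]
  refine mul_le_mul_of_nonneg_right ?_ (by positivity)
  calc ν ^ 16 * (6 * ν ^ 16 / ε + 5) ≤ ν ^ 16 * (11 * (ν ^ 16 / ε)) :=
        mul_le_mul_of_nonneg_left (by rw [mul_div_assoc]; linarith) (by positivity)
    _ = ν ^ 32 * (11 / ε) := by ring
    _ ≤ (9 / ε * L) ^ 32 * (11 / ε) := mul_le_mul_of_nonneg_right a3 (by positivity)
    _ = _ := by rw [mul_pow]; ring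
/-- if not, then from some `k₁` on growth by a factor `ν` forces growth by `ν ^ 15` for ever; growth
by `ν` happens because `a k ^ 3 ≥ ν ^ (16 k)`, and `ν ^ 15 > (ν ^ 16) ^ (9 / 10)` -/
theorem record {ν : ℝ} (hν : 2 ≤ ν) {a : ℕ → ℝ}
    (h1 : ∀ᶠ k : ℕ in atTop, (ν ^ 16) ^ k ≤ a k ^ 3)
    (h2 : ∀ᶠ k : ℕ in atTop, a k ≤ 2 * ((ν ^ 16) ^ k) ^ (9 / 10 : ℝ)) :
    ∃ᶠ k : ℕ in atTop, ν * a k ≤ a (k + 1) ∧ ν * a (k + 2) ≤ ν ^ 16 * a (k + 1) := by
  by_contra h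
  obtain ⟨k₁, hk⟩ := eventually_atTop.1 ((h1.and h2).and (not_frequently.1 h))
  have n1 : 1 < ν := by linarith
  have n0 : 0 < ν := by linarith
  have a1 : ∀ k, k₁ ≤ k → 1 ≤ a k := fun k h => (Odd.strictMono_pow (by decide : Odd 3)).le_iff_le.1
    (le_trans (by rw [one_pow]; exact one_le_pow₀ (one_le_pow₀ n1.le)) (hk k h).1.1)
  obtain ⟨k, k1, k2⟩ : ∃ k, k₁ ≤ k ∧ ν * a k ≤ a (k + 1) := by
    by_contra h3
    have a2 : ∀ j, a (k₁ + j) ≤ ν ^ j * a k₁ := fun j => by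
      induction j with
      | zero => simp
      | succ j ih =>
        rw [pow_succ', mul_assoc]
        exact (not_le.1 fun h4 => h3 ⟨_, Nat.le_add_right _ _, h4⟩).le.trans
          (mul_le_mul_of_nonneg_left ih n0.le)
    obtain ⟨j, hj⟩ := pow_unbounded_of_one_lt (a k₁ ^ 3) n1
    have a3 := (hk _ (Nat.le_add_right k₁ j)).1.1.trans
      (pow_le_pow_left₀ (by linarith [a1 _ (Nat.le_add_right k₁ j)]) (a2 j) 3)
    rw [mul_pow, ← pow_mul, ← pow_mul] at a3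
    have a4 := a3.trans_lt (mul_lt_mul_of_pos_left hj (by positivity))
    rw [← pow_add, pow_lt_pow_iff_right₀ n1] at a4
    omega
  have a2 : ∀ j, ν * a (k + j) ≤ a (k + j + 1) ∧ (ν ^ 15) ^ j ≤ a (k + j + 1) := fun j => by
    induction j with
    | zero => exact ⟨k2, by simpa using a1 _ (by omega)⟩
    | succ j ih =>
      have a3 : ν ^ 15 * a (k + j + 1) ≤ a (k + j + 2) := le_of_mul_le_mul_left (by
        rw [← mul_assoc, ← pow_succ']
        exact (not_le.1 fun h4 => (hk (k + j) (by omega)).2 ⟨ih.1, h4⟩).le) n0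
      refine ⟨le_trans (mul_le_mul_of_nonneg_right (le_self_pow₀ n1.le (by decide))
        (zero_le_one.trans (a1 _ (by omega)))) a3, le_trans ?_ a3⟩
      rw [pow_succ']
      exact mul_le_mul_of_nonneg_left ih.2 (by positivity)
  have a3 := (a2 (24 * k + 26)).2.trans (hk _ (by omega)).1.2
  have a4 : 2 * ((ν ^ 16) ^ (k + (24 * k + 26) + 1)) ^ (9 / 10 : ℝ) ≤
      ν ^ (1 + (16 * (k + (24 * k + 26) + 1) : ℕ) * (9 / 10) : ℝ) := by
    rw [Real.rpow_add n0, Real.rpow_one, Real.rpow_natCast_mul n0.le, pow_mul]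
    exact mul_le_mul_of_nonneg_right hν (by positivity)
  have a5 := a3.trans a4
  rw [← pow_mul, ← Real.rpow_natCast, Real.rpow_le_rpow_left_iff n1] at a5
  push_cast at a5
  linarith [k.cast_nonneg (α := ℝ)]
/-- least natural width with probability `≥ 1 / 2` (`Gd` is empty for negative width) -/
theorem Law.scale (hG : Law G) (f : Fr) (n : ℝ) : ∃ a : ℝ, ∀ b : ℝ, 1 ≤ b →
    1 / 2 ≤ Pr G (f.Gd 0 0 n b) → 1 / 2 ≤ Pr G (f.Gd 0 0 n a) ∧
      Pr G (f.Gd 0 0 n (a - 1)) < 1 / 2 ∧ a ≤ 2 * b := by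
  classical
  by_cases h : ∃ k : ℕ, 1 / 2 ≤ Pr G (f.Gd 0 0 n k)
  · refine ⟨Nat.find h, fun b hb h1 => ⟨Nat.find_spec h, ?_, ?_⟩⟩
    · rcases Nat.eq_zero_or_eq_succ_pred (Nat.find h) with h2 | h2
      · have : f.Gd 0 0 n ((Nat.find h : ℝ) - 1) = ∅ := by
          refine eq_empty_of_forall_notMem ?_
          rintro t ⟨x, hx, -⟩
          have h3 := (abs_nonneg _).trans hx.1
          rw [h2] at h3
          norm_num at h3
        rw [this, Pr, measureReal_empty]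
        norm_num
      · have h3 := Nat.find_min h (show (Nat.find h).pred < Nat.find h by omega)
        rw [h2, Nat.cast_succ, add_sub_cancel_right]
        exact not_le.1 h3
    · have h2 : (Nat.find h : ℝ) ≤ ⌈b⌉₊ := by
        exact_mod_cast Nat.find_min' h (h1.trans (hG.mono (f.Gd_mono _ _ _ (Nat.le_ceil b))))
      linarith [Nat.ceil_lt_add_one (zero_le_one.trans hb)]
  · exact ⟨0, fun b _ h1 => absurd ⟨_, h1.trans (hG.mono (f.Gd_mono _ _ _ (Nat.le_ceil b)))⟩ h⟩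
theorem no_cor_pow {M : ℝ} (hM : 0 ≤ M) : ∀ᶠ n : ℝ in atTop, 2 * (M * n) ^ (9 / 10 : ℝ) ≤ n := by
  filter_upwards [(tendsto_rpow_atTop (show (0 : ℝ) < 1 / 10 by norm_num)).eventually_ge_atTop
    (2 * M ^ (9 / 10 : ℝ)), eventually_gt_atTop 0] with n h1 h2
  have e : n = n ^ (1 / 10 : ℝ) * n ^ (9 / 10 : ℝ) := by
    rw [← Real.rpow_add h2]
    norm_num
  rw [Real.mul_rpow hM h2.le, ← mul_assoc]
  exact (mul_le_mul_of_nonneg_right h1 (Real.rpow_nonneg h2.le _)).trans e.ge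

theorem no_cor (hG : Law G) (hS : Scal G) (f : Fr) : ¬Cor G f := by
  intro hc
  have hf := hc.ok
  obtain ⟨ε, e0, e1, hpos⟩ := hc.pos hG
  obtain ⟨ν, L, hL, hν, hnum⟩ := num e0 e1
  obtain ⟨D, hD, hU⟩ := hG.U hf
  choose a ha using hG.scale f
  have L1 : (1 : ℝ) ≤ L := by exact_mod_cast hL
  have ν0 : (0 : ℝ) ≤ ν := Nat.cast_nonneg ν
  have ν8 : 8 * (L : ℝ) ≤ ν := hν.trans (mul_le_of_le_one_left ν0 e1)
  obtain ⟨M, hM⟩ : ∃ M : ℕ, (M : ℝ) = (ν : ℝ) ^ 16 := ⟨ν ^ 16, by push_cast; rfl⟩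
  have νM : (ν : ℝ) ≤ M := by
    rw [hM]
    exact le_self_pow₀ (by linarith) (by norm_num)
  have M8 : (8 : ℝ) ≤ M := by linarith
  have hN : Tendsto (fun k : ℕ => (M : ℝ) ^ k) atTop atTop :=
    tendsto_pow_atTop_atTop_of_one_lt (by linarith)
  have h1 : ∀ᶠ n : ℝ in atTop, 1 / 2 ≤ Pr G (f.Gd 0 0 n (a n)) ∧
      Pr G (f.Gd 0 0 n (a n - 1)) < 1 / 2 ∧ a n ≤ 2 * n ^ (9 / 10 : ℝ) ∧ n ≤ a n ^ 3 := by
    filter_upwards [hc.up hG, hc.low2 hG hS, eventually_ge_atTop 1] with n u1 u2 u3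
    obtain ⟨b1, b2, b3⟩ := ha n _ (Real.one_le_rpow u3 (by norm_num)) u1
    exact ⟨b1, b2, b3, u2 _ b1⟩
  have hA : Tendsto a atTop atTop := by
    refine tendsto_atTop.2 fun b => ?_
    filter_upwards [h1, eventually_gt_atTop (|b| ^ 3)] with n u1 u2
    by_contra u3
    have u4 : a n ^ 3 ≤ |b| ^ 3 :=
      (Odd.pow_le_pow (by decide)).2 ((not_le.1 u3).le.trans (le_abs_self b))
    linarith [u1.2.2.2]
  have hq : ((1 : ℝ) / 2) ^ L ≤ (3 / 4) ^ L := pow_le_pow_left₀ (by norm_num) (by norm_num) L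
  rw [← hM] at hnum
  have p0 : (0 : ℝ) ≤ (3 / 4) ^ L := by positivity
  have hP := hpos M L (3 * M) hL (by linarith) (by
    refine le_trans ?_ hnum
    have : 2 * (3 * (M : ℝ)) / ε + 3 ≤ 6 * M / ε + 5 := by
      rw [show 2 * (3 * (M : ℝ)) = 6 * M by ring]
      linarith
    gcongr)
  have hF := hc.floor hG (W := M) (δ := ε / (16 * L)) (η := 1 / (16 * (M + 1))) (B := D * 2)
    (by linarith) (by positivity) (by positivity) (by linarith)
  have hR := record (ν := ν) (a := fun k => a ((M : ℝ) ^ k)) (by linarith)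
    (by rw [← hM]; exact (hN.eventually h1).mono fun k h => h.2.2.2)
    (by rw [← hM]; exact (hN.eventually h1).mono fun k h => h.2.2.1)
  have s1 := tendsto_add_atTop_nat 1
  have s2 := tendsto_add_atTop_nat 2
  have hall := (hN.eventually (h1.and (hA.eventually_ge_atTop 1))).and
    (((hN.comp s1).eventually (h1.and ((hA.eventually (hP.and (hF.and
      ((eventually_ge_atTop 1).and (eventually_ge_atTop (f.C / ε)))))).and
      ((no_cor_pow (Nat.cast_nonneg M)).and (eventually_gt_atTop f.C))))).and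
      ((hN.comp s2).eventually (h1.and (hA.eventually_ge_atTop f.C))))
  obtain ⟨k, ⟨r1, r2⟩, ⟨⟨x1, -⟩, x2⟩, ⟨⟨y1, y2, -, y3⟩, ⟨y4, y5, y6, y7⟩, y8, y9⟩,
    ⟨z1, -, z2, -⟩, z3⟩ := (hR.and_eventually hall).exists
  simp only [Function.comp_apply] at y1 y2 y3 y4 y5 y6 y7 y8 y9 z1 z2 z3
  have q1 : (M : ℝ) ^ (k + 1) = M * M ^ k := pow_succ' _ _
  have q2 : (M : ℝ) ^ (k + 2) = M * M ^ (k + 1) := pow_succ' _ _
  rw [← hM] at r2
  rw [q2] at r2 z1 z2 z3
  have l0 : (0 : ℝ) < M ^ k := by positivity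
  generalize (M : ℝ) ^ k = ℓ at *
  generalize (M : ℝ) ^ (k + 1) = n at *
  generalize a (M * n) = A at *
  generalize a n = b at *
  generalize a ℓ = b' at *
  have A0 : 0 ≤ A := by linarith [hf.C1]
  have AM : A ≤ M * b := le_trans (le_mul_of_one_le_left A0 (by linarith)) r2
  have w1 : 8 * L * b' ≤ ε * b := by
    calc 8 * L * b' ≤ ε * ν * b' := mul_le_mul_of_nonneg_right hν (by linarith)
      _ ≤ ε * b := by rw [mul_assoc]; exact mul_le_mul_of_nonneg_left r1 e0.le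
  have w2 : 8 * L * A ≤ M * (ε * b) := by
    calc 8 * L * A ≤ ε * ν * A := mul_le_mul_of_nonneg_right hν A0
      _ ≤ ε * (M * b) := by rw [mul_assoc]; exact mul_le_mul_of_nonneg_left r2 e0.le
      _ = M * (ε * b) := by ring
  have b0 : 0 < b := by linarith
  have u0 : UB G f 0 (D * 2 * b) := by
    have := hU n b y6 y1 0
    rw [Nat.cast_zero, zero_mul] at this
    refine this.mono (by positivity) ?_
    gcongr
    norm_num
  have u1 : UB G f n (D * 2 * b) := by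
    have := hU n b y6 y1 1
    rwa [Nat.cast_one, one_mul, one_add_one_eq_two] at this
  have hw := y4 ℓ b' l0 x2 w1 (q1 ▸ y3) x1 (q1 ▸ y2)
  rw [← q1] at hw
  have key := hG.fin_prob hf (n := n) (A := A) (r := ε * b) (δ := ε / (16 * L) * b)
    (η := 1 / (16 * (M + 1))) hL (M := M) (by exact_mod_cast ν8.trans νM)
    (by rwa [div_le_iff₀' e0] at y7) z3 y9 (z2.trans y8) (by positivity) w2
    (le_of_eq (by field_simp))
    (fun α => ⟨(hG.mono (f.Bad_mono α 0 0 AM le_rfl)).trans (y5 0 u0 α 0),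
      (hG.mono (f.Bad_mono α 0 n AM le_rfl)).trans (y5 n u1 α 0)⟩)
    (fun α β => (hG.mono (f.Lc_mono α β n _ (by nlinarith))).trans (hw α β))
  have v1 : 4 * A / (ε * b) ≤ 6 * M / ε := by
    rw [div_le_div_iff₀ (by positivity) e0]
    nlinarith [mul_le_mul_of_nonneg_left AM e0.le, mul_pos e0 b0]
  have v2 : 2 * ((M : ℝ) + 1) * (1 / (16 * (M + 1))) = 1 / 8 := by
    field_simp
    norm_num
  have v3 : M * (4 * A / (ε * b) + 5) * (3 / 4) ^ L ≤ M * (6 * M / ε + 5) * (3 / 4 : ℝ) ^ L := by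
    gcongr
  linarith
theorem diff {κ r : ℝ} (hκ : 0 < κ) (hr : 0 < r) {μ : ℝ × ℝ → ℝ}
    (hμ : ∀ v : ℝ × ℝ, ∀ᵐ t ∂iidLaw (gammaMeasure κ r),
      Tendsto (fun s : ℝ => passageTime t (0, 0) (⌊s * v.1⌋, ⌊s * v.2⌋) / s) atTop (𝓝 (μ v)))
    (v : ℝ × ℝ) (hv : v ≠ 0) : DifferentiableAt ℝ μ v := by
  by_contra h
  obtain ⟨h1, h2, h3⟩ := (gamma_Law hκ hr).mu hμ
  obtain ⟨f, hf⟩ := cor_of h1 h2 h3 hv h
  exact no_cor (gamma_Law hκ hr) (gamma_Scal hκ hr) f hf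

end

end Crest.Agent.R151.B
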