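import Crest.Agent.R151.BDefs

set_option autoImplicit false

open MeasureTheory ProbabilityTheory Set Filter Topology
open Crest.ProbabilityR.FirstPassage

namespace Crest.Agent.R151.B

noncomputable section

/-! lattice geometry and counting -/

theorem n1_nonneg (x : Z2) : 0 ≤ n1 x := add_nonneg (abs_nonneg _) (abs_nonneg _)
theorem n1_zero : n1 0 = 0 := by
  simp [n1]
theorem n1_neg (x : Z2) : n1 (-x) = n1 x := by
  simp [n1]
theorem n1_sub_comm (x y : Z2) : n1 (x - y) = n1 (y - x) := by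
  rw [← n1_neg, neg_sub]
theorem n1_add (x y : Z2) : n1 (x + y) ≤ n1 x + n1 y := by
  simp only [n1, Prod.fst_add, Prod.snd_add, Int.cast_add]
  linarith [abs_add_le (x.1 : ℝ) y.1, abs_add_le (x.2 : ℝ) y.2]
theorem n1_tri (x y z : Z2) : n1 (z - x) ≤ n1 (y - x) + n1 (z - y) := by
  have := n1_add (y - x) (z - y)
  rwa [show y - x + (z - y) = z - x by abel] at this
theorem n1_natAbs (x : Z2) : n1 x = ((x.1.natAbs + x.2.natAbs : ℕ) : ℝ) := by
  simp [n1]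
theorem n1_nat (x : Z2) : ∃ N : ℕ, n1 x = N ∧ (N = 0 → x = 0) := by
  refine ⟨_, n1_natAbs x, fun h => Prod.ext ?_ ?_⟩
  · change x.1 = 0
    omega
  · change x.2 = 0
    omega
theorem adj_iff {x y : Z2} : squareLattice.Adj x y ↔ n1 (y - x) = 1 := by
  rw [n1_natAbs, Nat.cast_eq_one, squareLattice, SimpleGraph.fromRel_adj, Ne, Prod.ext_iff,
    Prod.fst_sub, Prod.snd_sub]
  omega
theorem adj_add {x y : Z2} (z : Z2) : squareLattice.Adj (x + z) (y + z) ↔ squareLattice.Adj x y := by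
  rw [adj_iff, adj_iff, add_sub_add_right_eq_sub]
theorem walk_n1 {x y : Z2} (w : Wk x y) : n1 (y - x) ≤ w.length := by
  induction w with
  | nil => simp [n1_zero]
  | @cons a b c h w ih =>
    have := n1_tri a b c
    rw [adj_iff.1 h] at this
    rw [SimpleGraph.Walk.length_cons]
    push_cast
    linarith
theorem stair_step (x y : Z2) (N : ℕ) (h : n1 (y - x) = (N + 1 : ℕ)) :
    ∃ y', squareLattice.Adj y y' ∧ n1 (y' - x) = N := by
  simp only [adj_iff, n1_natAbs, Nat.cast_eq_one, Nat.cast_inj, Prod.fst_sub, Prod.snd_sub] at h ⊢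
  rcases lt_trichotomy y.1 x.1 with h1 | h1 | h1
  · exact ⟨(y.1 + 1, y.2), by dsimp only; omega, by dsimp only; omega⟩
  · rcases lt_or_ge y.2 x.2 with h2 | h2
    · exact ⟨(y.1, y.2 + 1), by dsimp only; omega, by dsimp only; omega⟩
    · exact ⟨(y.1, y.2 - 1), by dsimp only; omega, by dsimp only; omega⟩
  · exact ⟨(y.1 - 1, y.2), by dsimp only; omega, by dsimp only; omega⟩
theorem stair_aux (x : Z2) (N : ℕ) : ∀ y, n1 (y - x) = N → ∃ w : Wk y x, w.IsPath ∧ w.length = N ∧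
    ∀ u ∈ w.support, n1 (u - x) ≤ N := by
  induction N with
  | zero =>
    intro y hy
    obtain ⟨M, h1, h2⟩ := n1_nat (y - x)
    have h3 : y = x := sub_eq_zero.1 (h2 (by exact_mod_cast h1.symm.trans hy))
    subst h3
    exact ⟨SimpleGraph.Walk.nil, SimpleGraph.Walk.IsPath.nil, rfl, by simp [n1_zero]⟩
  | succ N ih =>
    intro y hy
    obtain ⟨y', h1, h2⟩ := stair_step x y N hy
    obtain ⟨w, a1, a2, a3⟩ := ih y' h2
    push_cast at hy ⊢
    refine ⟨SimpleGraph.Walk.cons h1 w, (SimpleGraph.Walk.cons_isPath_iff _ _).2 ⟨a1, fun h => ?_⟩,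
      by rw [SimpleGraph.Walk.length_cons, a2], fun u hu => ?_⟩
    · linarith [a3 y h]
    · rw [SimpleGraph.Walk.support_cons, List.mem_cons] at hu
      rcases hu with rfl | hu
      · exact hy.le
      · linarith [a3 u hu]
/-- staircase path -/
theorem stair (x y : Z2) : ∃ w : Wk x y, w.IsPath ∧ (w.length : ℝ) = n1 (y - x) ∧
    ∀ u ∈ w.support, n1 (u - x) ≤ n1 (y - x) := by
  obtain ⟨N, hN, -⟩ := n1_nat (y - x)
  obtain ⟨w, a1, a2, a3⟩ := stair_aux x N y hN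
  refine ⟨w.reverse, a1.reverse, by rw [SimpleGraph.Walk.length_reverse, a2, hN], fun u hu => ?_⟩
  rw [SimpleGraph.Walk.support_reverse, List.mem_reverse] at hu
  exact hN ▸ a3 u hu
theorem wk_nonempty (x y : Z2) : Nonempty (Wk x y) := ⟨(stair x y).choose⟩
theorem wk_countable (x y : Z2) : Countable (Wk x y) :=
  SimpleGraph.Walk.support_injective.countable
theorem ball_fin_card (a b : ℤ) (h : a ≤ b + 1) : ((Finset.Icc a b).card : ℝ) = b + 1 - a := by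
  have := Int.card_Icc_of_le a b h
  exact_mod_cast this
theorem ball_fin (z : Z2) {ρ : ℝ} (h : 0 ≤ ρ) :
    ∃ F : Finset Z2, (∀ y, y ∈ F ↔ n1 (y - z) ≤ ρ) ∧ (F.card : ℝ) ≤ (2 * ρ + 1) ^ 2 := by
  classical
  have hM : 0 ≤ ⌊ρ⌋ := Int.floor_nonneg.2 h
  refine ⟨(Finset.Icc (z.1 - ⌊ρ⌋) (z.1 + ⌊ρ⌋) ×ˢ Finset.Icc (z.2 - ⌊ρ⌋) (z.2 + ⌊ρ⌋)).filter
    fun y => n1 (y - z) ≤ ρ, fun y => ⟨fun hy => (Finset.mem_filter.1 hy).2, fun hy => ?_⟩, ?_⟩
  · refine Finset.mem_filter.2 ⟨?_, hy⟩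
    have e : n1 (y - z) = |((y.1 - z.1 : ℤ) : ℝ)| + |((y.2 - z.2 : ℤ) : ℝ)| := rfl
    rw [e, ← Int.cast_abs, ← Int.cast_abs] at hy
    have a0 : (0 : ℝ) ≤ (|y.1 - z.1| : ℤ) := by exact_mod_cast abs_nonneg _
    have b0 : (0 : ℝ) ≤ (|y.2 - z.2| : ℤ) := by exact_mod_cast abs_nonneg _
    have a1 := abs_le.1 (Int.le_floor.2 (by linarith : ((|y.1 - z.1| : ℤ) : ℝ) ≤ ρ))
    have b1 := abs_le.1 (Int.le_floor.2 (by linarith : ((|y.2 - z.2| : ℤ) : ℝ) ≤ ρ))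
    simp only [Finset.mem_product, Finset.mem_Icc]
    omega
  · refine (Nat.cast_le.2 (Finset.card_filter_le _ _)).trans ?_
    rw [Finset.card_product, Nat.cast_mul, ball_fin_card _ _ (by omega),
      ball_fin_card _ _ (by omega), sq]
    have a1 := Int.floor_le ρ
    have a2 : (0 : ℝ) ≤ ⌊ρ⌋ := by exact_mod_cast hM
    push_cast
    exact mul_le_mul (by linarith) (by linarith) (by linarith) (by linarith)
/-- a net of mesh `2 g` in a ball (multiples of `g` around `z`; net points may leave the ball) -/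
theorem net_fin (z : Z2) {ρ : ℝ} {g : ℕ} (hg : 1 ≤ g) (h : (g : ℝ) ≤ ρ) :
    ∃ F : Finset Z2, (∀ y, n1 (y - z) ≤ ρ → ∃ u ∈ F, n1 (y - u) ≤ 2 * g) ∧
      (∀ u ∈ F, n1 (u - z) ≤ 4 * ρ) ∧ (F.card : ℝ) ≤ (5 * ρ / g) ^ 2 := by
  classical
  have g0 : (0 : ℝ) < g := by exact_mod_cast hg
  have g1 : (0 : ℤ) < g := by exact_mod_cast hg
  set M := ⌊ρ / g⌋ with hM
  have M1 : 1 ≤ M := Int.le_floor.2 (by rw [Int.cast_one, le_div_iff₀ g0]; linarith)
  have M2 : (M : ℝ) ≤ ρ / g := Int.floor_le _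
  have M3 : (M : ℝ) * g ≤ ρ := (le_div_iff₀ g0).1 M2
  have key : ∀ d : ℤ, |(d : ℝ)| ≤ ρ → ∃ i ∈ Finset.Icc (-M - 1) M, |((d - g * i : ℤ) : ℝ)| ≤ g := by
    intro d hd
    have a1 := Int.mul_ediv_add_emod d g
    have a2 := Int.emod_nonneg d g1.ne'
    have a3 := Int.emod_lt_of_pos d g1
    have b1 : (g : ℝ) * (d / g : ℤ) + (d % g : ℤ) = d := by exact_mod_cast a1
    have b2 : (0 : ℝ) ≤ (d % g : ℤ) := by exact_mod_cast a2
    have b3 : ((d % g : ℤ) : ℝ) < g := by exact_mod_cast a3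
    obtain ⟨c1, c2⟩ := abs_le.1 hd
    have e1 : d / g ≤ M := Int.le_floor.2 (by rw [le_div_iff₀ g0]; linarith)
    have e2 : -(d / g) - 1 ≤ M := Int.le_floor.2 (by
      rw [le_div_iff₀ g0, Int.cast_sub, Int.cast_neg, Int.cast_one]; linarith)
    refine ⟨d / g, Finset.mem_Icc.2 ⟨by omega, e1⟩, ?_⟩
    rw [Int.cast_sub, Int.cast_mul, Int.cast_natCast]
    exact abs_le.2 ⟨by linarith, by linarith⟩
  refine ⟨(Finset.Icc (-M - 1) M ×ˢ Finset.Icc (-M - 1) M).image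
    fun k => (z.1 + g * k.1, z.2 + g * k.2), fun y hy => ?_, fun u hu => ?_, ?_⟩
  · have e : n1 (y - z) = |((y.1 - z.1 : ℤ) : ℝ)| + |((y.2 - z.2 : ℤ) : ℝ)| := rfl
    rw [e] at hy
    obtain ⟨i, hi, hi'⟩ := key (y.1 - z.1) (by linarith [abs_nonneg ((y.2 - z.2 : ℤ) : ℝ)])
    obtain ⟨j, hj, hj'⟩ := key (y.2 - z.2) (by linarith [abs_nonneg ((y.1 - z.1 : ℤ) : ℝ)])
    refine ⟨_, Finset.mem_image.2 ⟨(i, j), Finset.mem_product.2 ⟨hi, hj⟩, rfl⟩, ?_⟩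
    change |((y.1 - (z.1 + g * i) : ℤ) : ℝ)| + |((y.2 - (z.2 + g * j) : ℤ) : ℝ)| ≤ 2 * g
    rw [← sub_sub, ← sub_sub]
    linarith
  · obtain ⟨k, hk, rfl⟩ := Finset.mem_image.1 hu
    have hb : ∀ i ∈ Finset.Icc (-M - 1) M, |((g * i : ℤ) : ℝ)| ≤ 2 * ρ := by
      intro i hi
      obtain ⟨a1, a2⟩ := Finset.mem_Icc.1 hi
      have b1 : (-M - 1 : ℝ) ≤ i := by exact_mod_cast a1
      have b2 : (i : ℝ) ≤ M := by exact_mod_cast a2
      have b3 := mul_le_mul_of_nonneg_left b1 g0.le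
      have b4 := mul_le_mul_of_nonneg_left b2 g0.le
      rw [Int.cast_mul, Int.cast_natCast]
      exact abs_le.2 ⟨by linarith, by linarith⟩
    change |((z.1 + g * k.1 - z.1 : ℤ) : ℝ)| + |((z.2 + g * k.2 - z.2 : ℤ) : ℝ)| ≤ 4 * ρ
    rw [add_sub_cancel_left, add_sub_cancel_left]
    linarith [hb _ (Finset.mem_product.1 hk).1, hb _ (Finset.mem_product.1 hk).2]
  · refine (Nat.cast_le.2 Finset.card_image_le).trans ?_
    rw [Finset.card_product, Nat.cast_mul, ball_fin_card _ _ (by omega), sq, mul_div_assoc]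
    have a1 : (1 : ℝ) ≤ M := by exact_mod_cast M1
    push_cast
    exact mul_le_mul (by linarith) (by linarith) (by linarith) (by linarith)
theorem edges_fin (F : Finset Z2) : ∃ E : Finset (Sym2 Z2),
    (∀ u ∈ F, ∀ v, squareLattice.Adj u v → s(u, v) ∈ E) ∧ E.card ≤ 4 * F.card := by
  classical
  refine ⟨F.biUnion fun u => ({(1, 0), (-1, 0), (0, 1), (0, -1)} : Finset Z2).image
    fun d => s(u, u + d), fun u hu v huv => ?_, ?_⟩
  · refine Finset.mem_biUnion.2 ⟨u, hu, Finset.mem_image.2 ⟨v - u, ?_, by rw [add_sub_cancel]⟩⟩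
    have e : |(((v - u).1 : ℤ) : ℝ)| + |(((v - u).2 : ℤ) : ℝ)| = 1 := adj_iff.1 huv
    have e' : |(v - u).1| + |(v - u).2| = 1 := by exact_mod_cast e
    generalize v - u = d at e'
    obtain ⟨a, b⟩ := d
    simp only [Finset.mem_insert, Finset.mem_singleton, Prod.mk.injEq]
    simp only at e'
    rcases abs_cases a with h1 | h1 <;> rcases abs_cases b with h2 | h2 <;> omega
  · rw [mul_comm]
    exact Finset.card_biUnion_le_card_mul _ _ _ fun u _ =>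
      Finset.card_image_le.trans Finset.card_le_four
theorem Fr.OK.adj {f : Fr} (hf : f.OK) {x y : Z2} (h : squareLattice.Adj x y) :
    |f.p y - f.p x| ≤ f.C ∧ |f.q y - f.q x| ≤ f.C := by
  have := hf.up (y - x)
  rwa [adj_iff.1 h, mul_one, map_sub, map_sub] at this
theorem Fr.OK.flip {f : Fr} (hf : f.OK) : f.flip.OK := by
  refine ⟨hf.C1, fun x => ?_, fun x => ?_, fun a b => ?_⟩
  · simpa [Fr.flip] using hf.up x
  · simpa [Fr.flip] using hf.dn x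
  · obtain ⟨x, h1, h2⟩ := hf.den a (-b)
    refine ⟨x, h1, ?_⟩
    change |-f.q x - b| ≤ f.C
    rwa [show -f.q x - b = -(f.q x - -b) by ring, abs_neg]
/-- anisotropic boxes: fibres of `x ↦ (⌊p x - a⌋, ⌊q x - b⌋)` have `ℓ¹` diameter `≤ 2 C` -/
theorem Fr.OK.box {f : Fr} (hf : f.OK) : ∃ D : ℝ, 1 ≤ D ∧ ∀ a b H K : ℝ, 1 ≤ H → 1 ≤ K →
    ∃ F : Finset Z2, (∀ x, |f.p x - a| ≤ H → |f.q x - b| ≤ K → x ∈ F) ∧ (F.card : ℝ) ≤ D * H * K := by
  classical
  have C1 := hf.C1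
  refine ⟨16 * (2 * (2 * f.C) + 1) ^ 2, by nlinarith, fun a b H K hH hK => ?_⟩
  choose B hB1 hB2 using fun z : Z2 => ball_fin z (ρ := 2 * f.C) (by linarith)
  have hex : ∀ k : ℤ × ℤ, ∃ z : Z2, ∀ x, ⌊f.p x - a⌋ = k.1 → ⌊f.q x - b⌋ = k.2 → x ∈ B z := by
    intro k
    by_cases h : ∃ z, ⌊f.p z - a⌋ = k.1 ∧ ⌊f.q z - b⌋ = k.2
    · obtain ⟨z, h1, h2⟩ := h
      refine ⟨z, fun x h3 h4 => (hB1 z x).2 ((hf.dn _).trans ?_)⟩
      have a1 := Int.abs_sub_lt_one_of_floor_eq_floor (h3.trans h1.symm)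
      have a2 := Int.abs_sub_lt_one_of_floor_eq_floor (h4.trans h2.symm)
      rw [sub_sub_sub_cancel_right] at a1 a2
      rw [map_sub, map_sub, mul_comm 2]
      exact mul_le_mul_of_nonneg_left (by linarith) (by linarith)
    · exact ⟨0, fun x h1 h2 => (h ⟨x, h1, h2⟩).elim⟩
  choose z hz using hex
  have hc : ∀ H : ℝ, 1 ≤ H → ((Finset.Icc ⌊-H⌋ ⌊H⌋).card : ℝ) ≤ 4 * H := by
    intro H hH
    have a0 : ⌊-H⌋ ≤ ⌊H⌋ := Int.floor_mono (by linarith)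
    rw [ball_fin_card _ _ (by omega)]
    linarith [Int.floor_le H, Int.lt_floor_add_one (-H)]
  refine ⟨(Finset.Icc ⌊-H⌋ ⌊H⌋ ×ˢ Finset.Icc ⌊-K⌋ ⌊K⌋).biUnion fun k => B (z k),
    fun x h1 h2 => Finset.mem_biUnion.2 ⟨(⌊f.p x - a⌋, ⌊f.q x - b⌋), Finset.mem_product.2
      ⟨Finset.mem_Icc.2 ⟨Int.floor_mono (abs_le.1 h1).1, Int.floor_mono (abs_le.1 h1).2⟩,
        Finset.mem_Icc.2 ⟨Int.floor_mono (abs_le.1 h2).1, Int.floor_mono (abs_le.1 h2).2⟩⟩,
      hz _ x rfl rfl⟩, ?_⟩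
  refine (Nat.cast_le.2 Finset.card_biUnion_le).trans ?_
  rw [Nat.cast_sum]
  refine (Finset.sum_le_card_nsmul _ _ _ fun k _ => hB2 (z k)).trans ?_
  rw [nsmul_eq_mul, Finset.card_product, Nat.cast_mul]
  have a1 := mul_le_mul (hc H hH) (hc K hK) (Nat.cast_nonneg _) (by linarith)
  have a2 := mul_le_mul_of_nonneg_right a1 (sq_nonneg (2 * (2 * f.C) + 1))
  linarith

end

end Crest.Agent.R151.B
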