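import Crest.Agent.R151.B1a

set_option autoImplicit false

open MeasureTheory ProbabilityTheory Set Filter Topology
open Crest.ProbabilityR.FirstPassage

namespace Crest.Agent.R151.B

noncomputable section

/-! cutting and pasting walks -/

variable {S S' : Set Z2} {t : Env} {x y z : Z2} {c c' : ℝ}

theorem Rch.mono (h : Rch S t x y c) (hS : S ⊆ S') : Rch S' t x y c := by
  obtain ⟨w, hw, e⟩ := h
  exact ⟨w, fun z hz => hS (hw z hz), e⟩
theorem Rch.mem (h : Rch S t x y c) : x ∈ S ∧ y ∈ S := by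
  obtain ⟨w, hw, -⟩ := h
  exact ⟨hw x w.start_mem_support, hw y w.end_mem_support⟩
theorem Rch.refl (t : Env) (h : x ∈ S) : Rch S t x x 0 := by
  refine ⟨SimpleGraph.Walk.nil, fun z hz => ?_, by simp [walkCost]⟩
  rw [SimpleGraph.Walk.mem_support_nil_iff.1 hz]
  exact h
theorem Rch.trans (h : Rch S t x y c) (h' : Rch S t y z c') : Rch S t x z (c + c') := by
  obtain ⟨w, hw, rfl⟩ := h
  obtain ⟨w', hw', rfl⟩ := h'
  refine ⟨w.append w', fun u hu => ?_, by simp [walkCost]⟩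
  rcases (SimpleGraph.Walk.mem_support_append_iff w w').1 hu with h | h
  exacts [hw u h, hw' u h]
theorem Rch.symm (h : Rch S t x y c) : Rch S t y x c := by
  obtain ⟨w, hw, rfl⟩ := h
  refine ⟨w.reverse, fun u hu => hw u ?_, by simp [walkCost]⟩
  simpa using hu
theorem Rch.nonneg (h : Rch S t x y c) (ht : NN t) : 0 ≤ c := by
  obtain ⟨w, -, rfl⟩ := h
  refine List.sum_nonneg fun a ha => ?_
  obtain ⟨e, -, rfl⟩ := List.mem_map.1 ha
  exact ht e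
/-- a walk all of whose cut points lie in `S'` lies in `S'` (`Walk.takeUntil`, `dropUntil`) -/
theorem Rch.confine (h : Rch S t x y c)
    (hz : ∀ z c₁ c₂, Rch S t x z c₁ → Rch S t z y c₂ → c₁ + c₂ = c → z ∈ S') :
    Rch (S ∩ S') t x y c := by
  obtain ⟨w, hw, e⟩ := h
  refine ⟨w, fun u hu => ⟨hw u hu, hz u _ _
    ⟨w.takeUntil u hu, fun v hv => hw v (w.support_takeUntil_subset_support hu hv), rfl⟩
    ⟨w.dropUntil u hu, fun v hv => hw v (w.support_dropUntil_subset_support hu hv), rfl⟩ ?_⟩, e⟩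
  rw [← e]
  conv_rhs => rw [← w.take_spec hu]
  simp only [walkCost, SimpleGraph.Walk.edges_append, List.map_append, List.sum_append]
theorem Rch.ivt_cons {u v : Z2} (hu : u ∈ S) (h : squareLattice.Adj u v) (h' : Rch S t v y c) :
    Rch S t u y (t s(u, v) + c) := by
  obtain ⟨w, hw, rfl⟩ := h'
  refine ⟨SimpleGraph.Walk.cons h w, ?_, ?_⟩
  · intro z hz
    rw [SimpleGraph.Walk.support_cons, List.mem_cons] at hz
    rcases hz with rfl | hz
    · exact hu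
    · exact hw z hz
  · simp [walkCost]
theorem Rch.ivt_nil {u : Z2} (t : Env) (hu : u ∈ S) : Rch S t u u 0 :=
  ⟨SimpleGraph.Walk.nil, by simpa using hu, by simp [walkCost]⟩
theorem Rch.ivt_aux {φ : Z2 → ℝ} {C α : ℝ}
    (hφ : ∀ u v, squareLattice.Adj u v → |φ v - φ u| ≤ C) (w : Wk x y)
    (hw : ∀ z ∈ w.support, z ∈ S) (hx : φ x ≤ α + C)
    (hy : α ≤ φ y) : ∃ z c₁ c₂, Rch (S ∩ {u | φ u ≤ α + C}) t x z c₁ ∧ Rch S t z y c₂ ∧
      c₁ + c₂ = walkCost t w ∧ α ≤ φ z ∧ φ z ≤ α + C := by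
  induction w with
  | @nil u =>
    have hu : u ∈ S := hw u (by simp)
    exact ⟨u, 0, 0, Rch.ivt_nil t ⟨hu, hx⟩, Rch.ivt_nil t hu, by simp [walkCost], hy, hx⟩
  | @cons u v y' h w ih =>
    have hu : u ∈ S := hw u (by simp)
    by_cases hα : α ≤ φ u
    · exact ⟨u, 0, _, Rch.ivt_nil t ⟨hu, hx⟩, ⟨_, hw, rfl⟩, zero_add _, hα, hx⟩
    · have h1 := (abs_le.1 (hφ u v h)).2
      obtain ⟨z, c₁, c₂, r1, r2, e, l1, l2⟩ := ih (fun z hz => hw z (by simp [hz]))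
        (by linarith [not_le.1 hα]) hy
      refine ⟨z, _, c₂, Rch.ivt_cons ⟨hu, hx⟩ h r1, r2, ?_, l1, l2⟩
      have : walkCost t (SimpleGraph.Walk.cons h w) = t s(u, v) + walkCost t w := by
        simp [walkCost]
      rw [this, ← e]; ring
/-- cut at the first point with `α ≤ φ` (induction on the walk) -/
theorem Rch.ivt {φ : Z2 → ℝ} {C α : ℝ} (hC : 0 ≤ C)
    (hφ : ∀ u v, squareLattice.Adj u v → |φ v - φ u| ≤ C) (h : Rch S t x y c) (hx : φ x ≤ α)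
    (hy : α ≤ φ y) : ∃ z c₁ c₂, Rch (S ∩ {u | φ u ≤ α + C}) t x z c₁ ∧ Rch S t z y c₂ ∧
      c₁ + c₂ = c ∧ α ≤ φ z ∧ φ z ≤ α + C := by
  obtain ⟨w, hw, rfl⟩ := h
  exact Rch.ivt_aux hφ w hw (by linarith) hy
theorem Rch.slab_aux {φ : Z2 → ℝ} {C β : ℝ}
    (hφ : ∀ u v, squareLattice.Adj u v → |φ v - φ u| ≤ C) (w : Wk x y)
    (hw : ∀ z ∈ w.support, z ∈ S) (hx : φ x < β)
    (hy : β ≤ φ y) : ∃ z c₁ c₂, Rch (S ∩ {u | φ u < β}) t x z c₁ ∧ Rch S t z y c₂ ∧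
      c₁ + c₂ = walkCost t w ∧ β - C ≤ φ z := by
  induction w with
  | @nil u => exact absurd hy (not_le.2 hx)
  | @cons u v y' h w ih =>
    have hu : u ∈ S := hw u (by simp)
    by_cases hv : φ v < β
    · obtain ⟨z, c₁, c₂, r1, r2, e, l1⟩ := ih (fun z hz => hw z (by simp [hz])) hv hy
      refine ⟨z, _, c₂, Rch.ivt_cons ⟨hu, hx⟩ h r1, r2, ?_, l1⟩
      have : walkCost t (SimpleGraph.Walk.cons h w) = t s(u, v) + walkCost t w := by
        simp [walkCost]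
      rw [this, ← e]; ring
    · have h1 := (abs_le.1 (hφ u v h)).2
      exact ⟨u, 0, _, Rch.ivt_nil t ⟨hu, hx⟩, ⟨_, hw, rfl⟩, zero_add _,
        by linarith [not_lt.1 hv]⟩
/-- the piece between the last visit of `{φ ≤ α}` before the first visit of `{β ≤ φ}` and that visit,
the two end edges removed -/
theorem Rch.slab {φ : Z2 → ℝ} {C α β : ℝ}
    (hφ : ∀ u v, squareLattice.Adj u v → |φ v - φ u| ≤ C) (h : Rch S t x y c) (hx : φ x ≤ α)
    (hy : β ≤ φ y) (hαβ : α + C < β) (hC : 0 ≤ C) : ∃ x' y' c₁ c₂ c₃, Rch S t x x' c₁ ∧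
      Rch (S ∩ {u | α < φ u ∧ φ u < β}) t x' y' c₂ ∧ Rch S t y' y c₃ ∧ c₁ + c₂ + c₃ = c ∧
      φ x' ≤ α + C ∧ β - C ≤ φ y' := by
  obtain ⟨w, hw, rfl⟩ := h
  obtain ⟨y', d₁, c₃, r1, r3, e, l1⟩ := Rch.slab_aux (t := t) hφ w hw (by linarith) hy
  obtain ⟨w', hw', e'⟩ := r1.symm
  have hψ : ∀ u v, squareLattice.Adj u v → |(-φ v) - (-φ u)| ≤ C := fun u v huv => by
    have := hφ u v huv
    rwa [show -φ v - -φ u = -(φ v - φ u) by ring, abs_neg]
  obtain ⟨x', c₂, c₁, r2, r0, e2, l2⟩ := Rch.slab_aux (t := t) (φ := fun u => -φ u) (β := -α)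
    hψ w' hw' (by linarith) (by linarith)
  refine ⟨x', y', c₁, c₂, c₃, r0.symm.mono inter_subset_left, r2.symm.mono ?_, r3, ?_,
    by linarith, l1⟩
  · rintro u ⟨⟨h1, h2⟩, h3⟩
    exact ⟨h1, neg_lt_neg_iff.1 h3, h2⟩
  · linarith
theorem Rch.scl {F : Finset (Sym2 Z2)} (k : ℝ) (h : Rch S t x y c)
    (hF : ∀ u ∈ S, ∀ v, squareLattice.Adj u v → s(u, v) ∈ F) : Rch S (scl F k t) x y (k * c) := by
  obtain ⟨w, hw, rfl⟩ := h
  refine ⟨w, hw, ?_⟩
  rw [walkCost, walkCost, ← List.sum_map_mul_left]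
  refine congrArg List.sum (List.map_congr_left fun e he => ?_)
  induction e using Sym2.ind with
  | h u v =>
    exact if_pos (hF u (hw u (w.fst_mem_support_of_mem_edges he)) v (w.adj_of_mem_edges he))
/-- `Rch S` only reads the weights of pairs of points of `S` -/
theorem Rch.congr {t' : Env} (h : Rch S t x y c)
    (e : ∀ u ∈ S, ∀ v ∈ S, t' s(u, v) = t s(u, v)) : Rch S t' x y c := by
  obtain ⟨w, hw, rfl⟩ := h
  refine ⟨w, hw, congrArg List.sum (List.map_congr_left fun a ha => ?_)⟩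
  induction a using Sym2.ind with
  | h u v =>
    exact e u (hw u (w.fst_mem_support_of_mem_edges ha)) v
      (hw v (w.snd_mem_support_of_mem_edges ha))
theorem Rch_sh_aux (z : Z2) (h : Rch S (sh z t) x y c) :
    Rch {u | u - z ∈ S} t (x + z) (y + z) c := by
  obtain ⟨w, hw, rfl⟩ := h
  let f : squareLattice →g squareLattice := ⟨fun u => u + z, fun h => (adj_add z).2 h⟩
  refine ⟨w.map f, fun u hu => ?_, ?_⟩
  · rw [SimpleGraph.Walk.support_map] at hu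
    obtain ⟨v, hv, rfl⟩ := List.mem_map.1 hu
    change v + z - z ∈ S
    rw [add_sub_cancel_right]
    exact hw v hv
  · rw [walkCost, SimpleGraph.Walk.edges_map, List.map_map]
    rfl
theorem Rch_sh (z : Z2) : Rch S (sh z t) x y c ↔ Rch {u | u - z ∈ S} t (x + z) (y + z) c := by
  refine ⟨Rch_sh_aux z, fun h => ?_⟩
  have e : sh (-z) (sh z t) = t := by
    funext a
    induction a using Sym2.ind with
    | h u v => simp [sh]
  rw [← e] at h
  have h1 := Rch_sh_aux (-z) h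
  simpa using h1
theorem Cr.mono {A A' B B' : Set Z2} {θ θ' : Z2 → ℝ} (hS : S ⊆ S') (hA : A ⊆ A') (hB : B ⊆ B')
    (hθ : ∀ x ∈ A, ∀ y ∈ B, θ (y - x) ≤ θ' (y - x)) : Cr S A B θ ⊆ Cr S' A' B' θ' := by
  rintro t ⟨x, hx, y, hy, c, hc, h⟩
  exact ⟨x, hA hx, y, hB hy, c, hc.trans (hθ x hx y hy), h.mono hS⟩
theorem Fr.Ev_mono (f : Fr) (a b m : ℝ) {r r' : ℝ} {θ θ' : Z2 → ℝ} (h : r ≤ r')
    (hθ : ∀ d, θ d ≤ θ' d) : f.Ev a b m r θ ⊆ f.Ev a b m r' θ' :=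
  Cr.mono (fun _ hx => le_trans hx h) (fun _ hx => ⟨le_trans hx.1 h, le_trans hx.2 h⟩)
    (fun _ hx => ⟨le_trans hx.1 h, le_trans hx.2 h⟩) fun _ _ _ _ => hθ _
theorem Fr.Gd_mono (f : Fr) (a b m : ℝ) {r r' : ℝ} (h : r ≤ r') : f.Gd a b m r ⊆ f.Gd a b m r' :=
  f.Ev_mono a b m h fun _ => by linarith
theorem Fr.Bad_mono (f : Fr) (a b m : ℝ) {r r' δ δ' : ℝ} (h : r ≤ r') (h' : δ' ≤ δ) :
    f.Bad a b m r δ ⊆ f.Bad a b m r' δ' :=
  f.Ev_mono a b m h fun _ => by linarith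
theorem Fr.Lc_mono (f : Fr) (a b m r : ℝ) {R R' : ℝ} (h : R ≤ R') :
    f.Lc a b m r R ⊆ f.Lc a b m r R' :=
  Cr.mono (fun _ hx => ⟨hx.1, le_trans hx.2 h⟩) subset_rfl subset_rfl fun _ _ _ _ => le_rfl

end

end Crest.Agent.R151.B
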