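import Crest.Agent.R151.B1b

set_option autoImplicit false

open MeasureTheory ProbabilityTheory Set Filter Topology
open Crest.ProbabilityR.FirstPassage

namespace Crest.Agent.R151.B

noncomputable section

/-! passage times, measurability, elementary probability -/

variable {G : Measure ℝ} {S : Set Z2} {t : Env} {x y z : Z2} {c : ℝ}

theorem T_le_nn (ht : NN t) (w : Wk x y) : 0 ≤ walkCost t w :=
  List.sum_nonneg fun a ha => by
    obtain ⟨e, -, rfl⟩ := List.mem_map.1 ha
    exact ht e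
theorem T_le_sInf (t : Env) (x y : Z2) : T t x y = sInf {c | Rch univ t x y c} := by
  show sInf (range fun w : Wk x y => walkCost t w) = _
  congr 1
  ext c
  exact ⟨fun ⟨w, h⟩ => ⟨w, fun _ _ => mem_univ _, h⟩, fun ⟨w, _, h⟩ => ⟨w, h⟩⟩
theorem T_le (ht : NN t) (h : Rch S t x y c) : T t x y ≤ c := by
  obtain ⟨w, -, rfl⟩ := h
  exact ciInf_le ⟨0, by rintro _ ⟨w, rfl⟩; exact T_le_nn ht w⟩ w
theorem T_le_walk (ht : NN t) (w : Wk x y) : T t x y ≤ walkCost t w := by
  exact T_le (S := univ) ht ⟨w, fun _ _ => mem_univ _, rfl⟩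
/-- near geodesics may be taken self avoiding (`Walk.bypass`) -/
theorem T_path (ht : NN t) (x y : Z2) {ε : ℝ} (hε : 0 < ε) :
    ∃ w : Wk x y, w.IsPath ∧ walkCost t w ≤ T t x y + ε := by
  have := wk_nonempty x y
  obtain ⟨w, hw⟩ := exists_lt_of_ciInf_lt (f := fun w : Wk x y => walkCost t w)
    (lt_add_of_pos_right (T t x y) hε)
  refine ⟨w.bypass, w.bypass_isPath, le_trans ?_ hw.le⟩
  refine List.Sublist.sum_le_sum (w.edges_bypass_sublist_edges.map t) fun a ha => ?_
  obtain ⟨e, -, rfl⟩ := List.mem_map.1 ha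
  exact ht e
theorem T_near (ht : NN t) (x y : Z2) : ∃ c, c ≤ T t x y + 1 ∧ Rch univ t x y c := by
  obtain ⟨w, -, hw⟩ := T_path ht x y one_pos
  exact ⟨_, hw, w, fun _ _ => mem_univ _, rfl⟩
theorem T_nonneg (ht : NN t) (x y : Z2) : 0 ≤ T t x y := by
  exact Real.iInf_nonneg fun w => T_le_nn ht w
theorem T_self (ht : NN t) (x : Z2) : T t x x = 0 := by
  exact le_antisymm (T_le ht (Rch.refl t (mem_univ x))) (T_nonneg ht x x)
theorem T_symm (t : Env) (x y : Z2) : T t x y = T t y x := by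
  rw [T_le_sInf, T_le_sInf]
  congr 1
  ext c
  exact ⟨fun h => Rch.symm h, fun h => Rch.symm h⟩
theorem T_tri (ht : NN t) (x y z : Z2) : T t x z ≤ T t x y + T t y z := by
  refine le_of_forall_pos_le_add fun ε hε => ?_
  obtain ⟨w, -, hw⟩ := T_path ht x y (half_pos hε)
  obtain ⟨w', -, hw'⟩ := T_path ht y z (half_pos hε)
  have := T_le ht (Rch.trans (S := univ) ⟨w, fun _ _ => mem_univ _, rfl⟩
    ⟨w', fun _ _ => mem_univ _, rfl⟩)
  linarith
theorem T_sh (z : Z2) (t : Env) (x y : Z2) : T (sh z t) x y = T t (x + z) (y + z) := by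
  rw [T_le_sInf, T_le_sInf]
  congr 1
  ext c
  exact Rch_sh z
theorem cost_meas (w : Wk x y) : Measurable fun t : Env => walkCost t w := by
  show Measurable fun t : Env => (w.edges.map t).sum
  induction w.edges with
  | nil => exact measurable_const
  | cons e l ih =>
    simp only [List.map_cons, List.sum_cons]
    exact (measurable_pi_apply e).add ih
theorem T_meas (x y : Z2) : Measurable fun t : Env => T t x y := by
  have := wk_countable x y
  exact Measurable.iInf fun w => cost_meas w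
theorem Cr_meas (S A B : Set Z2) (θ : Z2 → ℝ) : MeasurableSet (Cr S A B θ) := by
  have e : Cr S A B θ = ⋃ x ∈ A, ⋃ y ∈ B, ⋃ w : Wk x y, ⋃ _ : ∀ z ∈ w.support, z ∈ S,
      {t | walkCost t w ≤ θ (y - x)} := by
    ext t
    simp only [mem_iUnion, exists_prop]
    exact ⟨fun ⟨x, hx, y, hy, c, hc, w, h1, h2⟩ => ⟨x, hx, y, hy, w, h1, h2.trans_le hc⟩,
      fun ⟨x, hx, y, hy, w, h1, h2⟩ => ⟨x, hx, y, hy, _, h2, w, h1, rfl⟩⟩
  rw [e]
  refine .biUnion (to_countable _) fun x _ => .biUnion (to_countable _) fun y _ => ?_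
  have := wk_countable x y
  exact .iUnion fun w => .iUnion fun _ => measurableSet_le (cost_meas w) measurable_const
theorem Law.isP (hG : Law G) : IsProbabilityMeasure (iidLaw G) := by
  have := hG.prob
  unfold iidLaw
  infer_instance
theorem Law.nn (hG : Law G) : ∀ᵐ t ∂iidLaw G, NN t := by
  have := hG.prob
  unfold NN
  rw [ae_all_iff]
  intro e
  have h1 : ∀ᵐ x ∂G, (0 : ℝ) ≤ x := by
    rw [ae_iff]
    refine measure_mono_null (fun x hx => ?_) hG.pos
    simp only [mem_ofPred_eq, not_le] at hx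
    exact le_of_lt hx
  exact (measurePreserving_eval_infinitePi (fun _ : Sym2 (ℤ × ℤ) => G) e).quasiMeasurePreserving.ae h1
theorem Pr_nonneg (G : Measure ℝ) (A : Set Env) : 0 ≤ Pr G A := measureReal_nonneg
theorem Law.le_one (hG : Law G) (A : Set Env) : Pr G A ≤ 1 := by
  have := hG.isP
  exact measureReal_le_one
theorem Law.mono (hG : Law G) {A B : Set Env} (h : A ⊆ B) : Pr G A ≤ Pr G B := by
  have := hG.isP
  exact measureReal_mono h
theorem Law.mono_nn (hG : Law G) {A B : Set Env} (h : ∀ t, NN t → t ∈ A → t ∈ B) :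
    Pr G A ≤ Pr G B := by
  have := hG.isP
  refine ENNReal.toReal_mono (measure_ne_top _ _) (measure_mono_ae ?_)
  filter_upwards [hG.nn] with t ht
  exact h t ht
theorem Law.union (hG : Law G) (A B : Set Env) : Pr G (A ∪ B) ≤ Pr G A + Pr G B := by
  exact measureReal_union_le A B
theorem Law.biUnion (hG : Law G) {ι : Type*} (I : Finset ι) (A : ι → Set Env) :
    Pr G (⋃ i ∈ I, A i) ≤ ∑ i ∈ I, Pr G (A i) := by
  exact measureReal_biUnion_finset_le I A
theorem Law.compl (hG : Law G) {A : Set Env} (h : MeasurableSet A) : Pr G Aᶜ = 1 - Pr G A := by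
  have := hG.isP
  unfold Pr
  rw [measureReal_compl h, probReal_univ]
theorem Law.compl_ge (hG : Law G) (A : Set Env) : 1 - Pr G A ≤ Pr G Aᶜ := by
  have := hG.isP
  have h1 := hG.union A Aᶜ
  rw [union_compl_self] at h1
  have h2 : Pr G univ = 1 := probReal_univ
  linarith
theorem Law.exists_not (hG : Law G) {A : Set Env} (h : Pr G A < 1) : ∃ t, NN t ∧ t ∉ A := by
  have := hG.isP
  by_contra hc
  push Not at hc
  have h1 : Pr G univ ≤ Pr G A := hG.mono_nn fun t ht _ => hc t ht
  have h2 : Pr G univ = 1 := probReal_univ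
  linarith

end

end Crest.Agent.R151.B
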