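import Crest.Agent.R151.B2

set_option autoImplicit false

open MeasureTheory ProbabilityTheory Set Filter Topology
open Crest.ProbabilityR.FirstPassage

namespace Crest.Agent.R151.B

noncomputable section

/-! translation invariance -/

variable {G : Measure ℝ}

/-- translation of unordered pairs -/
def mpShEquiv (z : Z2) : Sym2 Z2 ≃ Sym2 Z2 where
  toFun e := e.map fun u => u + z
  invFun e := e.map fun u => u - z
  left_inv e := by
    induction e using Sym2.ind with
    | _ a b => simp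
  right_inv e := by
    induction e using Sym2.ind with
    | _ a b => simp

theorem mp_sh_meas (z : Z2) : Measurable (sh z) :=
  measurable_pi_lambda _ fun _ => measurable_pi_apply _

/-- `e ↦ e.map (· + z)` is a bijection of the index set (`Measure.infinitePi` reindexing) -/
theorem Law.mp_sh (hG : Law G) (z : Z2) : MeasurePreserving (sh z) (iidLaw G) (iidLaw G) := by
  have := hG.prob
  refine ⟨mp_sh_meas z, ?_⟩
  have h := Measure.infinitePi_map_piCongrLeft (fun _ : Sym2 Z2 => G) (mpShEquiv z).symm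
  have e : (MeasurableEquiv.piCongrLeft (fun _ : Sym2 Z2 => ℝ) (mpShEquiv z).symm : Env → Env) = sh z := by
    funext t e
    have := MeasurableEquiv.piCongrLeft_apply_apply (β := fun _ : Sym2 Z2 => ℝ) (mpShEquiv z).symm t
      (mpShEquiv z e)
    rw [Equiv.symm_apply_apply] at this
    exact this
  rw [e] at h
  exact h
theorem Law.Cr_le (hG : Law G) {S A B S' A' B' : Set Z2} (θ : Z2 → ℝ) (z : Z2)
    (hS : ∀ u ∈ S, u + z ∈ S') (hA : ∀ u ∈ A, u + z ∈ A') (hB : ∀ u ∈ B, u + z ∈ B') :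
    Pr G (Cr S A B θ) ≤ Pr G (Cr S' A' B' θ) := by
  have := hG.isP
  have h3 : Pr G (Cr S A B θ) = Pr G (sh z ⁻¹' Cr S A B θ) :=
    ((hG.mp_sh z).measureReal_preimage (Cr_meas S A B θ).nullMeasurableSet).symm
  rw [h3]
  refine hG.mono ?_
  rintro t ⟨x, hx, y, hy, c, hc, h⟩
  rw [Rch_sh] at h
  refine ⟨x + z, hA x hx, y + z, hB y hy, c, ?_, h.mono fun u hu => ?_⟩
  · rwa [add_sub_add_right_eq_sub]
  · have := hS _ hu
    rwa [sub_add_cancel] at this
theorem Law.int_T (hG : Law G) {F : ℝ → ℝ} (hF : Measurable F) (x y : Z2) :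
    ∫ t, F (T t x y) ∂iidLaw G = ∫ t, F (T t 0 (y - x)) ∂iidLaw G := by
  have hm : Measurable fun t : Env => F (T t 0 (y - x)) := hF.comp (T_meas 0 (y - x))
  have h1 := integral_map (μ := iidLaw G) (mp_sh_meas x).aemeasurable
    (f := fun t : Env => F (T t 0 (y - x))) hm.aestronglyMeasurable
  rw [(hG.mp_sh x).map_eq] at h1
  rw [h1]
  refine integral_congr_ae (ae_of_all _ fun t => ?_)
  simp only [T_sh, zero_add, sub_add_cancel]
theorem Law.int_T' (hG : Law G) (x y : Z2) : ∫ t, T t x y ∂iidLaw G = mE G (y - x) :=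
  hG.int_T measurable_id x y
/-- shift by a lattice point with coordinates within `C` of `(a - a', b - b')` -/
theorem Law.recentre (hG : Law G) {f : Fr} (hf : f.OK) (a b a' b' m r : ℝ) (θ : Z2 → ℝ) :
    Pr G (f.Ev a' b' m r θ) ≤ Pr G (f.Ev a b m (r + f.C) θ) := by
  obtain ⟨z, hp, hq⟩ := hf.den (a - a') (b - b')
  rw [abs_le] at hp hq
  refine hG.Cr_le θ z (fun u hu => ?_) (fun u hu => ?_) (fun u hu => ?_)
  · have hu' : |f.q u - b'| ≤ r := hu
    rw [abs_le] at hu'
    change |f.q (u + z) - b| ≤ r + f.C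
    rw [map_add, abs_le]
    constructor <;> linarith [hu'.1, hu'.2]
  · have hu1 : |f.p u - a'| ≤ r := hu.1
    have hu2 : |f.q u - b'| ≤ r := hu.2
    rw [abs_le] at hu1 hu2
    change |f.p (u + z) - a| ≤ r + f.C ∧ |f.q (u + z) - b| ≤ r + f.C
    rw [map_add, map_add, abs_le, abs_le]
    refine ⟨⟨?_, ?_⟩, ?_, ?_⟩ <;> linarith [hu1.1, hu1.2, hu2.1, hu2.2]
  · have hu1 : |f.p u - (a' + m)| ≤ r := hu.1
    have hu2 : |f.q u - b'| ≤ r := hu.2
    rw [abs_le] at hu1 hu2
    change |f.p (u + z) - (a + m)| ≤ r + f.C ∧ |f.q (u + z) - b| ≤ r + f.C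
    rw [map_add, map_add, abs_le, abs_le]
    refine ⟨⟨?_, ?_⟩, ?_, ?_⟩ <;> linarith [hu1.1, hu1.2, hu2.1, hu2.2]

end

end Crest.Agent.R151.B
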