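import Crest.Agent.R151.B3

set_option autoImplicit false

open MeasureTheory ProbabilityTheory Set Filter Topology
open Crest.ProbabilityR.FirstPassage

namespace Crest.Agent.R151.B

noncomputable section

/-! independence -/

variable {G : Measure ℝ}

theorem Law.indep_aux1 {S : Set (Sym2 Z2)} {A : Set Env} (hm : MeasurableSet A)
    (hA : ∀ t t' : Env, (∀ e ∈ S, t' e = t e) → t ∈ A → t' ∈ A) :
    MeasurableSet[⨆ e ∈ S, MeasurableSpace.comap (fun t : Env => t e) inferInstance] A := by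
  classical
  have hr : @Measurable Env Env
      (⨆ e ∈ S, MeasurableSpace.comap (fun t : Env => t e) inferInstance) _
      (fun t e => if e ∈ S then t e else 0) := by
    refine @measurable_pi_lambda _ _ _ (_) _ _ fun e => ?_
    by_cases he : e ∈ S
    · simp only [he, if_true]
      exact Measurable.of_comap_le
        (le_iSup₂_of_le (f := fun e (_ : e ∈ S) =>
          MeasurableSpace.comap (fun t : Env => t e) inferInstance) e he le_rfl)
    · simp only [he, if_false]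
      exact @measurable_const _ _ _ (_) _
  have e : A = (fun (t : Env) e => if e ∈ S then t e else 0) ⁻¹' A := by
    ext t
    exact ⟨fun h => hA _ _ (fun e he => if_pos he) h,
      fun h => hA _ _ (fun e he => (if_pos he).symm) h⟩
  rw [e]
  exact hr hm

theorem Law.indep_aux2 (hG : Law G) {S S' : Set (Sym2 Z2)} {A A' : Set Env} (hd : Disjoint S S')
    (hm : MeasurableSet A) (hm' : MeasurableSet A')
    (hA : ∀ t t' : Env, (∀ e ∈ S, t' e = t e) → t ∈ A → t' ∈ A)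
    (hA' : ∀ t t' : Env, (∀ e ∈ S', t' e = t e) → t ∈ A' → t' ∈ A') :
    Pr G (A ∩ A') = Pr G A * Pr G A' := by
  have := hG.prob
  have h1 : iIndepFun (fun (e : Sym2 Z2) (t : Env) => t e) (iidLaw G) :=
    iIndepFun_infinitePi (P := fun _ : Sym2 Z2 => G) (X := fun _ => id) fun _ => measurable_id
  have h2 := indep_iSup_of_disjoint (fun e => (measurable_pi_apply e).comap_le) h1.iIndep hd
  have h3 := (Indep_iff _ _ _).1 h2 A A' (Law.indep_aux1 hm hA) (Law.indep_aux1 hm' hA')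
  simp only [Pr, Measure.real, h3, ENNReal.toReal_mul]

/-- events read on pairwise disjoint sets of coordinates are independent
(`iIndepFun_infinitePi`, `iIndepFun.finsets`-type grouping or `indep_iSup_of_disjoint`) -/
theorem Law.indep (hG : Law G) {ι : Type*} (I : Finset ι) (E : ι → Set (Sym2 Z2)) (A : ι → Set Env)
    (hd : ∀ i ∈ I, ∀ j ∈ I, i ≠ j → Disjoint (E i) (E j)) (hm : ∀ i ∈ I, MeasurableSet (A i))
    (hA : ∀ i ∈ I, ∀ t t' : Env, (∀ e ∈ E i, t' e = t e) → t ∈ A i → t' ∈ A i) :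
    Pr G (⋂ i ∈ I, A i) = ∏ i ∈ I, Pr G (A i) := by
  classical
  have := hG.prob
  induction I using Finset.induction_on with
  | empty =>
    have : IsProbabilityMeasure (iidLaw G) := by unfold iidLaw; infer_instance
    simp [Pr]
  | insert i I hi ih =>
    rw [Finset.set_biInter_insert, Finset.prod_insert hi,
      ← ih (fun j hj k hk => hd j (Finset.mem_insert_of_mem hj) k (Finset.mem_insert_of_mem hk))
        (fun j hj => hm j (Finset.mem_insert_of_mem hj))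
        (fun j hj => hA j (Finset.mem_insert_of_mem hj))]
    refine hG.indep_aux2 (S := E i) (S' := ⋃ j ∈ I, E j) ?_ (hm i (Finset.mem_insert_self _ _))
      (Finset.measurableSet_biInter _ fun j hj => hm j (Finset.mem_insert_of_mem hj))
      (hA i (Finset.mem_insert_self _ _)) fun t t' h ht => ?_
    · refine Set.disjoint_iUnion₂_right.2 fun j hj => ?_
      exact hd i (Finset.mem_insert_self _ _) j (Finset.mem_insert_of_mem hj)
        fun e => hi (e ▸ hj)
    · refine Set.mem_iInter₂.2 fun j hj => ?_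
      exact hA j (Finset.mem_insert_of_mem hj) t t'
        (fun e he => h e (Set.mem_biUnion hj he)) (Set.mem_iInter₂.1 ht j hj)
theorem Law.Cr_indep (hG : Law G) {ι : Type*} (I : Finset ι) (S A B : ι → Set Z2)
    (θ : ι → Z2 → ℝ) (hd : ∀ i ∈ I, ∀ j ∈ I, i ≠ j → Disjoint (S i) (S j)) :
    Pr G (⋂ i ∈ I, Cr (S i) (A i) (B i) (θ i)) = ∏ i ∈ I, Pr G (Cr (S i) (A i) (B i) (θ i)) ∧
    Pr G (⋂ i ∈ I, (Cr (S i) (A i) (B i) (θ i))ᶜ) =
      ∏ i ∈ I, (1 - Pr G (Cr (S i) (A i) (B i) (θ i))) := by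
  have hdis : ∀ i ∈ I, ∀ j ∈ I, i ≠ j →
      Disjoint {e : Sym2 Z2 | ∃ u ∈ S i, ∃ v ∈ S i, e = s(u, v)}
        {e : Sym2 Z2 | ∃ u ∈ S j, ∃ v ∈ S j, e = s(u, v)} := by
    intro i hi j hj hij
    rw [Set.disjoint_left]
    rintro e ⟨u, hu, v, hv, rfl⟩ ⟨u', hu', v', hv', h⟩
    have hd' := Set.disjoint_left.1 (hd i hi j hj hij)
    rcases Sym2.eq_iff.1 h with ⟨h1, _⟩ | ⟨h1, _⟩
    · exact hd' hu (h1 ▸ hu')
    · exact hd' hu (h1 ▸ hv')
  have hloc : ∀ i, ∀ t t' : Env,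
      (∀ e ∈ {e : Sym2 Z2 | ∃ u ∈ S i, ∃ v ∈ S i, e = s(u, v)}, t' e = t e) →
      t ∈ Cr (S i) (A i) (B i) (θ i) → t' ∈ Cr (S i) (A i) (B i) (θ i) := by
    rintro i t t' e ⟨x, hx, y, hy, c, hc, h⟩
    exact ⟨x, hx, y, hy, c, hc, h.congr fun u hu v hv => e _ ⟨u, hu, v, hv, rfl⟩⟩
  refine ⟨hG.indep I _ _ hdis (fun i _ => Cr_meas _ _ _ _) (fun i _ => hloc i), ?_⟩
  rw [hG.indep I _ (fun i => (Cr (S i) (A i) (B i) (θ i))ᶜ) hdis
    (fun i _ => (Cr_meas _ _ _ _).compl)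
    (fun i _ t t' e ht ht' => ht (hloc i t' t (fun x hx => (e x hx).symm) ht'))]
  exact Finset.prod_congr rfl fun i _ => hG.compl (Cr_meas _ _ _ _)
/-- parallel strips -/
theorem Law.par (hG : Law G) (f : Fr) {a m r η : ℝ} {θ : Z2 → ℝ} (hr : 0 < r)
    (h : ∀ β, η ≤ Pr G (f.Ev a β m r θ)) (b : ℝ) (K : ℕ) :
    Pr G (⋂ j ∈ Finset.range K, (f.Ev a (b + 3 * r * (j + 1)) m r θ)ᶜ) ≤ (1 - η) ^ K := by
  have hd : ∀ i ∈ Finset.range K, ∀ j ∈ Finset.range K, i ≠ j →
      Disjoint (f.St (b + 3 * r * ((i : ℝ) + 1)) r) (f.St (b + 3 * r * ((j : ℝ) + 1)) r) := by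
    intro i _ j _ hij
    rw [Set.disjoint_left]
    intro x hi hj
    have hi' := abs_le.1 (show |f.q x - (b + 3 * r * ((i : ℝ) + 1))| ≤ r from hi)
    have hj' := abs_le.1 (show |f.q x - (b + 3 * r * ((j : ℝ) + 1))| ≤ r from hj)
    rcases lt_or_gt_of_ne hij with h1 | h1
    · have : (i : ℝ) + 1 ≤ j := by exact_mod_cast h1
      nlinarith [hi'.1, hi'.2, hj'.1, hj'.2]
    · have : (j : ℝ) + 1 ≤ i := by exact_mod_cast h1
      nlinarith [hi'.1, hi'.2, hj'.1, hj'.2]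
  have key := (hG.Cr_indep (Finset.range K) (fun j : ℕ => f.St (b + 3 * r * ((j : ℝ) + 1)) r)
    (fun j : ℕ => f.Q a (b + 3 * r * ((j : ℝ) + 1)) r)
    (fun j : ℕ => f.Q (a + m) (b + 3 * r * ((j : ℝ) + 1)) r) (fun _ => θ) hd).2
  refine le_trans (le_of_eq key) ?_
  calc ∏ j ∈ Finset.range K, (1 - Pr G (f.Ev a (b + 3 * r * ((j : ℝ) + 1)) m r θ))
      ≤ ∏ _j ∈ Finset.range K, (1 - η) :=
        Finset.prod_le_prod (fun j _ => sub_nonneg.2 (hG.le_one _))
          (fun j _ => sub_le_sub_left (h _) 1)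
    _ = (1 - η) ^ K := by rw [Finset.prod_const, Finset.card_range]
/-- `recentre`, then `par` with half width `r + C` -/
theorem Law.Gd_tail (hG : Law G) {f : Fr} (hf : f.OK) {m r : ℝ} (hr : 0 ≤ r)
    (h : 1 / 2 ≤ Pr G (f.Gd 0 0 m r)) (a b : ℝ) (K : ℕ) :
    Pr G (f.Gd a b m (4 * K * (r + f.C)))ᶜ ≤ (1 / 2) ^ K := by
  have hC := hf.C1
  have hr' : 0 < r + f.C := by linarith
  have key := hG.par f (a := a) (m := m) (η := 1 / 2) (θ := fun d => f.p d + r) hr'
    (fun β => h.trans (hG.recentre hf a β 0 0 m r _)) b K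
  refine le_trans (hG.mono ?_) (key.trans (le_of_eq (by norm_num)))
  intro t ht
  simp only [Set.mem_iInter]
  intro j hj hmem
  apply ht
  have hjK : (j : ℝ) + 1 ≤ K := by exact_mod_cast Finset.mem_range.1 hj
  have hj0 : (0 : ℝ) ≤ j := Nat.cast_nonneg _
  have h1 : (r + f.C) * ((j : ℝ) + 1) ≤ (r + f.C) * K := mul_le_mul_of_nonneg_left hjK hr'.le
  have h2 : (r + f.C) * 1 ≤ (r + f.C) * ((j : ℝ) + 1) :=
    mul_le_mul_of_nonneg_left (by linarith) hr'.le
  have hq : ∀ y : ℝ, |y - (b + 3 * (r + f.C) * ((j : ℝ) + 1))| ≤ r + f.C →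
      |y - b| ≤ 4 * K * (r + f.C) := by
    intro y hy
    rw [abs_le] at hy ⊢
    constructor <;> nlinarith [hy.1, hy.2]
  have hw : r + f.C ≤ 4 * K * (r + f.C) := by nlinarith
  have hsub : f.Ev a (b + 3 * (r + f.C) * ((j : ℝ) + 1)) m (r + f.C) (fun d => f.p d + r) ⊆
      f.Gd a b m (4 * K * (r + f.C)) := by
    unfold Fr.Gd Fr.Ev
    refine Cr.mono (fun x hx => ?_) (fun x hx => ?_) (fun x hx => ?_) (fun _ _ _ _ => ?_)
    · exact hq _ hx
    · exact ⟨le_trans hx.1 hw, hq _ hx.2⟩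
    · exact ⟨le_trans hx.1 hw, hq _ hx.2⟩
    · linarith
  exact hsub hmem

end

end Crest.Agent.R151.B
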