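import Crest.Agent.R151.B4

set_option autoImplicit false

open MeasureTheory ProbabilityTheory Set Filter Topology
open Crest.ProbabilityR.FirstPassage

namespace Crest.Agent.R151.B

noncomputable section

/-! moments and upper tails of the cost of a fixed path -/

variable {G : Measure ℝ}

/-- moment generating function of the cost of a path (distinct edges are independent) -/
theorem Law.mgf (hG : Law G) {x y : Z2} (w : Wk x y) (hw : w.IsPath) {l : ℝ}
    (hl : Integrable (fun s => Real.exp (l * s)) G) :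
    Integrable (fun t => Real.exp (l * walkCost t w)) (iidLaw G) ∧
      ∫ t, Real.exp (l * walkCost t w) ∂iidLaw G = (∫ s, Real.exp (l * s) ∂G) ^ w.length := by
  classical
  have := hG.prob
  have hnd : w.edges.Nodup := hw.isTrail.edges_nodup
  have hcard : Fintype.card w.edges.toFinset = w.length := by
    rw [Fintype.card_coe, List.toFinset_card_of_nodup hnd, SimpleGraph.Walk.length_edges]
  let F : (w.edges.toFinset → ℝ) → ℝ := fun x => ∏ i, Real.exp (l * x i)
  have e : ∀ t : Env, Real.exp (l * walkCost t w) = F (w.edges.toFinset.restrict t) := by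
    intro t
    simp only [walkCost, F, Finset.restrict]
    rw [← List.sum_toFinset _ hnd, Finset.mul_sum, Real.exp_sum,
      Finset.prod_coe_sort w.edges.toFinset fun e => Real.exp (l * t e)]
  have mp : MeasurePreserving (w.edges.toFinset.restrict (π := fun _ => ℝ)) (iidLaw G)
      (Measure.pi fun _ : w.edges.toFinset => G) :=
    ⟨Finset.measurable_restrict _, Measure.infinitePi_map_restrict _⟩
  have hi : Integrable F (Measure.pi fun _ : w.edges.toFinset => G) :=
    Integrable.fintype_prod (f := fun _ x => Real.exp (l * x)) fun _ => hl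
  simp only [e]
  refine ⟨mp.integrable_comp_of_integrable hi, ?_⟩
  rw [← hcard, ← integral_fintype_prod_eq_pow (fun s => Real.exp (l * s)), ← mp.map_eq,
    integral_map mp.measurable.aemeasurable (by rw [mp.map_eq]; exact hi.aestronglyMeasurable)]
/-- Chernoff bound -/
theorem Law.path_tail (hG : Law G) : ∃ C : ℝ, 1 ≤ C ∧ ∀ (x y : Z2) (w : Wk x y), w.IsPath →
    ∀ ρ : ℝ, (w.length : ℝ) ≤ ρ → Pr G {t | C * ρ < walkCost t w} ≤ Real.exp (-ρ) := by
  have := hG.isP
  obtain ⟨l, hl0, hl⟩ := hG.expm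
  set M := ∫ s, Real.exp (l * s) ∂G with hM
  have hM0 : 0 ≤ M := integral_nonneg fun s => (Real.exp_pos _).le
  have hL : 0 ≤ Real.log (max M 1) := Real.log_nonneg (le_max_right _ _)
  refine ⟨max 1 ((1 + Real.log (max M 1)) / l), le_max_left _ _, fun x y w hw ρ hρ => ?_⟩
  set C := max 1 ((1 + Real.log (max M 1)) / l) with hC
  have hρ0 : 0 ≤ ρ := (Nat.cast_nonneg _).trans hρ
  have hlC : 1 + Real.log (max M 1) ≤ l * C := by
    have h1 : (1 + Real.log (max M 1)) / l ≤ C := le_max_right _ _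
    rwa [div_le_iff₀ hl0, mul_comm] at h1
  obtain ⟨hi, he⟩ := hG.mgf w hw hl
  have h1 := measure_ge_le_exp_mul_mgf (μ := iidLaw G) (X := fun t => walkCost t w) (C * ρ)
    hl0.le hi
  have h2 : ProbabilityTheory.mgf (fun t => walkCost t w) (iidLaw G) l = M ^ w.length := he
  have h3 : M ^ w.length ≤ Real.exp (Real.log (max M 1) * ρ) := by
    calc M ^ w.length ≤ (max M 1) ^ w.length := pow_le_pow_left₀ hM0 (le_max_left _ _) _
      _ = Real.exp (Real.log (max M 1) * w.length) := by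
          rw [mul_comm, Real.exp_nat_mul, Real.exp_log (lt_max_of_lt_right one_pos)]
      _ ≤ _ := Real.exp_le_exp.mpr (mul_le_mul_of_nonneg_left hρ hL)
  calc Pr G {t | C * ρ < walkCost t w} ≤ Pr G {t | C * ρ ≤ walkCost t w} :=
        hG.mono fun t (ht : C * ρ < walkCost t w) => ht.le
    _ ≤ Real.exp (-l * (C * ρ)) * M ^ w.length := h2 ▸ h1
    _ ≤ Real.exp (-l * (C * ρ)) * Real.exp (Real.log (max M 1) * ρ) :=
        mul_le_mul_of_nonneg_left h3 (Real.exp_pos _).le
    _ ≤ Real.exp (-ρ) := by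
        rw [← Real.exp_add]
        exact Real.exp_le_exp.mpr (by nlinarith [mul_le_mul_of_nonneg_right hlC hρ0])
/-- union bound over staircases -/
theorem Law.Con_tail (hG : Law G) : ∃ C : ℝ, 1 ≤ C ∧ ∀ (F : Finset Z2) (ρ : ℝ), 0 ≤ ρ →
    Pr G (Con F ρ (C * ρ))ᶜ ≤ F.card * (2 * ρ + 1) ^ 2 * Real.exp (-ρ) := by
  obtain ⟨C, hC, h⟩ := hG.path_tail
  refine ⟨C, hC, fun F ρ hρ => ?_⟩
  choose w hw hlen hsup using stair
  choose B hB hcard using fun z : Z2 => ball_fin z hρ
  have hsub : (Con F ρ (C * ρ))ᶜ ⊆ ⋃ z ∈ F, ⋃ y ∈ B z, {t | C * ρ < walkCost t (w z y)} := by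
    intro t ht
    by_contra hn
    refine ht fun z hz y hy => ⟨walkCost t (w z y), ?_, w z y, fun u hu => (hsup z y u hu).trans hy,
      rfl⟩
    by_contra hlt
    exact hn (mem_biUnion hz (mem_biUnion ((hB z y).mpr hy) (not_le.mp hlt)))
  calc Pr G (Con F ρ (C * ρ))ᶜ
      ≤ Pr G (⋃ z ∈ F, ⋃ y ∈ B z, {t | C * ρ < walkCost t (w z y)}) := hG.mono hsub
    _ ≤ ∑ z ∈ F, Pr G (⋃ y ∈ B z, {t | C * ρ < walkCost t (w z y)}) := hG.biUnion _ _
    _ ≤ ∑ _z ∈ F, (2 * ρ + 1) ^ 2 * Real.exp (-ρ) := by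
        refine Finset.sum_le_sum fun z _ => (hG.biUnion _ _).trans ?_
        calc ∑ y ∈ B z, Pr G {t | C * ρ < walkCost t (w z y)} ≤ ∑ _y ∈ B z, Real.exp (-ρ) :=
              Finset.sum_le_sum fun y hy => h z y _ (hw z y) ρ ((hlen z y).le.trans ((hB z y).mp hy))
          _ = (B z).card * Real.exp (-ρ) := by rw [Finset.sum_const, nsmul_eq_mul]
          _ ≤ _ := mul_le_mul_of_nonneg_right (hcard z) (Real.exp_pos _).le
    _ = _ := by rw [Finset.sum_const, nsmul_eq_mul, mul_assoc]
theorem Law.cost_mom_int (hG : Law G) (k : ℕ) : Integrable (fun s : ℝ => |s| ^ k) G := by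
  obtain ⟨l, hl, hi⟩ := hG.expm
  refine (hi.const_mul ((k.factorial : ℝ) / l ^ k)).mono'
    (by fun_prop : Measurable fun s : ℝ => |s| ^ k).aestronglyMeasurable ?_
  have h0 : ∀ᵐ s ∂G, s ∉ Iic (0 : ℝ) := measure_eq_zero_iff_ae_notMem.1 hG.pos
  filter_upwards [h0] with s hs
  have hs0 : 0 < s := not_le.1 hs
  have h1 := Real.pow_div_factorial_le_exp (l * s) (by positivity) k
  have h2 : (0 : ℝ) < k.factorial := by exact_mod_cast k.factorial_pos
  rw [Real.norm_eq_abs, abs_pow, abs_abs, abs_of_pos hs0, div_mul_eq_mul_div,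
    le_div_iff₀ (by positivity)]
  rw [div_le_iff₀ h2, mul_pow] at h1
  linarith
/-- power mean inequality -/
theorem Law.cost_mom (hG : Law G) (k : ℕ) : ∃ C : ℝ, 1 ≤ C ∧ ∀ (x y : Z2) (w : Wk x y),
    Integrable (fun t => walkCost t w ^ k) (iidLaw G) ∧
      ∫ t, walkCost t w ^ k ∂iidLaw G ≤ (C * w.length) ^ k := by
  have := hG.isP
  have := hG.prob
  cases k with
  | zero => exact ⟨1, le_rfl, fun x y w => by simp⟩
  | succ j =>
    set M := ∫ s : ℝ, |s| ^ (j + 1) ∂G with hM
    refine ⟨max 1 M, le_max_left _ _, fun x y w => ?_⟩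
    have hmp : ∀ e : Sym2 Z2, MeasurePreserving (fun t : Env => t e) (iidLaw G) G := fun e =>
      measurePreserving_eval_infinitePi (fun _ : Sym2 Z2 => G) e
    have hi : ∀ e : Sym2 Z2, Integrable (fun t : Env => |t e| ^ (j + 1)) (iidLaw G) := fun e =>
      (hmp e).integrable_comp_of_integrable (hG.cost_mom_int (j + 1))
    have he : ∀ e : Sym2 Z2, ∫ t : Env, |t e| ^ (j + 1) ∂iidLaw G = M := fun e => by
      have h1 := integral_map (μ := iidLaw G) (hmp e).aemeasurable
        (by fun_prop : Measurable fun s : ℝ => |s| ^ (j + 1)).aestronglyMeasurable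
      rw [(hmp e).map_eq] at h1
      exact h1.symm
    have hg : Integrable (fun t : Env => (w.length : ℝ) ^ j *
        ∑ i : Fin w.edges.length, |t w.edges[i.1]| ^ (j + 1)) (iidLaw G) :=
      (integrable_finsetSum _ fun i _ => hi _).const_mul _
    have hb : ∀ t : Env, |walkCost t w ^ (j + 1)| ≤ (w.length : ℝ) ^ j *
        ∑ i : Fin w.edges.length, |t w.edges[i.1]| ^ (j + 1) := by
      intro t
      have h1 := pow_sum_le_card_mul_sum_pow (s := Finset.univ)
        (f := fun i : Fin w.edges.length => |t w.edges[i.1]|) (fun i _ => abs_nonneg _) j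
      rw [Finset.card_univ, Fintype.card_fin] at h1
      rw [← w.length_edges]
      refine le_trans ?_ h1
      rw [abs_pow, walkCost, ← Fin.sum_univ_fun_getElem]
      exact pow_le_pow_left₀ (abs_nonneg _) (Finset.abs_sum_le_sum_abs _ _) _
    have hint : Integrable (fun t => walkCost t w ^ (j + 1)) (iidLaw G) :=
      hg.mono' ((cost_meas w).pow_const _).aestronglyMeasurable (ae_of_all _ hb)
    refine ⟨hint, (integral_mono hint hg fun t => (le_abs_self _).trans (hb t)).trans ?_⟩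
    rw [integral_const_mul, integral_finsetSum _ fun i _ => hi _]
    simp only [he, Finset.sum_const, Finset.card_univ, Fintype.card_fin,
      SimpleGraph.Walk.length_edges, nsmul_eq_mul]
    have h1 : M ≤ max 1 M ^ (j + 1) :=
      (le_max_right _ _).trans (le_self_pow₀ (le_max_left _ _) (by omega))
    rw [mul_pow, ← mul_assoc, ← pow_succ, mul_comm]
    exact mul_le_mul_of_nonneg_right h1 (by positivity)
theorem Law.T_mem (hG : Law G) (x y : Z2) : MemLp (fun t => T t x y) 2 (iidLaw G) := by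
  obtain ⟨C, -, h⟩ := hG.cost_mom 2
  obtain ⟨w⟩ := wk_nonempty x y
  rw [memLp_two_iff_integrable_sq (T_meas x y).aestronglyMeasurable]
  refine (h x y w).1.mono' ((T_meas x y).pow_const _).aestronglyMeasurable ?_
  filter_upwards [hG.nn] with t ht
  rw [Real.norm_eq_abs, abs_of_nonneg (sq_nonneg _)]
  exact pow_le_pow_left₀ (T_nonneg ht x y) (T_le_walk ht w) 2
theorem Law.T_int (hG : Law G) (x y : Z2) : Integrable (fun t => T t x y) (iidLaw G) := by
  have := hG.isP
  exact (hG.T_mem x y).integrable one_le_two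
theorem Law.T_mom (hG : Law G) : ∃ C : ℝ, 1 ≤ C ∧ ∀ x y : Z2,
    ∫ t, T t x y ^ 2 ∂iidLaw G ≤ (C * n1 (y - x)) ^ 2 ∧ mE G x ≤ C * n1 x := by
  obtain ⟨C₂, hC₂, h₂⟩ := hG.cost_mom 2
  obtain ⟨C₁, hC₁, h₁⟩ := hG.cost_mom 1
  refine ⟨max C₁ C₂, hC₁.trans (le_max_left _ _), fun x y => ⟨?_, ?_⟩⟩
  · obtain ⟨w, -, hw, -⟩ := stair x y
    have h3 : ∫ t, T t x y ^ 2 ∂iidLaw G ≤ ∫ t, walkCost t w ^ 2 ∂iidLaw G := by
      refine integral_mono_ae (hG.T_mem x y).integrable_sq (h₂ x y w).1 ?_
      filter_upwards [hG.nn] with t ht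
      exact pow_le_pow_left₀ (T_nonneg ht x y) (T_le_walk ht w) 2
    refine h3.trans ((h₂ x y w).2.trans ?_)
    rw [hw]
    have := n1_nonneg (y - x)
    exact pow_le_pow_left₀ (by positivity)
      (mul_le_mul_of_nonneg_right (le_max_right _ _) this) 2
  · obtain ⟨w, -, hw, -⟩ := stair 0 x
    have h4 := h₁ 0 x w
    simp only [pow_one] at h4
    have h3 : mE G x ≤ ∫ t, walkCost t w ∂iidLaw G := by
      refine integral_mono_ae (hG.T_int 0 x) h4.1 ?_
      filter_upwards [hG.nn] with t ht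
      exact T_le_walk ht w
    refine h3.trans (h4.2.trans ?_)
    rw [hw, sub_zero]
    exact mul_le_mul_of_nonneg_right (le_max_left _ _) (n1_nonneg x)
theorem Law.mE_add (hG : Law G) (x y : Z2) : mE G (x + y) ≤ mE G x + mE G y := by
  have h1 := hG.int_T' x (x + y)
  rw [add_sub_cancel_left] at h1
  rw [← h1, mE, mE, ← integral_add (hG.T_int 0 x) (hG.T_int x (x + y))]
  refine integral_mono_ae (hG.T_int 0 (x + y)) ((hG.T_int 0 x).add (hG.T_int x (x + y))) ?_
  filter_upwards [hG.nn] with t ht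
  exact T_tri ht 0 x (x + y)
theorem Law.mE_neg (hG : Law G) (x : Z2) : mE G (-x) = mE G x := by
  have h1 := hG.int_T' x 0
  rw [zero_sub] at h1
  rw [← h1, mE]
  exact integral_congr_ae (ae_of_all _ fun t => T_symm t x 0)
theorem Law.mE_zero (hG : Law G) : mE G 0 = 0 := by
  refine integral_eq_zero_of_ae ?_
  filter_upwards [hG.nn] with t ht
  exact T_self ht 0

end

end Crest.Agent.R151.B
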