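import Crest.Agent.R151.B5a

set_option autoImplicit false

open MeasureTheory ProbabilityTheory Set Filter Topology
open Crest.ProbabilityR.FirstPassage

namespace Crest.Agent.R151.B

noncomputable section

/-! long paths are expensive -/

variable {G : Measure ℝ}

theorem walks_fin_nb (x : Z2) : ∃ Nb : Finset Z2, (∀ v, v ∈ Nb ↔ squareLattice.Adj x v) ∧
    Nb.card ≤ 4 := by
  refine ⟨{(x.1, x.2 + 1), (x.1, x.2 - 1), (x.1 + 1, x.2), (x.1 - 1, x.2)}, fun v => ?_,
    Finset.card_le_four⟩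
  obtain ⟨a, b⟩ := x
  obtain ⟨c, d⟩ := v
  simp only [squareLattice, SimpleGraph.fromRel_adj, Finset.mem_insert, Finset.mem_singleton,
    Prod.mk.injEq, ne_eq]
  omega

/-- at most `4 ^ N` walks of length `N` -/
theorem walks_fin (x : Z2) (N : ℕ) : ∃ F : Finset (Σ y : Z2, Wk x y),
    (∀ w : Σ y : Z2, Wk x y, w ∈ F ↔ w.2.length = N) ∧ F.card ≤ 4 ^ N := by
  classical
  induction N generalizing x with
  | zero =>
    refine ⟨{⟨x, SimpleGraph.Walk.nil⟩}, fun w => ?_, by simp⟩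
    obtain ⟨y, w⟩ := w
    rw [Finset.mem_singleton]
    constructor
    · intro h
      cases h
      rfl
    · intro h
      cases w with
      | nil => rfl
      | cons _ _ => simp at h
  | succ N ih =>
    choose F hF hc using ih
    obtain ⟨Nb, hNb, h4⟩ := walks_fin_nb x
    refine ⟨Nb.attach.biUnion fun v => (F v.1).image fun w =>
      ⟨w.1, SimpleGraph.Walk.cons ((hNb _).1 v.2) w.2⟩, fun w => ?_, ?_⟩
    · simp only [Finset.mem_biUnion, Finset.mem_attach, true_and, Finset.mem_image]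
      constructor
      · rintro ⟨v, w', hw', rfl⟩
        simp [(hF _ _).1 hw']
      · obtain ⟨y, w⟩ := w
        intro h
        cases w with
        | nil => simp at h
        | cons ha p =>
          refine ⟨⟨_, (hNb _).2 ha⟩, ⟨y, p⟩, (hF _ _).2 ?_, rfl⟩
          simpa using h
    · refine (Finset.card_biUnion_le_card_mul _ _ (4 ^ N) fun v _ =>
        Finset.card_image_le.trans (hc _)).trans ?_
      rw [Finset.card_attach, pow_succ']
      exact Nat.mul_le_mul_right _ h4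
theorem Law.len_pos (hG : Law G) : ∀ᵐ s ∂G, 0 < s := by
  rw [ae_iff]
  simpa [Iic] using hG.pos

theorem Law.len_int (hG : Law G) {l : ℝ} (hl : 0 ≤ l) :
    Integrable (fun s => Real.exp (-l * s)) G := by
  have := hG.prob
  refine Integrable.mono' (integrable_const (1 : ℝ)) (by fun_prop) ?_
  filter_upwards [hG.len_pos] with s hs
  rw [Real.norm_eq_abs, abs_of_pos (Real.exp_pos _), Real.exp_le_one_iff]
  nlinarith

theorem Law.len_small (hG : Law G) {δ : ℝ} (hδ : 0 < δ) :
    ∃ l : ℝ, 0 < l ∧ ∫ s, Real.exp (-l * s) ∂G ≤ δ := by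
  have := hG.prob
  have h : Tendsto (fun n : ℕ => ∫ s, Real.exp (-(n : ℝ) * s) ∂G) atTop (𝓝 (∫ _s, (0 : ℝ) ∂G)) := by
    refine tendsto_integral_of_dominated_convergence (fun _ => (1 : ℝ))
      (fun n => (hG.len_int (Nat.cast_nonneg n)).aestronglyMeasurable) (integrable_const _)
      (fun n => ?_) ?_
    · filter_upwards [hG.len_pos] with s hs
      rw [Real.norm_eq_abs, abs_of_pos (Real.exp_pos _), Real.exp_le_one_iff]
      have : (0 : ℝ) ≤ n := Nat.cast_nonneg n
      nlinarith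
    · filter_upwards [hG.len_pos] with s hs
      refine Real.tendsto_exp_atBot.comp ?_
      exact (tendsto_neg_atTop_atBot.comp tendsto_natCast_atTop_atTop).atBot_mul_const hs
  rw [integral_zero] at h
  obtain ⟨n, hn, hn1⟩ := ((h.eventually (Iic_mem_nhds hδ)).and (eventually_ge_atTop 1)).exists
  exact ⟨n, by exact_mod_cast hn1, hn⟩

theorem Law.len_path (hG : Law G) : ∃ c : ℝ, 0 < c ∧ ∀ (x y : Z2) (w : Wk x y), w.IsPath →
    Pr G {t | walkCost t w ≤ c * w.length} ≤ (1 / 8) ^ w.length := by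
  obtain ⟨l, hl, hI⟩ := hG.len_small (δ := Real.exp (-1) / 8) (by positivity)
  refine ⟨1 / l, by positivity, fun x y w hw => ?_⟩
  obtain ⟨h1, h2⟩ := hG.mgf w hw (hG.len_int hl.le)
  have h3 := mul_meas_ge_le_integral_of_nonneg (ae_of_all _ fun t => (Real.exp_pos _).le) h1
    (Real.exp (-1) ^ w.length)
  have h4 : (∫ s, Real.exp (-l * s) ∂G) ^ w.length ≤ (Real.exp (-1) / 8) ^ w.length :=
    pow_le_pow_left₀ (integral_nonneg fun s => (Real.exp_pos _).le) hI _
  have h5 : Pr G {t | walkCost t w ≤ 1 / l * w.length} ≤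
      Pr G {t | Real.exp (-1) ^ w.length ≤ Real.exp (-l * walkCost t w)} := by
    refine hG.mono fun t ht => ?_
    have ht' : walkCost t w ≤ 1 / l * w.length := ht
    show Real.exp (-1) ^ w.length ≤ _
    rw [← Real.exp_nat_mul, Real.exp_le_exp]
    have := mul_le_mul_of_nonneg_left ht' hl.le
    rw [← mul_assoc, mul_one_div_cancel hl.ne', one_mul] at this
    linarith
  refine h5.trans (le_of_mul_le_mul_left ?_ (pow_pos (Real.exp_pos (-1)) w.length))
  rw [← mul_pow, mul_one_div]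
  exact h3.trans (h2.le.trans h4)

/-- `∫ exp (-l s) dG → G {0} = 0`; choose `l` with integral `≤ 1 / (8 e)`, `c = 1 / l`; cut the
path after `N` steps (`Walk.take`), Chernoff and union bound -/
theorem Law.len (hG : Law G) : ∃ c : ℝ, 0 < c ∧ ∀ (x : Z2) (N : ℕ),
    Pr G {t | ∃ y, ∃ w : Wk x y, w.IsPath ∧ N ≤ w.length ∧ walkCost t w ≤ c * N} ≤ (1 / 2) ^ N := by
  obtain ⟨c, hc, h⟩ := hG.len_path
  refine ⟨c, hc, fun x N => ?_⟩
  obtain ⟨F, hF, hcard⟩ := walks_fin x N
  have h1 : Pr G {t | ∃ y, ∃ w : Wk x y, w.IsPath ∧ N ≤ w.length ∧ walkCost t w ≤ c * N} ≤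
      Pr G (⋃ w ∈ F, {t | w.2.IsPath ∧ walkCost t w.2 ≤ c * N}) := by
    refine hG.mono_nn fun t ht ⟨y, w, hw, hN, hcost⟩ => ?_
    simp only [mem_iUnion, mem_setOf_eq]
    refine ⟨⟨_, w.take N⟩, (hF _).2 ?_, hw.take N, le_trans ?_ hcost⟩
    · simp [hN]
    · unfold walkCost
      rw [SimpleGraph.Walk.edges_take]
      refine ((List.take_sublist N _).map t).sum_le_sum fun a ha => ?_
      obtain ⟨e, -, rfl⟩ := List.mem_map.1 ha
      exact ht e
  refine h1.trans ((hG.biUnion F _).trans ?_)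
  have h2 : ∀ w ∈ F, Pr G {t | w.2.IsPath ∧ walkCost t w.2 ≤ c * N} ≤ (1 / 8) ^ N := by
    intro w hw
    have hl := (hF w).1 hw
    by_cases hp : w.2.IsPath
    · have := h _ _ w.2 hp
      rw [hl] at this
      exact (hG.mono fun t ht => ht.2).trans this
    · simp only [hp, false_and, setOf_false, Pr, measureReal_empty]
      positivity
  refine (Finset.sum_le_card_nsmul _ _ _ h2).trans ?_
  rw [nsmul_eq_mul]
  have h3 : (F.card : ℝ) ≤ 4 ^ N := by exact_mod_cast hcard
  calc (F.card : ℝ) * (1 / 8) ^ N ≤ 4 ^ N * (1 / 8) ^ N :=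
        mul_le_mul_of_nonneg_right h3 (by positivity)
    _ = (1 / 2) ^ N := by rw [← mul_pow]; norm_num
/-- with `N = n1 x ≥ 1`: `T < c N` gives a path as in `len`, so `P (c N ≤ T) ≥ 1 / 2` -/
theorem Law.mE_ge (hG : Law G) : ∃ c : ℝ, 0 < c ∧ ∀ x, c * n1 x ≤ mE G x := by
  obtain ⟨c, hc, h⟩ := hG.len
  refine ⟨c / 2, by positivity, fun x => ?_⟩
  obtain ⟨N, hN, hN0⟩ := n1_nat x
  rcases Nat.eq_zero_or_pos N with rfl | hpos
  · rw [hN, hN0 rfl, hG.mE_zero]
    simp
  have h1 : Pr G {t | T t 0 x < c * N} ≤ 1 / 2 := by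
    refine le_trans (hG.mono_nn fun t ht hT => ?_) ((h 0 N).trans ?_)
    · obtain ⟨w, hw, hcost⟩ := T_path ht 0 x (sub_pos.2 hT)
      refine ⟨x, w, hw, ?_, by linarith⟩
      have := walk_n1 w
      rw [sub_zero, hN] at this
      exact_mod_cast this
    · calc (1 / 2 : ℝ) ^ N ≤ (1 / 2) ^ 1 :=
            pow_le_pow_of_le_one (by norm_num) (by norm_num) hpos
        _ = 1 / 2 := pow_one _
  have h2 := hG.compl_ge {t | T t 0 x < c * N}
  have h3 := mul_meas_ge_le_integral_of_nonneg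
    (hG.nn.mono fun t ht => T_nonneg ht 0 x) (hG.T_int 0 x) (c * N)
  have h4 : {t : Env | T t 0 x < c * N}ᶜ = {t | c * N ≤ T t 0 x} := by
    ext t
    simp
  rw [h4] at h2
  have h5 : 0 ≤ c * N := by positivity
  have h6 : c * N * (1 / 2) ≤ c * N * Pr G {t | c * N ≤ T t 0 x} :=
    mul_le_mul_of_nonneg_left (by linarith) h5
  rw [hN]
  calc c / 2 * N = c * N * (1 / 2) := by ring
    _ ≤ _ := h6.trans h3

end

end Crest.Agent.R151.B
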