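import Crest.Agent.R151.BDefs

set_option autoImplicit false

open MeasureTheory ProbabilityTheory Set Filter Topology
open Crest.ProbabilityR.FirstPassage

namespace Crest.Agent.R151.B

noncomputable section

/-! Efron-Stein inequality -/

theorem efron_int {Ω Ω' : Type} [MeasurableSpace Ω] [MeasurableSpace Ω'] {ν : Measure Ω}
    {ν' : Measure Ω'} {σ : Ω → Ω'} (hσ : MeasurePreserving σ ν ν') {φ : Ω' → ℝ}
    (hφ : Measurable φ) : ∫ ω, φ (σ ω) ∂ν = ∫ ω, φ ω ∂ν' := by
  rw [← hσ.map_eq, integral_map hσ.measurable.aemeasurable hφ.aestronglyMeasurable]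

theorem efron_step {Ω : Type} [MeasurableSpace Ω] {ν : Measure Ω} {a b c d : Ω → ℝ}
    (ha : MemLp a 2 ν) (hb : MemLp b 2 ν) (hc : MemLp c 2 ν) (hd : MemLp d 2 ν)
    (h1 : ∫ ω, b ω * d ω ∂ν = ∫ ω, a ω * c ω ∂ν) (h2 : ∫ ω, b ω * c ω ∂ν = ∫ ω, a ω * d ω ∂ν)
    (h3 : ∫ ω, (c ω - d ω) ^ 2 ∂ν = ∫ ω, (a ω - b ω) ^ 2 ∂ν)
    (h4 : ∫ ω, max (a ω - b ω) 0 ^ 2 ∂ν = ∫ ω, max (b ω - a ω) 0 ^ 2 ∂ν) :
    ∫ ω, a ω * c ω ∂ν - ∫ ω, a ω * d ω ∂ν ≤ ∫ ω, max (b ω - a ω) 0 ^ 2 ∂ν := by
  have iac : Integrable (fun ω => a ω * c ω) ν := ha.integrable_mul hc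
  have iad : Integrable (fun ω => a ω * d ω) ν := ha.integrable_mul hd
  have ibc : Integrable (fun ω => b ω * c ω) ν := hb.integrable_mul hc
  have ibd : Integrable (fun ω => b ω * d ω) ν := hb.integrable_mul hd
  have iab : Integrable (fun ω => (a ω - b ω) ^ 2) ν := (ha.sub hb).integrable_sq
  have icd : Integrable (fun ω => (c ω - d ω) ^ 2) ν := (hc.sub hd).integrable_sq
  have ip : Integrable (fun ω => max (a ω - b ω) 0 ^ 2) ν := (ha.sub hb).pos_part.integrable_sq
  have im : Integrable (fun ω => max (b ω - a ω) 0 ^ 2) ν := (hb.sub ha).pos_part.integrable_sq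
  have e1 : ∫ ω, (a ω - b ω) ^ 2 ∂ν
      = ∫ ω, max (a ω - b ω) 0 ^ 2 ∂ν + ∫ ω, max (b ω - a ω) 0 ^ 2 ∂ν := by
    rw [← integral_add ip im]
    refine integral_congr_ae (Eventually.of_forall fun ω => ?_)
    rcases le_total (a ω) (b ω) with h | h
    · simp only [max_eq_right (sub_nonpos.2 h), max_eq_left (sub_nonneg.2 h)]
      ring
    · simp only [max_eq_right (sub_nonpos.2 h), max_eq_left (sub_nonneg.2 h)]
      ring
  have e2 : ∫ ω, (a ω * c ω - a ω * d ω + (b ω * d ω - b ω * c ω)) ∂ν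
      = ∫ ω, a ω * c ω ∂ν - ∫ ω, a ω * d ω ∂ν + (∫ ω, b ω * d ω ∂ν - ∫ ω, b ω * c ω ∂ν) := by
    rw [← integral_sub iac iad, ← integral_sub ibd ibc]
    exact integral_add (iac.sub iad) (ibd.sub ibc)
  have e3 : ∫ ω, ((1 / 2 : ℝ) * (a ω - b ω) ^ 2 + (1 / 2 : ℝ) * (c ω - d ω) ^ 2) ∂ν
      = (1 / 2 : ℝ) * ∫ ω, (a ω - b ω) ^ 2 ∂ν + (1 / 2 : ℝ) * ∫ ω, (c ω - d ω) ^ 2 ∂ν := by
    rw [integral_add (iab.const_mul _) (icd.const_mul _), integral_const_mul, integral_const_mul]
  have e4 : ∫ ω, (a ω * c ω - a ω * d ω + (b ω * d ω - b ω * c ω)) ∂ν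
      ≤ ∫ ω, ((1 / 2 : ℝ) * (a ω - b ω) ^ 2 + (1 / 2 : ℝ) * (c ω - d ω) ^ 2) ∂ν := by
    refine integral_mono ((iac.sub iad).add (ibd.sub ibc))
      ((iab.const_mul _).add (icd.const_mul _)) fun ω => ?_
    show a ω * c ω - a ω * d ω + (b ω * d ω - b ω * c ω)
      ≤ (1 / 2 : ℝ) * (a ω - b ω) ^ 2 + (1 / 2 : ℝ) * (c ω - d ω) ^ 2
    nlinarith [sq_nonneg (a ω - b ω - (c ω - d ω))]
  linarith

/-- the second copy on `A`, the first copy elsewhere -/
def efronX {ι : Type} [DecidableEq ι] (A : Finset ι) (ω : ι → ℝ × ℝ) : ι → ℝ :=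
  fun j => if j ∈ A then (ω j).2 else (ω j).1

/-- exchange of the two copies on `A` -/
def efronS {ι : Type} [DecidableEq ι] (A : Finset ι) (ω : ι → ℝ × ℝ) : ι → ℝ × ℝ :=
  fun j => if j ∈ A then (ω j).swap else ω j

theorem efronS_mp {ι : Type} [Fintype ι] [DecidableEq ι] (G : Measure ℝ) [IsProbabilityMeasure G]
    (A : Finset ι) : MeasurePreserving (efronS A) (Measure.pi fun _ : ι => G.prod G)
      (Measure.pi fun _ : ι => G.prod G) := by
  refine measurePreserving_pi (fun _ : ι => G.prod G) (fun _ : ι => G.prod G)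
    (f := fun j (x : ℝ × ℝ) => if j ∈ A then x.swap else x) fun j => ?_
  by_cases h : j ∈ A
  · simp only [h, if_true]
    exact Measure.measurePreserving_swap
  · simp only [h, if_false]
    exact MeasurePreserving.id _

theorem efronX_mp {ι : Type} [Fintype ι] [DecidableEq ι] (G : Measure ℝ) [IsProbabilityMeasure G]
    (A : Finset ι) : MeasurePreserving (efronX A) (Measure.pi fun _ : ι => G.prod G)
      (Measure.pi fun _ : ι => G) := by
  refine measurePreserving_pi (fun _ : ι => G.prod G) (fun _ : ι => G)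
    (f := fun j (x : ℝ × ℝ) => if j ∈ A then x.2 else x.1) fun j => ?_
  by_cases h : j ∈ A
  · simp only [h, if_true]
    exact measurePreserving_snd
  · simp only [h, if_false]
    exact measurePreserving_fst

theorem efronX_S {ι : Type} [DecidableEq ι] (A B C : Finset ι)
    (h : ∀ j, j ∈ C ↔ (j ∈ A ↔ j ∉ B)) (ω : ι → ℝ × ℝ) :
    efronX B (efronS A ω) = efronX C ω := by
  funext j
  have := h j
  by_cases h1 : j ∈ A <;> by_cases h2 : j ∈ B <;> simp_all [efronX, efronS]

theorem efron_sum {ι : Type} [Fintype ι] [DecidableEq ι] (G : Measure ℝ) [IsProbabilityMeasure G]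
    {f : (ι → ℝ) → ℝ} (hm : Measurable f) (hf : MemLp f 2 (Measure.pi fun _ : ι => G))
    (A : Finset ι) :
    ∫ ω, f (efronX ∅ ω) * f (efronX ∅ ω) ∂(Measure.pi fun _ : ι => G.prod G)
      - ∫ ω, f (efronX ∅ ω) * f (efronX A ω) ∂(Measure.pi fun _ : ι => G.prod G)
      ≤ ∑ i ∈ A, ∫ ω, max (f (efronX {i} ω) - f (efronX ∅ ω)) 0 ^ 2
        ∂(Measure.pi fun _ : ι => G.prod G) := by
  have hL : ∀ B : Finset ι, MemLp (fun ω => f (efronX B ω)) 2 (Measure.pi fun _ : ι => G.prod G) :=
    fun B => hf.comp_measurePreserving (efronX_mp G B)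
  have hM : ∀ B : Finset ι, Measurable (fun ω : ι → ℝ × ℝ => f (efronX B ω)) :=
    fun B => hm.comp (efronX_mp G B).measurable
  induction A using Finset.induction_on with
  | empty => simp
  | insert i A hi ih =>
    rw [Finset.sum_insert hi]
    have s1 : ∀ ω : ι → ℝ × ℝ, efronX ∅ (efronS {i} ω) = efronX {i} ω :=
      efronX_S _ _ _ (by simp)
    have s2 : ∀ ω : ι → ℝ × ℝ, efronX {i} (efronS {i} ω) = efronX ∅ ω :=
      efronX_S _ _ _ (by simp)
    have s3 : ∀ ω : ι → ℝ × ℝ, efronX A (efronS {i} ω) = efronX (insert i A) ω :=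
      efronX_S _ _ _ fun j => by
        by_cases h : j = i
        · subst h; simp [hi]
        · simp [h]
    have s4 : ∀ ω : ι → ℝ × ℝ, efronX (insert i A) (efronS {i} ω) = efronX A ω :=
      efronX_S _ _ _ fun j => by
        by_cases h : j = i
        · subst h; simp [hi]
        · simp [h]
    have s5 : ∀ ω : ι → ℝ × ℝ, efronX ∅ (efronS A ω) = efronX A ω :=
      efronX_S _ _ _ (by simp)
    have s6 : ∀ ω : ι → ℝ × ℝ, efronX {i} (efronS A ω) = efronX (insert i A) ω :=
      efronX_S _ _ _ fun j => by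
        by_cases h : j = i
        · subst h; simp [hi]
        · simp [h]
    have key := efron_step (hL ∅) (hL {i}) (hL A) (hL (insert i A))
      (by
        have := efron_int (efronS_mp G {i}) ((hM ∅).mul (hM A))
        simpa only [Pi.mul_apply, s1, s3] using this)
      (by
        have := efron_int (efronS_mp G {i}) ((hM ∅).mul (hM (insert i A)))
        simpa only [Pi.mul_apply, s1, s4] using this)
      (by
        have := efron_int (efronS_mp G A) (((hM ∅).sub (hM {i})).pow_const 2)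
        simpa only [Pi.sub_apply, s5, s6] using this)
      (by
        have := efron_int (efronS_mp G {i})
          ((((hM {i}).sub (hM ∅)).max (measurable_const (a := (0 : ℝ)))).pow_const 2)
        simpa only [Pi.sub_apply, s1, s2] using this)
    linarith

/-- Efron-Stein on a finite product, one sided form. Induction on the number of coordinates
(`Var f = E Var (f | rest) + Var E (f | rest)`, Jensen), `Var X = E (X' - X)₊²` for an independent
copy. Any route is fine. -/
theorem efron {ι : Type} [Fintype ι] [DecidableEq ι] (G : Measure ℝ) [IsProbabilityMeasure G]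
    {f : (ι → ℝ) → ℝ} (hm : Measurable f) (hf : MemLp f 2 (Measure.pi fun _ : ι => G)) :
    Var[f; Measure.pi fun _ : ι => G] ≤ ∑ i, ∫ t, ∫ s, max (f (Function.update t i s) - f t) 0 ^ 2 ∂G
      ∂Measure.pi fun _ : ι => G := by
  have key := efron_sum G hm hf Finset.univ
  have he := measurePreserving_arrowProdEquivProdArrow ℝ ℝ ι (fun _ => G) (fun _ => G)
  have e1 : ∫ ω, f (efronX ∅ ω) * f (efronX ∅ ω) ∂(Measure.pi fun _ : ι => G.prod G)
      = ∫ t, f t * f t ∂(Measure.pi fun _ : ι => G) :=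
    efron_int (efronX_mp G ∅) (hm.mul hm)
  have e2 : ∫ ω, f (efronX ∅ ω) * f (efronX Finset.univ ω) ∂(Measure.pi fun _ : ι => G.prod G)
      = (∫ t, f t ∂(Measure.pi fun _ : ι => G)) * ∫ t, f t ∂(Measure.pi fun _ : ι => G) := by
    rw [← integral_prod_mul, ← efron_int he (φ := fun z => f z.1 * f z.2)
      ((hm.comp measurable_fst).mul (hm.comp measurable_snd))]
    refine integral_congr_ae (Eventually.of_forall fun ω => ?_)
    have a1 : efronX ∅ ω = (MeasurableEquiv.arrowProdEquivProdArrow ℝ ℝ ι ω).1 := by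
      funext j
      simp [efronX]
      rfl
    have a2 : efronX Finset.univ ω = (MeasurableEquiv.arrowProdEquivProdArrow ℝ ℝ ι ω).2 := by
      funext j
      simp [efronX]
      rfl
    simp only [a1, a2]
  have e3 : ∀ i : ι, ∫ ω, max (f (efronX {i} ω) - f (efronX ∅ ω)) 0 ^ 2
        ∂(Measure.pi fun _ : ι => G.prod G)
      = ∫ t, ∫ s, max (f (Function.update t i s) - f t) 0 ^ 2 ∂G ∂Measure.pi fun _ : ι => G := by
    intro i
    have hp : MeasurePreserving (fun ω : ι → ℝ × ℝ => (efronX ∅ ω, (ω i).2))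
        (Measure.pi fun _ : ι => G.prod G) ((Measure.pi fun _ : ι => G).prod G) := by
      have := ((MeasurePreserving.id (Measure.pi fun _ : ι => G)).prod
        (measurePreserving_eval (fun _ : ι => G) i)).comp he
      convert this using 1
      funext ω
      refine Prod.ext ?_ rfl
      funext j
      simp [efronX]
      rfl
    have hu : ∀ ω : ι → ℝ × ℝ, Function.update (efronX ∅ ω) i (ω i).2 = efronX {i} ω := by
      intro ω
      funext j
      by_cases h : j = i
      · subst h; simp [efronX]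
      · simp [efronX, h]
    have hφ : Measurable fun z : (ι → ℝ) × ℝ => max (f (Function.update z.1 i z.2) - f z.1) 0 ^ 2 :=
      (((hm.comp measurable_update').sub (hm.comp measurable_fst)).max measurable_const).pow_const 2
    have hI : Integrable (fun z : (ι → ℝ) × ℝ => max (f (Function.update z.1 i z.2) - f z.1) 0 ^ 2)
        ((Measure.pi fun _ : ι => G).prod G) := by
      rw [← hp.integrable_comp hφ.aestronglyMeasurable]
      have := ((hf.comp_measurePreserving (efronX_mp G {i})).sub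
        (hf.comp_measurePreserving (efronX_mp G ∅))).pos_part.integrable_sq
      refine this.congr (Eventually.of_forall fun ω => ?_)
      simp only [Function.comp, hu, Pi.sub_apply]
    rw [← integral_prod _ hI, ← efron_int hp hφ]
    simp only [hu]
  rw [variance_eq_sub hf]
  rw [e1, e2] at key
  simp only [e3] at key
  simpa only [pow_two, Pi.mul_apply] using key

end

end Crest.Agent.R151.B
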