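import Crest.Agent.R151.B6a
import Crest.Agent.R151.B5b

set_option autoImplicit false

open MeasureTheory ProbabilityTheory Set Filter Topology
open Crest.ProbabilityR.FirstPassage

namespace Crest.Agent.R151.B

noncomputable section

/-! variance of the passage time -/

variable {G : Measure ℝ}

theorem es_min_sq (hG : Law G) : Integrable (fun s : ℝ => s ^ 2) G := by
  obtain ⟨l, hl, hi⟩ := hG.expm
  refine (hi.const_mul (2 / l ^ 2)).mono' (by fun_prop) ?_
  have h0 : ∀ᵐ s ∂G, s ∉ Iic (0 : ℝ) := measure_eq_zero_iff_ae_notMem.1 hG.pos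
  filter_upwards [h0] with s hs
  have hs' : 0 ≤ l * s := mul_nonneg hl.le (le_of_lt (not_le.1 hs))
  have h1 := Real.quadratic_le_exp_of_nonneg hs'
  rw [Real.norm_of_nonneg (sq_nonneg s), div_mul_eq_mul_div, le_div_iff₀ (by positivity)]
  nlinarith

theorem es_min_fin (hG : Law G) {ι κ : Type} [Fintype ι] [DecidableEq ι] (Γ : Finset κ)
    (hΓ : Γ.Nonempty) (S : κ → Finset ι) {N : ℕ} (hN : ∀ γ ∈ Γ, (S γ).card ≤ N) :
    Measurable (fun u : ι → ℝ => Γ.inf' hΓ fun γ => ∑ i ∈ S γ, u i) ∧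
    Var[fun u : ι → ℝ => Γ.inf' hΓ fun γ => ∑ i ∈ S γ, u i; Measure.pi fun _ : ι => G] ≤
      N * ∫ s, s ^ 2 ∂G := by
  classical
  have := hG.prob
  set f : (ι → ℝ) → ℝ := fun u => Γ.inf' hΓ fun γ => ∑ i ∈ S γ, u i with hf
  set P : Measure (ι → ℝ) := Measure.pi fun _ : ι => G with hP
  set M : ℝ := ∫ s, s ^ 2 ∂G with hM
  have hM0 : 0 ≤ M := integral_nonneg fun s => sq_nonneg s
  have hsq := es_min_sq hG
  have e : f = Γ.inf' hΓ fun γ (u : ι → ℝ) => ∑ i ∈ S γ, u i := by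
    funext u
    rw [Finset.inf'_apply]
  have hm : Measurable f := by
    rw [e]
    exact Finset.inf'_induction hΓ _ (p := fun g : (ι → ℝ) → ℝ => Measurable g)
      (fun _ h1 _ h2 => h1.inf h2) fun γ _ => by fun_prop
  have hid : MemLp (fun s : ℝ => s) 2 G :=
    (memLp_two_iff_integrable_sq aestronglyMeasurable_id).2 hsq
  have hL : MemLp f 2 P := by
    rw [e]
    refine Finset.inf'_induction hΓ _ (p := fun g : (ι → ℝ) → ℝ => MemLp g 2 P)
      (fun _ h1 _ h2 => h1.inf h2) fun γ _ => ?_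
    exact memLp_finsetSum _ fun i _ =>
      hid.comp_measurePreserving (measurePreserving_eval (fun _ : ι => G) i)
  refine ⟨hm, (efron G hm hL).trans ?_⟩
  set g : ι → (ι → ℝ) → ℝ :=
    fun i t => ∫ s, max (f (Function.update t i s) - f t) 0 ^ 2 ∂G with hg
  have hg0 : ∀ i t, 0 ≤ g i t := fun i t => integral_nonneg fun s => sq_nonneg _
  have hnn : ∀ᵐ t ∂P, ∀ i, 0 ≤ t i := by
    rw [ae_all_iff]
    intro i
    have h0 : ∀ᵐ s ∂G, s ∉ Iic (0 : ℝ) := measure_eq_zero_iff_ae_notMem.1 hG.pos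
    have h1 : ∀ᵐ s ∂G, (0 : ℝ) ≤ s := h0.mono fun s hs => le_of_lt (not_le.1 hs)
    exact (measurePreserving_eval (fun _ : ι => G) i).quasiMeasurePreserving.ae h1
  have key : ∀ t : ι → ℝ, (∀ i, 0 ≤ t i) → ∑ i, g i t ≤ N * M := by
    intro t ht
    obtain ⟨γ, hγ, eγ⟩ := Finset.exists_mem_eq_inf' hΓ fun γ => ∑ i ∈ S γ, t i
    have h1 : ∀ i, g i t ≤ if i ∈ S γ then M else 0 := by
      intro i
      have h2 : ∀ s, f (Function.update t i s) - f t ≤ if i ∈ S γ then s - t i else 0 := by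
        intro s
        have a1 : f (Function.update t i s) ≤ ∑ j ∈ S γ, Function.update t i s j :=
          Finset.inf'_le (fun γ => ∑ j ∈ S γ, Function.update t i s j) hγ
        have a2 : f t = ∑ j ∈ S γ, t j := eγ
        split_ifs with hi
        · rw [Finset.sum_update_of_mem hi] at a1
          rw [Finset.sum_eq_add_sum_sdiff_singleton_of_mem hi] at a2
          linarith
        · rw [Finset.sum_update_of_notMem hi] at a1
          linarith
      split_ifs with hi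
      · refine integral_mono_of_nonneg (ae_of_all _ fun s => sq_nonneg _) hsq
          (ae_of_all _ fun s => ?_)
        have a1 := h2 s
        rw [if_pos hi] at a1
        have a2 := ht i
        show max (f (Function.update t i s) - f t) 0 ^ 2 ≤ s ^ 2
        rw [← sq_abs s]
        exact pow_le_pow_left₀ (le_max_right _ _)
          (max_le (by linarith [le_abs_self s]) (abs_nonneg s)) 2
      · refine le_of_eq (integral_eq_zero_of_ae (ae_of_all _ fun s => ?_))
        have a1 := h2 s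
        rw [if_neg hi] at a1
        show max (f (Function.update t i s) - f t) 0 ^ 2 = 0
        rw [max_eq_right a1, zero_pow two_ne_zero]
    refine (Finset.sum_le_sum fun i _ => h1 i).trans ?_
    rw [Finset.sum_ite_mem, Finset.univ_inter, Finset.sum_const, nsmul_eq_mul]
    exact mul_le_mul_of_nonneg_right (Nat.cast_le.2 (hN γ hγ)) hM0
  set I := Finset.univ.filter fun i => Integrable (g i) P with hI
  have e1 : ∑ i, ∫ t, g i t ∂P = ∑ i ∈ I, ∫ t, g i t ∂P :=
    (Finset.sum_subset (Finset.subset_univ _) fun i _ hi =>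
      integral_undef fun h => hi (Finset.mem_filter.2 ⟨Finset.mem_univ _, h⟩)).symm
  show ∑ i, ∫ t, g i t ∂P ≤ N * M
  rw [e1, ← integral_finsetSum _ fun i hi => (Finset.mem_filter.1 hi).2]
  calc _ ≤ ∫ _t, (N * M : ℝ) ∂P := by
        refine integral_mono_of_nonneg
          (ae_of_all _ fun t => Finset.sum_nonneg fun i _ => hg0 i t) (integrable_const _) ?_
        filter_upwards [hnn] with t ht
        exact (Finset.sum_le_sum_of_subset_of_nonneg (Finset.subset_univ _)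
          fun i _ _ => hg0 i t).trans (key t ht)
    _ = N * M := by simp

/-- minimum of finitely many sums. Restrict to the finite set of coordinates `Γ.biUnion id`
(`infinitePi_map_restrict`), apply `efron`: for a minimiser `γ` at `t` (weights `≥ 0`), the increment
at `i` is `≤ s` if `i ∈ γ` and `≤ 0` otherwise, so pointwise in `t` the sum over `i` of the inner
integrals is `≤ N ∫ s²`. -/
theorem Law.es_min (hG : Law G) (Γ : Finset (Finset (Sym2 Z2))) (hΓ : Γ.Nonempty) {N : ℕ}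
    (hN : ∀ γ ∈ Γ, γ.card ≤ N) :
    Var[fun t : Env => Γ.inf' hΓ fun γ => ∑ e ∈ γ, t e; iidLaw G] ≤ N * ∫ s, s ^ 2 ∂G := by
  classical
  have := hG.prob
  obtain ⟨E, hE⟩ : ∃ E : Finset (Sym2 Z2), ∀ γ ∈ Γ, ∀ e ∈ γ, e ∈ E :=
    ⟨Γ.biUnion id, fun γ hγ e he => Finset.mem_biUnion.2 ⟨γ, hγ, he⟩⟩
  have hS : ∀ γ ∈ Γ, (γ.subtype (· ∈ E)).card ≤ N := fun γ hγ => by
    refine le_trans ?_ (hN γ hγ)
    rw [Finset.card_subtype]
    exact Finset.card_filter_le _ _
  obtain ⟨hm, hv⟩ := es_min_fin (ι := E) hG Γ hΓ (fun γ => γ.subtype (· ∈ E)) hS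
  have hp : MeasurePreserving (E.restrict : Env → E → ℝ) (iidLaw G)
      (Measure.pi fun _ : E => G) :=
    ⟨Finset.measurable_restrict E, Measure.infinitePi_map_restrict (fun _ : Sym2 Z2 => G)⟩
  have h1 := hp.variance_fun_comp hm.aemeasurable
  have e : (fun t : Env => Γ.inf' hΓ fun γ => ∑ e ∈ γ, t e) = fun t : Env =>
      Γ.inf' hΓ fun γ => ∑ i ∈ γ.subtype (· ∈ E), t i.1 := by
    funext t
    exact Finset.inf'_congr hΓ rfl fun γ hγ => (Finset.sum_subtype_of_mem t (hE γ hγ)).symm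
  rw [e]
  exact h1.le.trans hv
theorem T_var_meas (Γ : Finset (Finset (Sym2 Z2))) (hΓ : Γ.Nonempty) :
    Measurable fun t : Env => Γ.inf' hΓ fun γ => ∑ e ∈ γ, t e := by
  induction hΓ using Finset.Nonempty.cons_induction with
  | singleton a =>
    simp only [Finset.inf'_singleton]
    exact Finset.measurable_sum _ fun e _ => measurable_pi_apply e
  | cons a s ha hs ih =>
    simp only [Finset.inf'_cons hs]
    exact (Finset.measurable_sum _ fun e _ => measurable_pi_apply e).inf ih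

open Classical in
/-- the edge sets of the paths of length at most `N` -/
theorem T_var_paths (x y : Z2) (N : ℕ) : ∃ Γ : Finset (Finset (Sym2 Z2)),
    ∀ γ, γ ∈ Γ ↔ ∃ w : Wk x y, w.IsPath ∧ w.length ≤ N ∧ w.edges.toFinset = γ := by
  choose F hF _ using walks_fin x
  refine ⟨(((Finset.range (N + 1)).biUnion F).filter fun w => w.1 = y ∧ w.2.IsPath).image
    fun w => w.2.edges.toFinset, fun γ => ?_⟩
  simp only [Finset.mem_image, Finset.mem_filter, Finset.mem_biUnion, Finset.mem_range, hF]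
  constructor
  · rintro ⟨⟨y', w⟩, ⟨⟨j, hj, hw⟩, rfl, hp⟩, rfl⟩
    exact ⟨w, hp, by dsimp only at hw; omega, rfl⟩
  · rintro ⟨w, hp, hw, rfl⟩
    exact ⟨⟨y, w⟩, ⟨⟨w.length, by omega, rfl⟩, rfl, hp⟩, rfl⟩

/-- comparison of variances for two variables which agree off a small event -/
theorem T_var_cmp {Ω : Type*} [MeasurableSpace Ω] {μ : Measure Ω} [IsProbabilityMeasure μ]
    {X Y S : Ω → ℝ} {B : Set Ω} (hX : Measurable X) (hY : Measurable Y)
    (h2 : Integrable (fun t => S t ^ 2) μ) (h4 : Integrable (fun t => S t ^ 4) μ)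
    (h : ∀ᵐ t ∂μ, 0 ≤ X t ∧ X t ≤ Y t ∧ Y t ≤ S t ∧ (t ∉ B → Y t ≤ X t)) {a : ℝ} (ha : 0 < a) :
    Var[X; μ] ≤ 2 * Var[Y; μ] + 2 * (a * ∫ t, S t ^ 4 ∂μ + 1 / (4 * a) * μ.real B) := by
  have hY2 : MemLp Y 2 μ := by
    rw [memLp_two_iff_integrable_sq hY.aestronglyMeasurable]
    refine h2.mono' (hY.pow_const 2).aestronglyMeasurable ?_
    filter_upwards [h] with t ht
    rw [Real.norm_of_nonneg (sq_nonneg _)]
    exact pow_le_pow_left₀ (ht.1.trans ht.2.1) ht.2.2.1 2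
  have i1 : Integrable (fun t => (Y t - μ[Y]) ^ 2) μ :=
    (hY2.sub (memLp_const μ[Y])).integrable_sq
  have hB := measurableSet_toMeasurable μ B
  have i2 : Integrable (fun t => (toMeasurable μ B).indicator (1 : Ω → ℝ) t) μ :=
    (integrable_const (1 : ℝ)).indicator hB
  have i3 : Integrable (fun t => a * S t ^ 4 +
      1 / (4 * a) * (toMeasurable μ B).indicator (1 : Ω → ℝ) t) μ :=
    (h4.const_mul a).add (i2.const_mul _)
  rw [← variance_sub_const hX.aestronglyMeasurable μ[Y], variance_eq_integral hY.aemeasurable]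
  refine (variance_le_expectation_sq (hX.sub_const _).aestronglyMeasurable).trans ?_
  have e : 2 * ∫ t, (Y t - μ[Y]) ^ 2 ∂μ + 2 * (a * ∫ t, S t ^ 4 ∂μ + 1 / (4 * a) * μ.real B) =
      ∫ t, (2 * (Y t - μ[Y]) ^ 2 + 2 * (a * S t ^ 4 +
        1 / (4 * a) * (toMeasurable μ B).indicator (1 : Ω → ℝ) t)) ∂μ := by
    rw [integral_add (i1.const_mul 2) (i3.const_mul 2), integral_const_mul, integral_const_mul,
      integral_add (h4.const_mul a) (i2.const_mul _), integral_const_mul, integral_const_mul,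
      integral_indicator_one hB, Measure.real, Measure.real, measure_toMeasurable]
  rw [e]
  refine integral_mono_of_nonneg (Eventually.of_forall fun t => sq_nonneg _)
    ((i1.const_mul 2).add (i3.const_mul 2)) ?_
  filter_upwards [h] with t ht
  obtain ⟨h0, h1, h3, h5⟩ := ht
  have key : (Y t - X t) ^ 2 ≤
      a * S t ^ 4 + 1 / (4 * a) * (toMeasurable μ B).indicator (1 : Ω → ℝ) t := by
    by_cases hb : t ∈ toMeasurable μ B
    · rw [indicator_of_mem hb, Pi.one_apply, mul_one]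
      have e1 : (Y t - X t) ^ 2 ≤ S t ^ 2 := pow_le_pow_left₀ (by linarith) (by linarith) 2
      have e2 : a * S t ^ 4 + 1 / (4 * a) - S t ^ 2 = (2 * a * S t ^ 2 - 1) ^ 2 / (4 * a) := by
        field_simp
        ring
      have e3 : 0 ≤ (2 * a * S t ^ 2 - 1) ^ 2 / (4 * a) := by positivity
      linarith
    · have e1 : Y t - X t = 0 := by
        linarith [h5 fun hb' => hb (subset_toMeasurable μ B hb')]
      have e2 : 0 ≤ a * S t ^ 4 := by positivity
      rw [indicator_of_notMem hb, e1]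
      simpa using e2
  simp only [Pi.pow_apply]
  nlinarith [sq_nonneg (Y t - μ[Y] + (Y t - X t))]

/-- `T'` = minimum over edge sets of paths of length `≤ N = k * n1 (y - x)`; `T ≤ T' ≤ S` (staircase
cost); `T ≠ T'` forces `S > c N` or the event of `len`; `Var T ≤ 2 Var T' + 2 E (T' - T)²` and
`E (S²; bad) ≤ √(E S⁴) √(P bad)` -/
theorem Law.T_var (hG : Law G) : ∃ C : ℝ, 1 ≤ C ∧ ∀ x y : Z2,
    Var[fun t => T t x y; iidLaw G] ≤ C * n1 (y - x) := by
  classical
  have := hG.isP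
  obtain ⟨c, hc, hlen⟩ := hG.len
  obtain ⟨C₁, hC₁, htail⟩ := hG.path_tail
  obtain ⟨C₂, -, hmom2⟩ := hG.cost_mom 2
  obtain ⟨C₄, hC₄, hmom4⟩ := hG.cost_mom 4
  obtain ⟨k, hk⟩ := exists_nat_ge (max 2 ((C₁ + 1) / c))
  have hk2 : 2 ≤ k := by exact_mod_cast (le_max_left _ _).trans hk
  have hkc : C₁ + 1 ≤ c * k := by
    have h1 := (le_max_right _ _).trans hk
    rwa [div_le_iff₀ hc, mul_comm] at h1
  have hM : 0 ≤ ∫ s, s ^ 2 ∂G := integral_nonneg fun s => sq_nonneg s
  refine ⟨1 + 2 * k * ∫ s, s ^ 2 ∂G + 2 * C₄ ^ 4 + 2, by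
    have : 0 ≤ 2 * k * ∫ s, s ^ 2 ∂G + 2 * C₄ ^ 4 + 2 := by positivity
    linarith, fun x y => ?_⟩
  obtain ⟨n, hn, hn0⟩ := n1_nat (y - x)
  rcases Nat.eq_zero_or_pos n with rfl | hpos
  · have hxy : y = x := sub_eq_zero.1 (hn0 rfl)
    subst hxy
    have h0 : (fun t => T t y y) =ᵐ[iidLaw G] 0 := hG.nn.mono fun t ht => T_self ht y
    rw [variance_congr h0, variance_zero, hn]
    simp
  have hn1 : (1 : ℝ) ≤ n := by exact_mod_cast hpos
  have hn0' : (0 : ℝ) < n := by linarith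
  obtain ⟨w₀, hw₀, hl₀, -⟩ := stair x y
  rw [hn] at hl₀ ⊢
  have hl₀' : w₀.length = n := by exact_mod_cast hl₀
  obtain ⟨Γ, hΓ⟩ := T_var_paths x y (k * n)
  have hm₀ : w₀.edges.toFinset ∈ Γ := (hΓ _).2 ⟨w₀, hw₀, by rw [hl₀']; nlinarith, rfl⟩
  have hne : Γ.Nonempty := ⟨_, hm₀⟩
  have hcost : ∀ (t : Env) (w : Wk x y), w.IsPath → ∑ e ∈ w.edges.toFinset, t e = walkCost t w :=
    fun t w hw => List.sum_toFinset t hw.isTrail.edges_nodup
  have hes := hG.es_min Γ hne (N := k * n) fun γ hγ => by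
    obtain ⟨w, -, hw, rfl⟩ := (hΓ γ).1 hγ
    exact (List.toFinset_card_le _).trans (by rwa [SimpleGraph.Walk.length_edges])
  have hcmp := T_var_cmp (μ := iidLaw G) (S := fun t => walkCost t w₀)
    (B := {t | C₁ * n < walkCost t w₀} ∪
      {t | ∃ y, ∃ w : Wk x y, w.IsPath ∧ k * n ≤ w.length ∧ walkCost t w ≤ c * (k * n : ℕ)})
    (T_meas x y) (T_var_meas Γ hne) (hmom2 x y w₀).1 (hmom4 x y w₀).1 (by
      filter_upwards [hG.nn] with t ht
      refine ⟨T_nonneg ht x y, ?_, ?_, fun hb => ?_⟩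
      · refine Finset.le_inf' _ _ fun γ hγ => ?_
        obtain ⟨w, hw, -, rfl⟩ := (hΓ γ).1 hγ
        rw [hcost t w hw]
        exact T_le_walk ht w
      · exact (Finset.inf'_le _ hm₀).trans (hcost t w₀ hw₀).le
      · refine le_of_forall_pos_le_add fun ε hε => ?_
        obtain ⟨w, hw, hwc⟩ := T_path ht x y (lt_min hε one_pos)
        have h1 : walkCost t w₀ ≤ C₁ * n := not_lt.1 fun h => hb (Or.inl h)
        have h2 : walkCost t w ≤ c * (k * n : ℕ) := by
          have := T_le_walk ht w₀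
          have := min_le_right ε 1
          have : (C₁ + 1) * n ≤ c * k * n := by gcongr
          push_cast
          nlinarith
        have h3 : w.length ≤ k * n := by
          by_contra h
          exact hb (Or.inr ⟨y, w, hw, (not_le.1 h).le, h2⟩)
        refine (Finset.inf'_le _ ((hΓ _).2 ⟨w, hw, h3, rfl⟩)).trans ?_
        rw [hcost t w hw]
        linarith [min_le_left ε 1]) (a := 1 / (n : ℝ) ^ 3) (by positivity)
  have hb1 : (n : ℝ) ^ 2 * Pr G {t | C₁ * n < walkCost t w₀} ≤ 2 := by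
    have h1 := htail x y w₀ hw₀ n hl₀.le
    have h2 : (n : ℝ) ^ 2 ≤ 2 * Real.exp n := by
      linarith [Real.quadratic_le_exp_of_nonneg hn0'.le]
    calc (n : ℝ) ^ 2 * Pr G {t | C₁ * n < walkCost t w₀} ≤ 2 * Real.exp n * Real.exp (-n) :=
          mul_le_mul h2 h1 (Pr_nonneg _ _) (by positivity)
      _ = 2 := by rw [mul_assoc, ← Real.exp_add]; simp
  have hb2 : (n : ℝ) ^ 2 * Pr G {t | ∃ y, ∃ w : Wk x y, w.IsPath ∧ k * n ≤ w.length ∧
      walkCost t w ≤ c * (k * n : ℕ)} ≤ 1 := by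
    have h1 := hlen x (k * n)
    have h2 : (n : ℝ) ^ 2 ≤ 2 ^ (k * n) := by
      have h3 := Nat.two_mul_sq_add_one_le_two_pow_two_mul n
      have h4 : 2 ^ (2 * n) ≤ 2 ^ (k * n) :=
        Nat.pow_le_pow_right (by norm_num) (Nat.mul_le_mul_right n hk2)
      have h5 : n ^ 2 ≤ 2 ^ (k * n) := by omega
      exact_mod_cast h5
    calc _ ≤ (2 : ℝ) ^ (k * n) * (1 / 2) ^ (k * n) :=
          mul_le_mul h2 h1 (Pr_nonneg _ _) (by positivity)
      _ = 1 := by rw [← mul_pow]; simp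
  have hb3 := hG.union {t | C₁ * n < walkCost t w₀}
    {t | ∃ y, ∃ w : Wk x y, w.IsPath ∧ k * n ≤ w.length ∧ walkCost t w ≤ c * (k * n : ℕ)}
  obtain ⟨p, hp⟩ : ∃ p, p = Pr G ({t | C₁ * n < walkCost t w₀} ∪
    {t | ∃ y, ∃ w : Wk x y, w.IsPath ∧ k * n ≤ w.length ∧ walkCost t w ≤ c * (k * n : ℕ)}) :=
    ⟨_, rfl⟩
  have hb4 : (n : ℝ) ^ 2 * p ≤ 3 := by
    have := mul_le_mul_of_nonneg_left hb3 (sq_nonneg (n : ℝ))
    rw [hp]
    linarith
  have hb5 : 1 / (4 * (1 / (n : ℝ) ^ 3)) * p ≤ n := by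
    have e : 1 / (4 * (1 / (n : ℝ) ^ 3)) * p = n * ((n : ℝ) ^ 2 * p) / 4 := by field_simp
    rw [e]
    nlinarith
  have hb6 : 1 / (n : ℝ) ^ 3 * ∫ t, walkCost t w₀ ^ 4 ∂iidLaw G ≤ C₄ ^ 4 * n := by
    have h1 := (hmom4 x y w₀).2
    rw [hl₀] at h1
    calc 1 / (n : ℝ) ^ 3 * ∫ t, walkCost t w₀ ^ 4 ∂iidLaw G ≤ 1 / (n : ℝ) ^ 3 * (C₄ * n) ^ 4 := by
          gcongr
      _ = C₄ ^ 4 * n := by field_simp
  rw [hp] at hb5
  unfold Pr at hb5
  push_cast at hes
  nlinarith

end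

end Crest.Agent.R151.B
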