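import Crest.Agent.R151.B6b

set_option autoImplicit false

open MeasureTheory ProbabilityTheory Set Filter Topology
open Crest.ProbabilityR.FirstPassage

namespace Crest.Agent.R151.B

noncomputable section

/-! uniform concentration and confinement of geodesics -/

variable {G : Measure ℝ}

theorem UC_cheb (hG : Law G) {C : ℝ}
    (hC : ∀ x y : Z2, Var[fun t => T t x y; iidLaw G] ≤ C * n1 (y - x)) (u v : Z2) {a : ℝ}
    (ha : 0 < a) : Pr G {t | a ≤ |T t u v - mE G (v - u)|} ≤ C * n1 (v - u) / a ^ 2 := by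
  have := hG.isP
  have h := meas_ge_le_variance_div_sq (hG.T_mem u v) ha
  have e : ∫ t, T t u v ∂iidLaw G = mE G (v - u) := hG.int_T' u v
  have h2 : (iidLaw G) {t | a ≤ |T t u v - mE G (v - u)|} ≤
      ENNReal.ofReal (Var[fun t => T t u v; iidLaw G] / a ^ 2) := by
    rw [← e]; exact h
  have h3 := ENNReal.toReal_le_of_le_ofReal
    (div_nonneg (variance_nonneg _ _) (sq_nonneg a)) h2
  exact h3.trans (div_le_div_of_nonneg_right (hC u v) (sq_nonneg a))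

theorem UC_lip (hG : Law G) {C : ℝ} (hC : ∀ x : Z2, mE G x ≤ C * n1 x) (a b : Z2) :
    |mE G a - mE G b| ≤ C * n1 (a - b) := by
  have h1 := hG.mE_add b (a - b)
  have h2 := hG.mE_add a (b - a)
  rw [add_sub_cancel] at h1 h2
  have h3 := hC (a - b)
  have h4 := hC (b - a)
  rw [n1_sub_comm b a] at h4
  rw [abs_le]
  constructor <;> linarith

theorem UC_num {n s g D C₃ : ℝ} (hs : 1 ≤ s) (hn : s ≤ n) (hD : 1 ≤ D) (hg1 : 1 ≤ g)
    (hg : s ≤ 2 * D * g) (hC : 0 ≤ C₃) :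
    (5 * n / g) ^ 2 * (2 * (2 * g) + 1) ^ 2 * Real.exp (-(2 * g)) +
      (5 * n / g) ^ 2 * (5 * n / g) ^ 2 * (C₃ * (8 * n) / (s / 2) ^ 2) ≤
      (3750 * D ^ 3 + 320000 * C₃ * D ^ 4) * n ^ 5 / s ^ 6 := by
  have hs0 : 0 < s := by linarith
  have hn0 : 0 < n := by linarith
  have hg0 : 0 < g := by linarith
  have hD0 : 0 < D := by linarith
  have a1 : (5 * n / g) ^ 2 * (2 * (2 * g) + 1) ^ 2 ≤ 625 * n ^ 2 := by
    calc (5 * n / g) ^ 2 * (2 * (2 * g) + 1) ^ 2 ≤ (5 * n / g) ^ 2 * (5 * g) ^ 2 := by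
          gcongr; linarith
      _ = 625 * n ^ 2 := by field_simp; norm_num
  have a2 : Real.exp (-(2 * g)) ≤ 6 * D ^ 3 / s ^ 3 := by
    have h1 := Real.pow_div_factorial_le_exp (2 * g) (by linarith) 3
    have h2 : ((Nat.factorial 3 : ℕ) : ℝ) = 6 := by norm_num [Nat.factorial]
    rw [h2] at h1
    have h3 : s ^ 3 ≤ (2 * D * g) ^ 3 := pow_le_pow_left₀ hs0.le hg 3
    rw [Real.exp_neg, inv_eq_one_div, div_le_div_iff₀ (Real.exp_pos _) (pow_pos hs0 3)]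
    have h4 : D ^ 3 * ((2 * g) ^ 3 / 6) ≤ D ^ 3 * Real.exp (2 * g) :=
      mul_le_mul_of_nonneg_left h1 (by positivity)
    have h5 : (2 * D * g) ^ 3 = 6 * (D ^ 3 * ((2 * g) ^ 3 / 6)) := by ring
    linarith
  have a3 : n ^ 2 / s ^ 3 ≤ n ^ 5 / s ^ 6 := by
    rw [div_le_div_iff₀ (pow_pos hs0 3) (pow_pos hs0 6)]
    have h3 : s ^ 3 ≤ n ^ 3 := pow_le_pow_left₀ hs0.le hn 3
    calc n ^ 2 * s ^ 6 = n ^ 2 * s ^ 3 * s ^ 3 := by ring
      _ ≤ n ^ 2 * s ^ 3 * n ^ 3 := by gcongr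
      _ = n ^ 5 * s ^ 3 := by ring
  have a4 : 5 * n / g ≤ 10 * D * n / s := by
    rw [div_le_div_iff₀ hg0 hs0]
    nlinarith
  have b1 : (5 * n / g) ^ 2 * (2 * (2 * g) + 1) ^ 2 * Real.exp (-(2 * g)) ≤
      3750 * D ^ 3 * (n ^ 5 / s ^ 6) := by
    calc _ ≤ 625 * n ^ 2 * (6 * D ^ 3 / s ^ 3) := by gcongr
      _ = 3750 * D ^ 3 * (n ^ 2 / s ^ 3) := by ring
      _ ≤ _ := by gcongr
  have b2 : (5 * n / g) ^ 2 * (5 * n / g) ^ 2 * (C₃ * (8 * n) / (s / 2) ^ 2) ≤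
      320000 * C₃ * D ^ 4 * (n ^ 5 / s ^ 6) := by
    calc _ ≤ (10 * D * n / s) ^ 2 * (10 * D * n / s) ^ 2 * (C₃ * (8 * n) / (s / 2) ^ 2) := by
          gcongr
      _ = _ := by field_simp; ring
  calc _ ≤ 3750 * D ^ 3 * (n ^ 5 / s ^ 6) + 320000 * C₃ * D ^ 4 * (n ^ 5 / s ^ 6) :=
        add_le_add b1 b2
    _ = _ := by ring

theorem UC_det (hG : Law G) {C₁ C₂ ρ a : ℝ} (hC₂ : 0 ≤ C₂) (hC : ∀ x : Z2, mE G x ≤ C₂ * n1 x)
    {F : Finset Z2} {t : Env} (ht : NN t) (hc : t ∈ Con F ρ (C₁ * ρ)) {x y u v : Z2}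
    (hu : u ∈ F) (hv : v ∈ F) (hx : n1 (x - u) ≤ ρ) (hy : n1 (y - v) ≤ ρ)
    (h : |T t u v - mE G (v - u)| < a) :
    |T t x y - mE G (y - x)| < a + 2 * (C₁ + C₂) * ρ := by
  obtain ⟨c₁, h1, r1⟩ := hc u hu x hx
  obtain ⟨c₂, h2, r2⟩ := hc v hv y hy
  have t1 := (T_le ht r1).trans h1
  have t2 := (T_le ht r2).trans h2
  have l1 := UC_lip hG hC (y - x) (v - u)
  have e : y - x - (v - u) = (y - v) + -(x - u) := by ring
  have l2 : n1 (y - x - (v - u)) ≤ 2 * ρ := by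
    rw [e]
    have := n1_add (y - v) (-(x - u))
    rw [n1_neg] at this
    linarith
  have l3 := l1.trans (mul_le_mul_of_nonneg_left l2 hC₂)
  have s1 := T_tri ht x u y
  have s2 := T_tri ht u v y
  have s3 := T_tri ht u x v
  have s4 := T_tri ht x y v
  rw [T_symm t x u] at s1
  rw [T_symm t y v] at s4
  rw [abs_lt] at h ⊢
  rw [abs_le] at l3
  constructor <;> linarith [h.1, h.2, l3.1, l3.2]

/-- net of mesh `g ≈ s / C'` (`net_fin`), Chebyshev for the `(n / g) ^ 4` pairs of net points,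
`Con_tail` and `|mE u - mE v| ≤ C n1 (u - v)` for the rest; trivial if `s` is bounded -/
theorem Law.UC (hG : Law G) : ∃ C : ℝ, 1 ≤ C ∧ ∀ (z : Z2) (n s : ℝ), 1 ≤ s → s ≤ n →
    Pr G {t | ∃ x y, n1 (x - z) ≤ n ∧ n1 (y - z) ≤ n ∧ s < |T t x y - mE G (y - x)|} ≤
      C * n ^ 5 / s ^ 6 := by
  obtain ⟨C₁, h1, hcon⟩ := hG.Con_tail
  obtain ⟨C₂, h2, hmom⟩ := hG.T_mom
  obtain ⟨C₃, h3, hvar⟩ := hG.T_var
  have hm : ∀ x : Z2, mE G x ≤ C₂ * n1 x := fun x => (hmom x x).2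
  obtain ⟨D, hD⟩ : ∃ D : ℝ, D = 8 * (C₁ + C₂) := ⟨_, rfl⟩
  have hD1 : 1 ≤ D := by linarith
  have hD0 : 0 < D := by linarith
  have hK : 0 ≤ 3750 * D ^ 3 + 320000 * C₃ * D ^ 4 := by positivity
  refine ⟨D + (3750 * D ^ 3 + 320000 * C₃ * D ^ 4), by linarith, fun z n s hs hn => ?_⟩
  have hs0 : 0 < s := by linarith
  have hn0 : 0 < n := by linarith
  have hq : 0 < n ^ 5 / s ^ 6 := by positivity
  rw [mul_div_assoc]
  rcases lt_or_ge s D with hsD | hsD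
  · refine (hG.le_one _).trans ?_
    have a1 : 1 ≤ D * (n ^ 5 / s ^ 6) := by
      rw [← mul_div_assoc, le_div_iff₀ (pow_pos hs0 6)]
      have h5 : s ^ 5 ≤ n ^ 5 := pow_le_pow_left₀ hs0.le hn 5
      calc 1 * s ^ 6 = s * s ^ 5 := by ring
        _ ≤ D * n ^ 5 := by gcongr
    nlinarith
  obtain ⟨g, hg⟩ : ∃ g : ℕ, g = ⌊s / D⌋₊ := ⟨_, rfl⟩
  have hsD1 : 1 ≤ s / D := (one_le_div hD0).2 hsD
  have hg1 : 1 ≤ g := by rw [hg]; exact Nat.le_floor (by simpa using hsD1)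
  have hg1' : (1 : ℝ) ≤ g := by exact_mod_cast hg1
  have hgle : (g : ℝ) ≤ s / D := by rw [hg]; exact Nat.floor_le (by linarith)
  have hgle' : (g : ℝ) * D ≤ s := (le_div_iff₀ hD0).1 hgle
  have hgge : s ≤ 2 * D * g := by
    have a : s / D < g + 1 := by rw [hg]; exact Nat.lt_floor_add_one _
    rw [div_lt_iff₀ hD0] at a
    nlinarith
  have hgn : (g : ℝ) ≤ n := by nlinarith
  obtain ⟨F, hF1, hF2, hF3⟩ := net_fin z hg1 hgn
  have hsub : Pr G {t | ∃ x y, n1 (x - z) ≤ n ∧ n1 (y - z) ≤ n ∧ s < |T t x y - mE G (y - x)|} ≤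
      Pr G ((Con F (2 * g) (C₁ * (2 * g)))ᶜ ∪
        ⋃ p ∈ F ×ˢ F, {t | s / 2 ≤ |T t p.1 p.2 - mE G (p.2 - p.1)|}) := by
    refine hG.mono_nn ?_
    rintro t ht ⟨x, y, hx, hy, hlt⟩
    by_contra hno
    rw [Set.mem_union, not_or] at hno
    obtain ⟨u, hu, hxu⟩ := hF1 x hx
    obtain ⟨v, hv, hyv⟩ := hF1 y hy
    have a1 : |T t u v - mE G (v - u)| < s / 2 := by
      by_contra hcon'
      exact hno.2 (Set.mem_iUnion₂.2 ⟨(u, v), Finset.mem_product.2 ⟨hu, hv⟩, not_lt.1 hcon'⟩)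
    have a2 := UC_det hG (by linarith) hm ht (not_not.1 hno.1) hu hv hxu hyv a1
    have a3 : 2 * (C₁ + C₂) * (2 * g) = (g : ℝ) * D / 2 := by rw [hD]; ring
    linarith
  refine hsub.trans ((hG.union _ _).trans ?_)
  have b1 := hcon F (2 * g) (by linarith)
  have b2 := hG.biUnion (F ×ˢ F) (fun p => {t | s / 2 ≤ |T t p.1 p.2 - mE G (p.2 - p.1)|})
  have b3 : ∑ p ∈ F ×ˢ F, Pr G {t | s / 2 ≤ |T t p.1 p.2 - mE G (p.2 - p.1)|} ≤
      ∑ _p ∈ F ×ˢ F, C₃ * (8 * n) / (s / 2) ^ 2 := by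
    refine Finset.sum_le_sum (fun p hp => ?_)
    have hp' := Finset.mem_product.1 hp
    refine (UC_cheb hG hvar p.1 p.2 (by linarith)).trans ?_
    have c1 := n1_tri p.1 z p.2
    have c2 := hF2 _ hp'.1
    have c3 := hF2 _ hp'.2
    rw [n1_sub_comm z p.1] at c1
    have c4 : n1 (p.2 - p.1) ≤ 8 * n := by linarith
    gcongr
  rw [Finset.sum_const, nsmul_eq_mul, Finset.card_product, Nat.cast_mul] at b3
  have b4 := UC_num (C₃ := C₃) hs hn hD1 hg1' hgge (by linarith)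
  have b5 : (F.card : ℝ) * (2 * (2 * g) + 1) ^ 2 * Real.exp (-(2 * g)) ≤
      (5 * n / g) ^ 2 * (2 * (2 * g) + 1) ^ 2 * Real.exp (-(2 * g)) := by gcongr
  have b6 : (F.card : ℝ) * F.card * (C₃ * (8 * n) / (s / 2) ^ 2) ≤
      (5 * n / g) ^ 2 * (5 * n / g) ^ 2 * (C₃ * (8 * n) / (s / 2) ^ 2) := by gcongr
  rw [mul_div_assoc (3750 * D ^ 3 + 320000 * C₃ * D ^ 4)] at b4
  have b7 : 0 ≤ D * (n ^ 5 / s ^ 6) := by positivity
  rw [add_mul]
  exact (add_le_add (b1.trans b5) (b2.trans (b3.trans b6))).trans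
    (b4.trans (le_add_of_nonneg_left b7))
/-- `T_near`, `Rch.confine`, and `Rch.ivt` with `φ = n1`, `α = n - 1` -/
theorem geo {t : Env} {c n s : ℝ} {y : Z2} (h0 : 0 < c) (hc : ∀ x, c * n1 x ≤ mE G x) (ht : NN t)
    (hs : 0 ≤ s) (hg : ∀ x y, n1 x ≤ n → n1 y ≤ n → |T t x y - mE G (y - x)| ≤ s)
    (hy : mE G y + 2 * s + 1 < c * (n - 1)) :
    ∃ k, k ≤ mE G y + s + 1 ∧ Rch {u | n1 u ≤ n} t 0 y k := by
  have hy0 := n1_nonneg y
  have hy1 : n1 y < n - 1 := by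
    have := hc y
    exact lt_of_mul_lt_mul_left (by linarith) h0.le
  have h00 : n1 0 ≤ n - 1 := by rw [n1_zero]; linarith
  obtain ⟨k, hk, hr⟩ := T_near ht 0 y
  have a1 := hg 0 y (by linarith) (by linarith)
  rw [sub_zero, abs_le] at a1
  have hk' : k ≤ mE G y + s + 1 := by linarith [a1.2]
  refine ⟨k, hk', (hr.confine (S' := {u | n1 u ≤ n}) ?_).mono inter_subset_right⟩
  intro z c₁ c₂ r1 r2 e
  by_contra hz
  have hz' : n < n1 z := not_le.1 hz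
  have hφ : ∀ u v, squareLattice.Adj u v → |n1 v - n1 u| ≤ 1 := by
    intro u v huv
    have b1 := adj_iff.1 huv
    have b2 := n1_add u (v - u)
    have b3 := n1_add v (u - v)
    rw [add_sub_cancel] at b2 b3
    rw [n1_sub_comm u v] at b3
    rw [abs_le]
    constructor <;> linarith
  obtain ⟨w, d₁, d₂, q1, q2, e', l1, l2⟩ := r1.ivt (α := n - 1) zero_le_one hφ h00 (by linarith)
  have a2 := hg 0 w (by linarith) (by linarith)
  rw [sub_zero, abs_le] at a2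
  have a3 := T_le ht q1
  have a4 := q2.nonneg ht
  have a5 := r2.nonneg ht
  have a6 := hc w
  have a7 := mul_le_mul_of_nonneg_left l1 h0.le
  linarith [a2.1]

end

end Crest.Agent.R151.B
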