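import Crest.Agent.R151.BDefs

/-! Row 151: Gamma weights (auxiliary lemmas for `B7`). -/

set_option autoImplicit false

open MeasureTheory ProbabilityTheory Set Filter Topology

namespace Crest.Agent.R151.B.G7

noncomputable section

theorem meas_pdf (κ r : ℝ) : Measurable (gammaPDF κ r) :=
  (measurable_gammaPDFReal κ r).ennreal_ofReal

theorem tilt {κ r l A : ℝ} (hκ : 0 < κ) (hr : 0 < r) (hl : 0 < r + l) (hA : 0 ≤ A) :
    ∫⁻ s, ENNReal.ofReal (A * Real.exp (-(l * s))) ∂gammaMeasure κ r =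
      ENNReal.ofReal (A * (r / (r + l)) ^ κ) := by
  have hm : Measurable fun s : ℝ => ENNReal.ofReal (A * Real.exp (-(l * s))) := by fun_prop
  rw [gammaMeasure, lintegral_withDensity_eq_lintegral_mul _ (meas_pdf κ r) hm]
  have e : ∀ s, (gammaPDF κ r * fun s : ℝ => ENNReal.ofReal (A * Real.exp (-(l * s)))) s =
      ENNReal.ofReal (A * (r / (r + l)) ^ κ) * gammaPDF κ (r + l) s := by
    intro s
    rw [Pi.mul_apply]
    rcases lt_or_ge s 0 with hs | hs
    · rw [gammaPDF_of_neg hs, gammaPDF_of_neg hs, zero_mul, mul_zero]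
    · have hG := Real.Gamma_pos_of_pos hκ
      rw [gammaPDF_of_nonneg hs, gammaPDF_of_nonneg hs, ← ENNReal.ofReal_mul (by positivity),
        ← ENNReal.ofReal_mul (by positivity), Real.div_rpow hr.le hl.le]
      congr 1
      have h1 : Real.exp (-((r + l) * s)) = Real.exp (-(r * s)) * Real.exp (-(l * s)) := by
        rw [← Real.exp_add]
        congr 1
        ring
      have h2 : 0 < (r + l) ^ κ := Real.rpow_pos_of_pos hl κ
      rw [h1]
      field_simp
  simp only [e]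
  rw [lintegral_const_mul _ (meas_pdf κ (r + l)), lintegral_gammaPDF_eq_one hκ hl, mul_one]

theorem law {κ r : ℝ} (hκ : 0 < κ) (hr : 0 < r) : Law (gammaMeasure κ r) := by
  refine ⟨isProbabilityMeasure_gammaMeasure hκ hr, ?_, r / 2, by positivity, ?_, ?_⟩
  · rw [gammaMeasure, withDensity_apply _ measurableSet_Iic, ← setLIntegral_congr Iio_ae_eq_Iic]
    exact lintegral_gammaPDF_of_nonpos le_rfl
  · exact (by fun_prop : Measurable fun x : ℝ => Real.exp (r / 2 * x)).aestronglyMeasurable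
  · rw [hasFiniteIntegral_iff_ofReal (Eventually.of_forall fun x => (Real.exp_pos _).le)]
    have h := tilt (l := -(r / 2)) (A := 1) hκ hr (by linarith) zero_le_one
    simp only [neg_mul, neg_neg, one_mul] at h
    rw [h]
    exact ENNReal.ofReal_lt_top

theorem map_eq {κ r c : ℝ} (hκ : 0 < κ) (hr : 0 < r) (hc : 0 < c) :
    (gammaMeasure κ r).map (fun s => c * s) = (gammaMeasure κ r).withDensity
      (fun s => ENNReal.ofReal (c⁻¹ ^ κ * Real.exp (-(r * (c⁻¹ - 1) * s)))) := by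
  have hφ : Measurable fun s : ℝ =>
      ENNReal.ofReal (c⁻¹ ^ κ * Real.exp (-(r * (c⁻¹ - 1) * s))) := by fun_prop
  have hcm : Measurable fun s : ℝ => c * s := by fun_prop
  refine Measure.ext_of_lintegral _ fun f hf => ?_
  have hfc : Measurable fun s : ℝ => f (c * s) := hf.comp hcm
  have hg : Measurable fun s : ℝ => (gammaPDF κ r * ((fun s : ℝ =>
      ENNReal.ofReal (c⁻¹ ^ κ * Real.exp (-(r * (c⁻¹ - 1) * s)))) * f)) (c * s) :=
    ((meas_pdf κ r).mul (hφ.mul hf)).comp hcm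
  rw [lintegral_map hf hcm, lintegral_withDensity_eq_lintegral_mul _ hφ hf, gammaMeasure,
    lintegral_withDensity_eq_lintegral_mul _ (meas_pdf κ r) hfc,
    lintegral_withDensity_eq_lintegral_mul _ (meas_pdf κ r) (hφ.mul hf)]
  conv_rhs => rw [← Real.smul_map_volume_mul_left hc.ne']
  rw [lintegral_smul_measure, lintegral_map ((meas_pdf κ r).mul (hφ.mul hf)) hcm, smul_eq_mul,
    ← lintegral_const_mul _ hg]
  refine lintegral_congr fun s => ?_
  simp only [Pi.mul_apply]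
  rw [← mul_assoc, ← mul_assoc]
  congr 1
  rcases lt_or_ge s 0 with hs | hs
  · rw [gammaPDF_of_neg hs, gammaPDF_of_neg (mul_neg_of_pos_of_neg hc hs), mul_zero, zero_mul]
  · have hG := Real.Gamma_pos_of_pos hκ
    have hcs : 0 ≤ c * s := mul_nonneg hc.le hs
    rw [gammaPDF_of_nonneg hs, gammaPDF_of_nonneg hcs, abs_of_pos hc,
      ← ENNReal.ofReal_mul hc.le, ← ENNReal.ofReal_mul (by positivity), Real.mul_rpow hc.le hs,
      Real.inv_rpow hc.le, Real.rpow_sub_one hc.ne']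
    congr 1
    have h1 : Real.exp (-(r * s)) =
        Real.exp (-(r * (c * s))) * Real.exp (-(r * (c⁻¹ - 1) * (c * s))) := by
      rw [← Real.exp_add]
      congr 1
      field_simp
      ring
    have h2 : 0 < c ^ κ := Real.rpow_pos_of_pos hc κ
    rw [h1]
    field_simp

theorem one {κ r θ : ℝ} (hκ : 0 < κ) (hr : 0 < r) (h0 : 0 ≤ θ) (h1 : θ ≤ 1 / 2) :
    ∃ φ : ℝ → ENNReal, Measurable φ ∧
      (gammaMeasure κ r).map (fun s => (1 - θ) * s) = (gammaMeasure κ r).withDensity φ ∧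
      ∫⁻ s, φ s ^ 2 ∂gammaMeasure κ r ≤ ENNReal.ofReal (Real.exp (2 * κ * θ ^ 2)) := by
  have hc : 0 < 1 - θ := by linarith
  refine ⟨_, by fun_prop, map_eq hκ hr hc, ?_⟩
  set c := 1 - θ with hcd
  have hci : 1 ≤ c⁻¹ := (one_le_inv₀ hc).2 (by linarith)
  have e : ∀ s : ℝ, ENNReal.ofReal (c⁻¹ ^ κ * Real.exp (-(r * (c⁻¹ - 1) * s))) ^ 2 =
      ENNReal.ofReal ((c⁻¹ ^ κ * c⁻¹ ^ κ) * Real.exp (-(2 * (r * (c⁻¹ - 1)) * s))) := by
    intro s
    rw [← ENNReal.ofReal_pow (by positivity)]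
    congr 1
    rw [mul_pow, sq, sq, ← Real.exp_add]
    congr 2
    ring
  simp only [e]
  have hl : 0 < r + 2 * (r * (c⁻¹ - 1)) := by
    have : 0 ≤ r * (c⁻¹ - 1) := mul_nonneg hr.le (by linarith)
    linarith
  rw [tilt hκ hr hl (by positivity)]
  refine ENNReal.ofReal_le_ofReal ?_
  rw [← Real.mul_rpow (by positivity) (by positivity),
    ← Real.mul_rpow (by positivity) (by positivity)]
  have h2 : 2 * κ * θ ^ 2 = 2 * θ ^ 2 * κ := by ring
  rw [h2, Real.exp_mul]
  refine Real.rpow_le_rpow (by positivity) ?_ hκ.le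
  have h3 : 0 < 1 - θ ^ 2 := by nlinarith
  have h4 : c⁻¹ * c⁻¹ * (r / (r + 2 * (r * (c⁻¹ - 1)))) = 1 / (1 - θ ^ 2) := by
    have h5 : r + 2 * (r * (c⁻¹ - 1)) = r * (1 + θ) / c := by
      field_simp
      rw [hcd]
      ring
    have h6 : 1 - θ ^ 2 = c * (1 + θ) := by
      rw [hcd]
      ring
    rw [h5, h6]
    field_simp
  rw [h4, div_le_iff₀ h3]
  have h7 := Real.add_one_le_exp (2 * θ ^ 2)
  have h8 : 0 ≤ θ ^ 2 := sq_nonneg θ
  have h9 : θ ^ 2 ≤ 1 / 4 := by nlinarith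
  nlinarith

end

end Crest.Agent.R151.B.G7
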