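import Crest.Agent.R151.BDefs

set_option autoImplicit false

open MeasureTheory ProbabilityTheory Set Filter Topology
open Crest.ProbabilityR.FirstPassage

namespace Crest.Agent.R151.B

noncomputable section

/-- integrals of products of functions of distinct coordinates -/
theorem scal_of_prod (G : Measure ℝ) [IsProbabilityMeasure G] (s : Finset (Sym2 Z2))
    (g : Sym2 Z2 → ℝ → ENNReal) (hg : ∀ e, Measurable (g e)) :
    ∫⁻ t, ∏ e ∈ s, g e (t e) ∂iidLaw G = ∏ e ∈ s, ∫⁻ x, g e x ∂G := by
  unfold iidLaw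
  rw [lintegral_prod_eq_prod_lintegral_of_indepFun s (fun e (t : Env) => g e (t e))
    (iIndepFun_infinitePi hg) (fun e => (hg e).comp (measurable_pi_apply e))]
  refine Finset.prod_congr rfl fun e _ => ?_
  exact (measurePreserving_eval_infinitePi (fun _ : Sym2 Z2 => G) e).lintegral_comp (hg e)

theorem scal_of_meas (F : Finset (Sym2 Z2)) (c : ℝ) : Measurable (scl F c) := by
  classical
  refine measurable_pi_lambda _ fun e => ?_
  unfold scl
  split_ifs
  · exact (measurable_id.const_mul c).comp (measurable_pi_apply e)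
  · exact measurable_pi_apply e

theorem scal_of_map (G : Measure ℝ) [IsProbabilityMeasure G] (F : Finset (Sym2 Z2)) (c : ℝ)
    (φ : ℝ → ENNReal) (hφ : Measurable φ) (h : G.map (fun s => c * s) = G.withDensity φ) :
    (iidLaw G).map (scl F c) = (iidLaw G).withDensity (fun t => ∏ e ∈ F, φ (t e)) := by
  classical
  let f : Sym2 Z2 → ℝ → ℝ := fun e x => if e ∈ F then c * x else x
  have hf : ∀ e, Measurable (f e) := by
    intro e
    simp only [f]
    split_ifs
    · exact measurable_id.const_mul c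
    · exact measurable_id
  have e1 : scl F c = fun (t : Env) e => f e (t e) := by
    funext t e
    simp only [scl, f]
  have hP : ∀ e, IsProbabilityMeasure (G.map (f e)) := fun e =>
    Measure.isProbabilityMeasure_map (hf e).aemeasurable
  have h1 : ∫⁻ x, φ x ∂G = 1 := by
    have : IsProbabilityMeasure (G.map (fun s => c * s)) :=
      Measure.isProbabilityMeasure_map (measurable_id.const_mul c).aemeasurable
    have h2 : (G.withDensity φ) univ = 1 := by rw [← h]; exact measure_univ
    rwa [withDensity_apply _ MeasurableSet.univ, Measure.restrict_univ] at h2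
  rw [e1]
  unfold iidLaw
  rw [Measure.infinitePi_map_pi _ hf]
  symm
  refine Measure.eq_infinitePi _ fun s T hT => ?_
  have hm : MeasurableSet (Set.pi (s : Set (Sym2 Z2)) T) :=
    MeasurableSet.pi s.countable_toSet fun e _ => hT e
  rw [withDensity_apply _ hm, ← lintegral_indicator hm]
  let g : Sym2 Z2 → ℝ → ENNReal := fun e x =>
    (if e ∈ s then (T e).indicator 1 x else 1) * (if e ∈ F then φ x else 1)
  have hg : ∀ e, Measurable (g e) := by
    intro e
    refine Measurable.mul ?_ ?_
    · split_ifs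
      · exact measurable_one.indicator (hT e)
      · exact measurable_const
    · split_ifs
      · exact hφ
      · exact measurable_const
  have e2 : ∀ t : Env, (Set.pi (s : Set (Sym2 Z2)) T).indicator (fun t => ∏ e ∈ F, φ (t e)) t =
      ∏ e ∈ s ∪ F, g e (t e) := by
    intro t
    simp only [g]
    rw [Finset.prod_mul_distrib, ← Finset.prod_filter, ← Finset.prod_filter,
      Finset.filter_mem_eq_inter, Finset.filter_mem_eq_inter, Finset.union_inter_cancel_left,
      Finset.union_inter_cancel_right]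
    by_cases ht : t ∈ Set.pi (s : Set (Sym2 Z2)) T
    · rw [Set.indicator_of_mem ht, Finset.prod_eq_one (s := s), one_mul]
      intro e he
      rw [Set.indicator_of_mem (ht e he)]
      rfl
    · rw [Set.indicator_of_notMem ht]
      simp only [Set.mem_pi, Finset.mem_coe, not_forall] at ht
      obtain ⟨e, he, hte⟩ := ht
      rw [Finset.prod_eq_zero he (Set.indicator_of_notMem hte _), zero_mul]
  simp_rw [e2]
  have e3 := scal_of_prod G (s ∪ F) g hg
  unfold iidLaw at e3
  rw [e3]
  symm
  refine Finset.prod_subset_one_on_sdiff Finset.subset_union_left ?_ ?_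
  · intro e he
    obtain ⟨he1, he2⟩ := Finset.mem_sdiff.1 he
    have he3 : e ∈ F := (Finset.mem_union.1 he1).resolve_left he2
    simp only [g, if_neg he2, if_pos he3, one_mul]
    exact h1
  · intro e he
    by_cases heF : e ∈ F
    · have : f e = fun x => c * x := by funext x; simp only [f, if_pos heF]
      rw [this, h, withDensity_apply _ (hT e), ← lintegral_indicator (hT e)]
      refine lintegral_congr fun x => ?_
      simp only [g, if_pos he, if_pos heF]
      by_cases hx : x ∈ T e
      · simp [Set.indicator_of_mem hx]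
      · simp [Set.indicator_of_notMem hx]
    · have : f e = id := by funext x; simp only [f, if_neg heF, id]
      rw [this, Measure.map_id]
      simp only [g, if_pos he, if_neg heF, mul_one]
      rw [lintegral_indicator_one (hT e)]

theorem scal_of_cs {Ω : Type} [MeasurableSpace Ω] (μ : Measure Ω) (Φ : Ω → ENNReal)
    (hΦ : Measurable Φ) (A : Set Ω) (hA : MeasurableSet A) :
    (μ.withDensity Φ A) ^ 2 ≤ (∫⁻ x, Φ x ^ 2 ∂μ) * μ A := by
  have h := ENNReal.lintegral_mul_le_Lp_mul_Lq μ Real.HolderConjugate.two_two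
    (f := Φ) (g := A.indicator 1) hΦ.aemeasurable (measurable_one.indicator hA).aemeasurable
  have e1 : ∫⁻ a, (Φ * A.indicator (1 : Ω → ENNReal) : Ω → ENNReal) a ∂μ = μ.withDensity Φ A := by
    rw [withDensity_apply _ hA, ← lintegral_indicator hA]
    refine lintegral_congr fun x => ?_
    by_cases hx : x ∈ A
    · simp [Set.indicator_of_mem hx]
    · simp [Set.indicator_of_notMem hx]
  have e2 : ∫⁻ a, (A.indicator (1 : Ω → ENNReal) a) ^ (2 : ℝ) ∂μ = μ A := by
    rw [← lintegral_indicator_one hA]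
    refine lintegral_congr fun x => ?_
    by_cases hx : x ∈ A
    · simp [Set.indicator_of_mem hx]
    · simp [Set.indicator_of_notMem hx]
  have e3 : ∫⁻ a, Φ a ^ (2 : ℝ) ∂μ = ∫⁻ x, Φ x ^ 2 ∂μ := by
    refine lintegral_congr fun x => ?_
    exact ENNReal.rpow_two _
  rw [e1, e2, e3, ← ENNReal.mul_rpow_of_nonneg _ _ (by norm_num)] at h
  have h2 := pow_le_pow_left' h 2
  rwa [← ENNReal.rpow_two (_ ^ (1 / 2 : ℝ)), ← ENNReal.rpow_mul,
    show (1 / 2 : ℝ) * 2 = 1 by norm_num, ENNReal.rpow_one] at h2

theorem scal_of_aux {G : Measure ℝ} (hG : Law G) {K : ℝ} (hK : 0 ≤ K)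
    (h : ∀ θ : ℝ, 0 ≤ θ → θ ≤ 1 / 2 → ∃ φ : ℝ → ENNReal, Measurable φ ∧
      G.map (fun s => (1 - θ) * s) = G.withDensity φ ∧
      ∫⁻ s, φ s ^ 2 ∂G ≤ ENNReal.ofReal (Real.exp (K * θ ^ 2))) : Scal G := by
  haveI := hG.prob
  haveI : IsProbabilityMeasure (iidLaw G) := by unfold iidLaw; infer_instance
  refine ⟨K, hK, fun F θ A h0 h1 hA => ?_⟩
  obtain ⟨φ, hφ, hmap, hint⟩ := h θ h0 h1
  have hΦ : Measurable (fun t : Env => ∏ e ∈ F, φ (t e)) :=
    Finset.measurable_prod _ fun e _ => hφ.comp (measurable_pi_apply e)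
  have a1 : iidLaw G (scl F (1 - θ) ⁻¹' A) =
      (iidLaw G).withDensity (fun t => ∏ e ∈ F, φ (t e)) A := by
    rw [← scal_of_map G F (1 - θ) φ hφ hmap, Measure.map_apply (scal_of_meas _ _) hA]
  have a2 := scal_of_cs (iidLaw G) _ hΦ A hA
  have a3 : ∫⁻ t, (∏ e ∈ F, φ (t e)) ^ 2 ∂iidLaw G ≤
      ENNReal.ofReal (Real.exp (K * θ ^ 2 * F.card)) := by
    simp_rw [← Finset.prod_pow]
    rw [scal_of_prod G F (fun _ x => φ x ^ 2) (fun _ => hφ.pow_const 2), Finset.prod_const,
      mul_comm (K * θ ^ 2), Real.exp_nat_mul, ENNReal.ofReal_pow (Real.exp_pos _).le]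
    exact pow_le_pow_left' hint _
  have a4 : iidLaw G (scl F (1 - θ) ⁻¹' A) ^ 2 ≤
      ENNReal.ofReal (Real.exp (K * θ ^ 2 * F.card)) * iidLaw G A := by
    rw [a1]
    exact le_trans a2 (mul_le_mul_left a3 _)
  unfold Pr Measure.real
  have a5 := ENNReal.toReal_mono
    (ENNReal.mul_ne_top ENNReal.ofReal_ne_top (measure_ne_top _ _)) a4
  rwa [ENNReal.toReal_pow, ENNReal.toReal_mul, ENNReal.toReal_ofReal (Real.exp_pos _).le] at a5

end

end Crest.Agent.R151.B
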