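import Crest.Agent.R151.B2
import Crest.Agent.R151.B7Aux2
import Crest.Agent.R151.B7Aux1

set_option autoImplicit false

open MeasureTheory ProbabilityTheory Set Filter Topology
open Crest.ProbabilityR.FirstPassage

namespace Crest.Agent.R151.B

noncomputable section

/-! Gamma weights -/

theorem gamma_Law {κ r : ℝ} (hκ : 0 < κ) (hr : 0 < r) : Law (gammaMeasure κ r) :=
  G7.law hκ hr
/-- one weight: `c * X` has density `φ s = c⁻¹ ^ κ * exp (-(r * (c⁻¹ - 1) * s))` with respect to the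
law of `X`, and `∫ φ² = (c * (2 - c))⁻¹ ^ κ = (1 - θ²)⁻¹ ^ κ ≤ exp (2 κ θ²)` for `c = 1 - θ` -/
theorem gamma_one {κ r θ : ℝ} (hκ : 0 < κ) (hr : 0 < r) (h0 : 0 ≤ θ) (h1 : θ ≤ 1 / 2) :
    ∃ φ : ℝ → ENNReal, Measurable φ ∧
      (gammaMeasure κ r).map (fun s => (1 - θ) * s) = (gammaMeasure κ r).withDensity φ ∧
      ∫⁻ s, φ s ^ 2 ∂gammaMeasure κ r ≤ ENNReal.ofReal (Real.exp (2 * κ * θ ^ 2)) :=
  G7.one hκ hr h0 h1
/-- tensorisation: the law of `scl F c t` has density `∏ e ∈ F, φ (t e)`; Cauchy-Schwarz -/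
theorem scal_of {G : Measure ℝ} (hG : Law G) {K : ℝ} (hK : 0 ≤ K)
    (h : ∀ θ : ℝ, 0 ≤ θ → θ ≤ 1 / 2 → ∃ φ : ℝ → ENNReal, Measurable φ ∧
      G.map (fun s => (1 - θ) * s) = G.withDensity φ ∧
      ∫⁻ s, φ s ^ 2 ∂G ≤ ENNReal.ofReal (Real.exp (K * θ ^ 2))) : Scal G :=
  scal_of_aux hG hK h
theorem gamma_Scal {κ r : ℝ} (hκ : 0 < κ) (hr : 0 < r) : Scal (gammaMeasure κ r) :=
  scal_of (gamma_Law hκ hr) (K := 2 * κ) (by positivity) fun _ h0 h1 => gamma_one hκ hr h0 h1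

end

end Crest.Agent.R151.B
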