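import Crest.Prelude.Def_PlanarFPP

/-!
Row 151, part (B) (differentiability of the time constant) and common base: definitions.
-/

set_option autoImplicit false

open MeasureTheory Set Filter Topology
open Crest.ProbabilityR.FirstPassage

namespace Crest.Agent.R151.B

noncomputable section

abbrev Z2 : Type := ℤ × ℤ
abbrev Env : Type := Environment
abbrev Wk (x y : Z2) : Type := squareLattice.Walk x y
abbrev T (t : Env) (x y : Z2) : ℝ := passageTime t x y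

/-- the `ℓ¹` norm -/
def n1 (x : Z2) : ℝ := |(x.1 : ℝ)| + |(x.2 : ℝ)|
/-- lattice point as a point of the plane -/
def cR (x : Z2) : ℝ × ℝ := ((x.1 : ℝ), (x.2 : ℝ))
/-- all weights are nonnegative -/
def NN (t : Env) : Prop := ∀ e, 0 ≤ t e
/-- probability (outer measure for non measurable sets) -/
def Pr (G : Measure ℝ) (A : Set Env) : ℝ := (iidLaw G).real A
/-- mean passage time -/
def mE (G : Measure ℝ) (x : Z2) : ℝ := ∫ t, T t 0 x ∂iidLaw G

/-- some walk from `x` to `y` inside `S` costs exactly `c` -/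
def Rch (S : Set Z2) (t : Env) (x y : Z2) (c : ℝ) : Prop :=
  ∃ w : Wk x y, (∀ z ∈ w.support, z ∈ S) ∧ walkCost t w = c

/-- a cheap crossing from `A` to `B` inside `S` -/
def Cr (S A B : Set Z2) (θ : Z2 → ℝ) : Set Env :=
  {t | ∃ x ∈ A, ∃ y ∈ B, ∃ c, c ≤ θ (y - x) ∧ Rch S t x y c}

/-- every point of `A` is joined cheaply to all points within distance `ρ` -/
def Con (A : Set Z2) (ρ θ : ℝ) : Set Env :=
  {t | ∀ z ∈ A, ∀ y, n1 (y - z) ≤ ρ → ∃ c, c ≤ θ ∧ Rch {u | n1 (u - z) ≤ ρ} t z y c}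

/-- translated environment -/
def sh (z : Z2) (t : Env) : Env := fun e => t (e.map fun u => u + z)

open Classical in
/-- weights in `F` multiplied by `c` -/
def scl (F : Finset (Sym2 Z2)) (c : ℝ) (t : Env) : Env := fun e => if e ∈ F then c * t e else t e

/-- positive weights with an exponential moment -/
structure Law (G : Measure ℝ) : Prop where
  prob : IsProbabilityMeasure G
  pos : G (Iic 0) = 0
  expm : ∃ l : ℝ, 0 < l ∧ Integrable (fun x => Real.exp (l * x)) G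

/-- cost of scaling finitely many weights down -/
def Scal (G : Measure ℝ) : Prop :=
  ∃ K : ℝ, 0 ≤ K ∧ ∀ (F : Finset (Sym2 Z2)) (θ : ℝ) (A : Set Env), 0 ≤ θ → θ ≤ 1 / 2 →
    MeasurableSet A → Pr G (scl F (1 - θ) ⁻¹' A) ^ 2 ≤ Real.exp (K * θ ^ 2 * F.card) * Pr G A

/-- a norm on the plane -/
structure Nm (μ : ℝ × ℝ → ℝ) : Prop where
  add : ∀ v w, μ (v + w) ≤ μ v + μ w
  smul : ∀ (a : ℝ) (v : ℝ × ℝ), 0 ≤ a → μ (a • v) = a * μ v
  neg : ∀ v, μ (-v) = μ v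
  low : ∃ c : ℝ, 0 < c ∧ ∀ v, c * ‖v‖ ≤ μ v
  up : ∃ K : ℝ, 0 < K ∧ ∀ v, μ v ≤ K * ‖v‖

/-- linear coordinates `(p, q)` on the lattice -/
structure Fr where
  p : Z2 →+ ℝ
  q : Z2 →+ ℝ
  C : ℝ

namespace Fr

structure OK (f : Fr) : Prop where
  C1 : 1 ≤ f.C
  up : ∀ x, |f.p x| ≤ f.C * n1 x ∧ |f.q x| ≤ f.C * n1 x
  dn : ∀ x, n1 x ≤ f.C * (|f.p x| + |f.q x|)
  den : ∀ a b : ℝ, ∃ x, |f.p x - a| ≤ f.C ∧ |f.q x - b| ≤ f.C

/-- the reflected frame -/
def flip (f : Fr) : Fr := ⟨f.p, -f.q, f.C⟩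
/-- strip -/
def St (f : Fr) (b r : ℝ) : Set Z2 := {x | |f.q x - b| ≤ r}
/-- window -/
def Q (f : Fr) (a b r : ℝ) : Set Z2 := {x | |f.p x - a| ≤ r ∧ |f.q x - b| ≤ r}
/-- open slab -/
def Sb (f : Fr) (a m : ℝ) : Set Z2 := {x | a < f.p x ∧ f.p x < a + m}
/-- crossing of length `m` of the strip of half width `r` -/
def Ev (f : Fr) (a b m r : ℝ) (θ : Z2 → ℝ) : Set Env :=
  Cr (f.St b r) (f.Q a b r) (f.Q (a + m) b r) θ
/-- crossing with excess at most the width -/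
def Gd (f : Fr) (a b m r : ℝ) : Set Env := f.Ev a b m r fun d => f.p d + r
/-- violation of the floor -/
def Bad (f : Fr) (a b m r δ : ℝ) : Set Env := f.Ev a b m r fun d => f.p d + |f.q d| - δ
/-- cheap crossing of a slab between small windows -/
def Lc (f : Fr) (a b m r R : ℝ) : Set Env :=
  Cr (f.Sb a m ∩ f.St b R) (f.Q a b r) (f.Q (a + m) b r) fun d => f.p d + r

end Fr

/-- the mean passage time has a corner in the direction `q = 0` -/
structure Cor (G : Measure ℝ) (f : Fr) : Prop where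
  ok : f.OK
  low : ∀ x, |f.p x| + |f.q x| ≤ mE G x
  tight : ∀ ε : ℝ, 0 < ε → ∃ s : ℝ, 0 < s ∧ ∀ η : ℝ, 0 < η → ∃ B : ℝ, ∀ x, |f.q x| ≤ s * f.p x →
    mE G x ≤ (1 + η) * f.p x + (1 + ε) * |f.q x| + B

/-- `L²` bound on the upper excess at length `m` -/
def UB (G : Measure ℝ) (f : Fr) (m B : ℝ) : Prop :=
  ∀ x, |f.p x - m| ≤ f.C → |f.q x| ≤ f.C →
    ∫ t, max (T t 0 x - f.p x) 0 ^ 2 ∂iidLaw G ≤ B ^ 2

end

end Crest.Agent.R151.B
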