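import Crest.Agent.R151.CDefs
import Crest.Agent.R151.B2

/-! Row 151 (C): paths -/

set_option autoImplicit false

open MeasureTheory Set Filter Topology
open Crest.ProbabilityR.FirstPassage
open Crest.Agent.R151.B

namespace Crest.Agent.R151.C

noncomputable section

variable {t t' : Env} {x y : Z2} {U U' : Set Z2} {ψ ψ' : Z2 → ℝ} {e e' : ℝ} {i j k : ℕ}

theorem ew_nonneg (t : Env) (x y : Z2) : 0 ≤ ew t x y :=
  le_max_right _ _
theorem ew_symm (t : Env) (x y : Z2) : ew t x y = ew t y x := by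
  unfold ew; rw [Sym2.eq_swap]
theorem ew_nn (ht : NN t) (x y : Z2) : ew t x y = t s(x, y) := by
  unfold ew; exact max_eq_left (ht _)
theorem ew_sh (z : Z2) (t : Env) (x y : Z2) : ew (sh z t) x y = ew t (x + z) (y + z) := by
  unfold ew sh; rw [Sym2.map_mk]
theorem ew_cont (x y : Z2) : Continuous fun t : Env => ew t x y := by
  unfold ew; exact (continuous_apply _).max continuous_const

namespace Pth

variable {P Q : Pth}

theorem c01_ext (hn : P.n = Q.n) (hv : ∀ k, P.v k = Q.v k) : P = Q := by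
  obtain ⟨n, v, a, s⟩ := P
  obtain ⟨n', v', a', s'⟩ := Q
  obtain rfl : n = n' := hn
  obtain rfl : v = v' := funext hv
  rfl

theorem cost_nonneg (P : Pth) (t : Env) (i j : ℕ) : 0 ≤ P.cost t i j :=
  Finset.sum_nonneg fun _ _ => ew_nonneg _ _ _
theorem cost_self (P : Pth) (t : Env) (i : ℕ) : P.cost t i i = 0 := by
  unfold cost; rw [Finset.Ico_self, Finset.sum_empty]
theorem cost_succ (P : Pth) (t : Env) (i : ℕ) :
    P.cost t i (i + 1) = ew t (P.v i) (P.v (i + 1)) := by
  unfold cost; rw [Nat.Ico_succ_singleton, Finset.sum_singleton]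
theorem cost_add (P : Pth) (t : Env) (hij : i ≤ j) (hjk : j ≤ k) :
    P.cost t i j + P.cost t j k = P.cost t i k :=
  Finset.sum_Ico_consecutive _ hij hjk
theorem cost_mono (P : Pth) (t : Env) {i' j' : ℕ} (h : i' ≤ i) (h' : j ≤ j') :
    P.cost t i j ≤ P.cost t i' j' :=
  Finset.sum_le_sum_of_subset_of_nonneg (Finset.Ico_subset_Ico h h')
    fun _ _ _ => ew_nonneg _ _ _
theorem cost_le_tot (P : Pth) (t : Env) (i : ℕ) (hj : j ≤ P.n) : P.cost t i j ≤ P.tot t :=
  P.cost_mono t (Nat.zero_le _) hj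
theorem tot_nonneg (P : Pth) (t : Env) : 0 ≤ P.tot t :=
  P.cost_nonneg t _ _
theorem cost_congr (h : ∀ x ∈ U, ∀ y ∈ U, t' s(x, y) = t s(x, y)) (hP : P.In U) (i : ℕ)
    (hj : j ≤ P.n) : P.cost t' i j = P.cost t i j := by
  unfold cost
  refine Finset.sum_congr rfl fun k hk => ?_
  have hk' := (Finset.mem_Ico.1 hk).2
  unfold ew
  rw [h _ (hP k (by omega)) _ (hP (k + 1) (by omega))]
theorem cost_cont (P : Pth) (i j : ℕ) : Continuous fun t : Env => P.cost t i j :=
  continuous_finsetSum _ fun _ _ => ew_cont _ _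
theorem In.mono (h : P.In U) (hU : U ⊆ U') : P.In U' :=
  fun k hk => hU (h k hk)
theorem In.fst (h : P.In U) : P.fst ∈ U :=
  h 0 (Nat.zero_le _)
theorem In.lst (h : P.In U) : P.lst ∈ U :=
  h _ le_rfl

theorem nil_n (x : Z2) : (nil x).n = 0 := rfl
theorem nil_v (x : Z2) (k : ℕ) : (nil x).v k = x := rfl
theorem nil_fst (x : Z2) : (nil x).fst = x := rfl
theorem nil_lst (x : Z2) : (nil x).lst = x := rfl
theorem nil_tot (x : Z2) (t : Env) : (nil x).tot t = 0 :=
  (nil x).cost_self t 0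
theorem exists_edge (h : squareLattice.Adj x y) : ∃ P : Pth, P.n = 1 ∧ P.fst = x ∧ P.lst = y ∧
    (∀ t, P.tot t = ew t x y) ∧ ∀ U, x ∈ U → y ∈ U → P.In U := by
  refine ⟨⟨1, fun k => if k = 0 then x else y, fun k hk => ?_, fun k hk => ?_⟩, rfl, rfl, rfl,
    fun t => ?_, fun U hx hy k _ => ?_⟩
  · have : k = 0 := by omega
    subst this
    exact h
  · rw [if_neg (by omega), if_neg (by omega)]
  · exact cost_succ _ t 0
  · by_cases hk : k = 0
    · show (if k = 0 then x else y) ∈ U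
      rw [if_pos hk]; exact hx
    · show (if k = 0 then x else y) ∈ U
      rw [if_neg hk]; exact hy

theorem sub_n (P : Pth) (i : ℕ) (hj : j ≤ P.n) : (P.sub i j).n = j - i := by
  show min j P.n - i = j - i
  rw [min_eq_left hj]
theorem sub_v (P : Pth) (hj : j ≤ P.n) (hk : k ≤ j - i) : (P.sub i j).v k = P.v (i + k) := by
  show P.v (i + min k (min j P.n - i)) = _
  rw [min_eq_left hj, min_eq_left hk]
theorem sub_fst (P : Pth) (i j : ℕ) : (P.sub i j).fst = P.v i := by
  show P.v (i + min 0 (min j P.n - i)) = _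
  rw [Nat.zero_min, Nat.add_zero]
theorem sub_lst (P : Pth) (hij : i ≤ j) (hj : j ≤ P.n) : (P.sub i j).lst = P.v j := by
  show (P.sub i j).v (P.sub i j).n = _
  rw [P.sub_n i hj, P.sub_v hj le_rfl, show i + (j - i) = j by omega]
theorem sub_cost (P : Pth) (t : Env) (hj : j ≤ P.n) (a : ℕ) {b : ℕ} (hb : b ≤ j - i) :
    (P.sub i j).cost t a b = P.cost t (i + a) (i + b) := by
  unfold cost
  rw [add_comm i a, add_comm i b, ← Finset.sum_Ico_add']
  refine Finset.sum_congr rfl fun k hk => ?_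
  have hk' := (Finset.mem_Ico.1 hk).2
  rw [P.sub_v hj (by omega), P.sub_v hj (by omega), add_comm i k,
    show i + (k + 1) = k + i + 1 by omega]
theorem sub_tot (P : Pth) (t : Env) (hij : i ≤ j) (hj : j ≤ P.n) :
    (P.sub i j).tot t = P.cost t i j := by
  unfold tot
  rw [P.sub_n i hj, P.sub_cost t hj 0 le_rfl, Nat.add_zero, show i + (j - i) = j by omega]
theorem sub_In (hij : i ≤ j) (hj : j ≤ P.n) (h : ∀ k, i ≤ k → k ≤ j → P.v k ∈ U) :
    (P.sub i j).In U := by
  intro k hk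
  rw [P.sub_n i hj] at hk
  rw [P.sub_v hj hk]
  exact h _ (by omega) (by omega)
theorem In.sub (h : P.In U) (hij : i ≤ j) (hj : j ≤ P.n) : (P.sub i j).In U :=
  sub_In hij hj fun k _ hk => h k (hk.trans hj)

theorem app_n (h : P.lst = Q.fst) : (P.app Q h).n = P.n + Q.n := rfl
theorem app_left (h : P.lst = Q.fst) (hk : k ≤ P.n) : (P.app Q h).v k = P.v k :=
  if_pos hk
theorem app_right (h : P.lst = Q.fst) (k : ℕ) : (P.app Q h).v (P.n + k) = Q.v k := by
  show (if P.n + k ≤ P.n then P.v (P.n + k) else Q.v (P.n + k - P.n)) = _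
  by_cases hk : k = 0
  · subst hk
    rw [if_pos (by omega)]
    exact h
  · rw [if_neg (by omega), show P.n + k - P.n = k by omega]
theorem app_fst (h : P.lst = Q.fst) : (P.app Q h).fst = P.fst :=
  app_left h (Nat.zero_le _)
theorem app_lst (h : P.lst = Q.fst) : (P.app Q h).lst = Q.lst :=
  app_right h Q.n
theorem app_cost_left (h : P.lst = Q.fst) (t : Env) (i : ℕ) (hj : j ≤ P.n) :
    (P.app Q h).cost t i j = P.cost t i j := by
  unfold cost
  refine Finset.sum_congr rfl fun k hk => ?_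
  have hk' := (Finset.mem_Ico.1 hk).2
  rw [app_left h (by omega), app_left h (by omega)]
theorem app_cost_right (h : P.lst = Q.fst) (t : Env) (i j : ℕ) :
    (P.app Q h).cost t (P.n + i) (P.n + j) = Q.cost t i j := by
  unfold cost
  rw [add_comm P.n i, add_comm P.n j, ← Finset.sum_Ico_add']
  refine Finset.sum_congr rfl fun k _ => ?_
  rw [show k + P.n + 1 = P.n + (k + 1) by omega, add_comm k P.n, app_right h, app_right h]
theorem app_tot (h : P.lst = Q.fst) (t : Env) : (P.app Q h).tot t = P.tot t + Q.tot t := by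
  unfold tot
  rw [app_n, ← (P.app Q h).cost_add t (Nat.zero_le P.n) (Nat.le_add_right _ _),
    app_cost_left h t 0 le_rfl, ← app_cost_right h t 0 Q.n, Nat.add_zero]
theorem In.app (hP : P.In U) (hQ : Q.In U) (h : P.lst = Q.fst) : (P.app Q h).In U := by
  intro k hk
  rw [app_n] at hk
  by_cases h1 : k ≤ P.n
  · rw [app_left h h1]; exact hP k h1
  · rw [show k = P.n + (k - P.n) by omega, app_right h]
    exact hQ _ (by omega)

theorem rev_n (P : Pth) : P.rev.n = P.n := rfl
theorem rev_v (P : Pth) (k : ℕ) : P.rev.v k = P.v (P.n - k) := rfl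
theorem rev_fst (P : Pth) : P.rev.fst = P.lst :=
  rfl
theorem rev_lst (P : Pth) : P.rev.lst = P.fst := by
  show P.v (P.n - P.n) = P.v 0
  rw [Nat.sub_self]
theorem rev_cost (P : Pth) (t : Env) (hij : i ≤ j) (hj : j ≤ P.n) :
    P.rev.cost t i j = P.cost t (P.n - j) (P.n - i) := by
  induction j, hij using Nat.le_induction with
  | base => rw [cost_self, cost_self]
  | succ j hij ih =>
    rw [← P.rev.cost_add t hij (Nat.le_succ j), ih (by omega), cost_succ,
      ← P.cost_add t (show P.n - (j + 1) ≤ P.n - (j + 1) + 1 by omega)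
        (show P.n - (j + 1) + 1 ≤ P.n - i by omega), cost_succ, rev_v, rev_v,
      show P.n - (j + 1) + 1 = P.n - j by omega, ew_symm, add_comm]
theorem rev_tot (P : Pth) (t : Env) : P.rev.tot t = P.tot t := by
  unfold tot
  rw [rev_n, P.rev_cost t (Nat.zero_le _) le_rfl, Nat.sub_self, Nat.sub_zero]
theorem In.rev (h : P.In U) : P.rev.In U :=
  fun k _ => h (P.n - k) (Nat.sub_le _ _)

theorem tr_n (P : Pth) (z : Z2) : (P.tr z).n = P.n := rfl
theorem tr_v (P : Pth) (z : Z2) (k : ℕ) : (P.tr z).v k = P.v k + z := rfl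
theorem tr_fst (P : Pth) (z : Z2) : (P.tr z).fst = P.fst + z := rfl
theorem tr_lst (P : Pth) (z : Z2) : (P.tr z).lst = P.lst + z := rfl
theorem tr_cost (P : Pth) (z : Z2) (t : Env) (i j : ℕ) :
    (P.tr z).cost t i j = P.cost (sh z t) i j :=
  Finset.sum_congr rfl fun _ _ => (ew_sh _ _ _ _).symm
theorem tr_tot (P : Pth) (z : Z2) (t : Env) : (P.tr z).tot t = P.tot (sh z t) :=
  P.tr_cost z t 0 P.n
theorem tr_tr (P : Pth) (z : Z2) : (P.tr (-z)).tr z = P := by
  refine c01_ext rfl fun k => ?_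
  rw [tr_v, tr_v, neg_add_cancel_right]

/-- first visit -/
theorem exists_first (P : Pth) {A : Set Z2} (h : P.v j ∈ A) :
    ∃ k, k ≤ j ∧ P.v k ∈ A ∧ ∀ m, m < k → P.v m ∉ A := by
  classical
  have hex : ∃ k, P.v k ∈ A := ⟨j, h⟩
  exact ⟨Nat.find hex, Nat.find_min' hex h, Nat.find_spec hex, fun m hm => Nat.find_min hex hm⟩
/-- last visit before the time `j` -/
theorem exists_last (P : Pth) {A : Set Z2} (hij : i ≤ j) (h : P.v i ∈ A) :
    ∃ k, i ≤ k ∧ k ≤ j ∧ P.v k ∈ A ∧ ∀ m, k < m → m ≤ j → P.v m ∉ A := by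
  classical
  refine ⟨Nat.findGreatest (fun k => P.v k ∈ A) j, Nat.le_findGreatest hij h,
    Nat.findGreatest_le _, Nat.findGreatest_spec (P := fun k => P.v k ∈ A) hij h,
    fun m hm hmj => ?_⟩
  exact Nat.findGreatest_is_greatest hm hmj
/-- two points of a path are joined inside the path -/
theorem join (P : Pth) (hi : i ≤ P.n) (hj : j ≤ P.n) : ∃ Q : Pth, Q.fst = P.v i ∧ Q.lst = P.v j ∧
    (∀ t, Q.tot t ≤ P.tot t) ∧ ∀ U, P.In U → Q.In U := by
  rcases le_total i j with h | h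
  · refine ⟨P.sub i j, P.sub_fst i j, P.sub_lst h hj, fun t => ?_, fun U hU => hU.sub h hj⟩
    rw [P.sub_tot t h hj]; exact P.cost_le_tot t i hj
  · refine ⟨(P.sub j i).rev, ?_, ?_, fun t => ?_, fun U hU => (hU.sub h hi).rev⟩
    · rw [rev_fst, P.sub_lst h hi]
    · rw [rev_lst, P.sub_fst]
    · rw [rev_tot, P.sub_tot t h hi]; exact P.cost_le_tot t j hi

theorem countable : Countable Pth := by
  refine Function.Injective.countable
    (f := fun P : Pth => (⟨P.n, fun k => P.v k⟩ : Σ n : ℕ, Fin (n + 1) → Z2)) ?_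
  intro P Q h
  have hn : P.n = Q.n := congrArg Sigma.fst h
  have hv : ∀ k, k ≤ P.n → P.v k = Q.v k := by
    intro k hk
    have := congrArg (fun s : Σ n : ℕ, Fin (n + 1) → Z2 =>
      if hk : k < s.1 + 1 then s.2 ⟨k, hk⟩ else 0) h
    simp only at this
    rwa [dif_pos (by omega), dif_pos (by omega)] at this
  refine c01_ext hn fun k => ?_
  rcases le_total k P.n with h1 | h1
  · exact hv k h1
  · rw [P.stab k h1, Q.stab k (hn ▸ h1), hv _ le_rfl, hn]

end Pth

variable {P Q : Pth}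

theorem SC.nonneg (h : SC t ψ e P) : 0 ≤ e := by
  have := h 0 0 le_rfl (Nat.zero_le _)
  rw [Pth.cost_self] at this
  linarith
theorem SC.tot (h : SC t ψ e P) : P.tot t ≤ ψ P.fst - ψ P.lst + e :=
  h 0 P.n (Nat.zero_le _) le_rfl
theorem SC.mono (h : SC t ψ e P) (he : e ≤ e') : SC t ψ e' P :=
  fun i j hij hj => (h i j hij hj).trans (by linarith)
theorem SC.sub (h : SC t ψ e P) (hij : i ≤ j) (hj : j ≤ P.n) : SC t ψ e (P.sub i j) := by
  intro a b hab hb
  rw [P.sub_n i hj] at hb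
  rw [P.sub_cost t hj a hb, P.sub_v hj hb, P.sub_v hj (hab.trans hb)]
  exact h _ _ (by omega) (by omega)
theorem SC.app (hP : SC t ψ e P) (hQ : SC t ψ e' Q) (h : P.lst = Q.fst) :
    SC t ψ (e + e') (P.app Q h) := by
  intro a b hab hb
  rw [Pth.app_n] at hb
  have h1 := hP.nonneg
  have h2 := hQ.nonneg
  by_cases hb' : b ≤ P.n
  · rw [Pth.app_cost_left h t a hb', Pth.app_left h hb', Pth.app_left h (hab.trans hb')]
    have := hP a b hab hb'
    linarith
  · obtain ⟨b', rfl⟩ : ∃ b', b = P.n + b' := ⟨b - P.n, by omega⟩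
    by_cases ha' : a ≤ P.n
    · rw [← (P.app Q h).cost_add t ha' (Nat.le_add_right _ _), Pth.app_cost_left h t a le_rfl,
        Pth.app_left h ha', Pth.app_right h]
      have e1 := Pth.app_cost_right h t 0 b'
      rw [Nat.add_zero] at e1
      rw [e1]
      have h3 := hP a P.n ha' le_rfl
      have h4 := hQ 0 b' (Nat.zero_le _) (by omega)
      have h5 : P.v P.n = Q.v 0 := h
      rw [h5] at h3
      linarith
    · obtain ⟨a', rfl⟩ : ∃ a', a = P.n + a' := ⟨a - P.n, by omega⟩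
      rw [Pth.app_cost_right h, Pth.app_right h, Pth.app_right h]
      have := hQ a' b' (by omega) (by omega)
      linarith
theorem SC.rev (h : SC t ψ e P) : SC t (fun z => -ψ z) e P.rev := by
  intro a b hab hb
  rw [Pth.rev_n] at hb
  rw [P.rev_cost t hab hb, Pth.rev_v, Pth.rev_v]
  have := h (P.n - b) (P.n - a) (by omega) (by omega)
  show _ ≤ -ψ _ - -ψ _ + e
  linarith
theorem SC.nil (t : Env) (ψ : Z2 → ℝ) (he : 0 ≤ e) (x : Z2) : SC t ψ e (Pth.nil x) := by
  intro a b hab hb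
  rw [Pth.nil_n] at hb
  obtain rfl : b = 0 := by omega
  obtain rfl : a = 0 := by omega
  rw [Pth.cost_self]
  linarith
theorem SC.perturb (h : SC t ψ e P) (hP : P.In U) {d : ℝ}
    (hd : ∀ x ∈ U, ∀ y ∈ U, ψ x - ψ y ≤ ψ' x - ψ' y + d) : SC t ψ' (e + d) P := by
  intro a b hab hb
  have h1 := h a b hab hb
  have h2 := hd _ (hP a (hab.trans hb)) _ (hP b hb)
  linarith

end

end Crest.Agent.R151.C
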