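import Crest.Agent.R151.C01

/-! Row 151 (C): walks and paths, cutting a path into steps -/

set_option autoImplicit false

open MeasureTheory Set Filter Topology
open Crest.ProbabilityR.FirstPassage
open Crest.Agent.R151.B

namespace Crest.Agent.R151.C

noncomputable section

variable {t : Env} {x y : Z2}

theorem C01b_cost (ht : NN t) (w : Wk x y) :
    ∑ k ∈ Finset.range w.length, ew t (w.getVert k) (w.getVert (k + 1)) = walkCost t w := by
  induction w with
  | nil => simp [walkCost]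
  | cons h w ih =>
    rw [SimpleGraph.Walk.length_cons, Finset.sum_range_succ']
    simp only [SimpleGraph.Walk.getVert_cons_succ, SimpleGraph.Walk.getVert_zero]
    rw [ih, ew_nn ht]
    simp [walkCost, add_comm]

theorem Pth.of_walk (w : Wk x y) : ∃ P : Pth, P.fst = x ∧ P.lst = y ∧ P.n = w.length ∧
    (∀ k, k ≤ P.n → P.v k ∈ w.support) ∧ ∀ t, NN t → P.tot t = walkCost t w := by
  refine ⟨⟨w.length, w.getVert, fun k hk => w.adj_getVert_succ hk, fun k hk => ?_⟩, ?_, ?_, rfl,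
    fun k _ => w.getVert_mem_support k, fun t ht => ?_⟩
  · rw [w.getVert_of_length_le hk, w.getVert_length]
  · exact w.getVert_zero
  · exact w.getVert_length
  · rw [← C01b_cost ht w, Finset.range_eq_Ico]; rfl

theorem C01b_walk (v : ℕ → Z2) (n : ℕ) (h : ∀ k, k < n → squareLattice.Adj (v k) (v (k + 1))) :
    ∃ w : Wk (v 0) (v n), w.length = n ∧ ∀ k, k ≤ n → w.getVert k = v k := by
  induction n generalizing v with
  | zero => exact ⟨.nil, rfl, fun k hk => by rw [Nat.le_zero.1 hk]; rfl⟩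
  | succ n ih =>
    obtain ⟨w, h1, h2⟩ := ih (fun k => v (k + 1)) fun k hk => h (k + 1) (by omega)
    refine ⟨.cons (h 0 (by omega)) w, by simp [h1], fun k hk => ?_⟩
    cases k with
    | zero => rfl
    | succ k => rw [SimpleGraph.Walk.getVert_cons_succ]; exact h2 k (by omega)

theorem Pth.to_walk (P : Pth) : ∃ w : Wk P.fst P.lst, w.length = P.n ∧
    (∀ z, z ∈ w.support ↔ ∃ k, k ≤ P.n ∧ P.v k = z) ∧
    ((∀ i j, i ≤ P.n → j ≤ P.n → P.v i = P.v j → i = j) → w.IsPath) ∧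
    ∀ t, NN t → walkCost t w = P.tot t := by
  obtain ⟨w, h1, h2⟩ : ∃ w : Wk P.fst P.lst, w.length = P.n ∧ ∀ k, k ≤ P.n → w.getVert k = P.v k :=
    C01b_walk P.v P.n P.adj
  refine ⟨w, h1, fun z => ?_, fun hi => ?_, fun t ht => ?_⟩
  · rw [SimpleGraph.Walk.mem_support_iff_exists_getVert]
    constructor
    · rintro ⟨k, hk, hk'⟩
      exact ⟨k, h1 ▸ hk', (h2 k (h1 ▸ hk')).symm.trans hk⟩
    · rintro ⟨k, hk, hk'⟩
      exact ⟨k, (h2 k hk).trans hk', h1 ▸ hk⟩
  · rw [← SimpleGraph.Walk.IsPath.getVert_injOn_iff]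
    intro i hi' j hj' e
    simp only [mem_ofPred_eq] at hi' hj'
    rw [h1] at hi' hj'
    exact hi i j hi' hj' (by rw [← h2 i hi', ← h2 j hj']; exact e)
  · rw [← C01b_cost ht w, h1, Finset.range_eq_Ico]
    refine Finset.sum_congr rfl fun k hk => ?_
    have := (Finset.mem_Ico.1 hk).2
    rw [h2 k (by omega), h2 (k + 1) (by omega)]

theorem Pth.T_le_tot (ht : NN t) (P : Pth) : T t P.fst P.lst ≤ P.tot t := by
  obtain ⟨w, -, -, -, h⟩ := P.to_walk
  rw [← h t ht]; exact T_le_walk ht w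

theorem Pth.T_le_cost (ht : NN t) (P : Pth) {i j : ℕ} (hij : i ≤ j) (hj : j ≤ P.n) :
    T t (P.v i) (P.v j) ≤ P.cost t i j := by
  have := Pth.T_le_tot ht (P.sub i j)
  rwa [P.sub_fst, P.sub_lst hij hj, P.sub_tot t hij hj] at this

theorem Pth.exists_near (ht : NN t) (x y : Z2) {ε : ℝ} (hε : 0 < ε) :
    ∃ P : Pth, P.fst = x ∧ P.lst = y ∧ P.tot t ≤ T t x y + ε := by
  obtain ⟨w, -, hw⟩ := T_path ht x y hε
  obtain ⟨P, h1, h2, -, -, h3⟩ := Pth.of_walk w
  exact ⟨P, h1, h2, (h3 t ht).le.trans hw⟩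

/-- loop erasure -/
theorem Pth.erase (P : Pth) : ∃ Q : Pth, Q.fst = P.fst ∧ Q.lst = P.lst ∧
    (∀ i j, i ≤ Q.n → j ≤ Q.n → Q.v i = Q.v j → i = j) ∧ (∀ t, Q.tot t ≤ P.tot t) ∧
    ∀ U, P.In U → Q.In U := by
  induction h : P.n using Nat.strong_induction_on generalizing P with
  | _ n ih =>
    by_cases hi : ∀ i j, i ≤ P.n → j ≤ P.n → P.v i = P.v j → i = j
    · exact ⟨P, rfl, rfl, hi, fun _ => le_rfl, fun _ h => h⟩
    · have : ∃ i j, i < j ∧ j ≤ P.n ∧ P.v i = P.v j := by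
        push Not at hi
        obtain ⟨i, j, h1, h2, h3, h4⟩ := hi
        rcases lt_or_gt_of_ne h4 with h5 | h5
        · exact ⟨i, j, h5, h2, h3⟩
        · exact ⟨j, i, h5, h1, h3.symm⟩
      obtain ⟨i, j, hij, hj, e⟩ := this
      have he : (P.sub 0 i).lst = (P.sub j P.n).fst := by
        rw [P.sub_lst (Nat.zero_le _) (by omega), P.sub_fst, e]
      obtain ⟨Q, h1, h2, h3, h4, h5⟩ := ih (i + (P.n - j)) (by omega) ((P.sub 0 i).app _ he)
        (by rw [Pth.app_n, P.sub_n 0 (by omega), P.sub_n j le_rfl]; omega)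
      refine ⟨Q, ?_, ?_, h3, fun t => (h4 t).trans ?_, fun U hU => h5 U ?_⟩
      · rw [h1, Pth.app_fst, P.sub_fst]; rfl
      · rw [h2, Pth.app_lst, P.sub_lst hj le_rfl]; rfl
      · rw [Pth.app_tot, P.sub_tot t (Nat.zero_le _) (by omega), P.sub_tot t hj le_rfl]
        have a1 := P.cost_add t (Nat.zero_le i) hij.le
        have a2 := P.cost_add t (Nat.zero_le j) hj
        have a3 := P.cost_nonneg t i j
        unfold Pth.tot; linarith
      · exact (hU.sub (Nat.zero_le _) (by omega)).app (hU.sub hj le_rfl) he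

theorem Pth.n1_le (P : Pth) : n1 (P.lst - P.fst) ≤ P.n := by
  obtain ⟨w, h, -⟩ := P.to_walk
  rw [← h]; exact walk_n1 w

/-- cut a path at the successive exits of the neighbourhoods `N` -/
theorem cut {V : Z2 → ℝ} {U A : Set Z2} {N : Z2 → Set Z2} {κ E : ℝ} (hE : 0 ≤ E)
    (hN : ∀ x, x ∈ N x)
    (full : ∀ Q : Pth, Q.In U → Q.fst ∈ A → (∀ k, k < Q.n → Q.v k ∈ N Q.fst) → Q.lst ∉ N Q.fst →
      V Q.fst - V Q.lst ≤ κ * Q.tot t)
    (part : ∀ Q : Pth, Q.In U → Q.fst ∈ A → Q.In (N Q.fst) → V Q.fst - V Q.lst ≤ κ * Q.tot t + E)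
    (P : Pth) (hP : P.In U) (hA : ∀ k, k < P.n → P.v k ∈ A) :
    V P.fst - V P.lst ≤ κ * P.tot t + E := by
  induction h : P.n using Nat.strong_induction_on generalizing P with
  | _ n ih =>
    by_cases h0 : P.n = 0
    · have e1 : P.lst = P.fst := by unfold Pth.lst Pth.fst; rw [h0]
      have e2 : P.tot t = 0 := by unfold Pth.tot; rw [h0, P.cost_self]
      rw [e1, e2]; linarith
    by_cases hin : P.In (N P.fst)
    · exact part P hP (hA 0 (by omega)) hin
    · have : ∃ j, j ≤ P.n ∧ P.v j ∈ (N P.fst)ᶜ := by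
        by_contra hc
        exact hin fun k hk => by_contra fun hk' => hc ⟨k, hk, hk'⟩
      obtain ⟨j, hj, hj'⟩ := this
      obtain ⟨k, hk, hk1, hk2⟩ := P.exists_first hj'
      have hk0 : k ≠ 0 := by rintro rfl; exact hk1 (hN _)
      have hkn : k ≤ P.n := hk.trans hj
      have a1 := full (P.sub 0 k) (hP.sub (Nat.zero_le _) hkn)
        (by rw [P.sub_fst]; exact hA 0 (by omega))
        (fun m hm => by
          rw [P.sub_n 0 hkn] at hm
          rw [P.sub_fst, P.sub_v hkn (by omega), Nat.zero_add]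
          exact not_not.1 (hk2 m (by omega)))
        (by rw [P.sub_fst, P.sub_lst (Nat.zero_le _) hkn]; exact hk1)
      have a2 := ih (P.n - k) (by omega) (P.sub k P.n) (hP.sub hkn le_rfl)
        (fun m hm => by
          rw [P.sub_n k le_rfl] at hm
          rw [P.sub_v le_rfl (by omega)]
          exact hA _ (by omega)) (P.sub_n k le_rfl)
      rw [P.sub_fst, P.sub_lst (Nat.zero_le _) hkn, P.sub_tot t (Nat.zero_le _) hkn] at a1
      rw [P.sub_fst, P.sub_lst hkn le_rfl, P.sub_tot t hkn le_rfl] at a2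
      have a3 := P.cost_add t (Nat.zero_le k) hkn
      unfold Pth.tot Pth.fst Pth.lst
      rw [← a3, mul_add]; linarith

end

end Crest.Agent.R151.C
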