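import Crest.Agent.R151.B1b

/-!
Row 151: planar crossing lemmas in the square lattice.  Signed count of the passages of the
difference `g i - g' j` through the ray `p = q > 0`, and a discrete Stokes formula.
-/

set_option autoImplicit false

open Set
open Crest.ProbabilityR.FirstPassage

namespace Crest.Agent.R151.B

noncomputable section

def crK (P Q : Z2 →+ ℝ) (u v : Z2) : ℝ := P u * Q v - P v * Q u
def crH (Q : Z2 →+ ℝ) (u : Z2) : ℤ := if 0 < Q u then 1 else 0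
/-- signed passage of the step `u → v` through the ray `Q = 0 < P` -/
def crN (P Q : Z2 →+ ℝ) (u v : Z2) : ℤ :=
  if Q u ≤ 0 ∧ 0 < Q v ∧ 0 < crK P Q u v then 1
  else if Q v ≤ 0 ∧ 0 < Q u ∧ 0 < crK P Q v u then -1 else 0
/-- determinant of the chart -/
def crD (p q : Z2 →+ ℝ) : ℝ := p (1, 0) * q (0, 1) - p (0, 1) * q (1, 0)
/-- the sequence `d 0, …, d n` stays in one of the four closed half planes of the chart -/
def CrSide (p q : Z2 →+ ℝ) (ε : ℤ) (d : ℕ → Z2) (n : ℕ) : Prop :=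
  (ε = 1 ∧ ((∀ i ≤ n, 0 ≤ p (d i)) ∨ ∀ i ≤ n, 0 ≤ q (d i))) ∨
    (ε = 0 ∧ ((∀ i ≤ n, p (d i) ≤ 0) ∨ ∀ i ≤ n, q (d i) ≤ 0))

theorem cross_anchor : True := by
  have := @crK.eq_1
  have := @crK.eq_def
  have := @crK.eq_unfold
  have := @crH.eq_1
  have := @crH.eq_def
  have := @crH.eq_unfold
  have := @crN.eq_1
  have := @crN.eq_def
  have := @crN.eq_unfold
  have := @crD.eq_1
  have := @crD.eq_def
  have := @crD.eq_unfold
  have := @CrSide.eq_1
  have := @CrSide.eq_def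
  have := @CrSide.eq_unfold
  trivial

variable {P Q p q : Z2 →+ ℝ} {u v : Z2}

theorem crN_pos (h1 : Q u ≤ 0 → 0 < Q v → 0 < crK P Q u v)
    (h2 : Q v ≤ 0 → 0 < Q u → 0 < crK P Q v u) : crN P Q u v = crH Q v - crH Q u := by
  unfold crN crH
  rcases le_or_gt (Q u) 0 with a | a <;> rcases le_or_gt (Q v) 0 with b | b
  · simp [a.not_gt, b.not_gt]
  · simp [a, b, a.not_gt, h1 a b]
  · simp [a, b, a.not_ge, b.not_gt, h2 b a]
  · simp [a, b, a.not_ge, b.not_ge]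

theorem crN_zero (h1 : Q u ≤ 0 → 0 < Q v → crK P Q u v ≤ 0)
    (h2 : Q v ≤ 0 → 0 < Q u → crK P Q v u ≤ 0) : crN P Q u v = 0 := by
  unfold crN
  rw [if_neg fun h => (h1 h.1 h.2.1).not_gt h.2.2, if_neg fun h => (h2 h.1 h.2.1).not_gt h.2.2]

theorem crK_sign {α β : ℝ} (hu : 0 < α * P u + β * Q u) (hv : 0 < α * P v + β * Q v)
    (a : Q u ≤ 0) (b : 0 < Q v) : 0 < α * crK P Q u v := by
  have e : α * crK P Q u v = Q v * (α * P u + β * Q u) + -Q u * (α * P v + β * Q v) := by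
    unfold crK; ring
  rw [e]
  exact add_pos_of_pos_of_nonneg (mul_pos b hu) (mul_nonneg (neg_nonneg.2 a) hv.le)

theorem crN_lin {α β : ℝ} (hu : 0 < α * P u + β * Q u) (hv : 0 < α * P v + β * Q v) :
    crN P Q u v = (if 0 < α then 1 else 0) * (crH Q v - crH Q u) := by
  split_ifs with h
  · rw [one_mul]
    exact crN_pos (fun a b => (mul_pos_iff_of_pos_left h).1 (crK_sign hu hv a b))
      fun a b => (mul_pos_iff_of_pos_left h).1 (crK_sign hv hu a b)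
  · rw [zero_mul]
    refine crN_zero (fun a b => ?_) fun a b => ?_
    · by_contra c
      exact (crK_sign hu hv a b).not_ge (mul_nonpos_of_nonpos_of_nonneg (not_lt.1 h) (not_le.1 c).le)
    · by_contra c
      exact (crK_sign hv hu a b).not_ge (mul_nonpos_of_nonpos_of_nonneg (not_lt.1 h) (not_le.1 c).le)

theorem cr_expand (P : Z2 →+ ℝ) (z : Z2) : P z = z.1 * P (1, 0) + z.2 * P (0, 1) := by
  have e : z = z.1 • ((1, 0) : Z2) + z.2 • ((0, 1) : Z2) := by ext <;> simp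
  conv_lhs => rw [e, map_add, map_zsmul, map_zsmul, zsmul_eq_mul, zsmul_eq_mul]

theorem cr_span (hD : crD P Q ≠ 0) (s t : ℤ) :
    ∃ α β : ℝ, ∀ z : Z2, α * P z + β * Q z = ((s * z.1 + t * z.2 : ℤ) : ℝ) := by
  refine ⟨(s * Q (0, 1) - t * Q (1, 0)) / crD P Q, (t * P (1, 0) - s * P (0, 1)) / crD P Q,
    fun z => ?_⟩
  rw [cr_expand P z, cr_expand Q z]
  push_cast
  field_simp
  unfold crD
  ring

theorem cr_int {X Y e f e' f' : ℤ}
    (he : (e = 1 ∧ f = 0) ∨ (e = -1 ∧ f = 0) ∨ (e = 0 ∧ f = 1) ∨ (e = 0 ∧ f = -1))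
    (he' : (e' = 1 ∧ f' = 0) ∨ (e' = -1 ∧ f' = 0) ∨ (e' = 0 ∧ f' = 1) ∨ (e' = 0 ∧ f' = -1))
    (h1 : X = 0 → Y ≠ 0) (h2 : X + e = 0 → Y + f ≠ 0) (h3 : X - e' = 0 → Y - f' ≠ 0)
    (h4 : X + e - e' = 0 → Y + f - f' ≠ 0) :
    0 < X + min e 0 - max e' 0 ∨ X + max e 0 - min e' 0 < 0 ∨
    0 < Y + min f 0 - max f' 0 ∨ Y + max f 0 - min f' 0 < 0 := by
  rcases he with ⟨rfl, rfl⟩ | ⟨rfl, rfl⟩ | ⟨rfl, rfl⟩ | ⟨rfl, rfl⟩ <;>
  rcases he' with ⟨rfl, rfl⟩ | ⟨rfl, rfl⟩ | ⟨rfl, rfl⟩ | ⟨rfl, rfl⟩ <;> omega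

theorem cr_adj {x y : Z2} (h : squareLattice.Adj x y) :
    ((y - x).1 = 1 ∧ (y - x).2 = 0) ∨ ((y - x).1 = -1 ∧ (y - x).2 = 0) ∨
      ((y - x).1 = 0 ∧ (y - x).2 = 1) ∨ ((y - x).1 = 0 ∧ (y - x).2 = -1) := by
  rw [squareLattice, SimpleGraph.fromRel_adj] at h
  rw [Prod.fst_sub, Prod.snd_sub]
  omega

/-- an elementary square avoiding the origin lies in an open coordinate half plane -/
theorem cr_half {a b c d : Z2} (hab : squareLattice.Adj a b) (hcd : squareLattice.Adj c d)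
    (h1 : a ≠ c) (h2 : b ≠ c) (h3 : a ≠ d) (h4 : b ≠ d) : ∃ s t : ℤ,
    0 < s * (a - c).1 + t * (a - c).2 ∧ 0 < s * (b - c).1 + t * (b - c).2 ∧
    0 < s * (a - d).1 + t * (a - d).2 ∧ 0 < s * (b - d).1 + t * (b - d).2 := by
  have k := cr_int (X := a.1 - c.1) (Y := a.2 - c.2) (cr_adj hab) (cr_adj hcd)
  simp only [Prod.fst_sub, Prod.snd_sub] at k ⊢
  rcases k (fun e e' => h1 (Prod.ext (by omega) (by omega)))
    (fun e e' => h2 (Prod.ext (by omega) (by omega)))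
    (fun e e' => h3 (Prod.ext (by omega) (by omega)))
    (fun e e' => h4 (Prod.ext (by omega) (by omega))) with k | k | k | k
  · exact ⟨1, 0, by omega, by omega, by omega, by omega⟩
  · exact ⟨-1, 0, by omega, by omega, by omega, by omega⟩
  · exact ⟨0, 1, by omega, by omega, by omega, by omega⟩
  · exact ⟨0, -1, by omega, by omega, by omega, by omega⟩

theorem cr_half2 (h : squareLattice.Adj u v) (hu : u ≠ 0) (hv : v ≠ 0) : ∃ s t : ℤ,
    0 < s * u.1 + t * u.2 ∧ 0 < s * v.1 + t * v.2 := by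
  have e1 := cr_adj h
  simp only [Ne, Prod.ext_iff, Prod.fst_zero, Prod.snd_zero, Prod.fst_sub, Prod.snd_sub] at hu hv e1
  by_contra hc
  have c1 := not_exists.1 (not_exists.1 hc 1) 0
  have c2 := not_exists.1 (not_exists.1 hc (-1)) 0
  have c3 := not_exists.1 (not_exists.1 hc 0) 1
  have c4 := not_exists.1 (not_exists.1 hc 0) (-1)
  omega

theorem crN_closed (hD : crD P Q ≠ 0) {a b c d : Z2} (hab : squareLattice.Adj a b)
    (hcd : squareLattice.Adj c d) (h1 : a ≠ c) (h2 : b ≠ c) (h3 : a ≠ d) (h4 : b ≠ d) :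
    crN P Q (a - c) (b - c) + crN P Q (b - c) (b - d) =
      crN P Q (a - c) (a - d) + crN P Q (a - d) (b - d) := by
  obtain ⟨s, t, k1, k2, k3, k4⟩ := cr_half hab hcd h1 h2 h3 h4
  obtain ⟨α, β, h⟩ := cr_span hD s t
  have f : ∀ z : Z2, 0 < s * z.1 + t * z.2 → 0 < α * P z + β * Q z := fun z hz => by
    rw [h]; exact_mod_cast hz
  rw [crN_lin (f _ k1) (f _ k2), crN_lin (f _ k2) (f _ k4), crN_lin (f _ k1) (f _ k3),
    crN_lin (f _ k3) (f _ k4)]
  ring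

theorem crK_ne (hD : crD P Q ≠ 0) (h : squareLattice.Adj u v) (hu : u ≠ 0) (hv : v ≠ 0)
    (a : Q u ≤ 0) (b : 0 < Q v) : crK P Q u v ≠ 0 := by
  obtain ⟨s, t, k1, k2⟩ := cr_half2 h hu hv
  obtain ⟨α, β, h⟩ := cr_span hD s t
  have f : ∀ z : Z2, 0 < s * z.1 + t * z.2 → 0 < α * P z + β * Q z := fun z hz => by
    rw [h]; exact_mod_cast hz
  intro e
  have := crK_sign (f _ k1) (f _ k2) a b
  rw [e, mul_zero] at this
  exact lt_irrefl _ this

theorem crD_rot (hD : crD p q ≠ 0) : crD (p + q) (q - p) ≠ 0 := by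
  have e : crD (p + q) (q - p) = 2 * crD p q := by
    simp only [crD, AddMonoidHom.add_apply, AddMonoidHom.sub_apply]; ring
  rw [e]
  exact mul_ne_zero two_ne_zero hD

theorem crK_p (p q : Z2 →+ ℝ) (u v : Z2) :
    crK (p + q) (q - p) u v = 2 * (p u * (q - p) v + p v * -(q - p) u) := by
  simp only [crK, AddMonoidHom.add_apply, AddMonoidHom.sub_apply]; ring
theorem crK_q (p q : Z2 →+ ℝ) (u v : Z2) :
    crK (p + q) (q - p) u v = 2 * (q u * (q - p) v + q v * -(q - p) u) := by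
  simp only [crK, AddMonoidHom.add_apply, AddMonoidHom.sub_apply]; ring

theorem crK_nonneg (h : (0 ≤ p u ∧ 0 ≤ p v) ∨ (0 ≤ q u ∧ 0 ≤ q v)) (a : (q - p) u ≤ 0)
    (b : 0 < (q - p) v) : 0 ≤ crK (p + q) (q - p) u v := by
  have a' := neg_nonneg.2 a
  rcases h with ⟨h, h'⟩ | ⟨h, h'⟩
  · rw [crK_p]; positivity
  · rw [crK_q]; positivity

theorem crK_nonpos (h : (p u ≤ 0 ∧ p v ≤ 0) ∨ (q u ≤ 0 ∧ q v ≤ 0)) (a : (q - p) u ≤ 0)
    (b : 0 < (q - p) v) : crK (p + q) (q - p) u v ≤ 0 := by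
  have a' := neg_nonneg.2 a
  rcases h with ⟨h, h'⟩ | ⟨h, h'⟩
  · rw [crK_p]
    nlinarith [mul_nonpos_of_nonpos_of_nonneg h b.le, mul_nonpos_of_nonpos_of_nonneg h' a']
  · rw [crK_q]
    nlinarith [mul_nonpos_of_nonpos_of_nonneg h b.le, mul_nonpos_of_nonpos_of_nonneg h' a']

theorem CrSide.sum (hD : crD p q ≠ 0) {ε : ℤ} {d : ℕ → Z2} {n : ℕ} (h : CrSide p q ε d n)
    (hd : ∀ i < n, squareLattice.Adj (d i) (d (i + 1))) (h0 : ∀ i ≤ n, d i ≠ 0) :
    ∑ i ∈ Finset.range n, crN (p + q) (q - p) (d i) (d (i + 1)) =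
      ε * (crH (q - p) (d n) - crH (q - p) (d 0)) := by
  rw [← Finset.sum_range_sub fun i => crH (q - p) (d i), Finset.mul_sum]
  refine Finset.sum_congr rfl fun i hi => ?_
  have hi := Finset.mem_range.1 hi
  have hi' : i + 1 ≤ n := hi
  rcases h with ⟨rfl, h⟩ | ⟨rfl, h⟩
  · rw [one_mul]
    refine crN_pos (fun a b => lt_of_le_of_ne (crK_nonneg ?_ a b)
      (crK_ne (crD_rot hD) (hd i hi) (h0 i hi.le) (h0 _ hi') a b).symm)
      fun a b => lt_of_le_of_ne (crK_nonneg ?_ a b)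
        (crK_ne (crD_rot hD) (hd i hi).symm (h0 _ hi') (h0 i hi.le) a b).symm
    · exact h.imp (fun h => ⟨h i hi.le, h _ hi'⟩) fun h => ⟨h i hi.le, h _ hi'⟩
    · exact h.imp (fun h => ⟨h _ hi', h i hi.le⟩) fun h => ⟨h _ hi', h i hi.le⟩
  · rw [zero_mul]
    refine crN_zero (fun a b => crK_nonpos ?_ a b) fun a b => crK_nonpos ?_ a b
    · exact h.imp (fun h => ⟨h i hi.le, h _ hi'⟩) fun h => ⟨h i hi.le, h _ hi'⟩
    · exact h.imp (fun h => ⟨h _ hi', h i hi.le⟩) fun h => ⟨h _ hi', h i hi.le⟩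

theorem cr_stokes (A B : ℕ → ℕ → ℤ) (n m : ℕ)
    (h : ∀ i < n, ∀ j < m, A i j + B (i + 1) j = B i j + A i (j + 1)) :
    ∑ i ∈ Finset.range n, A i 0 + ∑ j ∈ Finset.range m, B n j =
      ∑ j ∈ Finset.range m, B 0 j + ∑ i ∈ Finset.range n, A i m := by
  have e1 : ∑ i ∈ Finset.range n, (A i m - A i 0) =
      ∑ i ∈ Finset.range n, ∑ j ∈ Finset.range m, (B (i + 1) j - B i j) :=
    Finset.sum_congr rfl fun i hi => by
      rw [← Finset.sum_range_sub fun j => A i j]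
      exact Finset.sum_congr rfl fun j hj => by
        linarith [h i (Finset.mem_range.1 hi) j (Finset.mem_range.1 hj)]
  rw [Finset.sum_comm, Finset.sum_congr rfl fun j _ => Finset.sum_range_sub (fun i => B i j) n,
    Finset.sum_sub_distrib, Finset.sum_sub_distrib] at e1
  linarith

theorem cr_adj_sub {x y : Z2} (z : Z2) (h : squareLattice.Adj x y) :
    squareLattice.Adj (x - z) (y - z) := by
  rw [adj_iff] at h ⊢
  rwa [sub_sub_sub_cancel_right]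
theorem cr_adj_sub' {x y : Z2} (z : Z2) (h : squareLattice.Adj x y) :
    squareLattice.Adj (z - x) (z - y) := by
  rw [adj_iff] at h ⊢
  rwa [sub_sub_sub_cancel_left, n1_sub_comm]

/-- two disjoint walks: the boundary identity -/
theorem cross_key (hD : crD p q ≠ 0) {g g' : ℕ → Z2} {n m : ℕ}
    (hg : ∀ i < n, squareLattice.Adj (g i) (g (i + 1)))
    (hg' : ∀ j < m, squareLattice.Adj (g' j) (g' (j + 1)))
    (hne : ∀ i ≤ n, ∀ j ≤ m, g i ≠ g' j) {ε₁ ε₂ ε₃ ε₄ : ℤ}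
    (h1 : CrSide p q ε₁ (fun i => g i - g' 0) n) (h2 : CrSide p q ε₂ (fun j => g n - g' j) m)
    (h3 : CrSide p q ε₃ (fun i => g i - g' m) n) (h4 : CrSide p q ε₄ (fun j => g 0 - g' j) m) :
    ε₁ * (crH (q - p) (g n - g' 0) - crH (q - p) (g 0 - g' 0)) +
      ε₂ * (crH (q - p) (g n - g' m) - crH (q - p) (g n - g' 0)) =
    ε₄ * (crH (q - p) (g 0 - g' m) - crH (q - p) (g 0 - g' 0)) +
      ε₃ * (crH (q - p) (g n - g' m) - crH (q - p) (g 0 - g' m)) := by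
  rw [← h1.sum hD (fun i hi => cr_adj_sub _ (hg i hi))
      fun i hi => sub_ne_zero.2 (hne i hi 0 m.zero_le),
    ← h2.sum hD (fun j hj => cr_adj_sub' _ (hg' j hj))
      fun j hj => sub_ne_zero.2 (hne n le_rfl j hj),
    ← h3.sum hD (fun i hi => cr_adj_sub _ (hg i hi))
      fun i hi => sub_ne_zero.2 (hne i hi m le_rfl),
    ← h4.sum hD (fun j hj => cr_adj_sub' _ (hg' j hj))
      fun j hj => sub_ne_zero.2 (hne 0 n.zero_le j hj)]
  exact cr_stokes (fun i j => crN (p + q) (q - p) (g i - g' j) (g (i + 1) - g' j))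
    (fun i j => crN (p + q) (q - p) (g i - g' j) (g i - g' (j + 1))) n m fun i hi j hj =>
    crN_closed (crD_rot hD) (hg i hi) (hg' j hj) (hne i hi.le j hj.le) (hne _ hi j hj.le)
      (hne i hi.le _ hj) (hne _ hi _ hj)

theorem cr_inj (hD : crD p q ≠ 0) (hp : p u = 0) (hq : q u = 0) : u = 0 := by
  obtain ⟨α, β, h⟩ := cr_span hD 1 0
  obtain ⟨α', β', h'⟩ := cr_span hD 0 1
  have a := h u
  have b := h' u
  rw [hp, hq, mul_zero, mul_zero, add_zero, eq_comm, Int.cast_eq_zero] at a b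
  exact Prod.ext (by simpa using a) (by simpa using b)

/-- **crossing lemma**, index form: `g` crosses in the direction `p`, `g'` in the direction `q` -/
theorem cross_idx (hD : crD p q ≠ 0) {g g' : ℕ → Z2} {n m : ℕ}
    (hg : ∀ i < n, squareLattice.Adj (g i) (g (i + 1)))
    (hg' : ∀ j < m, squareLattice.Adj (g' j) (g' (j + 1)))
    (hq : ∀ i ≤ n, q (g' 0) ≤ q (g i) ∧ q (g i) ≤ q (g' m))
    (hp : ∀ j ≤ m, p (g 0) ≤ p (g' j) ∧ p (g' j) ≤ p (g n)) : ∃ i ≤ n, ∃ j ≤ m, g i = g' j := by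
  by_contra hc
  have hne : ∀ i ≤ n, ∀ j ≤ m, g i ≠ g' j := fun i hi j hj e => hc ⟨i, hi, j, hj, e⟩
  have key := cross_key hD hg hg' hne (ε₁ := 1) (ε₂ := 1) (ε₃ := 0) (ε₄ := 0)
    (Or.inl ⟨rfl, Or.inr fun i hi => by rw [map_sub]; linarith [(hq i hi).1]⟩)
    (Or.inl ⟨rfl, Or.inl fun j hj => by rw [map_sub]; linarith [(hp j hj).2]⟩)
    (Or.inr ⟨rfl, Or.inr fun i hi => by rw [map_sub]; linarith [(hq i hi).2]⟩)
    (Or.inr ⟨rfl, Or.inl fun j hj => by rw [map_sub]; linarith [(hp j hj).1]⟩)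
  have a1 := (hq 0 n.zero_le).1
  have a2 := (hp 0 m.zero_le).1
  have b1 := (hq n le_rfl).2
  have b2 := (hp m le_rfl).2
  have e1 : crH (q - p) (g 0 - g' 0) = 1 := by
    refine if_pos (lt_of_not_ge fun h => hne 0 n.zero_le 0 m.zero_le (sub_eq_zero.1
      (cr_inj hD ?_ ?_))) <;>
    · rw [AddMonoidHom.sub_apply, map_sub, map_sub] at h
      rw [map_sub]; linarith
  have e2 : crH (q - p) (g n - g' m) = 0 := by
    refine if_neg (not_lt.2 ?_)
    rw [AddMonoidHom.sub_apply, map_sub, map_sub]; linarith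
  rw [e1, e2] at key
  omega

/-- four points on the boundary line of a half plane `h ≤ q`, interlaced -/
theorem cross_half (hD : crD p q ≠ 0) {g g' : ℕ → Z2} {n m : ℕ} {h : ℝ}
    (hg : ∀ i < n, squareLattice.Adj (g i) (g (i + 1)))
    (hg' : ∀ j < m, squareLattice.Adj (g' j) (g' (j + 1)))
    (hq : ∀ i ≤ n, h ≤ q (g i)) (hq' : ∀ j ≤ m, h ≤ q (g' j)) (ha : q (g 0) = h) (hb : q (g' 0) = h)
    (hc : q (g n) = h) (hd : q (g' m) = h) (hab : p (g 0) < p (g' 0)) (hbc : p (g' 0) < p (g n))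
    (hcd : p (g n) < p (g' m)) : ∃ i ≤ n, ∃ j ≤ m, g i = g' j := by
  by_contra hcon
  have hne : ∀ i ≤ n, ∀ j ≤ m, g i ≠ g' j := fun i hi j hj e => hcon ⟨i, hi, j, hj, e⟩
  have key := cross_key hD hg hg' hne (ε₁ := 1) (ε₂ := 0) (ε₃ := 1) (ε₄ := 0)
    (Or.inl ⟨rfl, Or.inr fun i hi => by rw [map_sub]; linarith [hq i hi]⟩)
    (Or.inr ⟨rfl, Or.inr fun j hj => by rw [map_sub]; linarith [hq' j hj]⟩)
    (Or.inl ⟨rfl, Or.inr fun i hi => by rw [map_sub]; linarith [hq i hi]⟩)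
    (Or.inr ⟨rfl, Or.inr fun j hj => by rw [map_sub]; linarith [hq' j hj]⟩)
  have e1 : crH (q - p) (g n - g' 0) = 0 := if_neg (not_lt.2 (by
    rw [AddMonoidHom.sub_apply, map_sub, map_sub]; linarith))
  have e2 : crH (q - p) (g 0 - g' 0) = 1 := if_pos (by
    rw [AddMonoidHom.sub_apply, map_sub, map_sub]; linarith)
  have e3 : crH (q - p) (g n - g' m) = 1 := if_pos (by
    rw [AddMonoidHom.sub_apply, map_sub, map_sub]; linarith)
  have e4 : crH (q - p) (g 0 - g' m) = 1 := if_pos (by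
    rw [AddMonoidHom.sub_apply, map_sub, map_sub]; linarith)
  rw [e1, e2, e3, e4] at key
  omega

/-- a good frame has a nonzero determinant -/
theorem Fr.OK.crD_ne {f : Fr} (hf : f.OK) : crD f.p f.q ≠ 0 := by
  intro hD
  have hC := hf.C1
  -- the image of the lattice lies on a line through the origin
  have key : ∀ s t : ℝ, (∀ z, s * f.p z + t * f.q z = 0) → s = 0 ∧ t = 0 := by
    intro s t h
    by_contra hst
    have hpos : 0 < s ^ 2 + t ^ 2 := by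
      rcases not_and_or.1 hst with h | h <;> positivity
    set k : ℝ := (f.C * (|s| + |t|) + 1) / (s ^ 2 + t ^ 2) with hk
    obtain ⟨x, hx1, hx2⟩ := hf.den (k * s) (k * t)
    have e : k * (s ^ 2 + t ^ 2) = f.C * (|s| + |t|) + 1 := div_mul_cancel₀ _ hpos.ne'
    have e2 : s * (f.p x - k * s) + t * (f.q x - k * t) = -(k * (s ^ 2 + t ^ 2)) := by
      linear_combination h x
    have b1 : |s * (f.p x - k * s)| ≤ |s| * f.C := by
      rw [abs_mul]; exact mul_le_mul_of_nonneg_left hx1 (abs_nonneg _)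
    have b2 : |t * (f.q x - k * t)| ≤ |t| * f.C := by
      rw [abs_mul]; exact mul_le_mul_of_nonneg_left hx2 (abs_nonneg _)
    nlinarith [neg_abs_le (s * (f.p x - k * s)), neg_abs_le (t * (f.q x - k * t))]
  unfold crD at hD
  have k1 := key (f.q (0, 1)) (-f.p (0, 1)) fun z => by
    rw [cr_expand f.p z, cr_expand f.q z]; linear_combination (z.1 : ℝ) * hD
  have := hf.dn (0, 1)
  rw [k1.1, neg_eq_zero.1 k1.2] at this
  norm_num [n1] at this

/-- **crossing lemma** for walks, sharp form -/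
theorem cross_walk (hD : crD p q ≠ 0) {x y x' y' : Z2} (w : Wk x y) (w' : Wk x' y')
    (hq : ∀ z ∈ w.support, q x' ≤ q z ∧ q z ≤ q y')
    (hp : ∀ z ∈ w'.support, p x ≤ p z ∧ p z ≤ p y) : ∃ z ∈ w.support, z ∈ w'.support := by
  obtain ⟨i, -, j, -, e⟩ := cross_idx hD (g := w.getVert) (g' := w'.getVert) (n := w.length)
    (m := w'.length) (fun i hi => w.adj_getVert_succ hi) (fun j hj => w'.adj_getVert_succ hj)
    (fun i _ => by
      rw [w'.getVert_zero, w'.getVert_length]; exact hq _ (w.getVert_mem_support i))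
    fun j _ => by
      rw [w.getVert_zero, w.getVert_length]; exact hp _ (w'.getVert_mem_support j)
  exact ⟨_, w.getVert_mem_support i, e ▸ w'.getVert_mem_support j⟩

/-- **crossing lemma** for a parallelogram `[a₀, a₁] × [b₀, b₁]` of the chart -/
theorem cross_chart (hD : crD p q ≠ 0) {x y x' y' : Z2} (w : Wk x y) (w' : Wk x' y')
    {a₀ a₁ b₀ b₁ : ℝ} (hw : ∀ z ∈ w.support, b₀ ≤ q z ∧ q z ≤ b₁) (hx : p x ≤ a₀) (hy : a₁ ≤ p y)
    (hw' : ∀ z ∈ w'.support, a₀ ≤ p z ∧ p z ≤ a₁) (hx' : q x' ≤ b₀) (hy' : b₁ ≤ q y') :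
    ∃ z ∈ w.support, z ∈ w'.support :=
  cross_walk hD w w' (fun z hz => ⟨hx'.trans (hw z hz).1, (hw z hz).2.trans hy'⟩)
    fun z hz => ⟨hx.trans (hw' z hz).1, (hw' z hz).2.trans hy⟩

theorem Rch.cut {S : Set Z2} {t : Env} {x y z : Z2} (w : Wk x y) (hw : ∀ u ∈ w.support, u ∈ S)
    (hz : z ∈ w.support) :
    ∃ c₁ c₂, Rch S t x z c₁ ∧ Rch S t z y c₂ ∧ c₁ + c₂ = walkCost t w := by
  refine ⟨_, _, ⟨w.takeUntil z hz, fun v hv => hw v (w.support_takeUntil_subset_support hz hv), rfl⟩,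
    ⟨w.dropUntil z hz, fun v hv => hw v (w.support_dropUntil_subset_support hz hv), rfl⟩, ?_⟩
  conv_rhs => rw [← w.take_spec hz]
  simp only [walkCost, SimpleGraph.Walk.edges_append, List.map_append, List.sum_append]

/-- **crossing lemma** with costs (the two environments may differ) -/
theorem Rch.cross (hD : crD p q ≠ 0) {S S' : Set Z2} {t t' : Env} {x y x' y' : Z2} {c c' : ℝ}
    (h : Rch S t x y c) (h' : Rch S' t' x' y' c') (hS : ∀ z ∈ S, q x' ≤ q z ∧ q z ≤ q y')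
    (hS' : ∀ z ∈ S', p x ≤ p z ∧ p z ≤ p y) :
    ∃ z c₁ c₂ c₁' c₂', Rch S t x z c₁ ∧ Rch S t z y c₂ ∧ c₁ + c₂ = c ∧
      Rch S' t' x' z c₁' ∧ Rch S' t' z y' c₂' ∧ c₁' + c₂' = c' := by
  obtain ⟨w, hw, rfl⟩ := h
  obtain ⟨w', hw', rfl⟩ := h'
  obtain ⟨z, hz, hz'⟩ := cross_walk hD w w' (fun z hz => hS z (hw z hz)) fun z hz => hS' z (hw' z hz)
  obtain ⟨c₁, c₂, k1, k2, k3⟩ := Rch.cut (t := t) w hw hz
  obtain ⟨c₁', c₂', l1, l2, l3⟩ := Rch.cut (t := t') w' hw' hz'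
  exact ⟨z, c₁, c₂, c₁', c₂', k1, k2, k3, l1, l2, l3⟩

end

end Crest.Agent.R151.B
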