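import Crest.Agent.R151.C03b
import Crest.Agent.R151.C01b
import Crest.Agent.R151.Cross

/-! Row 151 (C): crossings -/

set_option autoImplicit false

open MeasureTheory Set Filter Topology
open Crest.ProbabilityR.FirstPassage
open Crest.Agent.R151.B

namespace Crest.Agent.R151.C

noncomputable section

variable {φ : Chart}

theorem C02_idx (h : φ.det ≠ 0) {P Q : Pth} {x0 x1 y0 y1 : ℝ} {i0 i1 j0 j1 : ℕ}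
    (hi : i0 ≤ i1) (hi1 : i1 ≤ P.n) (hj : j0 ≤ j1) (hj1 : j1 ≤ Q.n)
    (hP : ∀ k, i0 ≤ k → k ≤ i1 → y0 ≤ φ.y (P.v k) ∧ φ.y (P.v k) ≤ y1)
    (hP0 : φ.x (P.v i0) ≤ x0) (hP1 : x1 ≤ φ.x (P.v i1))
    (hQ : ∀ k, j0 ≤ k → k ≤ j1 → x0 ≤ φ.x (Q.v k) ∧ φ.x (Q.v k) ≤ x1)
    (hQ0 : φ.y (Q.v j0) ≤ y0) (hQ1 : y1 ≤ φ.y (Q.v j1)) :
    ∃ i j, i0 ≤ i ∧ i ≤ i1 ∧ j0 ≤ j ∧ j ≤ j1 ∧ P.v i = Q.v j := by
  obtain ⟨n, rfl⟩ := Nat.exists_eq_add_of_le hi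
  obtain ⟨m, rfl⟩ := Nat.exists_eq_add_of_le hj
  have hx : ∀ a b : Z2, φ.x (a + b) = φ.x a + φ.x b := fun a b => by
    simp only [Chart.x, Prod.fst_add, Prod.snd_add, Int.cast_add]
    ring
  have hy : ∀ a b : Z2, φ.y (a + b) = φ.y a + φ.y b := fun a b => by
    simp only [Chart.y, Prod.fst_add, Prod.snd_add, Int.cast_add]
    ring
  have hD : crD (AddMonoidHom.mk' φ.x hx) (AddMonoidHom.mk' φ.y hy) ≠ 0 := by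
    simpa [crD, Chart.x, Chart.y, Chart.det] using h
  obtain ⟨i, hi', j, hj', e⟩ := B.cross_idx hD (g := fun k => P.v (i0 + k))
    (g' := fun k => Q.v (j0 + k)) (n := n) (m := m) (fun i hi' => P.adj (i0 + i) (by omega))
    (fun j hj' => Q.adj (j0 + j) (by omega))
    (fun i hi' => ⟨hQ0.trans (hP (i0 + i) (by omega) (by omega)).1,
      (hP (i0 + i) (by omega) (by omega)).2.trans hQ1⟩)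
    (fun j hj' => ⟨hP0.trans (hQ (j0 + j) (by omega) (by omega)).1,
      (hQ (j0 + j) (by omega) (by omega)).2.trans hP1⟩)
  exact ⟨i0 + i, j0 + j, by omega, by omega, by omega, by omega, e⟩

/-- a horizontal and a vertical crossing of a rectangle meet -/
theorem cross (h : φ.det ≠ 0) {P Q : Pth} {x0 x1 y0 y1 : ℝ}
    (hP : ∀ k, k ≤ P.n → y0 ≤ φ.y (P.v k) ∧ φ.y (P.v k) ≤ y1)
    (hP0 : φ.x P.fst ≤ x0) (hP1 : x1 ≤ φ.x P.lst)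
    (hQ : ∀ k, k ≤ Q.n → x0 ≤ φ.x (Q.v k) ∧ φ.x (Q.v k) ≤ x1)
    (hQ0 : φ.y Q.fst ≤ y0) (hQ1 : y1 ≤ φ.y Q.lst) :
    ∃ i j, i ≤ P.n ∧ j ≤ Q.n ∧ P.v i = Q.v j := by
  obtain ⟨i, j, -, h1, -, h2, e⟩ := C02_idx h (Nat.zero_le P.n) le_rfl (Nat.zero_le Q.n) le_rfl
    (fun k _ => hP k) hP0 hP1 (fun k _ => hQ k) hQ0 hQ1
  exact ⟨i, j, h1, h2, e⟩

/-- the same for pieces -/
theorem cross_idx (h : φ.det ≠ 0) {P Q : Pth} {x0 x1 y0 y1 : ℝ} {i0 i1 j0 j1 : ℕ}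
    (hi : i0 ≤ i1) (hi1 : i1 ≤ P.n) (hj : j0 ≤ j1) (hj1 : j1 ≤ Q.n)
    (hP : ∀ k, i0 ≤ k → k ≤ i1 → y0 ≤ φ.y (P.v k) ∧ φ.y (P.v k) ≤ y1)
    (hP0 : φ.x (P.v i0) ≤ x0) (hP1 : x1 ≤ φ.x (P.v i1))
    (hQ : ∀ k, j0 ≤ k → k ≤ j1 → x0 ≤ φ.x (Q.v k) ∧ φ.x (Q.v k) ≤ x1)
    (hQ0 : φ.y (Q.v j0) ≤ y0) (hQ1 : y1 ≤ φ.y (Q.v j1)) :
    ∃ i j, i0 ≤ i ∧ i ≤ i1 ∧ j0 ≤ j ∧ j ≤ j1 ∧ P.v i = Q.v j :=
  C02_idx h hi hi1 hj hj1 hP hP0 hP1 hQ hQ0 hQ1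

/-- four crossings around a rectangle: right then up (`H1`, `V1`) and up then right (`V2`, `H2`)
join the same two points -/
theorem rect (h : φ.det ≠ 0) {H1 V1 V2 H2 : Pth} {xa xa' xb xb' ya ya' yb yb' : ℝ}
    (hx : xa' ≤ xb) (hy : ya' ≤ yb)
    (hH1 : ∀ k, k ≤ H1.n → ya ≤ φ.y (H1.v k) ∧ φ.y (H1.v k) ≤ ya')
    (hH1a : φ.x H1.fst ≤ xa) (hH1b : xb' ≤ φ.x H1.lst)
    (hH2 : ∀ k, k ≤ H2.n → yb ≤ φ.y (H2.v k) ∧ φ.y (H2.v k) ≤ yb')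
    (hH2a : φ.x H2.fst ≤ xa) (hH2b : xb' ≤ φ.x H2.lst)
    (hV1 : ∀ k, k ≤ V1.n → xb ≤ φ.x (V1.v k) ∧ φ.x (V1.v k) ≤ xb')
    (hV1a : φ.y V1.fst ≤ ya) (hV1b : yb' ≤ φ.y V1.lst)
    (hV2 : ∀ k, k ≤ V2.n → xa ≤ φ.x (V2.v k) ∧ φ.x (V2.v k) ≤ xa')
    (hV2a : φ.y V2.fst ≤ ya) (hV2b : yb' ≤ φ.y V2.lst) :
    ∃ i1 i2 l1 l2 j1 j2 k1 k2 : ℕ, i1 ≤ i2 ∧ i2 ≤ H1.n ∧ l1 ≤ l2 ∧ l2 ≤ V1.n ∧ j1 ≤ j2 ∧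
      j2 ≤ V2.n ∧ k1 ≤ k2 ∧ k2 ≤ H2.n ∧ H1.v i1 = V2.v j1 ∧ H1.v i2 = V1.v l1 ∧
      V2.v j2 = H2.v k1 ∧ V1.v l2 = H2.v k2 := by
  have bx : xb ≤ xb' := (hV1 0 (Nat.zero_le _)).1.trans (hV1 0 (Nat.zero_le _)).2
  have by' : yb ≤ yb' := (hH2 0 (Nat.zero_le _)).1.trans (hH2 0 (Nat.zero_le _)).2
  have ay : ya ≤ ya' := (hH1 0 (Nat.zero_le _)).1.trans (hH1 0 (Nat.zero_le _)).2
  obtain ⟨i1, j1, -, a1, -, a2, e1⟩ := C02_idx h (Nat.zero_le H1.n) le_rfl (Nat.zero_le V2.n) le_rfl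
    (fun k _ => hH1 k) hH1a (hx.trans (bx.trans hH1b)) (fun k _ => hV2 k) hV2a
    (hy.trans (by'.trans hV2b))
  obtain ⟨k1, j2, -, b1, b2, b3, e2⟩ := C02_idx h (Nat.zero_le H2.n) le_rfl a2 le_rfl
    (fun k _ => hH2 k) hH2a (hx.trans (bx.trans hH2b)) (fun k _ => hV2 k)
    (e1 ▸ (hH1 i1 a1).2.trans hy) hV2b
  obtain ⟨k2, l2, c1, c2, -, c3, e3⟩ := C02_idx h b1 le_rfl (Nat.zero_le V1.n) le_rfl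
    (fun k _ => hH2 k) (e2 ▸ (hV2 j2 b3).2.trans hx) hH2b (fun k _ => hV1 k)
    (hV1a.trans (ay.trans hy)) hV1b
  obtain ⟨i2, l1, d1, d2, -, d3, e4⟩ := C02_idx h a1 le_rfl (Nat.zero_le l2) c3
    (fun k _ => hH1 k) (e1 ▸ (hV2 j1 a2).2.trans hx) hH1b (fun k _ hk => hV1 k (hk.trans c3))
    hV1a (e3 ▸ hy.trans (hH2 k2 c2).1)
  exact ⟨i1, i2, l1, l2, j1, j2, k1, k2, d1, d2, d3, c3, b2, b3, c1, c2, e1, e4, e2.symm, e3.symm⟩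

end

end Crest.Agent.R151.C
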