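import Crest.Agent.R151.C01

/-! Row 151 (C): charts -/

set_option autoImplicit false

open MeasureTheory Set Filter Topology
open Crest.ProbabilityR.FirstPassage
open Crest.Agent.R151.B

namespace Crest.Agent.R151.C

noncomputable section

variable {φ : Chart} {c c' : ℝ × ℝ} {r r' l l' ν ν' : ℝ} {z z' : Z2}

theorem shr_sub (l ν : ℝ) (c c' : ℝ × ℝ) : shr l ν (c - c') = shr l ν c - shr l ν c' := by
  refine Prod.ext ?_ ?_ <;> simp only [shr, Prod.fst_sub, Prod.snd_sub] <;> ring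
theorem shr_add (l ν : ℝ) (c c' : ℝ × ℝ) : shr l ν (c + c') = shr l ν c + shr l ν c' := by
  refine Prod.ext ?_ ?_ <;> simp only [shr, Prod.fst_add, Prod.snd_add] <;> ring
theorem shr_swap (l ν : ℝ) (c : ℝ × ℝ) : shr l ν c.swap = (shr l ν c).swap := by
  rfl
theorem shr_shr (hν : ν ≠ 0) (hν' : ν' ≠ 0) (l l' : ℝ) (c : ℝ × ℝ) :
    shr l' ν' (shr l ν c) = shr (l * l') (ν * ν') c := by
  refine Prod.ext ?_ ?_ <;> simp only [shr] <;> field_simp <;> ring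
theorem shr_one (hν : ν ≠ 0) (c : ℝ × ℝ) : shr 1 ν c = (c.1 / ν, c.2 / ν) := by
  refine Prod.ext ?_ ?_ <;> simp only [shr] <;> field_simp <;> ring
theorem shr_sk (c : ℝ × ℝ) : shr (1 / 3) 1 (sk c) = c := by
  refine Prod.ext ?_ ?_ <;> simp only [shr, sk] <;> ring
theorem sk_shr (c : ℝ × ℝ) : sk (shr (1 / 3) 1 c) = c := by
  refine Prod.ext ?_ ?_ <;> simp only [shr, sk] <;> ring
theorem shr_surj (hl : l ≠ 0) (hν : ν ≠ 0) (c : ℝ × ℝ) : ∃ w, shr l ν w = c := by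
  refine ⟨shr l⁻¹ ν⁻¹ c, ?_⟩
  rw [shr_shr (inv_ne_zero hν) hν, inv_mul_cancel₀ hl, inv_mul_cancel₀ hν, shr_one one_ne_zero]
  simp
theorem c03_abs {a b : ℝ} (hl : 0 ≤ l) (hl1 : l ≤ 1) (hν : 0 < ν) (h1 : |a| ≤ r) (h2 : |b| ≤ r) :
    |((1 + l) * a - (1 - l) * b) / (2 * ν)| ≤ r / ν := by
  have h : |(1 + l) * a - (1 - l) * b| ≤ 2 * r := by
    rw [abs_le] at h1 h2 ⊢
    have p : 0 ≤ 1 + l := by linarith
    have q : 0 ≤ 1 - l := by linarith
    constructor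
    · nlinarith [mul_le_mul_of_nonneg_left h1.1 p, mul_le_mul_of_nonneg_left h2.2 q]
    · nlinarith [mul_le_mul_of_nonneg_left h1.2 p, mul_le_mul_of_nonneg_left h2.1 q]
  rw [abs_div, abs_of_pos (by positivity : 0 < 2 * ν), ← mul_div_mul_left r ν two_ne_zero]
  exact div_le_div_of_nonneg_right h (by positivity)
theorem shr_le (hl : 0 ≤ l) (hl1 : l ≤ 1) (hν : 0 < ν) (h1 : |c.1| ≤ r) (h2 : |c.2| ≤ r) :
    |(shr l ν c).1| ≤ r / ν ∧ |(shr l ν c).2| ≤ r / ν := by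
  exact ⟨c03_abs hl hl1 hν h1 h2, c03_abs hl hl1 hν h2 h1⟩
theorem shr_ge (hl : 0 < l) (hl1 : l ≤ 1) (hν : 0 < ν) (h1 : |(shr l ν c).1| ≤ r)
    (h2 : |(shr l ν c).2| ≤ r) : |c.1| ≤ r * ν / l ∧ |c.2| ≤ r * ν / l := by
  have a := c03_abs hl.le hl1 (div_pos hl hν) h1 ((abs_neg _).trans_le h2)
  have b := c03_abs hl.le hl1 (div_pos hl hν) h2 ((abs_neg _).trans_le h1)
  have e : r / (l / ν) = r * ν / l := by field_simp
  have e1 : ((1 + l) * (shr l ν c).1 - (1 - l) * -(shr l ν c).2) / (2 * (l / ν)) = c.1 := by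
    simp only [shr]; field_simp; ring
  have e2 : ((1 + l) * (shr l ν c).2 - (1 - l) * -(shr l ν c).1) / (2 * (l / ν)) = c.2 := by
    simp only [shr]; field_simp; ring
  rw [e, e1] at a
  rw [e, e2] at b
  exact ⟨a, b⟩

namespace Chart

theorem x_add (φ : Chart) (z z' : Z2) : φ.x (z + z') = φ.x z + φ.x z' := by
  simp only [x, Prod.fst_add, Prod.snd_add, Int.cast_add]; ring
theorem y_add (φ : Chart) (z z' : Z2) : φ.y (z + z') = φ.y z + φ.y z' := by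
  simp only [y, Prod.fst_add, Prod.snd_add, Int.cast_add]; ring
theorem x_sub (φ : Chart) (z z' : Z2) : φ.x (z - z') = φ.x z - φ.x z' := by
  simp only [x, Prod.fst_sub, Prod.snd_sub, Int.cast_sub]; ring
theorem y_sub (φ : Chart) (z z' : Z2) : φ.y (z - z') = φ.y z - φ.y z' := by
  simp only [y, Prod.fst_sub, Prod.snd_sub, Int.cast_sub]; ring
theorem ap_cR (φ : Chart) (z : Z2) : φ.ap (cR z) = φ.pt z := by
  rfl
theorem ap_add (φ : Chart) (w w' : ℝ × ℝ) : φ.ap (w + w') = φ.ap w + φ.ap w' := by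
  refine Prod.ext ?_ ?_ <;> simp only [ap, Prod.fst_add, Prod.snd_add] <;> ring
theorem ap_sub (φ : Chart) (w w' : ℝ × ℝ) : φ.ap (w - w') = φ.ap w - φ.ap w' := by
  refine Prod.ext ?_ ?_ <;> simp only [ap, Prod.fst_sub, Prod.snd_sub] <;> ring
theorem ap_surj (h : φ.det ≠ 0) (c : ℝ × ℝ) : ∃ w, φ.ap w = c := by
  refine ⟨((φ.b2 * c.1 - φ.a2 * c.2) / φ.det, (φ.a1 * c.2 - φ.b1 * c.1) / φ.det), ?_⟩
  refine Prod.ext ?_ ?_ <;> simp only [ap] <;> field_simp <;> simp only [det] <;> ring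

theorem swap_swap (φ : Chart) : φ.swap.swap = φ := rfl
theorem swap_x (φ : Chart) (z : Z2) : φ.swap.x z = φ.y z := rfl
theorem swap_y (φ : Chart) (z : Z2) : φ.swap.y z = φ.x z := rfl
theorem swap_ap (φ : Chart) (w : ℝ × ℝ) : φ.swap.ap w = (φ.ap w).swap := rfl
theorem swap_det (h : φ.det ≠ 0) : φ.swap.det ≠ 0 := by
  intro h'
  refine h ?_
  have e : φ.swap.det = -φ.det := by simp only [det, swap]; ring
  rwa [e, neg_eq_zero] at h'
theorem OK.swap (h : φ.OK) : φ.swap.OK := by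
  exact ⟨swap_det h.det, h.b1, h.b2, h.a1, h.a2⟩
theorem neg_x (φ : Chart) (z : Z2) : φ.neg.x z = -φ.x z := by
  simp only [x, neg]; ring
theorem neg_y (φ : Chart) (z : Z2) : φ.neg.y z = -φ.y z := by
  simp only [y, neg]; ring
theorem neg_neg (φ : Chart) : φ.neg.neg = φ := by
  cases φ
  simp only [neg, _root_.neg_neg]
theorem neg_swap (φ : Chart) : φ.neg.swap = φ.swap.neg := rfl
theorem OK.neg (h : φ.OK) : φ.neg.OK := by
  refine ⟨?_, (abs_neg _).trans_le h.a1, (abs_neg _).trans_le h.a2, (abs_neg _).trans_le h.b1,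
    (abs_neg _).trans_le h.b2⟩
  have e : φ.neg.det = φ.det := by simp only [Chart.det, Chart.neg]; ring
  rw [e]
  exact h.det

theorem shear_pt (φ : Chart) (l ν : ℝ) (z : Z2) : (φ.shear l ν).pt z = shr l ν (φ.pt z) := by
  refine Prod.ext ?_ ?_ <;> simp only [shr, pt, x, y, shear] <;> ring
theorem shear_ap (φ : Chart) (l ν : ℝ) (w : ℝ × ℝ) : (φ.shear l ν).ap w = shr l ν (φ.ap w) := by
  refine Prod.ext ?_ ?_ <;> simp only [shr, ap, shear] <;> ring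
theorem shear_shear (φ : Chart) (hν : ν ≠ 0) (hν' : ν' ≠ 0) (l l' : ℝ) :
    (φ.shear l ν).shear l' ν' = φ.shear (l * l') (ν * ν') := by
  simp only [shear, Chart.mk.injEq]
  refine ⟨?_, ?_, ?_, ?_⟩ <;> field_simp <;> ring
theorem shear_swap (φ : Chart) (l ν : ℝ) : (φ.shear l ν).swap = φ.swap.shear l ν := rfl
theorem shear_neg (φ : Chart) (l ν : ℝ) : (φ.shear l ν).neg = φ.neg.shear l ν := by
  simp only [shear, neg, Chart.mk.injEq]
  refine ⟨?_, ?_, ?_, ?_⟩ <;> ring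
theorem shear_one (φ : Chart) : φ.shear 1 1 = φ := by
  cases φ
  simp only [shear, Chart.mk.injEq]
  refine ⟨?_, ?_, ?_, ?_⟩ <;> ring
theorem shear_det (h : φ.det ≠ 0) (hl : l ≠ 0) (hν : ν ≠ 0) : (φ.shear l ν).det ≠ 0 := by
  have e : (φ.shear l ν).det = l / ν ^ 2 * φ.det := by
    simp only [det, shear]; field_simp; ring
  rw [e]
  exact mul_ne_zero (div_ne_zero hl (pow_ne_zero 2 hν)) h
theorem OK.shear (h : φ.OK) (hl : 0 < l) (hl1 : l ≤ 1) (hν : 1 ≤ ν) : (φ.shear l ν).OK := by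
  have hν0 : 0 < ν := by linarith
  have e : (1 / 100 : ℝ) / ν ≤ 1 / 100 := div_le_self (by norm_num) hν
  exact ⟨shear_det h.det hl.ne' hν0.ne', (c03_abs hl.le hl1 hν0 h.a1 h.b1).trans e,
    (c03_abs hl.le hl1 hν0 h.a2 h.b2).trans e, (c03_abs hl.le hl1 hν0 h.b1 h.a1).trans e,
    (c03_abs hl.le hl1 hν0 h.b2 h.a2).trans e⟩
theorem OK.scale (h : φ.OK) (hν : 1 ≤ ν) : (φ.scale ν).OK := by
  exact h.shear one_pos le_rfl hν
theorem scale_x (φ : Chart) (hν : ν ≠ 0) (z : Z2) : (φ.scale ν).x z = φ.x z / ν := by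
  exact congrArg Prod.fst ((φ.shear_pt 1 ν z).trans (shr_one hν _))
theorem scale_y (φ : Chart) (hν : ν ≠ 0) (z : Z2) : (φ.scale ν).y z = φ.y z / ν := by
  exact congrArg Prod.snd ((φ.shear_pt 1 ν z).trans (shr_one hν _))

theorem c03_lin' {a b C : ℝ} (ha : |a| ≤ C) (hb : |b| ≤ C) (u v : ℝ) :
    |a * u + b * v| ≤ C * (|u| + |v|) := by
  refine (abs_add_le _ _).trans ?_
  rw [abs_mul, abs_mul, mul_add]
  exact add_le_add (mul_le_mul_of_nonneg_right ha (abs_nonneg _))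
    (mul_le_mul_of_nonneg_right hb (abs_nonneg _))
theorem c03_lin {a b C : ℝ} (ha : |a| ≤ C) (hb : |b| ≤ C) (z : Z2) :
    |a * z.1 + b * z.2| ≤ C * n1 z := c03_lin' ha hb _ _
theorem OK.step (h : φ.OK) (hz : squareLattice.Adj z z') :
    |φ.x z' - φ.x z| ≤ 1 / 100 ∧ |φ.y z' - φ.y z| ≤ 1 / 100 := by
  have e := adj_iff.1 hz
  rw [← x_sub, ← y_sub]
  exact ⟨(c03_lin h.a1 h.a2 _).trans (by rw [e, mul_one]),
    (c03_lin h.b1 h.b2 _).trans (by rw [e, mul_one])⟩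
theorem OK.near (h : φ.OK) (c : ℝ × ℝ) :
    ∃ z, |φ.x z - c.1| ≤ 1 / 100 ∧ |φ.y z - c.2| ≤ 1 / 100 := by
  obtain ⟨w, rfl⟩ := ap_surj h.det c
  have h1 := abs_sub_round w.1
  have h2 := abs_sub_round w.2
  rw [abs_sub_comm] at h1 h2
  have a := c03_lin' h.a1 h.a2 (round w.1 - w.1) (round w.2 - w.2)
  have b := c03_lin' h.b1 h.b2 (round w.1 - w.1) (round w.2 - w.2)
  refine ⟨(round w.1, round w.2), le_trans (le_of_eq ?_) (a.trans (by linarith)),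
    le_trans (le_of_eq ?_) (b.trans (by linarith))⟩
  · congr 1; simp only [x, ap]; ring
  · congr 1; simp only [y, ap]; ring
/-- comparison of the coordinates with the `ℓ¹` norm -/
theorem exists_n1 (h : φ.det ≠ 0) : ∃ C : ℝ, 1 ≤ C ∧ (∀ z, n1 z ≤ C * (|φ.x z| + |φ.y z|) ∧
    |φ.x z| ≤ C * n1 z ∧ |φ.y z| ≤ C * n1 z) ∧
    ∀ s l : ℝ, 100 * C ≤ s → 0 < l → l ≤ 1 → (Ph φ s l).OK := by
  set S := |φ.a1| + |φ.a2| + |φ.b1| + |φ.b2| with hS
  have p1 := abs_nonneg φ.a1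
  have p2 := abs_nonneg φ.a2
  have p3 := abs_nonneg φ.b1
  have p4 := abs_nonneg φ.b2
  have hd : 0 < |φ.det| := abs_pos.2 h
  have hS0 : 0 ≤ S := by linarith
  have hq : 0 ≤ S / |φ.det| := div_nonneg hS0 hd.le
  have k1 : |φ.a1| ≤ 1 + S + 2 * (S / |φ.det|) := by linarith
  have k2 : |φ.a2| ≤ 1 + S + 2 * (S / |φ.det|) := by linarith
  have k3 : |φ.b1| ≤ 1 + S + 2 * (S / |φ.det|) := by linarith
  have k4 : |φ.b2| ≤ 1 + S + 2 * (S / |φ.det|) := by linarith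
  refine ⟨1 + S + 2 * (S / |φ.det|), by linarith,
    fun z => ⟨?_, c03_lin k1 k2 z, c03_lin k3 k4 z⟩, fun s l hs hl hl1 => ?_⟩
  · have q : ∀ a : ℝ, |a| ≤ S → |a / φ.det| ≤ S / |φ.det| := fun a ha => by
      rw [abs_div]; exact div_le_div_of_nonneg_right ha hd.le
    have a := c03_lin' (q φ.b2 (by linarith)) (q (-φ.a2) (by rw [abs_neg]; linarith))
      (φ.x z) (φ.y z)
    have b := c03_lin' (q (-φ.b1) (by rw [abs_neg]; linarith)) (q φ.a1 (by linarith))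
      (φ.x z) (φ.y z)
    have e1 : φ.b2 / φ.det * φ.x z + -φ.a2 / φ.det * φ.y z = z.1 := by
      simp only [x, y]; field_simp; simp only [det]; ring
    have e2 : -φ.b1 / φ.det * φ.x z + φ.a1 / φ.det * φ.y z = z.2 := by
      simp only [x, y]; field_simp; simp only [det]; ring
    rw [e1] at a
    rw [e2] at b
    have c := mul_nonneg (add_nonneg zero_le_one hS0)
      (add_nonneg (abs_nonneg (φ.x z)) (abs_nonneg (φ.y z)))
    show |(z.1 : ℝ)| + |(z.2 : ℝ)| ≤ _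
    linarith
  · have hs0 : 0 < s := by linarith
    have e : (1 + S + 2 * (S / |φ.det|)) / s ≤ 1 / 100 := by
      rw [div_le_iff₀ hs0]; linarith
    exact ⟨shear_det h hl.ne' hs0.ne', (c03_abs hl.le hl1 hs0 k1 k3).trans e,
      (c03_abs hl.le hl1 hs0 k2 k4).trans e, (c03_abs hl.le hl1 hs0 k3 k1).trans e,
      (c03_abs hl.le hl1 hs0 k4 k2).trans e⟩

end Chart

theorem Bx_mono (φ : Chart) (h1 : |c.1 - c'.1| + r ≤ r') (h2 : |c.2 - c'.2| + r ≤ r') :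
    Bx φ c r ⊆ Bx φ c' r' := by
  intro z hz
  exact ⟨(abs_sub_le _ c.1 _).trans (by linarith [hz.1]), (abs_sub_le _ c.2 _).trans (by linarith [hz.2])⟩
theorem Bx_mono_r (φ : Chart) (c : ℝ × ℝ) (h : r ≤ r') : Bx φ c r ⊆ Bx φ c r' := by
  exact fun z hz => ⟨hz.1.trans h, hz.2.trans h⟩
theorem Bx_swap (φ : Chart) (c : ℝ × ℝ) (r : ℝ) : Bx φ.swap c.swap r = Bx φ c r := by
  ext z
  exact and_comm
theorem Bx_neg (φ : Chart) (c : ℝ × ℝ) (r : ℝ) : Bx φ.neg (-c) r = Bx φ c r := by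
  ext z
  show |φ.neg.x z - -c.1| ≤ r ∧ |φ.neg.y z - -c.2| ≤ r ↔ _
  rw [Chart.neg_x, Chart.neg_y, neg_sub_neg, neg_sub_neg, abs_sub_comm c.1, abs_sub_comm c.2]
  rfl
theorem Bx_fin (h : φ.det ≠ 0) (c : ℝ × ℝ) (r : ℝ) : (Bx φ c r).Finite := by
  obtain ⟨C, hC, h1, -⟩ := Chart.exists_n1 h
  obtain ⟨F, hF, -⟩ := ball_fin 0 (le_max_right (C * (|c.1| + |c.2| + 2 * r)) 0)
  refine F.finite_toSet.subset fun z hz => (hF z).2 (le_max_of_le_left ?_)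
  rw [sub_zero]
  refine (h1 z).1.trans (mul_le_mul_of_nonneg_left ?_ (by linarith))
  have a := abs_sub_abs_le_abs_sub (φ.x z) c.1
  have b := abs_sub_abs_le_abs_sub (φ.y z) c.2
  linarith [hz.1, hz.2]
theorem Bx_add (φ : Chart) (c : ℝ × ℝ) (r : ℝ) (z o : Z2) :
    z + o ∈ Bx φ (c + φ.pt o) r ↔ z ∈ Bx φ c r := by
  show |φ.x (z + o) - (c.1 + φ.x o)| ≤ r ∧ |φ.y (z + o) - (c.2 + φ.y o)| ≤ r ↔ _
  rw [Chart.x_add, Chart.y_add, add_sub_add_right_eq_sub, add_sub_add_right_eq_sub]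
  rfl
theorem Bx_shear (φ : Chart) (hl : 0 ≤ l) (hl1 : l ≤ 1) (hν : 0 < ν) (c : ℝ × ℝ) (r : ℝ) :
    Bx φ c r ⊆ Bx (φ.shear l ν) (shr l ν c) (r / ν) := by
  intro z hz
  have a := shr_le (c := φ.pt z - c) hl hl1 hν hz.1 hz.2
  rw [shr_sub, ← Chart.shear_pt] at a
  exact a
theorem Bx_unshear (φ : Chart) (hl : 0 < l) (hl1 : l ≤ 1) (hν : 0 < ν) (c : ℝ × ℝ) (r : ℝ) :
    Bx (φ.shear l ν) (shr l ν c) r ⊆ Bx φ c (r * ν / l) := by
  intro z hz
  have a : |(shr l ν (φ.pt z - c)).1| ≤ r ∧ |(shr l ν (φ.pt z - c)).2| ≤ r := by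
    rw [shr_sub, ← Chart.shear_pt]
    exact hz
  exact shr_ge (c := φ.pt z - c) hl hl1 hν a.1 a.2
theorem Bx_scale (φ : Chart) (hν : 0 < ν) (c : ℝ × ℝ) (r : ℝ) :
    Bx (φ.scale ν) c r = Bx φ (ν • c) (ν * r) := by
  have e : ∀ a b : ℝ, |a / ν - b| ≤ r ↔ |a - ν * b| ≤ ν * r := fun a b => by
    rw [show a / ν - b = (a - ν * b) / ν by field_simp, abs_div, abs_of_pos hν, div_le_iff₀' hν]
  ext z
  show |(φ.scale ν).x z - c.1| ≤ r ∧ |(φ.scale ν).y z - c.2| ≤ r ↔ _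
  rw [φ.scale_x hν.ne', φ.scale_y hν.ne', e, e]
  rfl
theorem Bx_disj (φ : Chart) (h : r + r' < |c.1 - c'.1| ∨ r + r' < |c.2 - c'.2|) :
    Disjoint (Bx φ c r) (Bx φ c' r') := by
  refine Set.disjoint_left.2 fun z hz hz' => ?_
  have a := abs_sub_le c.1 (φ.x z) c'.1
  have b := abs_sub_le c.2 (φ.y z) c'.2
  rw [abs_sub_comm c.1 (φ.x z)] at a
  rw [abs_sub_comm c.2 (φ.y z)] at b
  rcases h with h | h
  · linarith [hz.1, hz'.1]
  · linarith [hz.2, hz'.2]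
/-- a boundary point of a box is close to its sides -/
theorem Bd_Bx (h : φ.OK) (hz : Bd (Bx φ c r) z) : z ∉ Bx φ c (r - 1 / 50) := by
  intro h0
  obtain ⟨-, z', hz', ha⟩ := hz
  have s := h.step ha
  exact hz' ⟨(abs_sub_le _ (φ.x z) _).trans (by linarith [h0.1, s.1]),
    (abs_sub_le _ (φ.y z) _).trans (by linarith [h0.2, s.2])⟩

theorem Ph_shear (F : Chart) {s : ℝ} (hs : s ≠ 0) (hν : ν ≠ 0) (l l' : ℝ) :
    (Ph F s l).shear l' ν = Ph F (s * ν) (l * l') := by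
  exact F.shear_shear hs hν l l'
theorem Ph_swap (F : Chart) (s l : ℝ) : (Ph F s l).swap = Ph F.swap s l := rfl
theorem Ph_one_x (F : Chart) {s : ℝ} (hs : s ≠ 0) (z : Z2) : (Ph F s 1).x z = F.x z / s := by
  exact F.scale_x hs z
theorem Ph_one_y (F : Chart) {s : ℝ} (hs : s ≠ 0) (z : Z2) : (Ph F s 1).y z = F.y z / s := by
  exact F.scale_y hs z
theorem ψ0_swap (F : Chart) : ψ0 F.swap = ψ0 F := by
  funext z
  exact congrArg Neg.neg (add_comm _ _)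

end

end Crest.Agent.R151.C
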