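import Crest.Agent.R151.C03

/-! Row 151 (C): digital segments, restriction of crossings -/

set_option autoImplicit false

open MeasureTheory Set Filter Topology
open Crest.ProbabilityR.FirstPassage
open Crest.Agent.R151.B

namespace Crest.Agent.R151.C

noncomputable section

variable {φ : Chart} {c : ℝ × ℝ} {r : ℝ}

theorem c03b_floor {A N : ℕ} (hA : A ≤ N) (hN : 0 < N) : ∃ a : ℕ → ℕ, a 0 = 0 ∧ a N = A ∧
    (∀ k, a (k + 1) = a k ∨ a (k + 1) = a k + 1) ∧ ∀ k, |(a k : ℝ) - k / N * A| ≤ 1 := by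
  refine ⟨fun k => k * A / N, by simp, Nat.mul_div_cancel_left A hN, fun k => ?_, fun k => ?_⟩
  · have h1 : k * A / N ≤ (k + 1) * A / N :=
      Nat.div_le_div_right (Nat.mul_le_mul_right A (Nat.le_succ k))
    have h2 : (k + 1) * A / N ≤ (k * A + N) / N :=
      Nat.div_le_div_right (by rw [Nat.succ_mul]; omega)
    rw [Nat.add_div_right _ hN] at h2
    beta_reduce
    omega
  · have hN' : (0 : ℝ) < N := by exact_mod_cast hN
    have h1 : ((k * A / N : ℕ) : ℝ) * N ≤ k * A := by exact_mod_cast Nat.div_mul_le_self (k * A) N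
    have h2 : (k * A : ℝ) ≤ (((k * A / N : ℕ) : ℝ) + 1) * N := by
      have := Nat.lt_div_mul_add (a := k * A) hN
      have h3 : k * A ≤ (k * A / N + 1) * N := by rw [Nat.succ_mul]; omega
      exact_mod_cast h3
    rw [show (k : ℝ) / N * A = k * A / N by ring, abs_le]
    constructor
    · have := (div_le_iff₀ hN').2 h2
      linarith
    · have := (le_div_iff₀ hN').2 h1
      linarith
theorem c03b_sign (d : ℤ) : ∃ σ : ℤ, (σ = 1 ∨ σ = -1) ∧ d = σ * d.natAbs := by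
  rcases le_total 0 d with h | h
  · exact ⟨1, Or.inl rfl, by omega⟩
  · exact ⟨-1, Or.inr rfl, by omega⟩

/-- a monotone staircase which follows the segment -/
theorem conn_seg (x y : Z2) : ∃ P : Pth, P.fst = x ∧ P.lst = y ∧ (P.n : ℝ) = n1 (y - x) ∧
    (∀ i j, i ≤ P.n → j ≤ P.n → P.v i = P.v j → i = j) ∧
    ∀ k, k ≤ P.n → ∃ s : ℝ, 0 ≤ s ∧ s ≤ 1 ∧
      |((P.v k).1 : ℝ) - (x.1 + s * (y.1 - x.1))| ≤ 1 ∧
      |((P.v k).2 : ℝ) - (x.2 + s * (y.2 - x.2))| ≤ 1 := by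
  obtain ⟨x1, x2⟩ := x
  obtain ⟨y1, y2⟩ := y
  obtain ⟨σ, hσ, h1⟩ := c03b_sign (y1 - x1)
  obtain ⟨τ, hτ, h2⟩ := c03b_sign (y2 - x2)
  generalize (y1 - x1).natAbs = A at h1
  generalize (y2 - x2).natAbs = B at h2
  obtain rfl : y1 = x1 + σ * A := by linarith
  obtain rfl : y2 = x2 + τ * B := by linarith
  have hσ' : |(σ : ℝ)| = 1 := by rcases hσ with rfl | rfl <;> simp
  have hτ' : |(τ : ℝ)| = 1 := by rcases hτ with rfl | rfl <;> simp
  rcases Nat.eq_zero_or_pos (A + B) with h0 | hN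
  · obtain rfl : A = 0 := by omega
    obtain rfl : B = 0 := by omega
    refine ⟨Pth.nil (x1, x2), rfl, by simp [Pth.nil_lst], by simp [Pth.nil_n, n1],
      fun i j hi hj _ => ?_, fun k _ => ⟨0, le_rfl, zero_le_one, ?_, ?_⟩⟩
    · rw [Pth.nil_n] at hi hj
      omega
    · simp [Pth.nil_v]
    · simp [Pth.nil_v]
  obtain ⟨a, a0, aN, hs, ha⟩ := c03b_floor (Nat.le_add_right A B) hN
  refine ⟨⟨A + B, fun k => (x1 + σ * a (min k (A + B)),
    x2 + τ * ((min k (A + B) : ℕ) - a (min k (A + B)))), fun k hk => ?_, fun k hk => ?_⟩,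
    ?_, ?_, ?_, fun i j hi hj e => ?_, fun k hk => ?_⟩
  · rw [min_eq_left hk.le, min_eq_left (Nat.succ_le_of_lt hk)]
    simp only [squareLattice, SimpleGraph.fromRel_adj, Prod.mk.injEq, ne_eq]
    rcases hs k with h | h <;> rw [h] <;> rcases hσ with rfl | rfl <;>
      rcases hτ with rfl | rfl <;> push_cast <;> omega
  · rw [min_eq_right hk, min_self]
  · simp [Pth.fst, a0]
  · simp [Pth.lst, aN]
  · simp [n1, abs_mul, hσ', hτ']
  · simp only at hi hj e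
    rw [min_eq_left hi, min_eq_left hj, Prod.mk.injEq] at e
    rcases hσ with rfl | rfl <;> rcases hτ with rfl | rfl <;> omega
  · simp only at hk ⊢
    rw [min_eq_left hk]
    have hN' : (0 : ℝ) < (A + B : ℕ) := by exact_mod_cast hN
    refine ⟨k / (A + B : ℕ), by positivity, (div_le_one hN').2 (by exact_mod_cast hk), ?_, ?_⟩
    · have e : ((x1 + σ * a k : ℤ) : ℝ) - (x1 + k / (A + B : ℕ) * (((x1 + σ * A : ℤ) : ℝ) - x1)) =
          σ * (a k - k / (A + B : ℕ) * A) := by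
        push_cast
        ring
      rw [e, abs_mul, hσ', one_mul]
      exact ha k
    · have e : ((x2 + τ * ((k : ℤ) - a k) : ℤ) : ℝ) -
          (x2 + k / (A + B : ℕ) * (((x2 + τ * B : ℤ) : ℝ) - x2)) =
          -τ * (a k - k / (A + B : ℕ) * A) := by
        have := hN'.ne'
        push_cast at this ⊢
        field_simp
        ring
      rw [e, abs_mul, abs_neg, hτ', one_mul]
      exact ha k
theorem c03b_lin {a b p q x1 x2 y1 y2 s c r : ℝ} (ha : |a| ≤ 1 / 100) (hb : |b| ≤ 1 / 100)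
    (h0 : 0 ≤ s) (h1 : s ≤ 1) (hp : |p - (x1 + s * (y1 - x1))| ≤ 1)
    (hq : |q - (x2 + s * (y2 - x2))| ≤ 1) (hx : |a * x1 + b * x2 - c| ≤ r)
    (hy : |a * y1 + b * y2 - c| ≤ r) : |a * p + b * q - c| ≤ r + 1 / 50 := by
  have e : a * p + b * q - c = (1 - s) * (a * x1 + b * x2 - c) + s * (a * y1 + b * y2 - c) +
      (a * (p - (x1 + s * (y1 - x1))) + b * (q - (x2 + s * (y2 - x2)))) := by ring
  have e1 : |(1 - s) * (a * x1 + b * x2 - c)| ≤ (1 - s) * r := by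
    rw [abs_mul, abs_of_nonneg (sub_nonneg.2 h1)]
    exact mul_le_mul_of_nonneg_left hx (sub_nonneg.2 h1)
  have e2 : |s * (a * y1 + b * y2 - c)| ≤ s * r := by
    rw [abs_mul, abs_of_nonneg h0]
    exact mul_le_mul_of_nonneg_left hy h0
  have e3 : |a * (p - (x1 + s * (y1 - x1)))| ≤ 1 / 100 * 1 := by
    rw [abs_mul]
    exact mul_le_mul ha hp (abs_nonneg _) (by norm_num)
  have e4 : |b * (q - (x2 + s * (y2 - x2)))| ≤ 1 / 100 * 1 := by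
    rw [abs_mul]
    exact mul_le_mul hb hq (abs_nonneg _) (by norm_num)
  rw [e]
  rw [abs_le] at e1 e2 e3 e4 ⊢
  constructor <;> linarith [e1.1, e1.2, e2.1, e2.2, e3.1, e3.2, e4.1, e4.2]
theorem conn (h : φ.OK) {x y : Z2} (hx : x ∈ Bx φ c r) (hy : y ∈ Bx φ c r) :
    ∃ P : Pth, P.fst = x ∧ P.lst = y ∧ (P.n : ℝ) = n1 (y - x) ∧
      (∀ i j, i ≤ P.n → j ≤ P.n → P.v i = P.v j → i = j) ∧ P.In (Bx φ c (r + 1 / 50)) := by
  obtain ⟨P, h1, h2, h3, h4, h5⟩ := conn_seg x y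
  refine ⟨P, h1, h2, h3, h4, fun k hk => ?_⟩
  obtain ⟨s, s0, s1, e1, e2⟩ := h5 k hk
  exact ⟨c03b_lin h.a1 h.a2 s0 s1 e1 e2 hx.1 hy.1, c03b_lin h.b1 h.b2 s0 s1 e1 e2 hx.2 hy.2⟩

/-- a piece which crosses `[x0, x1]` and stays close to it -/
theorem restr (h : φ.OK) (P : Pth) {i j : ℕ} (hij : i ≤ j) (hj : j ≤ P.n) {x0 x1 : ℝ} (hx : x0 ≤ x1)
    (h0 : φ.x (P.v i) ≤ x0) (h1 : x1 ≤ φ.x (P.v j)) :
    ∃ a b, i ≤ a ∧ a ≤ b ∧ b ≤ j ∧ φ.x (P.v a) ≤ x0 ∧ x1 ≤ φ.x (P.v b) ∧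
      ∀ k, a ≤ k → k ≤ b → x0 - 1 / 100 ≤ φ.x (P.v k) ∧ φ.x (P.v k) ≤ x1 + 1 / 100 := by
  classical
  have hex : ∃ b, i ≤ b ∧ x1 ≤ φ.x (P.v b) := ⟨j, hij, h1⟩
  obtain ⟨hib, hb⟩ := Nat.find_spec hex
  have hbj : Nat.find hex ≤ j := Nat.find_min' hex ⟨hij, h1⟩
  have hmin : ∀ k, i ≤ k → k < Nat.find hex → φ.x (P.v k) < x1 := fun k h1 h2 =>
    not_le.1 fun h3 => Nat.find_min hex h2 ⟨h1, h3⟩
  generalize Nat.find hex = b at hib hb hbj hmin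
  obtain ⟨a, hia, hab, ha, hmax⟩ := P.exists_last (A := {z | φ.x z ≤ x0}) hib h0
  have ha' : φ.x (P.v a) ≤ x0 := ha
  have hmax' : ∀ m, a < m → m ≤ b → x0 < φ.x (P.v m) := fun m h1 h2 => not_le.1 (hmax m h1 h2)
  refine ⟨a, b, hia, hab, hbj, ha', hb, fun k hk1 hk2 => ⟨?_, ?_⟩⟩
  · rcases hk1.eq_or_lt with rfl | hk1
    · rcases hk2.eq_or_lt with rfl | hk2
      · linarith
      · have e1 := (abs_le.1 (h.step (P.adj a (by omega))).1).2
        have e2 := hmax' (a + 1) (Nat.lt_succ_self a) hk2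
        linarith
    · linarith [hmax' k hk1 hk2]
  · rcases hk2.eq_or_lt with rfl | hk2
    · rcases hk1.eq_or_lt with rfl | hk1
      · linarith
      · obtain ⟨m, rfl⟩ : ∃ m, k = m + 1 := ⟨k - 1, by omega⟩
        have e1 := (abs_le.1 (h.step (P.adj m (by omega))).1).2
        have e2 := hmin m (by omega) (Nat.lt_succ_self m)
        linarith
    · linarith [hmin k (hia.trans hk1) hk2]
theorem restr_HC (h : φ.OK) (P : Pth) {i j : ℕ} (hij : i ≤ j) (hj : j ≤ P.n) {x0 x1 y0 y1 : ℝ}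
    (hx : x0 ≤ x1) (h0 : φ.x (P.v i) ≤ x0) (h1 : x1 ≤ φ.x (P.v j))
    (hy : ∀ k, i ≤ k → k ≤ j → y0 ≤ φ.y (P.v k) ∧ φ.y (P.v k) ≤ y1) :
    ∃ a b, i ≤ a ∧ a ≤ b ∧ b ≤ j ∧ HC φ (P.sub a b) x0 x1 y0 y1 := by
  obtain ⟨a, b, hia, hab, hbj, ha, hb, hk⟩ := restr h P hij hj hx h0 h1
  have hbn : b ≤ P.n := hbj.trans hj
  refine ⟨a, b, hia, hab, hbj, fun k hk' => ?_, ?_, ?_⟩
  · rw [P.sub_n a hbn] at hk'
    rw [P.sub_v hbn hk']
    have e1 := hk (a + k) (by omega) (by omega)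
    have e2 := hy (a + k) (by omega) (by omega)
    exact ⟨e2.1, e2.2, by linarith [e1.1], by linarith [e1.2]⟩
  · rw [P.sub_fst]
    exact ha
  · rw [P.sub_lst hab hbn]
    exact hb
theorem HC.mono {P : Pth} {x0 x1 y0 y1 y0' y1' : ℝ} (h : HC φ P x0 x1 y0 y1) (h0 : y0' ≤ y0)
    (h1 : y1 ≤ y1') : HC φ P x0 x1 y0' y1' :=
  ⟨fun k hk => ⟨h0.trans (h.1 k hk).1, (h.1 k hk).2.1.trans h1, (h.1 k hk).2.2⟩, h.2⟩
theorem HC.rev {P : Pth} {x0 x1 y0 y1 : ℝ} (h : HC φ P x0 x1 y0 y1) :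
    HC φ.neg P.rev (-x1) (-x0) (-y1) (-y0) := by
  refine ⟨fun k _ => ?_, ?_, ?_⟩
  · obtain ⟨e1, e2, e3, e4⟩ := h.1 (P.n - k) (Nat.sub_le _ _)
    rw [P.rev_v, φ.neg_x, φ.neg_y]
    exact ⟨by linarith, by linarith, by linarith, by linarith⟩
  · rw [P.rev_fst, φ.neg_x]
    linarith [h.2.2]
  · rw [P.rev_lst, φ.neg_x]
    linarith [h.2.1]
theorem HC.scale {P : Pth} {x0 x1 y0 y1 ν : ℝ} (hν : 1 ≤ ν)
    (h : HC φ P (ν * x0) (ν * x1) (ν * y0) (ν * y1)) : HC (φ.scale ν) P x0 x1 y0 y1 := by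
  have h0 : 0 < ν := by linarith
  refine ⟨fun k hk => ?_, ?_, ?_⟩
  · obtain ⟨e1, e2, e3, e4⟩ := h.1 k hk
    rw [φ.scale_x h0.ne', φ.scale_y h0.ne', le_div_iff₀ h0, div_le_iff₀ h0, le_div_iff₀ h0,
      div_le_iff₀ h0]
    exact ⟨by linarith, by linarith, by linarith, by linarith⟩
  · rw [φ.scale_x h0.ne', div_le_iff₀ h0]
    linarith [h.2.1]
  · rw [φ.scale_x h0.ne', le_div_iff₀ h0]
    linarith [h.2.2]
theorem HC.In {P : Pth} {x0 x1 y0 y1 : ℝ} (h : HC φ P x0 x1 y0 y1) (h0 : c.1 - r ≤ x0 - 1 / 10)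
    (h1 : x1 + 1 / 10 ≤ c.1 + r) (h2 : c.2 - r ≤ y0) (h3 : y1 ≤ c.2 + r) : P.In (Bx φ c r) := by
  intro k hk
  obtain ⟨e1, e2, e3, e4⟩ := h.1 k hk
  exact ⟨abs_le.2 ⟨by linarith, by linarith⟩, abs_le.2 ⟨by linarith, by linarith⟩⟩

end

end Crest.Agent.R151.C
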