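import Crest.Agent.R151.C01b

/-! Row 151 (C): solutions -/

set_option autoImplicit false

open MeasureTheory Set Filter Topology
open Crest.ProbabilityR.FirstPassage
open Crest.Agent.R151.B

namespace Crest.Agent.R151.C

noncomputable section

variable {t : Env} {U U' Z : Set Z2} {B : Z2 → ℝ} {P : Pth} {e : ℝ}

theorem Sub.mono (h : Sub t U B) (hU : U' ⊆ U) : Sub t U' B := by
  intro x hx y hy hxy
  exact h x (hU hx) y (hU hy) hxy
theorem Sub.cost (h : Sub t U B) (hP : P.In U) {i j : ℕ} (hij : i ≤ j) (hj : j ≤ P.n) :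
    B (P.v i) - B (P.v j) ≤ P.cost t i j := by
  induction j, hij using Nat.le_induction with
  | base => rw [Pth.cost_self]; simp
  | succ j hij ih =>
    have h1 := ih (by omega)
    have h2 := h _ (hP j (by omega)) _ (hP (j + 1) hj) (P.adj j (by omega))
    have h3 := P.cost_add t hij (Nat.le_succ j)
    rw [Pth.cost_succ] at h3
    simp only [Nat.succ_eq_add_one] at h3
    linarith
theorem Sub.tot (h : Sub t U B) (hP : P.In U) : B P.fst - B P.lst ≤ P.tot t := by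
  exact h.cost hP (Nat.zero_le _) le_rfl
theorem Sub.sc (h : Sub t U B) (hP : P.In U) (he : P.tot t ≤ B P.fst - B P.lst + e) :
    SC t B e P := by
  intro i j hij hj
  have h1 := h.cost hP (Nat.zero_le i) (hij.trans hj)
  have h2 := h.cost hP hj le_rfl
  have h3 := P.cost_add t (Nat.zero_le i) hij
  have h4 := P.cost_add t (Nat.zero_le j) hj
  unfold Pth.tot Pth.fst Pth.lst at he
  linarith
theorem Sub.neg (h : Sub t U B) : Sub t U fun z => -B z := by
  intro x hx y hy hxy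
  have := h y hy x hx hxy.symm
  rw [ew_symm] at this
  show -B x ≤ ew t x y + -B y
  linarith
theorem Sub.add_const (h : Sub t U B) (a : ℝ) : Sub t U fun z => B z + a := by
  intro x hx y hy hxy
  have := h x hx y hy hxy
  show B x + a ≤ ew t x y + (B y + a)
  linarith
theorem Sol.add_const (h : Sol t U B) (a : ℝ) : Sol t U fun z => B z + a := by
  refine ⟨h.1.add_const a, fun x hx => ?_⟩
  obtain ⟨P, h1, h2, h3, h4⟩ := h.2 x hx
  refine ⟨P, h1, h2, h3, ?_⟩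
  show P.tot t ≤ B x + a - (B P.lst + a)
  linarith
theorem C04_exit (h0 : P.fst ∈ U') {j : ℕ} (hj : j ≤ P.n) (h1 : P.v j ∉ U') :
    ∃ k, k < j ∧ (P.sub 0 k).In U' ∧ Bd U' (P.v k) := by
  obtain ⟨k, hk, hk1, hk2⟩ := P.exists_first (A := U'ᶜ) (j := j) h1
  have hk0 : k ≠ 0 := by
    rintro rfl
    exact hk1 h0
  obtain ⟨m, rfl⟩ := Nat.exists_eq_succ_of_ne_zero hk0
  have hin : ∀ l, l ≤ m → P.v l ∈ U' := fun l hl => by
    have := hk2 l (by omega)
    simpa using this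
  refine ⟨m, by omega, Pth.sub_In (Nat.zero_le _) (by omega) fun l _ hl => hin l hl,
    hin m le_rfl, P.v (m + 1), hk1, P.adj m (by omega)⟩
/-- cut the tight path just before its first exit -/
theorem Sol.mono (h : Sol t U B) (hU : U' ⊆ U) : Sol t U' B := by
  refine ⟨h.1.mono hU, fun x hx => ?_⟩
  obtain ⟨P, h1, h2, h3, h4⟩ := h.2 x (hU hx)
  by_cases hP : P.In U'
  · obtain ⟨-, z, hz, hz'⟩ := h3
    exact ⟨P, h1, hP, ⟨hP.lst, z, fun hh => hz (hU hh), hz'⟩, h4⟩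
  · obtain ⟨j, hj, hj'⟩ : ∃ j, j ≤ P.n ∧ P.v j ∉ U' := by
      by_contra hc
      push Not at hc
      exact hP hc
    obtain ⟨k, hk, hk1, hk2⟩ := C04_exit (by rw [h1]; exact hx) hj hj'
    have hkn : k ≤ P.n := by omega
    have hs : SC t B 0 P := h.1.sc h2 (by rw [h1]; linarith)
    have := hs 0 k (Nat.zero_le _) hkn
    refine ⟨P.sub 0 k, by rw [Pth.sub_fst]; exact h1, hk1, by
      rw [P.sub_lst (Nat.zero_le _) hkn]; exact hk2, ?_⟩
    rw [P.sub_tot t (Nat.zero_le _) hkn, P.sub_lst (Nat.zero_le _) hkn, ← h1]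
    unfold Pth.fst
    linarith
theorem Sol.asol (h : Sol t U B) : ASol t U B 0 := by
  refine ⟨fun P hP => by have := h.1.tot hP; linarith, fun x hx => ?_⟩
  obtain ⟨P, h1, h2, h3, h4⟩ := h.2 x hx
  exact ⟨P, h1, h2, h3, h.1.sc h2 (by rw [h1]; linarith)⟩
theorem ASub.mono {ψ : Z2 → ℝ} {Up e' : ℝ} (h : ASub t U ψ Up e) (hU : U' ⊆ U) (hUp : 0 < Up)
    (he : e ≤ e') : ASub t U' ψ Up e' := by
  intro P hP
  have h1 := h P (hP.mono hU)
  have h2 : 0 ≤ P.tot t / Up + 1 := by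
    have := div_nonneg (P.tot_nonneg t) hUp.le
    linarith
  have := mul_le_mul_of_nonneg_right he h2
  linarith
theorem ASub.neg {ψ : Z2 → ℝ} {Up : ℝ} (h : ASub t U ψ Up e) : ASub t U (fun z => -ψ z) Up e := by
  intro P hP
  have h1 := h P.rev hP.rev
  rw [Pth.rev_fst, Pth.rev_lst, Pth.rev_tot] at h1
  show -ψ P.fst - -ψ P.lst ≤ _
  linarith
/-- a path from `U'` to the outside of `U'` has a first piece which ends on the boundary -/
theorem exit_Bd (h0 : P.fst ∈ U') (h1 : P.lst ∉ U') :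
    ∃ k, k < P.n ∧ (P.sub 0 k).In U' ∧ Bd U' (P.v k) := by
  exact C04_exit h0 le_rfl h1

theorem C04_fin (hU : U.Finite) : {P : Pth | P.In U ∧
    ∀ i j, i ≤ P.n → j ≤ P.n → P.v i = P.v j → i = j}.Finite := by
  classical
  set N := hU.toFinset.card with hN
  have hn : ∀ P : Pth, P.In U → (∀ i j, i ≤ P.n → j ≤ P.n → P.v i = P.v j → i = j) → P.n ≤ N := by
    intro P h1 h2
    have : (Finset.range (P.n + 1)).card ≤ hU.toFinset.card := by
      refine Finset.card_le_card_of_injOn P.v (fun k hk => ?_) (fun i hi j hj e => ?_)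
      · have := Finset.mem_range.1 (Finset.mem_coe.1 hk)
        simpa using h1 k (by omega)
      · have := Finset.mem_range.1 (Finset.mem_coe.1 hi)
        have := Finset.mem_range.1 (Finset.mem_coe.1 hj)
        exact h2 i j (by omega) (by omega) e
    rw [Finset.card_range] at this
    omega
  have hf : (Iic N ×ˢ (Set.pi univ fun _ : Fin (N + 1) => U)).Finite :=
    (finite_Iic N).prod (Set.Finite.pi fun _ => hU)
  refine Set.Finite.of_injOn (f := fun P : Pth => (P.n, fun k : Fin (N + 1) => P.v k)) ?_ ?_ hf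
  · rintro P ⟨h1, h2⟩
    refine ⟨hn P h1 h2, fun k _ => ?_⟩
    show P.v k ∈ U
    rcases le_total (k : ℕ) P.n with hk | hk
    · exact h1 k hk
    · rw [P.stab k hk]; exact h1 _ le_rfl
  · rintro P ⟨h1, h2⟩ Q ⟨h3, h4⟩ e
    have e1 : P.n = Q.n := congrArg Prod.fst e
    have e2 : ∀ k : Fin (N + 1), P.v k = Q.v k := fun k => congrFun (congrArg Prod.snd e) k
    have hP := hn P h1 h2
    have e3 : P.v = Q.v := by
      funext k
      rcases le_total k P.n with hk | hk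
      · exact e2 ⟨k, by omega⟩
      · rw [P.stab k hk, Q.stab k (e1 ▸ hk), ← e1]
        exact e2 ⟨P.n, by omega⟩
    cases P
    cases Q
    simp only at e1 e3
    subst e1
    subst e3
    rfl
/-- distance to the target `Z` with final cost `f` -/
theorem dist (t : Env) (hU : U.Finite) (Z : Set Z2) (f : Z2 → ℝ) : ∃ B : Z2 → ℝ,
    (∀ P : Pth, P.In U → P.lst ∈ Z → B P.fst ≤ P.tot t + f P.lst) ∧
    ∀ P : Pth, P.In U → P.lst ∈ Z →
      ∃ Q : Pth, Q.fst = P.fst ∧ Q.In U ∧ Q.lst ∈ Z ∧ Q.tot t + f Q.lst ≤ B P.fst := by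
  have key : ∀ x : Z2, ∃ b : ℝ, ∀ P : Pth, P.In U → P.lst ∈ Z → P.fst = x →
      b ≤ P.tot t + f P.lst ∧
      ∃ Q : Pth, Q.fst = x ∧ Q.In U ∧ Q.lst ∈ Z ∧ Q.tot t + f Q.lst ≤ b := by
    intro x
    by_cases hx : ∃ P : Pth, P.In U ∧ P.lst ∈ Z ∧ P.fst = x
    · obtain ⟨P0, h1, h2, h3⟩ := hx
      obtain ⟨Q0, e1, e2, e3, -, e5⟩ := P0.erase
      have hfin : {P : Pth | (P.In U ∧ ∀ i j, i ≤ P.n → j ≤ P.n → P.v i = P.v j → i = j) ∧
          P.lst ∈ Z ∧ P.fst = x}.Finite := (C04_fin hU).subset fun P hP => hP.1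
      obtain ⟨Q, ⟨⟨q1, -⟩, q3, q4⟩, hQ⟩ := Set.exists_min_image _ (fun P : Pth => P.tot t + f P.lst)
        hfin ⟨Q0, ⟨e5 U h1, e3⟩, by rw [e2]; exact h2, by rw [e1]; exact h3⟩
      refine ⟨Q.tot t + f Q.lst, fun P p1 p2 p3 => ⟨?_, Q, q4, q1, q3, le_rfl⟩⟩
      obtain ⟨P', d1, d2, d3, d4, d5⟩ := P.erase
      have := hQ P' ⟨⟨d5 U p1, d3⟩, by rw [d2]; exact p2, by rw [d1]; exact p3⟩
      have h4 := d4 t
      simp only [d2] at this
      linarith
    · exact ⟨0, fun P p1 p2 p3 => absurd ⟨P, p1, p2, p3⟩ hx⟩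
  choose B hB using key
  exact ⟨B, fun P p1 p2 => (hB _ P p1 p2 rfl).1, fun P p1 p2 => (hB _ P p1 p2 rfl).2⟩
/-- the distance is a solution on a set of points which are connected to the target -/
theorem dist_sol {f : Z2 → ℝ} (h1 : ∀ P : Pth, P.In U → P.lst ∈ Z → B P.fst ≤ P.tot t + f P.lst)
    (h2 : ∀ P : Pth, P.In U → P.lst ∈ Z →
      ∃ Q : Pth, Q.fst = P.fst ∧ Q.In U ∧ Q.lst ∈ Z ∧ Q.tot t + f Q.lst ≤ B P.fst)
    (hU : U' ⊆ U) (hZ : Disjoint U' Z)
    (hc : ∀ x ∈ U', ∃ P : Pth, P.fst = x ∧ P.In U ∧ P.lst ∈ Z) : Sol t U' B := by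
  refine ⟨fun x hx y hy hxy => ?_, fun x hx => ?_⟩
  · obtain ⟨P, p1, p2, p3⟩ := hc y hy
    obtain ⟨Q, q1, q2, q3, q4⟩ := h2 P p2 p3
    obtain ⟨E, -, e1, e2, e3, e4⟩ := Pth.exists_edge hxy
    have hEQ : E.lst = Q.fst := by rw [e2, q1, p1]
    have := h1 (E.app Q hEQ) ((e4 U (hU hx) (hU hy)).app q2 hEQ) (by rw [Pth.app_lst]; exact q3)
    rw [Pth.app_fst, Pth.app_lst, Pth.app_tot, e1, e3] at this
    rw [p1] at q4
    linarith
  · obtain ⟨P, p1, p2, p3⟩ := hc x hx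
    obtain ⟨Q, q1, q2, q3, q4⟩ := h2 P p2 p3
    rw [p1] at q1 q4
    obtain ⟨k, hk, k1, k2⟩ := exit_Bd (P := Q) (U' := U') (by rw [q1]; exact hx)
      (fun hh => Set.disjoint_left.1 hZ hh q3)
    have hl : (Q.sub k Q.n).lst = Q.lst := Q.sub_lst hk.le le_rfl
    have := h1 (Q.sub k Q.n) (q2.sub hk.le le_rfl) (by rw [hl]; exact q3)
    rw [Pth.sub_fst, hl, Q.sub_tot t hk.le le_rfl] at this
    have h4 := Q.cost_add t (Nat.zero_le k) hk.le
    refine ⟨Q.sub 0 k, by rw [Pth.sub_fst]; exact q1, k1, by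
      rw [Q.sub_lst (Nat.zero_le _) hk.le]; exact k2, ?_⟩
    rw [Q.sub_tot t (Nat.zero_le _) hk.le, Q.sub_lst (Nat.zero_le _) hk.le]
    unfold Pth.tot at q4
    linarith

end

end Crest.Agent.R151.C
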