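import Crest.Agent.R151.C02
import Crest.Agent.R151.C04

/-! Row 151 (C): lanes and nice potentials -/

set_option autoImplicit false

open MeasureTheory Set Filter Topology
open Crest.ProbabilityR.FirstPassage
open Crest.Agent.R151.B

namespace Crest.Agent.R151.C

noncomputable section

variable {φ : Chart} {t : Env} {ψ ψ' : Z2 → ℝ} {c c' : ℝ × ℝ} {r r' e e' Up Up' τ τ' Lo Lo' : ℝ}
  {P : Pth} {U U' : Set Z2}

theorem Lane.mono {x0 x1 y : ℝ} (h : Lane φ t ψ e Up P x0 x1 y) (he : e ≤ e') (hU : Up ≤ Up') :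
    Lane φ t ψ e' Up' P x0 x1 y := ⟨h.1, h.2.1.mono he, h.2.2.trans hU⟩
theorem Lane.In {y : ℝ} (h : Lane φ t ψ e Up P (c.1 - r) (c.1 + r) y) (h0 : c.2 - r ≤ y)
    (h1 : y + 1 ≤ c.2 + r) : P.In (Bx φ c (r + 1 / 10)) :=
  h.1.In (by linarith) (by linarith) (by linarith) (by linarith)
theorem Lane.restrict (hφ : φ.OK) {x0 x1 x0' x1' y : ℝ} (h : Lane φ t ψ e Up P x0 x1 y)
    (h0 : x0 ≤ x0') (h01 : x0' ≤ x1') (h1 : x1' ≤ x1) :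
    ∃ a b, a ≤ b ∧ b ≤ P.n ∧ Lane φ t ψ e Up (P.sub a b) x0' x1' y := by
  obtain ⟨a, b, -, hab, hb, hH⟩ := restr_HC hφ P (Nat.zero_le _) le_rfl h01 (h.1.2.1.trans h0)
    (h1.trans h.1.2.2) fun k _ hk => ⟨(h.1.1 k hk).1, (h.1.1 k hk).2.1⟩
  refine ⟨a, b, hab, hb, hH, h.2.1.sub hab hb, ?_⟩
  rw [P.sub_tot t hab hb]
  exact (P.cost_le_tot t a hb).trans h.2.2
theorem Nice.mono (h : Nice φ t ψ c r e Up) (he : e ≤ e') (hU : Up ≤ Up') :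
    Nice φ t ψ c r e' Up' :=
  ⟨fun y h0 h1 => (h.1 y h0 h1).imp fun _ hP => hP.mono he hU,
    fun y h0 h1 => (h.2 y h0 h1).imp fun _ hP => hP.mono he hU⟩
theorem Nice.swap (h : Nice φ t ψ c r e Up) : Nice φ.swap t ψ c.swap r e Up := ⟨h.2, h.1⟩
theorem C05_neg (h : NiceH φ t ψ c r e Up) : NiceH φ.neg t (fun z => -ψ z) (-c) r e Up := by
  intro y h0 h1
  simp only [Prod.fst_neg, Prod.snd_neg] at h0 h1 ⊢
  obtain ⟨P, hH, hS, hU⟩ := h (-y - 1) (by linarith) (by linarith)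
  refine ⟨P.rev, ?_, hS.rev, by rwa [P.rev_tot]⟩
  convert hH.rev using 1 <;> ring
theorem Nice.neg (h : Nice φ t ψ c r e Up) : Nice φ.neg t (fun z => -ψ z) (-c) r e Up :=
  ⟨C05_neg h.1, C05_neg h.2⟩
theorem Nice.nonneg (h : Nice φ t ψ c r e Up) (hr : 1 / 2 ≤ r) : 0 ≤ e ∧ 0 ≤ Up := by
  obtain ⟨P, -, hS, hU⟩ := h.1 (c.2 - r) le_rfl (by linarith)
  exact ⟨hS.nonneg, (P.tot_nonneg t).trans hU⟩
theorem C05_restrict (hφ : φ.OK) (h : NiceH φ t ψ c r e Up) (h1 : |c'.1 - c.1| + r' ≤ r)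
    (h2 : |c'.2 - c.2| + r' ≤ r) : NiceH φ t ψ c' r' e Up := by
  intro y a0 a1
  have b1 := le_abs_self (c'.1 - c.1)
  have b2 := neg_abs_le (c'.1 - c.1)
  have b3 := le_abs_self (c'.2 - c.2)
  have b4 := neg_abs_le (c'.2 - c.2)
  obtain ⟨P, hP⟩ := h y (by linarith) (by linarith)
  obtain ⟨a, b, -, -, hL⟩ := hP.restrict hφ (x0' := c'.1 - r') (x1' := c'.1 + r') (by linarith)
    (by linarith) (by linarith)
  exact ⟨_, hL⟩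
theorem Nice.restrict (hφ : φ.OK) (h : Nice φ t ψ c r e Up) (h1 : |c'.1 - c.1| + r' ≤ r)
    (h2 : |c'.2 - c.2| + r' ≤ r) : Nice φ t ψ c' r' e Up :=
  ⟨C05_restrict hφ h.1 h1 h2, C05_restrict hφ.swap h.2 h2 h1⟩
theorem C05_scale {ν : ℝ} (hν : 1 ≤ ν) (h : NiceH φ t ψ (ν • c) (ν * r) e Up) :
    NiceH (φ.scale ν) t ψ c r e Up := by
  intro y a0 a1
  have b0 := mul_le_mul_of_nonneg_left a0 (zero_le_one.trans hν)
  have b1 := mul_le_mul_of_nonneg_left a1 (zero_le_one.trans hν)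
  obtain ⟨P, hH, hS, hU⟩ := h (ν * y) (by rw [Prod.smul_snd, smul_eq_mul]; linarith)
    (by rw [Prod.smul_snd, smul_eq_mul]; linarith)
  refine ⟨P, HC.scale hν ?_, hS, hU⟩
  rw [Prod.smul_fst, smul_eq_mul, ← mul_sub, ← mul_add] at hH
  exact hH.mono le_rfl (by linarith)
theorem Nice.scale {ν : ℝ} (hν : 1 ≤ ν) (h : Nice φ t ψ (ν • c) (ν * r) e Up) :
    Nice (φ.scale ν) t ψ c r e Up :=
  ⟨C05_scale hν h.1, C05_scale (φ := φ.swap) (c := c.swap) hν h.2⟩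
theorem C05_perturb (h : NiceH φ t ψ c r e Up) {d : ℝ}
    (hd : ∀ x ∈ Bx φ c (r + 1 / 10), ∀ y ∈ Bx φ c (r + 1 / 10), ψ x - ψ y ≤ ψ' x - ψ' y + d) :
    NiceH φ t ψ' c r (e + d) Up := fun y a0 a1 =>
  (h y a0 a1).imp fun _ hP => ⟨hP.1, hP.2.1.perturb (hP.In a0 a1) hd, hP.2.2⟩
theorem Nice.perturb (h : Nice φ t ψ c r e Up) {d : ℝ}
    (hd : ∀ x ∈ Bx φ c (r + 1 / 10), ∀ y ∈ Bx φ c (r + 1 / 10), ψ x - ψ y ≤ ψ' x - ψ' y + d) :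
    Nice φ t ψ' c r (e + d) Up :=
  ⟨C05_perturb h.1 hd, C05_perturb h.2 (by rwa [Bx_swap])⟩
theorem Nice.add_const (h : Nice φ t ψ c r e Up) (a : ℝ) : Nice φ t (fun z => ψ z + a) c r e Up := by
  have := h.perturb (ψ' := fun z => ψ z + a) (d := 0) fun x _ y _ => le_of_eq (by ring)
  rwa [add_zero] at this
theorem LoP.mono {d : ℝ} (h : LoP φ t U d Lo) (hU : U' ⊆ U) (hL : Lo' ≤ Lo) : LoP φ t U' d Lo' :=
  fun P hP hd => hL.trans (h P (hP.mono hU) hd)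
theorem LoP.swap {d : ℝ} (h : LoP φ t U d Lo) : LoP φ.swap t U d Lo := fun P hP hd => h P hP hd.symm
theorem GoodN_mono (φ : Chart) (c : ℝ × ℝ) (hτ : τ ≤ τ') (hU : Up ≤ Up') :
    GoodN φ c τ Up ⊆ GoodN φ c τ' Up' := fun _ ⟨B, hS, hN⟩ => ⟨B, hS, hN.mono hτ hU⟩
theorem GoodN_swap (φ : Chart) (c : ℝ × ℝ) (τ Up : ℝ) :
    GoodN φ.swap c.swap τ Up = GoodN φ c τ Up := by
  ext t
  simp only [GoodN, mem_ofPred_eq, Bx_swap]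
  exact exists_congr fun B => and_congr_right fun _ => ⟨fun h => h.swap, fun h => h.swap⟩
theorem Good_mono (φ : Chart) (c : ℝ × ℝ) (hτ : τ ≤ τ') (hL : Lo' ≤ Lo) (hU : Up ≤ Up') :
    Good φ c τ Lo Up ⊆ Good φ c τ' Lo' Up' :=
  fun _ h => ⟨GoodN_mono φ c hτ hU h.1, h.2.mono subset_rfl hL⟩
theorem GoodN_of (hφ : φ.OK) {B : Z2 → ℝ} (hS : Sol t (Bx φ c (r + 1)) B) (hN : Nice φ t B c r τ Up)
    (h1 : |c'.1 - c.1| + 30 ≤ r) (h2 : |c'.2 - c.2| + 30 ≤ r) :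
    Sol t (Bx φ c' 31) B ∧ Nice φ t B c' 30 τ Up :=
  ⟨hS.mono (Bx_mono φ (by linarith) (by linarith)), hN.restrict hφ h1 h2⟩
theorem PRef.swap (h : PRef φ t ψ c r e Up) : PRef φ.swap t ψ c.swap r e Up :=
  ⟨h.1.swap, by rw [Bx_swap]; exact h.2⟩
theorem PRef.neg (h : PRef φ t ψ c r e Up) : PRef φ.neg t (fun z => -ψ z) (-c) r e Up :=
  ⟨h.1.neg, by rw [Bx_neg]; exact h.2.neg⟩
theorem Tilt.mono {B : Z2 → ℝ} {α β E E' : ℝ} (h : Tilt φ t B U α β E) (hU : U' ⊆ U) (hE : E ≤ E') :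
    Tilt φ t B U' α β E' := fun P hP => by linarith [h P (hP.mono hU)]
theorem Tilt.perturb {B B' : Z2 → ℝ} {α β E d : ℝ} (h : Tilt φ t B U α β E)
    (hd : ∀ x ∈ U, ∀ y ∈ U, B' x - B' y ≤ B x - B y + d) : Tilt φ t B' U α β (E + d) :=
  fun P hP => by linarith [h P hP, hd _ hP.fst _ hP.lst]

theorem C05_right (h : φ.det ≠ 0) {Q V : Pth} {k0 : ℕ} (hk : k0 ≤ Q.n) {x0 x1 y0 y1 : ℝ}
    (hQ : ∀ k, k ≤ k0 → y0 ≤ φ.y (Q.v k) ∧ φ.y (Q.v k) ≤ y1) (h0 : φ.x Q.fst ≤ x0)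
    (h1 : x1 ≤ φ.x (Q.v k0)) (hV : HC φ.swap V y0 y1 x0 x1) :
    ∃ k, k ≤ k0 ∧ ∃ i, i ≤ V.n ∧ V.v i = Q.v k := by
  obtain ⟨k, i, -, hk', -, hi, e⟩ := cross_idx h (Nat.zero_le k0) hk (Nat.zero_le V.n) le_rfl
    (fun k _ hk => hQ k hk) h0 h1 (fun k _ hk => ⟨(hV.1 k hk).1, (hV.1 k hk).2.1⟩) hV.2.1 hV.2.2
  exact ⟨k, hk', i, hi, e.symm⟩

theorem C05_left (h : φ.OK) {Q V : Pth} {k0 : ℕ} (hk : k0 ≤ Q.n) {x0 x1 y0 y1 : ℝ}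
    (hQ : ∀ k, k ≤ k0 → y0 ≤ φ.y (Q.v k) ∧ φ.y (Q.v k) ≤ y1) (h0 : x1 ≤ φ.x Q.fst)
    (h1 : φ.x (Q.v k0) ≤ x0) (hV : HC φ.swap V y0 y1 x0 x1) :
    ∃ k, k ≤ k0 ∧ ∃ i, i ≤ V.n ∧ V.v i = Q.v k := by
  obtain ⟨k, hk', i, hi, e⟩ := C05_right h.neg.det hk (V := V.rev) (x0 := -x1) (x1 := -x0)
    (y0 := -y1) (y1 := -y0) (fun k hk => by
      rw [Chart.neg_y]
      exact ⟨neg_le_neg (hQ k hk).2, neg_le_neg (hQ k hk).1⟩)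
    (by rw [Chart.neg_x]; exact neg_le_neg h0) (by rw [Chart.neg_x]; exact neg_le_neg h1) hV.rev
  exact ⟨k, hk', V.n - i, Nat.sub_le _ _, e⟩

/-- a path from the inner box to the outside meets one of four lanes around the inner box -/
theorem encl (hφ : φ.OK) {ρ : ℝ} (hρ : 0 ≤ ρ) {Hb Ht Vl Vr Q : Pth} (hr : ρ + 2 ≤ r)
    (hb : HC φ Hb (c.1 - r) (c.1 + r) (c.2 - ρ - 1) (c.2 - ρ))
    (ht : HC φ Ht (c.1 - r) (c.1 + r) (c.2 + ρ) (c.2 + ρ + 1))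
    (hl : HC φ.swap Vl (c.2 - r) (c.2 + r) (c.1 - ρ - 1) (c.1 - ρ))
    (hr' : HC φ.swap Vr (c.2 - r) (c.2 + r) (c.1 + ρ) (c.1 + ρ + 1))
    (h0 : Q.fst ∈ Bx φ c ρ) (h1 : Q.lst ∉ Bx φ c (ρ + 1)) :
    ∃ k, k ≤ Q.n ∧ Q.v k ∈ Bx φ c (ρ + 2) ∧
      ((∃ i, i ≤ Hb.n ∧ Hb.v i = Q.v k) ∨ (∃ i, i ≤ Ht.n ∧ Ht.v i = Q.v k) ∨
       (∃ i, i ≤ Vl.n ∧ Vl.v i = Q.v k) ∨ ∃ i, i ≤ Vr.n ∧ Vr.v i = Q.v k) := by
  obtain ⟨k0, hk0, hout, hin⟩ := Q.exists_first (A := (Bx φ c (ρ + 1))ᶜ) (j := Q.n) h1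
  have hbx : ∀ k, k ≤ k0 → Q.v k ∈ Bx φ c (ρ + 2) := by
    intro k hk
    rcases k with _ | k
    · exact Bx_mono_r φ c (by linarith) h0
    · have a : Q.v k ∈ Bx φ c (ρ + 1) := not_not.1 (hin k hk)
      obtain ⟨s1, s2⟩ := hφ.step (Q.adj k (by omega))
      obtain ⟨a1, a2⟩ := a
      rw [abs_le] at s1 s2 a1 a2
      constructor <;> rw [abs_le] <;> constructor <;> linarith [s1.1, s1.2, s2.1, s2.2]
  have hx : ∀ k, k ≤ k0 → c.1 - r ≤ φ.x (Q.v k) ∧ φ.x (Q.v k) ≤ c.1 + r := fun k hk => by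
    obtain ⟨a, b⟩ := abs_le.1 (hbx k hk).1
    constructor <;> linarith
  have hy : ∀ k, k ≤ k0 → c.2 - r ≤ φ.y (Q.v k) ∧ φ.y (Q.v k) ≤ c.2 + r := fun k hk => by
    obtain ⟨a, b⟩ := abs_le.1 (hbx k hk).2
    constructor <;> linarith
  obtain ⟨x1, x2⟩ := abs_le.1 h0.1
  obtain ⟨y1, y2⟩ := abs_le.1 h0.2
  have hout' : ρ + 1 < |φ.x (Q.v k0) - c.1| ∨ ρ + 1 < |φ.y (Q.v k0) - c.2| := by
    by_contra hc
    push Not at hc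
    exact hout hc
  rcases hout' with ho | ho <;> rcases lt_abs.1 ho with ho | ho
  · obtain ⟨k, hk, hi⟩ := C05_right hφ.det hk0 hy (by linarith) (by linarith) hr'
    exact ⟨k, hk.trans hk0, hbx k hk, Or.inr (Or.inr (Or.inr hi))⟩
  · obtain ⟨k, hk, hi⟩ := C05_left hφ hk0 hy (by linarith) (by linarith) hl
    exact ⟨k, hk.trans hk0, hbx k hk, Or.inr (Or.inr (Or.inl hi))⟩
  · obtain ⟨k, hk, hi⟩ := C05_right hφ.swap.det hk0 hx (by rw [Chart.swap_x]; linarith)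
      (by rw [Chart.swap_x]; linarith) ht
    exact ⟨k, hk.trans hk0, hbx k hk, Or.inr (Or.inl hi)⟩
  · obtain ⟨k, hk, hi⟩ := C05_left hφ.swap hk0 hx (by rw [Chart.swap_x]; linarith)
      (by rw [Chart.swap_x]; linarith) hb
    exact ⟨k, hk.trans hk0, hbx k hk, Or.inl hi⟩

end

end Crest.Agent.R151.C
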