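import Crest.Agent.R151.C05

/-! Row 151 (C): two nice solutions are close -/

set_option autoImplicit false

open MeasureTheory Set Filter Topology
open Crest.ProbabilityR.FirstPassage
open Crest.Agent.R151.B

namespace Crest.Agent.R151.C

noncomputable section

variable {φ : Chart} {t : Env} {ψ ψ' : Z2 → ℝ} {c : ℝ × ℝ} {r e e' τ τ' Up Up' : ℝ}

theorem c06_ext {U : Set Z2} {y : Z2} {a b : ℝ} {H : Pth} {i i' : ℕ} (hH : SC t ψ b H)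
    (hU : H.In U) (hi : i ≤ i') (hi' : i' ≤ H.n)
    (h : ∃ Q : Pth, Q.fst = y ∧ Q.lst = H.v i ∧ Q.In U ∧ Q.tot t ≤ ψ Q.fst - ψ Q.lst + a) :
    ∃ Q : Pth, Q.fst = y ∧ Q.lst = H.v i' ∧ Q.In U ∧ Q.tot t ≤ ψ Q.fst - ψ Q.lst + (a + b) := by
  obtain ⟨Q, h1, h2, h3, h4⟩ := h
  have e : Q.lst = (H.sub i i').fst := by rw [Pth.sub_fst, h2]
  refine ⟨Q.app (H.sub i i') e, by rw [Pth.app_fst, h1], by rw [Pth.app_lst, Pth.sub_lst H hi hi'],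
    h3.app (hU.sub hi hi') e, ?_⟩
  rw [Pth.app_tot, Pth.app_fst, Pth.app_lst, Pth.sub_lst H hi hi', Pth.sub_tot H t hi hi']
  have := hH i i' hi hi'
  rw [h2] at h4
  linarith

theorem c06_hor (hφ : φ.OK) {V H : Pth}
    (hV : HC φ.swap V (c.2 - r) (c.2 + r) (c.1 + r - 1) (c.1 + r)) {b a : ℝ}
    (hH : Lane φ t ψ τ Up H (c.1 - r) (c.1 + r) b) (hb0 : c.2 - r ≤ b) (hb1 : b + 1 ≤ c.2 + r - 1)
    {i : ℕ} (hi : i ≤ H.n) (hx : φ.x (H.v i) ≤ c.1 + r - 1) {y : Z2}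
    (h : ∃ Q : Pth, Q.fst = y ∧ Q.lst = H.v i ∧ Q.In (Bx φ c (r + 1)) ∧
      Q.tot t ≤ ψ Q.fst - ψ Q.lst + a) :
    ∃ (Q : Pth) (j : ℕ), j ≤ V.n ∧ Q.fst = y ∧ Q.lst = V.v j ∧
      φ.y (V.v j) ≤ c.2 + r - 1 ∧ Q.In (Bx φ c (r + 1)) ∧
      Q.tot t ≤ ψ Q.fst - ψ Q.lst + (a + τ) := by
  have v0 : φ.y (V.v 0) ≤ c.2 - r := hV.2.1
  have v1 : c.2 + r ≤ φ.y (V.v V.n) := hV.2.2
  obtain ⟨i', j, h1, h2, -, h4, h5⟩ := cross_idx (P := H) (Q := V) hφ.det hi le_rfl V.n.zero_le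
    le_rfl (x0 := c.1 + r - 1) (x1 := c.1 + r) (y0 := b) (y1 := b + 1)
    (fun k _ hk => ⟨(hH.1.1 k hk).1, (hH.1.1 k hk).2.1⟩) hx hH.1.2.2
    (fun k _ hk => ⟨(hV.1 k hk).1, (hV.1 k hk).2.1⟩) (by linarith) (by linarith)
  have hU : H.In (Bx φ c (r + 1)) :=
    (hH.In hb0 (by linarith)).mono (Bx_mono_r φ c (by linarith))
  obtain ⟨Q, q1, q2, q3, q4⟩ := c06_ext hH.2.1 hU h1 h2 h
  refine ⟨Q, j, h4, q1, q2.trans h5, ?_, q3, q4⟩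
  rw [← h5]
  exact (hH.1.1 i' h2).2.1.trans hb1

theorem c06_inV {W : Pth} {b : ℝ} (hW : Lane φ.swap t ψ τ Up W (c.2 - r) (c.2 + r) b)
    (hb0 : c.1 - r ≤ b) (hb1 : b + 1 ≤ c.1 + r) : W.In (Bx φ c (r + 1)) := by
  have := Lane.In (c := c.swap) hW hb0 hb1
  rw [Bx_swap] at this
  exact this.mono (Bx_mono_r φ c (by linarith))

theorem c06_ver (hφ : φ.OK) (hr : 5 ≤ r) (hN : Nice φ t ψ c r τ Up) {V W : Pth}
    (hV : HC φ.swap V (c.2 - r) (c.2 + r) (c.1 + r - 1) (c.1 + r)) {b a : ℝ}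
    (hW : Lane φ.swap t ψ τ Up W (c.2 - r) (c.2 + r) b) (hb0 : c.1 - r ≤ b)
    (hb1 : b + 1 ≤ c.1 + r - 1) {i : ℕ} (hi : i ≤ W.n) (hy : φ.y (W.v i) ≤ c.2 + r - 3) {y : Z2}
    (h : ∃ Q : Pth, Q.fst = y ∧ Q.lst = W.v i ∧ Q.In (Bx φ c (r + 1)) ∧
      Q.tot t ≤ ψ Q.fst - ψ Q.lst + a) :
    ∃ (Q : Pth) (j : ℕ), j ≤ V.n ∧ Q.fst = y ∧ Q.lst = V.v j ∧
      φ.y (V.v j) ≤ c.2 + r - 1 ∧ Q.In (Bx φ c (r + 1)) ∧
      Q.tot t ≤ ψ Q.fst - ψ Q.lst + (a + τ + τ) := by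
  obtain ⟨H, hH⟩ := hN.1 (c.2 + r - 3) (by linarith) (by linarith)
  have w1 : c.2 + r ≤ φ.y (W.v W.n) := hW.1.2.2
  have h0 : φ.x (H.v 0) ≤ c.1 - r := hH.1.2.1
  have h1 : c.1 + r ≤ φ.x (H.v H.n) := hH.1.2.2
  obtain ⟨i', j, -, h2, h3, h4, h5⟩ := cross_idx (P := H) (Q := W) hφ.det H.n.zero_le le_rfl hi
    le_rfl (x0 := b) (x1 := b + 1) (y0 := c.2 + r - 3) (y1 := c.2 + r - 3 + 1)
    (fun k _ hk => ⟨(hH.1.1 k hk).1, (hH.1.1 k hk).2.1⟩) (by linarith) (by linarith)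
    (fun k _ hk => ⟨(hW.1.1 k hk).1, (hW.1.1 k hk).2.1⟩) hy (by linarith)
  have h6 := c06_ext hW.2.1 (c06_inV hW hb0 (by linarith)) h3 h4 h
  rw [← h5] at h6
  refine c06_hor hφ hV hH (by linarith) (by linarith) h2 ?_ h6
  rw [h5]
  exact le_trans (hW.1.1 j h4).2.1 hb1

/-- from every point of the inner box a cheap path reaches a given vertical lane on the right,
below the top band -/
theorem loc_reach (hφ : φ.OK) (hr : 5 ≤ r) (hA : ASol t (Bx φ c (r + 1)) ψ e)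
    (hN : Nice φ t ψ c r τ Up) {V : Pth}
    (hV : HC φ.swap V (c.2 - r) (c.2 + r) (c.1 + r - 1) (c.1 + r)) {y : Z2}
    (hy : y ∈ Bx φ c (r - 5)) : ∃ (Q : Pth) (j : ℕ), j ≤ V.n ∧ Q.fst = y ∧ Q.lst = V.v j ∧
      φ.y (V.v j) ≤ c.2 + r - 1 ∧ Q.In (Bx φ c (r + 1)) ∧
      Q.tot t ≤ ψ Q.fst - ψ Q.lst + (e + 2 * τ) := by
  obtain ⟨P, p1, p2, p3, p4⟩ := hA.2 y (Bx_mono_r φ c (by linarith) hy)
  obtain ⟨Hb, hb⟩ := hN.1 (c.2 - (r - 5) - 1) (by linarith) (by linarith)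
  obtain ⟨Ht, ht⟩ := hN.1 (c.2 + (r - 5)) (by linarith) (by linarith)
  obtain ⟨Vl, hl⟩ : ∃ P, Lane φ.swap t ψ τ Up P (c.2 - r) (c.2 + r) (c.1 - (r - 5) - 1) :=
    hN.2 _ (by simp only [Prod.snd_swap]; linarith) (by simp only [Prod.snd_swap]; linarith)
  obtain ⟨Vr, hr'⟩ : ∃ P, Lane φ.swap t ψ τ Up P (c.2 - r) (c.2 + r) (c.1 + (r - 5)) :=
    hN.2 _ (by simp only [Prod.snd_swap]; linarith) (by simp only [Prod.snd_swap]; linarith)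
  have hτ : 0 ≤ τ := hb.2.1.nonneg
  obtain ⟨k, hk, hq, hc⟩ := encl (Q := P) hφ (ρ := r - 5) (by linarith) (by linarith)
    (hb.1.mono le_rfl (by linarith)) ht.1 (hl.1.mono le_rfl (by linarith)) hr'.1 (p1 ▸ hy)
    fun h => Bd_Bx hφ p3 (Bx_mono_r φ c (by linarith) h)
  have qx := (abs_le.1 hq.1).2
  have qy := (abs_le.1 hq.2).2
  have h0 : ∃ Q : Pth, Q.fst = y ∧ Q.lst = P.v k ∧ Q.In (Bx φ c (r + 1)) ∧
      Q.tot t ≤ ψ Q.fst - ψ Q.lst + e :=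
    ⟨P.sub 0 k, by rw [Pth.sub_fst]; exact p1, Pth.sub_lst P k.zero_le hk, p2.sub k.zero_le hk,
      (p4.sub k.zero_le hk).tot⟩
  rcases hc with ⟨i, hi, e1⟩ | ⟨i, hi, e1⟩ | ⟨i, hi, e1⟩ | ⟨i, hi, e1⟩ <;> rw [← e1] at h0 qx qy
  · obtain ⟨Q, j, a1, a2, a3, a4, a5, a6⟩ :=
      c06_hor hφ hV hb (by linarith) (by linarith) hi (by linarith) h0
    exact ⟨Q, j, a1, a2, a3, a4, a5, by linarith⟩
  · obtain ⟨Q, j, a1, a2, a3, a4, a5, a6⟩ :=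
      c06_hor hφ hV ht (by linarith) (by linarith) hi (by linarith) h0
    exact ⟨Q, j, a1, a2, a3, a4, a5, by linarith⟩
  · obtain ⟨Q, j, a1, a2, a3, a4, a5, a6⟩ :=
      c06_ver hφ hr hN hV hl (by linarith) (by linarith) hi (by linarith) h0
    exact ⟨Q, j, a1, a2, a3, a4, a5, by linarith⟩
  · obtain ⟨Q, j, a1, a2, a3, a4, a5, a6⟩ :=
      c06_ver hφ hr hN hV hr' (by linarith) (by linarith) hi (by linarith) h0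
    exact ⟨Q, j, a1, a2, a3, a4, a5, by linarith⟩

theorem loc (hφ : φ.OK) (hr : 5 ≤ r) (hA : ASol t (Bx φ c (r + 1)) ψ e)
    (hA' : ASol t (Bx φ c (r + 1)) ψ' e') (hN : Nice φ t ψ c r τ Up) (hN' : Nice φ t ψ' c r τ' Up') :
    ∀ x ∈ Bx φ c (r - 5), ∀ y ∈ Bx φ c (r - 5),
      ψ x - ψ y ≤ ψ' x - ψ' y + (3 * τ + 3 * τ' + 2 * e + 2 * e') := by
  intro x hx y hy
  obtain ⟨V, hV⟩ : ∃ P, Lane φ.swap t ψ τ Up P (c.2 - r) (c.2 + r) (c.1 + r - 1) :=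
    hN.2 _ (by simp only [Prod.snd_swap]; linarith) (by simp only [Prod.snd_swap]; linarith)
  obtain ⟨H, hH⟩ := hN'.1 (c.2 + r - 1) (by linarith) (by linarith)
  have hV1 : HC φ.swap V (c.2 - r) (c.2 + r) (c.1 + r - 1) (c.1 + r) :=
    hV.1.mono le_rfl (by linarith)
  have hH1 : HC φ H (c.1 - r) (c.1 + r) (c.2 + r - 1) (c.2 + r) := hH.1.mono le_rfl (by linarith)
  obtain ⟨Q, j, a1, a2, a3, a4, a5, a6⟩ := loc_reach hφ hr hA hN hV1 hy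
  obtain ⟨Q', k, b1, b2, b3, b4, b5, b6⟩ := loc_reach (c := c.swap) (V := H) (y := x) hφ.swap hr
    (by rw [Bx_swap]; exact hA') hN'.swap hH1 (by rw [Bx_swap]; exact hx)
  rw [Bx_swap] at b5
  obtain ⟨k', j', c1, c2, c3, c4, c5⟩ := cross_idx (P := H) (Q := V) hφ.det b1 le_rfl a1 le_rfl
    (x0 := c.1 + r - 1) (x1 := c.1 + r) (y0 := c.2 + r - 1) (y1 := c.2 + r)
    (fun k _ hk => ⟨(hH1.1 k hk).1, (hH1.1 k hk).2.1⟩) b4 hH1.2.2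
    (fun k _ hk => ⟨(hV1.1 k hk).1, (hV1.1 k hk).2.1⟩) a4 hV1.2.2
  obtain ⟨P, p1, p2, p3, p4⟩ := c06_ext hV.2.1 (c06_inV hV (by linarith) (by linarith)) c3 c4
    ⟨Q, a2, a3, a5, a6⟩
  obtain ⟨P', q1, q2, q3, q4⟩ := c06_ext hH.2.1
    ((hH.In (by linarith) (by linarith)).mono (Bx_mono_r φ c (by linarith))) c1 c2
    ⟨Q', b2, b3, b5, b6⟩
  have d1 := hA'.1 P p3
  have d2 := hA.1 P' q3
  rw [p1, p2] at p4 d1
  rw [q1, q2, c5] at q4 d2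
  linarith

theorem loc_sol (hφ : φ.OK) (hr : 5 ≤ r) (hA : Sol t (Bx φ c (r + 1)) ψ)
    (hA' : Sol t (Bx φ c (r + 1)) ψ') (hN : Nice φ t ψ c r τ Up) (hN' : Nice φ t ψ' c r τ' Up') :
    ∀ x ∈ Bx φ c (r - 5), ∀ y ∈ Bx φ c (r - 5),
      ψ x - ψ y ≤ ψ' x - ψ' y + (3 * τ + 3 * τ') := by
  intro x hx y hy
  have := loc hφ hr hA.asol hA'.asol hN hN' x hx y hy
  linarith

end

end Crest.Agent.R151.C
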