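import Crest.Agent.R151.C06

/-! Row 151 (C): patching: the constants -/

set_option autoImplicit false

open MeasureTheory Set Filter Topology
open Crest.ProbabilityR.FirstPassage
open Crest.Agent.R151.B

namespace Crest.Agent.R151.C

noncomputable section

variable {φ : Chart} {t : Env} {c : ℝ × ℝ} {N : ℕ} {τ Lo Up : ℝ}

theorem C07_sum (u : ℤ → ℝ) (N : ℕ) :
    ∃ K : ℤ → ℝ, K (-N) = 0 ∧ ∀ i : ℤ, -N ≤ i → K (i + 1) = K i + u i := by
  refine ⟨fun i => ∑ k ∈ Finset.range (i + N).toNat, u (-N + k), by simp, fun i hi => ?_⟩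
  have e : (i + 1 + N).toNat = (i + N).toNat + 1 := by omega
  have e' : -(N : ℤ) + ((i + N).toNat : ℕ) = i := by omega
  simp only [e, Finset.sum_range_succ, e']

theorem C07_ctr (c : ℝ × ℝ) (g h : ℤ × ℤ) :
    (sk (gc c g)).1 - (sk (gc c h)).1 = ((2 * (g.1 - h.1) + (g.2 - h.2) : ℤ) : ℝ) ∧
    (sk (gc c g)).2 - (sk (gc c h)).2 = (((g.1 - h.1) + 2 * (g.2 - h.2) : ℤ) : ℝ) := by
  simp only [sk, gc]
  push_cast
  constructor <;> ring

theorem C07_ctr_le (c : ℝ × ℝ) (g h : ℤ × ℤ) {M : ℤ} (h1 : |2 * (g.1 - h.1) + (g.2 - h.2)| ≤ M)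
    (h2 : |(g.1 - h.1) + 2 * (g.2 - h.2)| ≤ M) :
    |(sk (gc c g)).1 - (sk (gc c h)).1| ≤ M ∧ |(sk (gc c g)).2 - (sk (gc c h)).2| ≤ M := by
  rw [(C07_ctr c g h).1, (C07_ctr c g h).2]
  exact ⟨by exact_mod_cast h1, by exact_mod_cast h2⟩

theorem C07_rook (c : ℝ × ℝ) {g h : ℤ × ℤ} (h5 : |g.1 - h.1| + |g.2 - h.2| = 1) :
    |(sk (gc c g)).1 - (sk (gc c h)).1| ≤ 2 ∧ |(sk (gc c g)).2 - (sk (gc c h)).2| ≤ 2 := by
  have := C07_ctr_le c g h (M := 2) ?_ ?_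
  · exact_mod_cast this
  all_goals
    rw [abs_le]
    rcases abs_cases (g.1 - h.1) with h6 | h6 <;> rcases abs_cases (g.2 - h.2) with h7 | h7 <;>
      omega

/-- abstract choice of constants: `f g p` is the value of the potential of the cell `g` at the
point `p`, `S g` is the set of points which are well inside the cell `g`. -/
theorem pk_abs {X : Type} (f : ℤ × ℤ → X → ℝ) (S : ℤ × ℤ → Set X) (p : ℤ × ℤ → X) {a : ℝ}
    (ha : 0 ≤ a) (hN : 1 ≤ N)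
    (hp : ∀ g h : ℤ × ℤ, |g.1 - h.1| ≤ 1 → |g.2 - h.2| ≤ 1 → p g ∈ S h)
    (ho : ∀ g h : ℤ × ℤ, |g.1| ≤ N → |g.2| ≤ N → |h.1| ≤ N → |h.2| ≤ N →
      |g.1 - h.1| + |g.2 - h.2| = 1 → ∀ x ∈ S g, ∀ y ∈ S g, (f g x - f h x) - (f g y - f h y) ≤ a) :
    ∃ κ : ℤ × ℤ → ℝ, ∀ g h : ℤ × ℤ, |g.1| ≤ N → |g.2| ≤ N → |h.1| ≤ N → |h.2| ≤ N →
      |g.1 - h.1| + |g.2 - h.2| = 1 → ∀ x ∈ S g, x ∈ S h →
        |(f g x + κ g) - (f h x + κ h)| ≤ 8 * N * a := by
  obtain ⟨K0, -, hK0⟩ := C07_sum (fun j => f (-N, j) (p (-N, j)) - f (-N, j + 1) (p (-N, j))) N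
  choose K hK hK' using fun j : ℤ =>
    C07_sum (fun i => f (i, j) (p (i, j)) - f (i + 1, j) (p (i, j))) N
  have hN' : (1 : ℝ) ≤ N := by exact_mod_cast hN
  have hNa : a ≤ N * a := le_mul_of_one_le_left ha hN'
  have hself : ∀ g : ℤ × ℤ, p g ∈ S g := fun g => hp g g (by simp) (by simp)
  have ho' : ∀ g h : ℤ × ℤ, |g.1| ≤ N → |g.2| ≤ N → |h.1| ≤ N → |h.2| ≤ N →
      |g.1 - h.1| + |g.2 - h.2| = 1 → ∀ x ∈ S g, ∀ y ∈ S g,
      |(f g x - f h x) - (f g y - f h y)| ≤ a := by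
    intro g h h1 h2 h3 h4 h5 x hx y hy
    have a1 := ho g h h1 h2 h3 h4 h5 x hx y hy
    have a2 := ho g h h1 h2 h3 h4 h5 y hy x hx
    rw [abs_le]
    constructor <;> linarith
  -- horizontal edges
  have hH : ∀ i j : ℤ, -N ≤ i → i + 1 ≤ N → |j| ≤ N → ∀ x ∈ S (i, j),
      |(f (i, j) x + (K0 j + K j i)) - (f (i + 1, j) x + (K0 j + K j (i + 1)))| ≤ a := by
    intro i j h1 h2 h3 x hx
    have a1 := ho' (i, j) (i + 1, j) (abs_le.2 ⟨h1, by omega⟩) h3 (abs_le.2 ⟨by omega, h2⟩) h3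
      (by simp) x hx _ (hself _)
    rw [hK' j i h1]
    convert a1 using 2
    ring
  -- vertical edges
  have hV : ∀ j : ℤ, -N ≤ j → j + 1 ≤ N → ∀ m : ℕ, ∀ i : ℤ, i = -N + m → i ≤ N →
      |(f (i, j) (p (i, j)) + (K0 j + K j i)) -
        (f (i, j + 1) (p (i, j)) + (K0 (j + 1) + K (j + 1) i))| ≤ 2 * m * a := by
    intro j h1 h2 m
    have hj : |j| ≤ N := abs_le.2 ⟨h1, by omega⟩
    have hj' : |j + 1| ≤ N := abs_le.2 ⟨by omega, h2⟩
    induction m with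
    | zero =>
      intro i hi _
      have e : i = -N := by simpa using hi
      subst e
      rw [hK j, hK (j + 1), hK0 j h1]
      simp only [CharP.cast_eq_zero, mul_zero, zero_mul, abs_nonpos_iff]
      ring
    | succ m ih =>
      intro i' hi' hiN
      obtain ⟨i, rfl⟩ : ∃ i, i' = i + 1 := ⟨i' - 1, by ring⟩
      have hi : i = -N + m := by push_cast at hi'; omega
      have h0 : -N ≤ i := by omega
      have a1 := ih i hi (by omega)
      have a2 := hH i (j + 1) h0 hiN hj' (p (i, j)) (hp _ _ (by simp) (by simp))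
      have a3 := ho' (i + 1, j) (i + 1, j + 1) (abs_le.2 ⟨by omega, hiN⟩) hj
        (abs_le.2 ⟨by omega, hiN⟩) hj' (by simp) _ (hself _) (p (i, j))
        (hp _ _ (by simp) (by simp))
      have a4 := hK' j i h0
      rw [abs_le] at a1 a2 a3 ⊢
      push_cast
      constructor <;> linarith [a1.1, a1.2, a2.1, a2.2, a3.1, a3.2]
  have hV' : ∀ i j : ℤ, |i| ≤ N → -N ≤ j → j + 1 ≤ N → ∀ x ∈ S (i, j),
      |(f (i, j) x + (K0 j + K j i)) - (f (i, j + 1) x + (K0 (j + 1) + K (j + 1) i))| ≤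
        8 * N * a := by
    intro i j h1 h2 h3 x hx
    have h1' := abs_le.1 h1
    obtain ⟨m, hm⟩ : ∃ m : ℕ, i = -N + m := ⟨(i + N).toNat, by omega⟩
    have a1 := hV j h2 h3 m i hm h1'.2
    have a2 := ho' (i, j) (i, j + 1) h1 (abs_le.2 ⟨h2, by omega⟩) h1 (abs_le.2 ⟨by omega, h3⟩)
      (by simp) x hx _ (hself _)
    have a3 : (m : ℝ) ≤ 2 * N := by
      have : m ≤ 2 * N := by omega
      exact_mod_cast this
    have a4 := mul_le_mul_of_nonneg_right a3 ha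
    rw [abs_le] at a1 a2 ⊢
    constructor <;> linarith [a1.1, a1.2, a2.1, a2.2]
  refine ⟨fun g => K0 g.2 + K g.2 g.1, ?_⟩
  rintro ⟨i, j⟩ ⟨i', j'⟩ h1 h2 h3 h4 h5 x hx hx'
  simp only at h1 h2 h3 h4 h5 ⊢
  have b1 := abs_le.1 h1
  have b2 := abs_le.1 h2
  have b3 := abs_le.1 h3
  have b4 := abs_le.1 h4
  have h8 : a ≤ 8 * N * a := by linarith
  have hc : (i' = i + 1 ∧ j' = j) ∨ (i = i' + 1 ∧ j = j') ∨ (i' = i ∧ j' = j + 1) ∨
      (i = i' ∧ j = j' + 1) := by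
    rcases abs_cases (i - i') with h6 | h6 <;> rcases abs_cases (j - j') with h7 | h7 <;> omega
  rcases hc with ⟨rfl, rfl⟩ | ⟨rfl, rfl⟩ | ⟨rfl, rfl⟩ | ⟨rfl, rfl⟩
  · exact (hH _ _ b1.1 b3.2 h2 x hx).trans h8
  · rw [abs_sub_comm]
    exact (hH _ _ b3.1 b1.2 h2 x hx').trans h8
  · exact hV' _ _ h1 b2.1 b4.2 x hx
  · rw [abs_sub_comm]
    exact hV' _ _ h1 b4.1 b2.2 x hx'

theorem pk (hφ : φ.OK) (hN : 1 ≤ N) (ht : t ∈ AllGood φ c N τ Lo Up) :
    ∃ B : ℤ × ℤ → Z2 → ℝ, (∀ g : ℤ × ℤ, |g.1| ≤ N → |g.2| ≤ N →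
      Sol t (Bx φ (sk (gc c g)) 31) (B g) ∧ Nice φ t (B g) (sk (gc c g)) 30 τ Up) ∧
      ∀ g h : ℤ × ℤ, |g.1| ≤ N → |g.2| ≤ N → |h.1| ≤ N → |h.2| ≤ N →
        |g.1 - h.1| + |g.2 - h.2| = 1 → ∀ x ∈ Bx φ (sk (gc c g)) 21, |B g x - B h x| ≤ 48 * N * τ := by
  have h0 : ∀ g : ℤ × ℤ, |g.1| ≤ N → |g.2| ≤ N → ∃ B : Z2 → ℝ,
      Sol t (Bx φ (sk (gc c g)) 31) B ∧ Nice φ t B (sk (gc c g)) 30 τ Up :=
    fun g h1 h2 => (ht g h1 h2).1
  choose! B0 hB0 using h0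
  choose p hp using fun g : ℤ × ℤ => hφ.near (sk (gc c g))
  have hτ : 0 ≤ τ := ((hB0 0 (by simp) (by simp)).2.nonneg (by norm_num)).1
  have main := pk_abs (N := N) B0 (fun g => Bx φ (sk (gc c g)) 23) p (a := 6 * τ)
    (by linarith) hN ?_ ?_
  · obtain ⟨κ, hκ⟩ := main
    refine ⟨fun g z => B0 g z + κ g, fun g h1 h2 =>
      ⟨(hB0 g h1 h2).1.add_const _, (hB0 g h1 h2).2.add_const _⟩, ?_⟩
    intro g h h1 h2 h3 h4 h5 x hx
    have a1 := C07_rook c h5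
    have := hκ g h h1 h2 h3 h4 h5 x (Bx_mono_r φ _ (by norm_num) hx)
      (Bx_mono φ (by linarith [a1.1]) (by linarith [a1.2]) hx)
    linarith
  · intro g h h1 h2
    have a1 := C07_ctr_le c g h (M := 3) (by rw [abs_le] at *; omega) (by rw [abs_le] at *; omega)
    have a2 : p g ∈ Bx φ (sk (gc c g)) (1 / 100) := hp g
    push_cast at a1
    exact Bx_mono φ (by linarith [a1.1]) (by linarith [a1.2]) a2
  · intro g h h1 h2 h3 h4 h5 x hx y hy
    have a1 := C07_rook c h5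
    have a2 := loc_sol (r := 28) (c := sk (gc c g)) hφ (by norm_num)
      ((hB0 g h1 h2).1.mono (Bx_mono_r φ _ (by norm_num)))
      ((hB0 h h3 h4).1.mono (Bx_mono φ (by linarith [a1.1]) (by linarith [a1.2])))
      ((hB0 g h1 h2).2.restrict hφ (by norm_num) (by norm_num))
      ((hB0 h h3 h4).2.restrict hφ (by linarith [a1.1]) (by linarith [a1.2]))
      x (Bx_mono_r φ _ (by norm_num) hx) y (Bx_mono_r φ _ (by norm_num) hy)
    linarith

/-- a king move towards the origin keeps the skew norm -/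
theorem pk_king (a b : ℤ) (h1 : |2 * a + b| ≤ 14) (h2 : |a + 2 * b| ≤ 14) :
    |2 * (a - a.sign) + (b - b.sign)| ≤ 14 ∧ |(a - a.sign) + 2 * (b - b.sign)| ≤ 14 ∧
      |a| ≤ 14 ∧ |b| ≤ 14 := by
  rw [abs_le] at h1 h2
  simp only [abs_le]
  rcases lt_trichotomy a 0 with ha | ha | ha <;> rcases lt_trichotomy b 0 with hb | hb | hb <;>
    simp only [Int.sign_eq_neg_one_of_neg, Int.sign_eq_one_of_pos, ha, hb, Int.sign_zero] <;>
    omega

theorem C07_sign (a : ℤ) :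
    (0 < a ∧ a.sign = 1) ∨ (a = 0 ∧ a.sign = 0) ∨ (a < 0 ∧ a.sign = -1) := by
  rcases lt_trichotomy a 0 with ha | ha | ha
  · exact Or.inr (Or.inr ⟨ha, Int.sign_eq_neg_one_of_neg ha⟩)
  · exact Or.inr (Or.inl ⟨ha, by rw [ha]; rfl⟩)
  · exact Or.inl ⟨ha, Int.sign_eq_one_of_pos ha⟩

theorem pk_chain {B : ℤ × ℤ → Z2 → ℝ} {a : ℝ} (ha : 0 ≤ a)
    (h : ∀ g h : ℤ × ℤ, |g.1| ≤ N → |g.2| ≤ N → |h.1| ≤ N → |h.2| ≤ N →
      |g.1 - h.1| + |g.2 - h.2| = 1 → ∀ x ∈ Bx φ (sk (gc c g)) 21, |B g x - B h x| ≤ a)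
    {g g' : ℤ × ℤ} (h1 : |g.1| ≤ N) (h2 : |g.2| ≤ N) (h1' : |g'.1| ≤ N) (h2' : |g'.2| ≤ N) {x : Z2}
    (hx : x ∈ Bx φ (sk (gc c g)) 12) (hx' : x ∈ Bx φ (sk (gc c g')) 2) :
    |B g x - B g' x| ≤ 28 * a := by
  have hin : ∀ k : ℤ × ℤ, |2 * (k.1 - g'.1) + (k.2 - g'.2)| ≤ 14 →
      |(k.1 - g'.1) + 2 * (k.2 - g'.2)| ≤ 14 → x ∈ Bx φ (sk (gc c k)) 21 := by
    intro k a1 a2
    have a3 := C07_ctr_le c k g' a1 a2
    push_cast at a3
    exact Bx_mono φ (by rw [abs_sub_comm]; linarith [a3.1]) (by rw [abs_sub_comm]; linarith [a3.2])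
      hx'
  have key : ∀ n : ℕ, ∀ k : ℤ × ℤ, |k.1| ≤ N → |k.2| ≤ N → |k.1 - g'.1| ≤ n → |k.2 - g'.2| ≤ n →
      |2 * (k.1 - g'.1) + (k.2 - g'.2)| ≤ 14 → |(k.1 - g'.1) + 2 * (k.2 - g'.2)| ≤ 14 →
      |B k x - B g' x| ≤ 2 * n * a := by
    intro n
    induction n with
    | zero =>
      intro k _ _ a3 a4 _ _
      have e : k = g' := by
        rw [abs_le] at a3 a4
        exact Prod.ext (by omega) (by omega)
      subst e
      simp
    | succ n ih =>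
      rintro ⟨i, j⟩ a1 a2 a3 a4 a5 a6
      simp only at a1 a2 a3 a4 a5 a6
      obtain ⟨k1, k2, -, -⟩ := pk_king _ _ a5 a6
      have s1 := C07_sign (i - g'.1)
      have s2 := C07_sign (j - g'.2)
      generalize (i - g'.1).sign = u at k1 k2 s1
      generalize (j - g'.2).sign = w at k1 k2 s2
      have b1 : |i - u| ≤ N := by rw [abs_le] at *; omega
      have b2 : |j - w| ≤ N := by rw [abs_le] at *; omega
      have k1' : |2 * (i - u - g'.1) + (j - w - g'.2)| ≤ 14 := by rw [abs_le] at *; omega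
      have k2' : |(i - u - g'.1) + 2 * (j - w - g'.2)| ≤ 14 := by rw [abs_le] at *; omega
      have c1 := ih (i - u, j - w) b1 b2 (by rw [abs_le] at *; push_cast at *; omega)
        (by rw [abs_le] at *; push_cast at *; omega) k1' k2'
      have c2 : |B (i, j) x - B (i - u, j) x| ≤ a := by
        by_cases hu : u = 0
        · subst hu; simpa using ha
        · refine h (i, j) (i - u, j) a1 a2 b1 a2 ?_ x (hin (i, j) a5 a6)
          simp only [sub_sub_cancel, sub_self, abs_zero, add_zero]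
          rcases abs_cases u with h6 | h6 <;> omega
      have c3 : |B (i - u, j - w) x - B (i - u, j) x| ≤ a := by
        by_cases hw : w = 0
        · subst hw; simpa using ha
        · refine h (i - u, j - w) (i - u, j) b1 b2 b1 a2 ?_ x (hin (i - u, j - w) k1' k2')
          simp only [sub_self, abs_zero, zero_add]
          rcases abs_cases (j - w - j) with h6 | h6 <;> omega
      rw [abs_le] at c1 c2 c3 ⊢
      push_cast
      constructor <;> linarith [c1.1, c1.2, c2.1, c2.2, c3.1, c3.2]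
  have d1 : |2 * (g.1 - g'.1) + (g.2 - g'.2)| ≤ 14 := by
    have e := (C07_ctr c g g').1
    have a1 := abs_le.1 hx.1
    have a2 := abs_le.1 hx'.1
    have : |((2 * (g.1 - g'.1) + (g.2 - g'.2) : ℤ) : ℝ)| ≤ 14 := by
      rw [← e, abs_le]; constructor <;> linarith [a1.1, a1.2, a2.1, a2.2]
    exact_mod_cast this
  have d2 : |(g.1 - g'.1) + 2 * (g.2 - g'.2)| ≤ 14 := by
    have e := (C07_ctr c g g').2
    have a1 := abs_le.1 hx.2
    have a2 := abs_le.1 hx'.2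
    have : |(((g.1 - g'.1) + 2 * (g.2 - g'.2) : ℤ) : ℝ)| ≤ 14 := by
      rw [← e, abs_le]; constructor <;> linarith [a1.1, a1.2, a2.1, a2.2]
    exact_mod_cast this
  obtain ⟨-, -, d3, d4⟩ := pk_king _ _ d1 d2
  have := key 14 g h1 h2 (by exact_mod_cast d3) (by exact_mod_cast d4) d1 d2
  push_cast at this
  linarith

end

end Crest.Agent.R151.C
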