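import Crest.Agent.R151.C07

/-! Row 151 (C): patching: the potential -/

set_option autoImplicit false

open MeasureTheory Set Filter Topology
open Crest.ProbabilityR.FirstPassage
open Crest.Agent.R151.B

namespace Crest.Agent.R151.C

noncomputable section

variable {φ : Chart} {t : Env} {c : ℝ × ℝ} {N : ℕ} {τ Lo Up : ℝ}

theorem c07b_round {x : ℝ} (h : |x| ≤ N) : |round x| ≤ N := by
  have h1 := abs_le.1 (abs_sub_round x)
  have h2 := abs_le.1 h
  rw [abs_le]
  constructor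
  · have : (-(N : ℤ) - 1 : ℤ) < round x := by
      have : ((-(N : ℤ) - 1 : ℤ) : ℝ) < (round x : ℝ) := by push_cast; linarith
      exact_mod_cast this
    omega
  · have : round x < (N : ℤ) + 1 := by
      have : (round x : ℝ) < (((N : ℤ) + 1 : ℤ) : ℝ) := by push_cast; linarith
      exact_mod_cast this
    omega

/-- nearest point of the skew grid -/
theorem sk_near (c w : ℝ × ℝ) (h1 : |(shr (1 / 3) 1 w).1 - c.1| ≤ N) (h2 : |(shr (1 / 3) 1 w).2 - c.2| ≤ N) :
    ∃ g : ℤ × ℤ, |g.1| ≤ N ∧ |g.2| ≤ N ∧ |(sk (gc c g)).1 - w.1| ≤ 3 / 2 ∧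
      |(sk (gc c g)).2 - w.2| ≤ 3 / 2 := by
  obtain ⟨s, hs⟩ : ∃ s, s = shr (1 / 3) 1 w := ⟨_, rfl⟩
  have hw : w = sk s := by rw [hs, sk_shr]
  rw [← hs] at h1 h2
  have a1 := abs_le.1 (abs_sub_round (s.1 - c.1))
  have a2 := abs_le.1 (abs_sub_round (s.2 - c.2))
  refine ⟨(round (s.1 - c.1), round (s.2 - c.2)), c07b_round h1, c07b_round h2, ?_, ?_⟩
  · rw [hw, abs_le]
    simp only [sk, gc]
    constructor <;> linarith
  · rw [hw, abs_le]
    simp only [sk, gc]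
    constructor <;> linarith

theorem psi (hφ : φ.OK) (hN : 1 ≤ N) (hLo : 0 < Lo) (ht : t ∈ AllGood φ c N τ Lo Up) :
    ∃ ψ : Z2 → ℝ, (∀ w : ℝ × ℝ, |(shr (1 / 3) 1 w).1 - c.1| ≤ N - 10 →
        |(shr (1 / 3) 1 w).2 - c.2| ≤ N - 10 → Nice φ t ψ w 8 (10 ^ 4 * N * τ) Up) ∧
      ASub t (Bx (φ.shear (1 / 3) 1) c N) ψ Lo (10 ^ 4 * N * τ) := by
  obtain ⟨B, hB, hB'⟩ := pk hφ hN ht
  have hτ : 0 ≤ τ := ((hB (0, 0) (by simp) (by simp)).2.nonneg (by norm_num)).1
  have hN' : (1 : ℝ) ≤ N := by exact_mod_cast hN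
  obtain ⟨U, hU⟩ : ∃ U, U = Bx (φ.shear (1 / 3) 1) c N := ⟨_, rfl⟩
  have hg : ∀ x : Z2, ∃ g : ℤ × ℤ, x ∈ U →
      |g.1| ≤ N ∧ |g.2| ≤ N ∧ x ∈ Bx φ (sk (gc c g)) (3 / 2) := by
    intro x
    by_cases hx : x ∈ U
    · rw [hU] at hx
      have e := φ.shear_pt (1 / 3) 1 x
      obtain ⟨g, g1, g2, g3, g4⟩ := sk_near (N := N) c (φ.pt x) (by rw [← e]; exact hx.1)
        (by rw [← e]; exact hx.2)
      exact ⟨g, fun _ => ⟨g1, g2, by rw [abs_sub_comm]; exact g3, by rw [abs_sub_comm]; exact g4⟩⟩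
    · exact ⟨0, fun h => absurd h hx⟩
  choose g hg using hg
  obtain ⟨E, hE⟩ : ∃ E, E = 28 * (48 * N * τ) := ⟨_, rfl⟩
  have hNτ : τ ≤ N * τ := le_mul_of_one_le_left hτ hN'
  have hE0 : 0 ≤ E := by rw [hE]; positivity
  have key : ∀ g' : ℤ × ℤ, |g'.1| ≤ N → |g'.2| ≤ N → ∀ x ∈ U, x ∈ Bx φ (sk (gc c g')) 12 →
      |B g' x - B (g x) x| ≤ E := by
    intro g' h1 h2 x hx hx'
    obtain ⟨g1, g2, g3⟩ := hg x hx
    rw [hE]
    exact pk_chain (by positivity) hB' h1 h2 g1 g2 hx' (Bx_mono_r φ _ (by norm_num) g3)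
  refine ⟨fun x => B (g x) x, fun w h1 h2 => ?_, ?_⟩
  · obtain ⟨g', g1, g2, g3, g4⟩ := sk_near (N := N) c w (by linarith) (by linarith)
    rw [abs_sub_comm] at g3 g4
    have h3 : Nice φ t (B g') w 8 τ Up := (hB g' g1 g2).2.restrict hφ (by linarith) (by linarith)
    have h4 : ∀ x ∈ Bx φ w (8 + 1 / 10), |B g' x - B (g x) x| ≤ E := by
      intro x hx
      refine key g' g1 g2 x ?_ (Bx_mono φ (by linarith) (by linarith) hx)
      rw [hU]
      exact Bx_mono _ (by linarith) (by linarith)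
        (Bx_shear φ (l := 1 / 3) (ν := 1) (by norm_num) (by norm_num) one_pos w _ hx)
    refine (h3.perturb (d := 2 * E) fun x hx y hy => ?_).mono (by rw [hE]; nlinarith) le_rfl
    have a1 := abs_le.1 (h4 x hx)
    have a2 := abs_le.1 (h4 y hy)
    linarith
  · rw [← hU]
    have base : ∀ Q : Pth, Q.In U → Q.In (Bx φ (sk (gc c (g Q.fst))) 3) →
        B (g Q.fst) Q.fst - B (g Q.lst) Q.lst ≤ Q.tot t + E := by
      intro Q hQ hQ'
      obtain ⟨g1, g2, -⟩ := hg _ hQ.fst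
      have a1 := (hB _ g1 g2).1.1.tot (hQ'.mono (Bx_mono_r φ _ (by norm_num)))
      have a2 := abs_le.1 (key _ g1 g2 _ hQ.lst (Bx_mono_r φ _ (by norm_num) hQ'.lst))
      linarith
    have near : ∀ x ∈ U, ∀ z, |φ.x z - φ.x x| ≤ 3 / 2 → |φ.y z - φ.y x| ≤ 3 / 2 →
        z ∈ Bx φ (sk (gc c (g x))) 3 := by
      intro x hx z h1 h2
      obtain ⟨-, -, g3, g4⟩ := hg x hx
      have := abs_sub_le (φ.x z) (φ.x x) (sk (gc c (g x))).1
      have := abs_sub_le (φ.y z) (φ.y x) (sk (gc c (g x))).2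
      exact ⟨by linarith, by linarith⟩
    intro P hP
    have h := cut (t := t) (V := fun x => B (g x) x) (U := U) (A := univ)
      (N := fun x => {z | |φ.x z - φ.x x| < 1 ∧ |φ.y z - φ.y x| < 1}) (κ := 1 + E / Lo) hE0
      (fun x => by simp) (fun Q hQ _ h1 h2 => ?_) (fun Q hQ _ h1 => ?_) P hP fun _ _ => mem_univ _
    · have a1 : 0 ≤ P.tot t / Lo + 1 := by
        have := P.tot_nonneg t
        positivity
      have a2 : E * (P.tot t / Lo + 1) ≤ 10 ^ 4 * N * τ * (P.tot t / Lo + 1) :=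
        mul_le_mul_of_nonneg_right (by rw [hE]; nlinarith) a1
      have a3 : (1 + E / Lo) * P.tot t + E = P.tot t + E * (P.tot t / Lo + 1) := by ring
      linarith
    · have hQ' : Q.In (Bx φ (sk (gc c (g Q.fst))) 3) := by
        intro k hk
        rcases hk.eq_or_lt with hk | hk
        · rcases Nat.eq_zero_or_pos k with h0 | h0
          · subst h0
            exact near _ hQ.fst _ (by simp [Pth.fst]; norm_num) (by simp [Pth.fst]; norm_num)
          · obtain ⟨k, rfl⟩ : ∃ j, k = j + 1 := ⟨k - 1, by omega⟩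
            obtain ⟨s1, s2⟩ := hφ.step (Q.adj k (by omega))
            obtain ⟨s3, s4⟩ := h1 k (by omega)
            have := abs_sub_le (φ.x (Q.v (k + 1))) (φ.x (Q.v k)) (φ.x Q.fst)
            have := abs_sub_le (φ.y (Q.v (k + 1))) (φ.y (Q.v k)) (φ.y Q.fst)
            exact near _ hQ.fst _ (by linarith) (by linarith)
        · obtain ⟨s3, s4⟩ := h1 k hk
          exact near _ hQ.fst _ (by linarith) (by linarith)
      obtain ⟨g1, g2, -⟩ := hg _ hQ.fst
      have a1 := base Q hQ hQ'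
      have a2 : Lo ≤ Q.tot t := by
        refine (ht _ g1 g2).2 Q (hQ'.mono (Bx_mono_r φ _ (by norm_num))) ?_
        by_contra hc
        push Not at hc
        exact h2 hc
      have a3 : E ≤ E / Lo * Q.tot t := by
        calc E = E / Lo * Lo := by field_simp
          _ ≤ _ := by gcongr
      show B (g Q.fst) Q.fst - B (g Q.lst) Q.lst ≤ _
      linarith
    · have a1 := base Q hQ fun k hk => by
        obtain ⟨s3, s4⟩ := h1 k hk
        exact near _ hQ.fst _ (by linarith) (by linarith)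
      have a3 : 0 ≤ E / Lo * Q.tot t := by
        have := Q.tot_nonneg t
        positivity
      show B (g Q.fst) Q.fst - B (g Q.lst) Q.lst ≤ _
      linarith

end

end Crest.Agent.R151.C
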