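import Crest.Agent.R151.C05

/-! Row 151 (C): staircases -/

set_option autoImplicit false

open MeasureTheory Set Filter Topology
open Crest.ProbabilityR.FirstPassage
open Crest.Agent.R151.B

namespace Crest.Agent.R151.C

noncomputable section

variable {φ : Chart} {t : Env} {ψ : Z2 → ℝ} {e Up : ℝ}

theorem c08_inv (hφ : φ.OK) (w : ℕ → ℝ × ℝ) (n : ℕ)
    (hw : ∀ k, k < n → (w k).1 + 1 ≤ (w (k + 1)).1 ∧ (w (k + 1)).1 ≤ (w k).1 + 6 ∧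
      (w k).2 + 1 ≤ (w (k + 1)).2 ∧ (w (k + 1)).2 ≤ (w k).2 + 6)
    (hN : ∀ k, k ≤ n → Nice φ t ψ (w k) 8 e Up) :
    ∃ (P H : Pth) (i : ℕ), Lane φ t ψ e Up H ((w n).1 - 8) ((w n).1 + 8) (w n).2 ∧ i ≤ H.n ∧
      P.lst = H.v i ∧ φ.x (H.v i) ≤ (w n).1 + 1 ∧ SC t ψ (2 * n * e) P ∧ P.tot t ≤ 2 * n * Up ∧
      P.fst ∈ Bx φ (w 0) 9 ∧ P.In {z | ∃ j, j ≤ n ∧ z ∈ Bx φ (w j) 9} := by
  induction n with
  | zero =>
    obtain ⟨H, hH⟩ := (hN 0 le_rfl).1 (w 0).2 (by linarith) (by linarith)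
    have hin : H.v 0 ∈ Bx φ (w 0) 9 :=
      Bx_mono_r φ _ (by norm_num) (hH.In (by linarith) (by linarith) 0 (Nat.zero_le _))
    have h0 : φ.x (H.v 0) ≤ (w 0).1 - 8 := hH.1.2.1
    exact ⟨Pth.nil (H.v 0), H, 0, hH, Nat.zero_le _, rfl, by linarith, SC.nil t ψ (by simp) _,
      by rw [Pth.nil_tot]; simp, hin, fun k _ => ⟨0, le_rfl, hin⟩⟩
  | succ n ih =>
    obtain ⟨P, H, i, hH, hi, e1, hx, hS, hT, hf, hI⟩ :=
      ih (fun k hk => hw k (by omega)) fun k hk => hN k (by omega)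
    obtain ⟨a1, a2, a3, a4⟩ := hw n (Nat.lt_succ_self n)
    obtain ⟨H', hH'⟩ := (hN (n + 1) le_rfl).1 (w (n + 1)).2 (by linarith) (by linarith)
    obtain ⟨V, hV⟩ := (hN (n + 1) le_rfl).2 (w (n + 1)).1 (by rw [Prod.snd_swap]; linarith)
      (by rw [Prod.snd_swap]; linarith)
    have v0 : φ.y (V.v 0) ≤ (w (n + 1)).2 - 8 := hV.1.2.1
    have v1 : (w (n + 1)).2 + 8 ≤ φ.y (V.v V.n) := hV.1.2.2
    have vx : ∀ k, k ≤ V.n → (w (n + 1)).1 ≤ φ.x (V.v k) ∧ φ.x (V.v k) ≤ (w (n + 1)).1 + 1 :=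
      fun k hk => ⟨(hV.1.1 k hk).1, (hV.1.1 k hk).2.1⟩
    have h1 : (w n).1 + 8 ≤ φ.x (H.v H.n) := hH.1.2.2
    have h0' : φ.x (H'.v 0) ≤ (w (n + 1)).1 - 8 := hH'.1.2.1
    have h1' : (w (n + 1)).1 + 8 ≤ φ.x (H'.v H'.n) := hH'.1.2.2
    obtain ⟨i', j, b1, b2, -, b4, b5⟩ := cross_idx hφ.det (P := H) (Q := V) hi le_rfl V.n.zero_le
      le_rfl (fun k _ hk => ⟨(hH.1.1 k hk).1, (hH.1.1 k hk).2.1⟩) (by linarith) (by linarith)
      (fun k _ hk => vx k hk) (by linarith) (by linarith)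
    have b6 : φ.y (V.v j) ≤ (w n).2 + 1 := b5 ▸ (hH.1.1 i' b2).2.1
    obtain ⟨i'', j', -, c2, c3, c4, c5⟩ := cross_idx hφ.det (P := H') (Q := V) H'.n.zero_le le_rfl
      b4 le_rfl (fun k _ hk => ⟨(hH'.1.1 k hk).1, (hH'.1.1 k hk).2.1⟩) (by linarith) (by linarith)
      (fun k _ hk => vx k hk) (by linarith) (by linarith)
    have j1 : P.lst = (H.sub i i').fst := by rw [Pth.sub_fst, e1]
    have j2 : (P.app (H.sub i i') j1).lst = (V.sub j j').fst := by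
      rw [Pth.app_lst, Pth.sub_lst _ b1 b2, Pth.sub_fst, b5]
    have iH : H.In (Bx φ (w n) 9) :=
      (hH.In (by linarith) (by linarith)).mono (Bx_mono_r φ _ (by norm_num))
    have iV : V.In (Bx φ (w (n + 1)) 9) := by
      have := (Lane.In (c := (w (n + 1)).swap) hV (by rw [Prod.snd_swap]; linarith)
        (by rw [Prod.snd_swap]; linarith)).mono (Bx_mono_r φ.swap _ (r' := 9) (by norm_num))
      rwa [Bx_swap] at this
    refine ⟨(P.app (H.sub i i') j1).app (V.sub j j') j2, H', i'', hH', c2, ?_, ?_, ?_, ?_, ?_, ?_⟩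
    · rw [Pth.app_lst, Pth.sub_lst _ c3 c4, c5]
    · rw [c5]; exact (vx j' c4).2
    · refine ((hS.app (hH.2.1.sub b1 b2) j1).app (hV.2.1.sub c3 c4) j2).mono (le_of_eq ?_)
      push_cast; ring
    · rw [Pth.app_tot, Pth.app_tot, Pth.sub_tot _ _ b1 b2, Pth.sub_tot _ _ c3 c4]
      have := H.cost_le_tot t i b2
      have := V.cost_le_tot t j c4
      have := hH.2.2
      have := hV.2.2
      push_cast; linarith
    · rwa [Pth.app_fst, Pth.app_fst]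
    · refine ((hI.mono ?_).app ((iH.sub b1 b2).mono ?_) j1).app ((iV.sub c3 c4).mono ?_) j2
      · exact fun z ⟨k, hk, hz⟩ => ⟨k, by omega, hz⟩
      · exact fun z hz => ⟨n, by omega, hz⟩
      · exact fun z hz => ⟨n + 1, le_rfl, hz⟩

theorem stairs (hφ : φ.OK) (w : ℕ → ℝ × ℝ) (n : ℕ)
    (hw : ∀ k, k < n → (w k).1 + 1 ≤ (w (k + 1)).1 ∧ (w (k + 1)).1 ≤ (w k).1 + 6 ∧
      (w k).2 + 1 ≤ (w (k + 1)).2 ∧ (w (k + 1)).2 ≤ (w k).2 + 6)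
    (hN : ∀ k, k ≤ n → Nice φ t ψ (w k) 8 e Up) :
    ∃ P : Pth, SC t ψ (2 * n * e) P ∧ P.tot t ≤ 2 * n * Up ∧ P.fst ∈ Bx φ (w 0) 9 ∧
      P.lst ∈ Bx φ (w n) 9 ∧ ∀ k, k ≤ P.n → ∃ j, j ≤ n ∧ P.v k ∈ Bx φ (w j) 9 := by
  obtain ⟨P, H, i, hH, hi, e1, -, hS, hT, hf, hI⟩ := c08_inv hφ w n hw hN
  refine ⟨P, hS, hT, hf, ?_, hI⟩
  rw [e1]
  exact Bx_mono_r φ _ (by norm_num) (hH.In (by linarith) (by linarith) i hi)

theorem chainH (hφ : φ.OK) {l ν r : ℝ} {c : ℝ × ℝ} (hl : 0 < l) (hl3 : l ≤ 1 / 3) (hν : 200 ≤ ν)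
    (hr : 1 ≤ r) (hN : ∀ w : ℝ × ℝ, |(shr l ν w).1 - c.1| ≤ r + 1 / 2 →
      |(shr l ν w).2 - c.2| ≤ r + 1 / 2 → Nice φ t ψ w 8 e Up) :
    NiceH (φ.shear l ν) t ψ c r (ν * (r + 1) / l * e) (ν * (r + 1) / l * Up) := by
  intro y hy0 hy1
  have hν0 : 0 < ν := by linarith
  have hl1 : 0 < 1 + l := by linarith
  obtain ⟨w0, hw0⟩ := shr_surj hl.ne' hν0.ne' (c.1 - r - 1 / 10, y + 1 / 2)
  obtain ⟨ρ, hρ⟩ : ∃ ρ, ρ = (1 - l) / (1 + l) := ⟨_, rfl⟩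
  obtain ⟨δ, hδ⟩ : ∃ δ, δ = 12 * l / (ν * (1 + l)) := ⟨_, rfl⟩
  have ρ1 : 1 / 2 ≤ ρ := by rw [hρ, le_div_iff₀ hl1]; linarith
  have ρ2 : ρ ≤ 1 := by rw [hρ, div_le_one hl1]; linarith
  have δ0 : 0 < δ := by rw [hδ]; positivity
  have δ1 : δ ≤ 1 / 10 := by rw [hδ, div_le_iff₀ (by positivity)]; nlinarith
  have hs : ∀ k : ℕ, shr l ν (w0 + ((6 * k : ℝ), 6 * ρ * k)) =
      (c.1 - r - 1 / 10 + k * δ, y + 1 / 2) := fun k => by
    rw [shr_add, hw0, Prod.mk_add_mk]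
    refine Prod.ext ?_ ?_
    · simp only [shr, hρ, hδ]; field_simp; ring
    · simp only [shr, hρ]; field_simp; ring
  obtain ⟨n, hn⟩ : ∃ n : ℕ, n = ⌈(2 * r + 1 / 5) / δ⌉₊ := ⟨_, rfl⟩
  have n1 : 2 * r + 1 / 5 ≤ n * δ := by rw [← div_le_iff₀ δ0, hn]; exact Nat.le_ceil _
  have n2 : n * δ ≤ 2 * r + 1 / 5 + δ := by
    have := (Nat.ceil_lt_add_one (show 0 ≤ (2 * r + 1 / 5) / δ by positivity)).le
    rw [← hn] at this
    have := mul_le_mul_of_nonneg_right this δ0.le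
    rwa [add_mul, div_mul_cancel₀ _ δ0.ne', one_mul] at this
  have hN' : ∀ k, k ≤ n → Nice φ t ψ (w0 + ((6 * k : ℝ), 6 * ρ * k)) 8 e Up := fun k hk => by
    have k1 : (k : ℝ) * δ ≤ n * δ := mul_le_mul_of_nonneg_right (Nat.cast_le.2 hk) δ0.le
    have k0 : 0 ≤ (k : ℝ) * δ := by positivity
    refine hN _ ?_ ?_ <;> rw [hs, abs_le] <;> constructor <;> dsimp only <;> linarith
  obtain ⟨he, hU⟩ := (hN' 0 n.zero_le).nonneg (by norm_num)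
  obtain ⟨P, hS, hT, hf, hl', hI⟩ := stairs hφ (fun k => w0 + ((6 * k : ℝ), 6 * ρ * k)) n
    (fun k _ => by
      simp only [Prod.fst_add, Prod.snd_add]
      push_cast
      refine ⟨?_, ?_, ?_, ?_⟩ <;> nlinarith) hN'
  have hb : ∀ (k : ℕ) (z : Z2), z ∈ Bx φ (w0 + ((6 * k : ℝ), 6 * ρ * k)) 9 →
      |(φ.shear l ν).x z - (c.1 - r - 1 / 10 + k * δ)| ≤ 1 / 20 ∧
      |(φ.shear l ν).y z - (y + 1 / 2)| ≤ 1 / 20 := fun k z hz => by
    have := Bx_shear φ hl.le (by linarith) hν0 _ _ hz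
    rw [hs] at this
    exact Bx_mono_r _ _ (by rw [div_le_iff₀ hν0]; linarith) this
  have f0 := (abs_le.1 (hb 0 _ hf).1).2
  have f1 := (abs_le.1 (hb n _ hl').1).1
  rw [Nat.cast_zero, zero_mul] at f0
  obtain ⟨a, b, -, hab, hb', hH⟩ := restr_HC (hφ.shear hl (by linarith) (by linarith : 1 ≤ ν)) P
    P.n.zero_le le_rfl (x0 := c.1 - r) (x1 := c.1 + r) (y0 := y) (y1 := y + 1) (by linarith)
    (by change (φ.shear l ν).x P.fst ≤ _; linarith) (by change _ ≤ (φ.shear l ν).x P.lst; linarith)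
    fun k _ hk => by
      obtain ⟨j, -, hj⟩ := hI k hk
      have := abs_le.1 (hb j _ hj).2
      constructor <;> linarith [this.1, this.2]
  have hn2 : 2 * (n : ℝ) ≤ ν * (r + 1) / l := by
    have e1 : δ * (ν * (1 + l)) = 12 * l := by rw [hδ]; field_simp
    have e2 : (n * δ) * (ν * (1 + l)) ≤ (2 * r + 1 / 5 + δ) * (ν * (1 + l)) :=
      mul_le_mul_of_nonneg_right n2 (by positivity)
    rw [mul_assoc, e1, add_mul, e1] at e2
    have e3 : (2 * r + 1 / 5) * (ν * (1 + l)) ≤ (2 * r + 1 / 5) * (ν * (4 / 3)) := by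
      gcongr; linarith
    rw [le_div_iff₀ hl]
    nlinarith
  refine ⟨P.sub a b, hH, (hS.sub hab hb').mono (mul_le_mul_of_nonneg_right hn2 he), ?_⟩
  rw [Pth.sub_tot _ _ hab hb']
  exact ((P.cost_le_tot t a hb').trans hT).trans (mul_le_mul_of_nonneg_right hn2 hU)

/-- long lanes in a sheared chart -/
theorem chain (hφ : φ.OK) {l ν r : ℝ} {c : ℝ × ℝ} (hl : 0 < l) (hl3 : l ≤ 1 / 3) (hν : 200 ≤ ν)
    (hr : 1 ≤ r) (hN : ∀ w : ℝ × ℝ, |(shr l ν w).1 - c.1| ≤ r + 1 / 2 →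
      |(shr l ν w).2 - c.2| ≤ r + 1 / 2 → Nice φ t ψ w 8 e Up) :
    Nice (φ.shear l ν) t ψ c r (ν * (r + 1) / l * e) (ν * (r + 1) / l * Up) := by
  refine ⟨chainH hφ hl hl3 hν hr hN, ?_⟩
  rw [Chart.shear_swap]
  refine chainH hφ.swap hl hl3 hν hr fun w h1 h2 => ?_
  have := (hN w.swap (by rw [shr_swap]; exact h2) (by rw [shr_swap]; exact h1)).swap
  rwa [Prod.swap_swap] at this

theorem upnice (hφ : φ.OK) {l ν r : ℝ} {c : ℝ × ℝ} (hl : 0 < l) (hl3 : l ≤ 1 / 3 ∨ l = 1)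
    (hν : 200 ≤ ν) (hr : 13 * ν / l + 8 ≤ r) (hN : Nice φ t ψ c r e Up) :
    Nice (φ.shear l ν) t ψ (shr l ν c) 12 (13 * ν / l * e) (13 * ν / l * Up) := by
  have hν0 : 0 < ν := by linarith
  have h0 : 0 < 13 * ν / l := by positivity
  rcases hl3 with hl3 | rfl
  · have e1 : 13 * ν / l = ν * (12 + 1) / l := by ring
    rw [e1]
    refine chain hφ hl hl3 hν (by norm_num) fun w h1 h2 => ?_
    rw [← Prod.fst_sub, ← shr_sub] at h1
    rw [← Prod.snd_sub, ← shr_sub] at h2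
    obtain ⟨k1, k2⟩ := shr_ge hl (by linarith) hν0 h1 h2
    have k3 : (12 + 1 / 2) * ν / l ≤ 13 * ν / l := by gcongr; norm_num
    rw [Prod.fst_sub] at k1
    rw [Prod.snd_sub] at k2
    exact hN.restrict hφ (by linarith) (by linarith)
  · rw [div_one] at hr h0 ⊢
    obtain ⟨he, hU⟩ := hN.nonneg (by linarith)
    have e1 : ν • shr 1 ν c = c := by
      rw [shr_one hν0.ne']
      refine Prod.ext ?_ ?_ <;> simp only [Prod.smul_mk, smul_eq_mul] <;> field_simp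
    refine (Nice.scale (by linarith : 1 ≤ ν) (hN.restrict hφ ?_ ?_)).mono ?_ ?_
    · rw [e1, sub_self, abs_zero]; linarith
    · rw [e1, sub_self, abs_zero]; linarith
    · nlinarith
    · nlinarith

end

end Crest.Agent.R151.C
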