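import Crest.Agent.R151.C05

/-! Row 151 (C): from a reference potential to a solution -/

set_option autoImplicit false

open MeasureTheory Set Filter Topology
open Crest.ProbabilityR.FirstPassage
open Crest.Agent.R151.B

namespace Crest.Agent.R151.C

noncomputable section

variable {φ : Chart} {t : Env} {ψ : Z2 → ℝ} {c : ℝ × ℝ} {r e Up : ℝ}

/-- a full lane of the box, horizontal or vertical -/
def FullL (φ : Chart) (t : Env) (ψ : Z2 → ℝ) (c : ℝ × ℝ) (r e Up : ℝ) (P : Pth) : Prop :=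
  (∃ y, c.2 - r ≤ y ∧ y + 1 ≤ c.2 + r ∧ Lane φ t ψ e Up P (c.1 - r) (c.1 + r) y) ∨
  ∃ y, c.1 - r ≤ y ∧ y + 1 ≤ c.1 + r ∧ Lane φ.swap t ψ e Up P (c.2 - r) (c.2 + r) y

theorem C09_In {P : Pth} (h : FullL φ t ψ c r e Up P) :
    P.In (Bx φ c (r + 1 / 10)) ∧ P.tot t ≤ Up ∧ SC t ψ e P := by
  rcases h with ⟨y, h0, h1, h⟩ | ⟨y, h0, h1, h⟩
  · exact ⟨h.In h0 h1, h.2.2, h.2.1⟩
  · refine ⟨?_, h.2.2, h.2.1⟩
    rw [← Bx_swap]
    exact Lane.In (c := c.swap) h h0 h1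

theorem C09_cross (hφ : φ.OK) {P Q : Pth} {x y : ℝ} (h0 : c.2 - r ≤ y) (h1 : y + 1 ≤ c.2 + r)
    (hP : Lane φ t ψ e Up P (c.1 - r) (c.1 + r) y) (h2 : c.1 - r ≤ x) (h3 : x + 1 ≤ c.1 + r)
    (hQ : Lane φ.swap t ψ e Up Q (c.2 - r) (c.2 + r) x) :
    ∃ i j, i ≤ P.n ∧ j ≤ Q.n ∧ P.v i = Q.v j := by
  obtain ⟨⟨a1, a2, a3⟩, -⟩ := hP
  obtain ⟨⟨b1, b2, b3⟩, -⟩ := hQ
  simp only [Chart.swap_x, Chart.swap_y] at b1 b2 b3
  exact cross (x0 := x) (x1 := x + 1) (y0 := y) (y1 := y + 1) hφ.det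
    (fun k hk => ⟨(a1 k hk).1, (a1 k hk).2.1⟩) (by linarith) (by linarith)
    (fun k hk => ⟨(b1 k hk).1, (b1 k hk).2.1⟩) (by linarith) (by linarith)

theorem C09_mid (hφ : φ.OK) (hr : 1 ≤ r) (hN : Nice φ t ψ c r e Up) {P P' : Pth}
    (h : FullL φ t ψ c r e Up P) (h' : FullL φ t ψ c r e Up P') :
    ∃ V, FullL φ t ψ c r e Up V ∧ (∃ i j, i ≤ P.n ∧ j ≤ V.n ∧ P.v i = V.v j) ∧
      ∃ i j, i ≤ V.n ∧ j ≤ P'.n ∧ V.v i = P'.v j := by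
  rcases h with ⟨y, h0, h1, h⟩ | ⟨y, h0, h1, h⟩ <;>
    rcases h' with ⟨y', h0', h1', h'⟩ | ⟨y', h0', h1', h'⟩
  · obtain ⟨V, hV⟩ := hN.2 (c.1 - r) le_rfl (by simp only [Prod.snd_swap]; linarith)
    have e1 : c.1 - r + 1 ≤ c.1 + r := by linarith
    refine ⟨V, Or.inr ⟨_, le_rfl, e1, hV⟩, C09_cross hφ h0 h1 h le_rfl e1 hV, ?_⟩
    obtain ⟨i, j, hi, hj, hij⟩ := C09_cross hφ h0' h1' h' le_rfl e1 hV
    exact ⟨j, i, hj, hi, hij.symm⟩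
  · exact ⟨P, Or.inl ⟨y, h0, h1, h⟩, ⟨0, 0, Nat.zero_le _, Nat.zero_le _, rfl⟩,
      C09_cross hφ h0 h1 h h0' h1' h'⟩
  · refine ⟨P, Or.inr ⟨y, h0, h1, h⟩, ⟨0, 0, Nat.zero_le _, Nat.zero_le _, rfl⟩, ?_⟩
    obtain ⟨i, j, hi, hj, hij⟩ := C09_cross hφ h0' h1' h' h0 h1 h
    exact ⟨j, i, hj, hi, hij.symm⟩
  · obtain ⟨V, hV⟩ := hN.1 (c.2 - r) le_rfl (by linarith)
    have e1 : c.2 - r + 1 ≤ c.2 + r := by linarith
    refine ⟨V, Or.inl ⟨_, le_rfl, e1, hV⟩, ?_, C09_cross hφ le_rfl e1 hV h0' h1' h'⟩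
    obtain ⟨i, j, hi, hj, hij⟩ := C09_cross hφ le_rfl e1 hV h0 h1 h
    exact ⟨j, i, hj, hi, hij.symm⟩

/-- points of lanes are joined along at most three lanes -/
theorem FullL.join (hφ : φ.OK) (hr : 1 ≤ r) (hN : Nice φ t ψ c r e Up) {P P' : Pth}
    (h : FullL φ t ψ c r e Up P) (h' : FullL φ t ψ c r e Up P') {i i' : ℕ} (hi : i ≤ P.n)
    (hi' : i' ≤ P'.n) : ∃ Q : Pth, Q.fst = P.v i ∧ Q.lst = P'.v i' ∧ Q.In (Bx φ c (r + 1 / 10)) ∧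
      Q.tot t ≤ 3 * Up := by
  obtain ⟨V, hV, ⟨a, b, ha, hb, hab⟩, ⟨a', b', ha', hb', hab'⟩⟩ := C09_mid hφ hr hN h h'
  obtain ⟨Q1, p1, p2, p3, p4⟩ := P.join hi ha
  obtain ⟨Q2, q1, q2, q3, q4⟩ := V.join hb ha'
  obtain ⟨Q3, r1, r2, r3, r4⟩ := P'.join hb' hi'
  obtain ⟨u1, u2, -⟩ := C09_In h
  obtain ⟨v1, v2, -⟩ := C09_In hV
  obtain ⟨w1, w2, -⟩ := C09_In h'
  have e1 : Q1.lst = Q2.fst := by rw [p2, q1, hab]
  have e2 : (Q1.app Q2 e1).lst = Q3.fst := by rw [Pth.app_lst, q2, r1, hab']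
  refine ⟨(Q1.app Q2 e1).app Q3 e2, ?_, ?_, ?_, ?_⟩
  · rw [Pth.app_fst, Pth.app_fst, p1]
  · rw [Pth.app_lst, r2]
  · exact ((p4 _ u1).app (q4 _ v1) e1).app (r4 _ w1) e2
  · rw [Pth.app_tot, Pth.app_tot]
    linarith [p3 t, q3 t, r3 t]

theorem solify (hφ : φ.OK) (hr : 3 ≤ r) (hUp : 0 < Up) (h : PRef φ t ψ c r e Up) :
    ∃ B, Sol t (Bx φ c (r - 1)) B ∧ Nice φ t B c (r - 2) (6 * e) Up := by
  obtain ⟨hN, hA⟩ := h
  have he : 0 ≤ e := (hN.nonneg (by linarith)).1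
  obtain ⟨B, h1, h2⟩ := dist t (Bx_fin hφ.det c (r + 1 / 2))
    {z | ∃ P, FullL φ t ψ c r e Up P ∧ P.lst = z} ψ
  have hsub : Bx φ c (r + 1 / 10) ⊆ Bx φ c (r + 1 / 2) := Bx_mono_r φ c (by linarith)
  have key : ∀ P, FullL φ t ψ c r e Up P → ∀ i, i ≤ P.n →
      B (P.v i) ≤ ψ (P.v i) + e ∧ ψ (P.v i) - 4 * e ≤ B (P.v i) := by
    intro P hP i hi
    obtain ⟨u1, -, u3⟩ := C09_In hP
    have a1 : (P.sub i P.n).In (Bx φ c (r + 1 / 2)) := (u1.sub hi le_rfl).mono hsub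
    have a2 : (P.sub i P.n).lst ∈ {z | ∃ P, FullL φ t ψ c r e Up P ∧ P.lst = z} :=
      ⟨P, hP, (P.sub_lst hi le_rfl).symm⟩
    constructor
    · have b1 := h1 _ a1 a2
      have b2 := u3 i P.n hi le_rfl
      rw [Pth.sub_fst, P.sub_lst hi le_rfl, P.sub_tot t hi le_rfl] at b1
      linarith
    · obtain ⟨Q, q1, q2, ⟨P', hP', q3⟩, q4⟩ := h2 _ a1 a2
      rw [Pth.sub_fst] at q1 q4
      obtain ⟨Q', r1, r2, r3, r4⟩ := hP.join hφ (by linarith) hN hP' hi le_rfl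
      have r2' : Q'.lst = Q.lst := r2.trans q3
      have b1 := h1 Q' (r3.mono hsub) ⟨P', hP', r2.symm⟩
      rw [r1, r2'] at b1
      have b2 := hA Q q2
      rw [q1] at b2
      have b3 : Q.tot t / Up ≤ 3 := by
        rw [div_le_iff₀ hUp]
        linarith
      have b4 : e * (Q.tot t / Up + 1) ≤ e * 4 := mul_le_mul_of_nonneg_left (by linarith) he
      linarith
  have hSC : ∀ P, FullL φ t ψ c r e Up P → SC t B (6 * e) P := by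
    intro P hP i j hij hj
    have b1 := (C09_In hP).2.2 i j hij hj
    have b2 := (key P hP i (hij.trans hj)).2
    have b3 := (key P hP j hj).1
    linarith
  refine ⟨B, dist_sol h1 h2 (Bx_mono_r φ c (by linarith)) ?_ ?_, ?_⟩
  · rw [Set.disjoint_left]
    rintro z ⟨z1, z2⟩ ⟨P, hP, rfl⟩
    rcases hP with ⟨y, -, -, hP⟩ | ⟨y, -, -, hP⟩
    · have b1 := hP.1.2.2
      have b2 := le_abs_self (φ.x P.lst - c.1)
      linarith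
    · have b1 := hP.1.2.2
      rw [Chart.swap_x] at b1
      have b2 := le_abs_self (φ.y P.lst - c.2)
      linarith
  · intro x hx
    obtain ⟨V, hV⟩ := hN.1 (c.2 - r) le_rfl (by linarith)
    have hV' : FullL φ t ψ c r e Up V := Or.inl ⟨_, le_rfl, by linarith, hV⟩
    obtain ⟨P, p1, p2, -, -, p3⟩ := conn hφ (Bx_mono_r φ c (by linarith) hx) (C09_In hV').1.lst
    exact ⟨P, p1, p3.mono (Bx_mono_r φ c (by linarith)), V, hV', p2.symm⟩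
  · have hB : Nice φ t B c r (6 * e) Up := by
      refine ⟨fun y y0 y1 => ?_, fun y y0 y1 => ?_⟩
      · obtain ⟨P, hP⟩ := hN.1 y y0 y1
        exact ⟨P, hP.1, hSC P (Or.inl ⟨y, y0, y1, hP⟩), hP.2.2⟩
      · obtain ⟨P, hP⟩ := hN.2 y y0 y1
        exact ⟨P, hP.1, hSC P (Or.inr ⟨y, y0, y1, hP⟩), hP.2.2⟩
    exact hB.restrict hφ (by rw [sub_self, abs_zero]; linarith) (by rw [sub_self, abs_zero]; linarith)

end

end Crest.Agent.R151.C
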