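import Crest.Agent.R151.C07b
import Crest.Agent.R151.C08
import Crest.Agent.R151.C09

/-! Row 151 (C): patching in the sheared chart -/

set_option autoImplicit false

open MeasureTheory Set Filter Topology
open Crest.ProbabilityR.FirstPassage
open Crest.Agent.R151.B

namespace Crest.Agent.R151.C

noncomputable section

variable {φ : Chart} {t : Env} {c : ℝ × ℝ} {τ Lo K : ℝ}

theorem C10_shr (w : ℝ × ℝ) : (shr (1 / 3) 1 w).1 = 200 * (shr (1 / 3) 200 w).1 ∧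
    (shr (1 / 3) 1 w).2 = 200 * (shr (1 / 3) 200 w).2 := by
  constructor
  · show ((1 + 1 / 3) * w.1 - (1 - 1 / 3) * w.2) / (2 * 1) =
      200 * (((1 + 1 / 3) * w.1 - (1 - 1 / 3) * w.2) / (2 * 200))
    ring
  · show ((1 + 1 / 3) * w.2 - (1 - 1 / 3) * w.1) / (2 * 1) =
      200 * (((1 + 1 / 3) * w.2 - (1 - 1 / 3) * w.1) / (2 * 200))
    ring

theorem C10_scale (φ : Chart) {ν ν' μ : ℝ} (hν : ν ≠ 0) (hν' : ν' ≠ 0) (h : ν * ν' = μ) :
    φ.shear (1 / 3) μ = (φ.shear (1 / 3) ν).scale ν' := by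
  show _ = (φ.shear (1 / 3) ν).shear 1 ν'
  rw [φ.shear_shear hν hν', mul_one, h]

theorem pref (hφ : φ.OK) {R : ℕ} (hR : 1 ≤ R) (hLo : 0 < Lo) (hK : 1 ≤ K)
    (ht : t ∈ AllGood φ ((200 : ℝ) • c) (200 * R + 110) τ Lo (K * Lo)) :
    ∃ ψ, PRef (φ.shear (1 / 3) 200) t ψ c R (2 * 10 ^ 9 * (R + 1) ^ 2 * K * τ)
      (600 * (R + 1) * K * Lo) := by
  obtain ⟨ψ, h1, h2⟩ := psi hφ (by omega) hLo ht
  have hτ : 0 ≤ τ := by
    obtain ⟨⟨B, -, hB⟩, -⟩ := ht 0 (by simp only [Prod.fst_zero, abs_zero]; positivity)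
      (by simp only [Prod.snd_zero, abs_zero]; positivity)
    exact (hB.nonneg (by norm_num)).1
  have hR' : (1 : ℝ) ≤ R := by exact_mod_cast hR
  have hN : ((200 * R + 110 : ℕ) : ℝ) = 200 * R + 110 := by push_cast; ring
  rw [hN] at h1 h2
  have hKτ : τ ≤ K * τ := le_mul_of_one_le_left hτ hK
  have hRτ : 0 ≤ (R + 1 : ℝ) * τ := by positivity
  have a1 : (10 : ℝ) ^ 4 * (200 * R + 110) * τ ≤ 2 * 10 ^ 6 * ((R + 1) * τ) := by nlinarith
  have a2 : (R + 1 : ℝ) * ((R + 1) * τ) ≤ (R + 1) ^ 2 * K * τ := by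
    have := mul_le_mul_of_nonneg_left hKτ (sq_nonneg (R + 1 : ℝ))
    linarith
  refine ⟨ψ, (chain hφ (by norm_num) le_rfl le_rfl hR' fun w a b => h1 w ?_ ?_).mono ?_ ?_,
    fun P hP => ?_⟩
  · rw [(C10_shr w).1, Prod.smul_fst, smul_eq_mul, ← mul_sub, abs_mul, abs_of_pos (by norm_num)]
    linarith
  · rw [(C10_shr w).2, Prod.smul_snd, smul_eq_mul, ← mul_sub, abs_mul, abs_of_pos (by norm_num)]
    linarith
  · have := mul_le_mul_of_nonneg_left a1 (show (0 : ℝ) ≤ R + 1 by positivity)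
    have a3 : 0 ≤ (R + 1 : ℝ) * ((R + 1) * τ) := by positivity
    linarith
  · exact le_of_eq (by ring)
  · rw [C10_scale φ one_ne_zero (by norm_num : (200 : ℝ) ≠ 0) (one_mul _),
      Bx_scale _ (by norm_num)] at hP
    refine (h2 P (hP.mono (Bx_mono_r _ _ (by linarith)))).trans ?_
    have b0 : 0 ≤ P.tot t / Lo := div_nonneg (P.tot_nonneg t) hLo.le
    have hK0 : 0 < K := by linarith
    have b1 : 2 * 10 ^ 9 * (R + 1 : ℝ) ^ 2 * K * τ * (P.tot t / (600 * (R + 1) * K * Lo) + 1) =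
        2 * 10 ^ 9 / 600 * ((R + 1) * τ * (P.tot t / Lo)) + 2 * 10 ^ 9 * ((R + 1) ^ 2 * K * τ) := by
      field_simp
    have b2 := mul_le_mul_of_nonneg_right a1 b0
    have b3 := mul_nonneg hRτ b0
    have b4 : (R + 1 : ℝ) * τ ≤ (R + 1) * ((R + 1) * τ) := le_mul_of_one_le_left hRτ (by linarith)
    rw [b1]
    linarith

theorem patchsol (hφ : φ.OK) (r : ℕ) (hLo : 0 < Lo) (hK : 1 ≤ K)
    (ht : t ∈ AllGood φ ((800 : ℝ) • c) (800 * r + 1110) τ Lo (K * Lo)) :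
    ∃ B, Sol t (Bx (φ.shear (1 / 3) 800) c (r + 1)) B ∧
      Nice (φ.shear (1 / 3) 800) t B c r (12 * 10 ^ 9 * (4 * r + 6) ^ 2 * K * τ)
        (600 * (4 * r + 6) * K * Lo) := by
  have e1 : (800 : ℝ) • c = (200 : ℝ) • ((4 : ℝ) • c) := by
    rw [smul_smul]
    norm_num
  have e2 : 800 * r + 1110 = 200 * (4 * r + 5) + 110 := by omega
  rw [e1, e2] at ht
  obtain ⟨ψ, h⟩ := pref hφ (by omega) hLo hK ht
  have hr : (0 : ℝ) ≤ r := Nat.cast_nonneg r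
  have e3 : ((4 * r + 5 : ℕ) : ℝ) = 4 * r + 5 := by push_cast; ring
  rw [e3] at h
  have hK0 : 0 < K := by linarith
  have ho : (φ.shear (1 / 3) 200).OK := hφ.shear (by norm_num) (by norm_num) (by norm_num)
  obtain ⟨B, h1, h2⟩ := solify ho (by linarith) (by positivity) h
  rw [C10_scale φ (by norm_num : (200 : ℝ) ≠ 0) (by norm_num : (4 : ℝ) ≠ 0) (by norm_num),
    Bx_scale _ (by norm_num)]
  refine ⟨B, ?_, Nice.scale (by norm_num) ((h2.restrict ho ?_ ?_).mono (le_of_eq ?_) (le_of_eq ?_))⟩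
  · rwa [show (4 : ℝ) * r + 5 - 1 = 4 * (r + 1) by ring] at h1
  · rw [sub_self, abs_zero]
    linarith
  · rw [sub_self, abs_zero]
    linarith
  · ring
  · ring

end

end Crest.Agent.R151.C
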