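import Crest.Agent.R151.C05

/-! Row 151 (C): boost, deterministic part -/

set_option autoImplicit false

open MeasureTheory Set Filter Topology
open Crest.ProbabilityR.FirstPassage
open Crest.Agent.R151.B

namespace Crest.Agent.R151.C

noncomputable section

variable {ζ : Chart} {t : Env} {B ψ : Z2 → ℝ} {cb : ℝ × ℝ} {y Upb e Up m A : ℝ}

theorem C11_swap (φ : Chart) (ν : ℝ) : (φ.scale ν).swap = φ.swap.scale ν :=
  Chart.shear_swap φ 1 ν

theorem C11_neg (φ : Chart) (ν : ℝ) : (φ.scale ν).neg = φ.neg.scale ν :=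
  Chart.shear_neg φ 1 ν

theorem C11_big (hζ : ζ.OK) {P : Pth} {X0 X1 Y x0 x1 : ℝ}
    (h : Lane (ζ.scale 512) t B y Upb P X0 X1 Y) (h0 : 512 * X0 ≤ x0) (h01 : x0 ≤ x1)
    (h1 : x1 ≤ 512 * X1) :
    ∃ Q : Pth, HC ζ Q x0 x1 (512 * Y) (512 * Y + 512) ∧ SC t B y Q ∧ Q.tot t ≤ Upb := by
  obtain ⟨⟨hb, hf, hl⟩, hs, ht⟩ := h
  have h5 : (512 : ℝ) ≠ 0 := by norm_num
  rw [Chart.scale_x _ h5] at hf hl
  have hf' : ζ.x (P.v 0) ≤ x0 := by
    have : ζ.x (P.v 0) / 512 ≤ X0 := hf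
    linarith
  have hl' : x1 ≤ ζ.x (P.v P.n) := by
    have : X1 ≤ ζ.x (P.v P.n) / 512 := hl
    linarith
  obtain ⟨a, b, -, hab, hbn, hH⟩ := restr_HC (y0 := 512 * Y) (y1 := 512 * Y + 512) hζ P
    (Nat.zero_le P.n) le_rfl h01 hf' hl' fun k _ hk => by
      obtain ⟨k1, k2, -, -⟩ := hb k hk
      rw [Chart.scale_y _ h5] at k1 k2
      constructor <;> linarith
  refine ⟨P.sub a b, hH, hs.sub hab hbn, ?_⟩
  rw [P.sub_tot t hab hbn]
  exact (P.cost_le_tot t a hbn).trans ht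

/-- sandwich above the line of height `m` -/
theorem bd_up (hζ : ζ.OK) (hUp : 0 < Up) (hS : Sub t (Bx (ζ.scale 512) cb 31) B)
    (hN : Nice (ζ.scale 512) t B cb 30 y Upb) (hm : |m - 512 * cb.2| ≤ 256)
    (hA : |A - 512 * cb.1| ≤ 160) (hψ : PRef ζ t ψ (512 * cb.1, m + 4 / 5 + 1100) 1100 e Up) :
    ∃ P : Pth, HC ζ P (A - 120) (A + 120) (m - 9 / 5) (m + 9 / 5) ∧
      SC t B (2 * y + 3 * e + 2 * e * Upb / Up) P ∧ P.tot t ≤ Up := by
  rw [abs_le] at hm hA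
  obtain ⟨hm1, hm2⟩ := hm
  obtain ⟨hA1, hA2⟩ := hA
  have h5 : (0 : ℝ) < 512 := by norm_num
  obtain ⟨V, hV⟩ := hN.2 (cb.1 - 2) (by simp only [Prod.snd_swap]; linarith)
    (by simp only [Prod.snd_swap]; linarith)
  rw [C11_swap] at hV
  simp only [Prod.fst_swap] at hV
  obtain ⟨V2, ⟨v2b, v2f, v2l⟩, v2s, v2t⟩ := C11_big (x0 := m + 4 / 5) (x1 := 512 * cb.2 + 1024)
    hζ.swap hV (by linarith) (by linarith) (by linarith)
  obtain ⟨H, hH⟩ := hN.1 (cb.2 + 1) (by linarith) (by linarith)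
  obtain ⟨H2, ⟨h2b, h2f, h2l⟩, h2s, h2t⟩ := C11_big (x0 := 512 * cb.1 - 1024)
    (x1 := 512 * cb.1 + 300) hζ hH (by linarith) (by linarith) (by linarith)
  obtain ⟨H1, ⟨h1b, h1f, h1l⟩, h1s, h1t⟩ := hψ.1.1 (m + 4 / 5) (by simp only; linarith)
    (by simp only; linarith)
  obtain ⟨V1, ⟨v1b, v1f, v1l⟩, v1s, v1t⟩ := hψ.1.2 (512 * cb.1 + 290)
    (by simp only [Prod.snd_swap]; linarith) (by simp only [Prod.snd_swap]; linarith)
  simp only [Chart.swap_x, Chart.swap_y, Prod.fst_swap] at v2b v2f v2l v1b v1f v1l h1b h1f h1l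
  obtain ⟨i1, i2, l1, l2, j1, j2, k1, k2, hi, hi', hl, hl', hj, hj', hk, hk', e1, e2, e3, e4⟩ :=
    rect (H1 := H1) (V1 := V1) (V2 := V2) (H2 := H2) (xa := 512 * cb.1 - 1024)
      (xa' := 512 * cb.1 - 512) (xb := 512 * cb.1 + 290) (xb' := 512 * cb.1 + 291)
      (ya := m + 4 / 5) (ya' := m + 9 / 5) (yb := 512 * cb.2 + 512) (yb' := 512 * cb.2 + 1024)
      hζ.det (by linarith) (by linarith)
      (fun k hk => by obtain ⟨a, b, -, -⟩ := h1b k hk; constructor <;> linarith)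
      (by linarith) (by linarith)
      (fun k hk => by obtain ⟨a, b, -, -⟩ := h2b k hk; constructor <;> linarith)
      (by linarith) (by linarith)
      (fun k hk => by obtain ⟨a, b, -, -⟩ := v1b k hk; constructor <;> linarith)
      (by linarith) (by linarith)
      (fun k hk => by obtain ⟨a, b, -, -⟩ := v2b k hk; constructor <;> linarith)
      (by linarith) (by linarith)
  have he : 0 ≤ e := h1s.nonneg
  have hj2 : (V2.sub j1 j2).lst = (H2.sub k1 k2).fst := by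
    rw [V2.sub_lst hj hj', Pth.sub_fst, e3]
  have hV2 : V2.In (Bx ζ (512 * cb.1, m + 4 / 5 + 1100) (1100 + 1 / 2)) := fun k hk => by
    obtain ⟨a, b, c, d⟩ := v2b k hk
    constructor <;> rw [abs_le] <;> constructor <;> simp only <;> linarith
  have hH2 : H2.In (Bx ζ (512 * cb.1, m + 4 / 5 + 1100) (1100 + 1 / 2)) := fun k hk => by
    obtain ⟨a, b, c, d⟩ := h2b k hk
    constructor <;> rw [abs_le] <;> constructor <;> simp only <;> linarith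
  have hA := hψ.2 _ ((hV2.sub hj hj').app (hH2.sub hk hk') hj2)
  rw [Pth.app_fst, Pth.app_lst, Pth.app_tot, Pth.sub_fst, H2.sub_lst hk hk', V2.sub_tot t hj hj',
    H2.sub_tot t hk hk'] at hA
  have c1 := v2s j1 j2 hj hj'
  have c2 := h2s k1 k2 hk hk'
  have c3 := h1s i1 i2 hi hi'
  have c4 := v1s l1 l2 hl hl'
  have c5 := (V2.cost_le_tot t j1 hj').trans v2t
  have c6 := (H2.cost_le_tot t k1 hk').trans h2t
  have c7 : e * ((V2.cost t j1 j2 + H2.cost t k1 k2) / Up + 1) ≤ e + 2 * e * Upb / Up := by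
    have : (V2.cost t j1 j2 + H2.cost t k1 k2) / Up ≤ 2 * Upb / Up :=
      div_le_div_of_nonneg_right (by linarith) hUp.le
    have := mul_le_mul_of_nonneg_left this he
    have e5 : 2 * e * Upb / Up = e * (2 * Upb / Up) := by ring
    rw [e5]
    linarith
  rw [Bx_scale _ h5] at hS
  have hH1 : H1.In (Bx ζ ((512 : ℝ) • cb) (512 * 31)) := fun k hk => by
    obtain ⟨a, b, c, d⟩ := h1b k hk
    constructor <;> rw [abs_le] <;> constructor <;>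
      simp only [Prod.smul_fst, Prod.smul_snd, smul_eq_mul] <;> linarith
  have hV1 : V1.In (Bx ζ ((512 : ℝ) • cb) (512 * 31)) := fun k hk => by
    obtain ⟨a, b, c, d⟩ := v1b k hk
    constructor <;> rw [abs_le] <;> constructor <;>
      simp only [Prod.smul_fst, Prod.smul_snd, smul_eq_mul] <;> linarith
  have c8 := hS.cost hV1 hl hl'
  have hsc : SC t B (2 * y + 3 * e + 2 * e * Upb / Up) (H1.sub i1 i2) := by
    refine hS.sc (hH1.sub hi hi') ?_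
    rw [H1.sub_tot t hi hi', Pth.sub_fst, H1.sub_lst hi hi']
    rw [← e1, ← e4] at hA
    rw [← e1, e3] at c1
    rw [← e4] at c2
    rw [← e2] at c4 c8
    linarith
  have hx0 : ζ.x ((H1.sub i1 i2).v 0) ≤ A - 120 := by
    have : (H1.sub i1 i2).v 0 = V2.v j1 := (H1.sub_fst i1 i2).trans e1
    rw [this]
    obtain ⟨a, b, -, -⟩ := v2b j1 (hj.trans hj')
    linarith
  have hx1 : A + 120 ≤ ζ.x ((H1.sub i1 i2).v (H1.sub i1 i2).n) := by
    have : (H1.sub i1 i2).v (H1.sub i1 i2).n = V1.v l1 := (H1.sub_lst hi hi').trans e2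
    rw [this]
    obtain ⟨a, b, -, -⟩ := v1b l1 (hl.trans hl')
    linarith
  obtain ⟨a, b, -, hab, hbn, hP⟩ := restr_HC (y0 := m - 9 / 5) (y1 := m + 9 / 5) hζ (H1.sub i1 i2)
    (Nat.zero_le _) le_rfl (by linarith) hx0 hx1 fun k _ hk => by
      rw [H1.sub_n i1 hi'] at hk
      rw [H1.sub_v hi' hk]
      obtain ⟨a, b, -, -⟩ := h1b (i1 + k) (by omega)
      constructor <;> linarith
  refine ⟨_, hP, hsc.sub hab hbn, ?_⟩
  rw [Pth.sub_tot _ t hab hbn]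
  refine (Pth.cost_le_tot _ t a hbn).trans ?_
  rw [H1.sub_tot t hi hi']
  exact (H1.cost_le_tot t i1 hi').trans h1t

theorem bd_down (hζ : ζ.OK) (hUp : 0 < Up) (hS : Sub t (Bx (ζ.scale 512) cb 31) B)
    (hN : Nice (ζ.scale 512) t B cb 30 y Upb) (hm : |m - 512 * cb.2| ≤ 256)
    (hA : |A - 512 * cb.1| ≤ 160) (hψ : PRef ζ t ψ (512 * cb.1, m - 4 / 5 - 1100) 1100 e Up) :
    ∃ P : Pth, HC ζ P (A - 120) (A + 120) (m - 9 / 5) (m + 9 / 5) ∧
      SC t B (2 * y + 3 * e + 2 * e * Upb / Up) P ∧ P.tot t ≤ Up := by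
  have hS' : Sub t (Bx (ζ.neg.scale 512) (-cb) 31) fun z => -B z := by
    rw [← C11_neg, Bx_neg]; exact hS.neg
  have hN' : Nice (ζ.neg.scale 512) t (fun z => -B z) (-cb) 30 y Upb := by
    rw [← C11_neg]; exact hN.neg
  have hψ' : PRef ζ.neg t (fun z => -ψ z) (512 * (-cb).1, -m + 4 / 5 + 1100) 1100 e Up := by
    have : ((512 * (-cb).1, -m + 4 / 5 + 1100) : ℝ × ℝ) = -(512 * cb.1, m - 4 / 5 - 1100) := by
      ext <;> simp only [Prod.fst_neg, Prod.snd_neg] <;> ring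
    rw [this]; exact hψ.neg
  obtain ⟨P, h1, h2, h3⟩ := bd_up (A := -A) hζ.neg hUp hS' hN'
    (by rw [Prod.snd_neg, ← abs_neg]; convert hm using 2; ring)
    (by rw [Prod.fst_neg, ← abs_neg]; convert hA using 2; ring) hψ'
  refine ⟨P.rev, ?_, by simpa using h2.rev, by rwa [Pth.rev_tot]⟩
  have := h1.rev
  rw [Chart.neg_neg] at this
  convert this using 1 <;> ring

theorem bd_niceH (hζ : ζ.OK) (hUp : 0 < Up) (hS : Sub t (Bx (ζ.scale 512) cb 31) B)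
    (hN : Nice (ζ.scale 512) t B cb 30 y Upb) {c : ℝ × ℝ} (h1 : |c.1 - 128 * cb.1| ≤ 33)
    (h2 : |c.2 - 128 * cb.2| ≤ 33)
    (hψ : ∀ k : ℤ, |k| ≤ 480 →
      (∃ ψ, PRef ζ t ψ (512 * cb.1, 4 * c.2 + k / 4 + 4 / 5 + 1100) 1100 e Up) ∨
      ∃ ψ, PRef ζ t ψ (512 * cb.1, 4 * c.2 + k / 4 - 4 / 5 - 1100) 1100 e Up) :
    NiceH (ζ.scale 4) t B c 30 (2 * y + 3 * e + 2 * e * Upb / Up) Up := by
  intro w hw0 hw1
  rw [abs_le] at h1 h2
  obtain ⟨k, hk⟩ : ∃ k : ℤ, |4 * (4 * w + 2 - 4 * c.2) - k| ≤ 1 / 2 := ⟨_, abs_sub_round _⟩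
  rw [abs_le] at hk
  have hk' : |k| ≤ 480 := by
    have : |(k : ℝ)| ≤ 480 := by rw [abs_le]; constructor <;> linarith
    exact_mod_cast this
  have hm : |4 * c.2 + k / 4 - 512 * cb.2| ≤ 256 := by rw [abs_le]; constructor <;> linarith
  have hA : |4 * c.1 - 512 * cb.1| ≤ 160 := by rw [abs_le]; constructor <;> linarith
  obtain ⟨P, p1, p2, p3⟩ : ∃ P : Pth, HC ζ P (4 * c.1 - 120) (4 * c.1 + 120)
      (4 * c.2 + k / 4 - 9 / 5) (4 * c.2 + k / 4 + 9 / 5) ∧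
      SC t B (2 * y + 3 * e + 2 * e * Upb / Up) P ∧ P.tot t ≤ Up := by
    rcases hψ k hk' with ⟨ψ, h⟩ | ⟨ψ, h⟩
    · exact bd_up hζ hUp hS hN hm hA h
    · exact bd_down hζ hUp hS hN hm hA h
  refine ⟨P, HC.scale (by norm_num) ?_, p2, p3⟩
  have := p1.mono (y0' := 4 * w) (y1' := 4 * (w + 1)) (by linarith) (by linarith)
  convert this using 1 <;> ring

theorem bd (hζ : ζ.OK) (hUp : 0 < Up) (hb : t ∈ GoodN (ζ.scale 512) cb y Upb) {c : ℝ × ℝ}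
    (h1 : |c.1 - 128 * cb.1| ≤ 33) (h2 : |c.2 - 128 * cb.2| ≤ 33)
    (hH : ∀ k : ℤ, |k| ≤ 480 →
      (∃ ψ, PRef ζ t ψ (512 * cb.1, 4 * c.2 + k / 4 + 4 / 5 + 1100) 1100 e Up) ∨
      ∃ ψ, PRef ζ t ψ (512 * cb.1, 4 * c.2 + k / 4 - 4 / 5 - 1100) 1100 e Up)
    (hV : ∀ k : ℤ, |k| ≤ 480 →
      (∃ ψ, PRef ζ t ψ (4 * c.1 + k / 4 + 4 / 5 + 1100, 512 * cb.2) 1100 e Up) ∨
      ∃ ψ, PRef ζ t ψ (4 * c.1 + k / 4 - 4 / 5 - 1100, 512 * cb.2) 1100 e Up) :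
    t ∈ GoodN (ζ.scale 4) c (2 * y + 3 * e + 2 * e * Upb / Up) Up := by
  obtain ⟨B, hS, hN⟩ := hb
  refine ⟨B, hS.mono ?_, bd_niceH hζ hUp hS.1 hN h1 h2 hH, ?_⟩
  · rw [Bx_scale _ (by norm_num), Bx_scale _ (by norm_num)]
    rw [abs_le] at h1 h2
    refine Bx_mono _ ?_ ?_
    · have : |((4 : ℝ) • c).1 - ((512 : ℝ) • cb).1| ≤ 132 := by
        simp only [Prod.smul_fst, smul_eq_mul]; rw [abs_le]; constructor <;> linarith
      linarith
    · have : |((4 : ℝ) • c).2 - ((512 : ℝ) • cb).2| ≤ 132 := by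
        simp only [Prod.smul_snd, smul_eq_mul]; rw [abs_le]; constructor <;> linarith
      linarith
  · rw [C11_swap]
    refine bd_niceH (cb := cb.swap) hζ.swap hUp ?_ ?_ h2 h1 fun k hk => ?_
    · rw [← C11_swap, Bx_swap]; exact hS.1
    · rw [← C11_swap]; exact hN.swap
    · rcases hV k hk with ⟨ψ, h⟩ | ⟨ψ, h⟩
      · exact Or.inl ⟨ψ, h.swap⟩
      · exact Or.inr ⟨ψ, h.swap⟩

end

end Crest.Agent.R151.C
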