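import Crest.Agent.R151.C05

/-! Row 151 (C): countable unions of closed sets, projections -/

set_option autoImplicit false

open MeasureTheory Set Filter Topology
open Crest.ProbabilityR.FirstPassage
open Crest.Agent.R151.B

namespace Crest.Agent.R151.C

noncomputable section

variable {X : Type} [TopologicalSpace X]

theorem Fs.of_closed {A : Set X} (h : IsClosed A) : Fs A :=
  ⟨fun _ => A, fun _ => h, (iUnion_const A).symm⟩
theorem C12_cnt {ι : Type} [Countable ι] {K : ι → Set X} (h : ∀ i, IsClosed (K i)) :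
    Fs (⋃ i, K i) := by
  rcases isEmpty_or_nonempty ι with hι | hι
  · rw [iUnion_of_empty]; exact Fs.of_closed isClosed_empty
  · obtain ⟨f, hf⟩ := exists_surjective_nat ι
    exact ⟨fun n => K (f n), fun n => h _, (hf.iUnion_comp K).symm⟩
theorem Fs.inter {A B : Set X} (hA : Fs A) (hB : Fs B) : Fs (A ∩ B) := by
  obtain ⟨K, hK, rfl⟩ := hA
  obtain ⟨L, hL, rfl⟩ := hB
  have e : (⋃ n, K n) ∩ ⋃ n, L n = ⋃ q : ℕ × ℕ, K q.1 ∩ L q.2 := by
    ext x
    simp only [mem_inter_iff, mem_iUnion, Prod.exists]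
    exact ⟨fun ⟨⟨a, ha⟩, b, hb⟩ => ⟨a, b, ha, hb⟩, fun ⟨a, b, ha, hb⟩ => ⟨⟨a, ha⟩, b, hb⟩⟩
  rw [e]
  exact C12_cnt fun q => (hK _).inter (hL _)
theorem Fs.iUnion {ι : Type} [Countable ι] {A : ι → Set X} (h : ∀ i, Fs (A i)) : Fs (⋃ i, A i) := by
  choose K hK hA using h
  have e : ⋃ i, A i = ⋃ q : ι × ℕ, K q.1 q.2 := by
    ext x
    simp only [mem_iUnion, Prod.exists, hA]
  rw [e]
  exact C12_cnt fun q => hK _ _
theorem Fs.biInter {ι : Type} {I : Set ι} (hI : I.Finite) {A : ι → Set X} (h : ∀ i ∈ I, Fs (A i)) :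
    Fs (⋂ i ∈ I, A i) := by
  induction I, hI using Set.Finite.induction_on with
  | empty => rw [biInter_empty]; exact Fs.of_closed isClosed_univ
  | insert _ _ ih =>
    rw [biInter_insert]
    exact (h _ (mem_insert _ _)).inter (ih fun i hi => h i (mem_insert_of_mem _ hi))
theorem Fs.ex {ι : Type} [Countable ι] {p : ι → X → Prop} (h : ∀ i, Fs {x | p i x}) :
    Fs {x | ∃ i, p i x} := by
  rw [setOf_exists]; exact Fs.iUnion h
theorem Fs.const (p : Prop) : Fs {_x : X | p} := Fs.of_closed isClosed_const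
theorem Fs.meas {A : Set Env} (h : Fs A) : MeasurableSet A := by
  obtain ⟨K, hK, rfl⟩ := h
  exact MeasurableSet.iUnion fun n => (hK n).measurableSet

theorem C12_proj {K : Set (Env × (Z2 → ℝ))} (hK : IsClosed K) (n : ℕ) :
    IsClosed {t | ∃ B : Z2 → ℝ, (∀ z, B z ∈ Icc (-(n : ℝ)) n) ∧ (t, B) ∈ K} := by
  have hc : IsCompact {B : Z2 → ℝ | ∀ z, B z ∈ Icc (-(n : ℝ)) n} :=
    isCompact_pi_infinite fun _ => isCompact_Icc
  have : CompactSpace {B : Z2 → ℝ | ∀ z, B z ∈ Icc (-(n : ℝ)) n} := isCompact_iff_compactSpace.1 hc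
  have h := isClosedMap_fst_of_compactSpace (X := Env)
    (Y := {B : Z2 → ℝ | ∀ z, B z ∈ Icc (-(n : ℝ)) n}) _
    (hK.preimage (f := fun q => (q.1, q.2.1))
      (continuous_fst.prodMk (continuous_subtype_val.comp continuous_snd)))
  convert h using 1
  ext t
  exact ⟨fun ⟨B, hB, ht⟩ => ⟨(t, ⟨B, hB⟩), ht, rfl⟩, fun ⟨q, hq, e⟩ => ⟨q.2.1, q.2.2, e ▸ hq⟩⟩

/-- projection along a potential which only matters on a finite set -/
theorem meas_ex {A : Env → (Z2 → ℝ) → Prop} {U : Set Z2} (hU : U.Finite)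
    (hA : Fs {p : Env × (Z2 → ℝ) | A p.1 p.2})
    (hc : ∀ t B B', (∀ x ∈ U, B' x = B x) → A t B → A t B') : MeasurableSet {t | ∃ B, A t B} := by
  obtain ⟨K, hK, hA⟩ := hA
  have e : {t | ∃ B, A t B} = ⋃ m, ⋃ n : ℕ,
      {t | ∃ B : Z2 → ℝ, (∀ z, B z ∈ Icc (-(n : ℝ)) n) ∧ (t, B) ∈ K m} := by
    ext t
    simp only [mem_iUnion, mem_setOf_eq]
    constructor
    · rintro ⟨B, hB⟩
      have h1 : A t (U.indicator B) := hc t B _ (fun x hx => indicator_of_mem hx B) hB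
      have h2 : (t, U.indicator B) ∈ ⋃ m, K m := hA ▸ h1
      obtain ⟨m, hm⟩ := mem_iUnion.1 h2
      obtain ⟨C, hC⟩ := (hU.image fun z => |B z|).bddAbove
      obtain ⟨n, hn⟩ := exists_nat_ge C
      refine ⟨m, n, _, fun z => ?_, hm⟩
      by_cases hz : z ∈ U
      · rw [indicator_of_mem hz]
        exact abs_le.1 ((hC (mem_image_of_mem _ hz)).trans hn)
      · rw [indicator_of_notMem hz]
        exact ⟨neg_nonpos.2 (Nat.cast_nonneg n), Nat.cast_nonneg n⟩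
    · rintro ⟨m, n, B, -, hB⟩
      have h2 : (t, B) ∈ {p : Env × (Z2 → ℝ) | A p.1 p.2} := hA ▸ mem_iUnion.2 ⟨m, hB⟩
      exact ⟨B, h2⟩
  rw [e]
  exact MeasurableSet.iUnion fun m => MeasurableSet.iUnion fun n => (C12_proj (hK m) n).measurableSet

theorem C12_cost (P : Pth) (i j : ℕ) : Continuous fun p : Env × (Z2 → ℝ) => P.cost p.1 i j :=
  continuous_finset_sum _ fun _ _ => (ew_cont _ _).comp continuous_fst
theorem C12_ev (z : Z2) : Continuous fun p : Env × (Z2 → ℝ) => p.2 z :=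
  (continuous_apply z).comp continuous_snd
theorem C12_all {ι : Sort*} {p : ι → X → Prop} (h : ∀ i, IsClosed {x | p i x}) :
    IsClosed {x | ∀ i, p i x} := by
  rw [setOf_forall]; exact isClosed_iInter h

theorem Fs_SC (e : ℝ) (P : Pth) : Fs {p : Env × (Z2 → ℝ) | SC p.1 p.2 e P} :=
  Fs.of_closed (C12_all fun i => C12_all fun j => C12_all fun _ => C12_all fun _ =>
    isClosed_le (C12_cost P i j) (((C12_ev _).sub (C12_ev _)).add continuous_const))
theorem Fs_Sol {U : Set Z2} (hU : U.Finite) : Fs {p : Env × (Z2 → ℝ) | Sol p.1 U p.2} := by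
  have := Pth.countable
  have h1 : Fs {p : Env × (Z2 → ℝ) | Sub p.1 U p.2} :=
    Fs.of_closed (C12_all fun x => C12_all fun _ => C12_all fun y => C12_all fun _ =>
      C12_all fun _ => isClosed_le (C12_ev _) (((ew_cont x y).comp continuous_fst).add (C12_ev _)))
  have h2 := Fs.biInter hU (A := fun x => {p : Env × (Z2 → ℝ) | ∃ P : Pth, P.fst = x ∧ P.In U ∧
      Bd U P.lst ∧ P.tot p.1 ≤ p.2 x - p.2 P.lst}) fun x _ => Fs.ex fun P =>
    (Fs.const _).inter ((Fs.const _).inter ((Fs.const _).inter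
      (Fs.of_closed (isClosed_le (C12_cost P 0 P.n) ((C12_ev _).sub (C12_ev _))))))
  convert h1.inter h2 using 1
  ext p
  simp only [Sol, mem_setOf_eq, mem_inter_iff, mem_iInter]
theorem Fs_Tilt (φ : Chart) (U : Set Z2) (α β E : ℝ) :
    Fs {p : Env × (Z2 → ℝ) | Tilt φ p.1 p.2 U α β E} :=
  Fs.of_closed (C12_all fun P => C12_all fun _ => isClosed_le
    ((((((C12_ev _).add continuous_const).sub continuous_const).sub
      (((C12_ev _).add continuous_const).sub continuous_const))).sub continuous_const)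
    (C12_cost P 0 P.n))
theorem C12_HC {φ : Chart} {c : ℝ × ℝ} {r y : ℝ} (h0 : c.2 - r ≤ y) (h1 : y + 1 ≤ c.2 + r) (P : Pth) :
    HC φ P (c.1 - r) (c.1 + r) y (y + 1) ↔
      P.In {z | z ∈ Bx φ c (r + 1 / 10) ∧ y ≤ φ.y z ∧ φ.y z ≤ y + 1} ∧
        φ.x P.fst ≤ c.1 - r ∧ c.1 + r ≤ φ.x P.lst := by
  refine and_congr_left' (forall₂_congr fun k _ => ?_)
  simp only [Bx, mem_setOf_eq, abs_le]
  constructor
  · rintro ⟨a, b, d, e⟩
    exact ⟨⟨⟨by linarith, by linarith⟩, by linarith, by linarith⟩, a, b⟩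
  · rintro ⟨⟨⟨a, b⟩, -⟩, d, e⟩
    exact ⟨d, e, by linarith, by linarith⟩
/-- only finitely many different bands -/
theorem Fs_NiceH {φ : Chart} (h : φ.det ≠ 0) (c : ℝ × ℝ) (r e Up : ℝ) :
    Fs {p : Env × (Z2 → ℝ) | NiceH φ p.1 p.2 c r e Up} := by
  have := Pth.countable
  have hf : ((fun y => {z | z ∈ Bx φ c (r + 1 / 10) ∧ y ≤ φ.y z ∧ φ.y z ≤ y + 1}) ''
      {y : ℝ | c.2 - r ≤ y ∧ y + 1 ≤ c.2 + r}).Finite :=
    (Bx_fin h c (r + 1 / 10)).finite_subsets.subset (by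
      rintro _ ⟨y, -, rfl⟩ z hz
      exact hz.1)
  have h2 := Fs.biInter hf (A := fun S => {p : Env × (Z2 → ℝ) | ∃ P : Pth,
      (P.In S ∧ φ.x P.fst ≤ c.1 - r ∧ c.1 + r ≤ φ.x P.lst) ∧ SC p.1 p.2 e P ∧ P.tot p.1 ≤ Up})
    fun S _ => Fs.ex fun P => (Fs.const _).inter ((Fs_SC e P).inter
      (Fs.of_closed (isClosed_le (C12_cost P 0 P.n) continuous_const)))
  convert h2 using 1
  ext p
  simp only [mem_setOf_eq, mem_iInter, biInter_image]
  constructor
  · intro hp y hy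
    obtain ⟨P, hP, hS⟩ := hp y hy.1 hy.2
    exact ⟨P, (C12_HC hy.1 hy.2 P).1 hP, hS⟩
  · intro hp y h0 h1
    obtain ⟨P, hP, hS⟩ := hp y ⟨h0, h1⟩
    exact ⟨P, (C12_HC h0 h1 P).2 hP, hS⟩
theorem Fs_Nice {φ : Chart} (h : φ.det ≠ 0) (c : ℝ × ℝ) (r e Up : ℝ) :
    Fs {p : Env × (Z2 → ℝ) | Nice φ p.1 p.2 c r e Up} :=
  (Fs_NiceH h c r e Up).inter (Fs_NiceH (Chart.swap_det h) c.swap r e Up)

end

end Crest.Agent.R151.C
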