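import Crest.Agent.R151.C12

/-! Row 151 (C): locality and measurability of the events -/

set_option autoImplicit false

open MeasureTheory Set Filter Topology
open Crest.ProbabilityR.FirstPassage
open Crest.Agent.R151.B

namespace Crest.Agent.R151.C

noncomputable section

variable {φ η : Chart} {t t' : Env} {B B' : Z2 → ℝ} {U : Set Z2} {c : ℝ × ℝ} {r e Up : ℝ}

theorem c13_tot {P : Pth} (ht : ∀ x ∈ U, ∀ y ∈ U, t' s(x, y) = t s(x, y)) (hP : P.In U) :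
    P.tot t' = P.tot t := Pth.cost_congr ht hP 0 le_rfl
theorem c13_lane {P : Pth} {x0 x1 y : ℝ} (h : Lane φ t B e Up P x0 x1 y) (hP : P.In U)
    (ht : ∀ x ∈ U, ∀ y ∈ U, t' s(x, y) = t s(x, y)) (hB : ∀ x ∈ U, B' x = B x) :
    Lane φ t' B' e Up P x0 x1 y := by
  refine ⟨h.1, fun i j hij hj => ?_, by rw [c13_tot ht hP]; exact h.2.2⟩
  rw [Pth.cost_congr ht hP i hj, hB _ (hP i (hij.trans hj)), hB _ (hP j hj)]
  exact h.2.1 i j hij hj
theorem c13_niceH (h : NiceH φ t B c r e Up) (hU : Bx φ c (r + 1 / 10) ⊆ U)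
    (ht : ∀ x ∈ U, ∀ y ∈ U, t' s(x, y) = t s(x, y)) (hB : ∀ x ∈ U, B' x = B x) :
    NiceH φ t' B' c r e Up := by
  intro y h0 h1
  obtain ⟨P, hP⟩ := h y h0 h1
  exact ⟨P, c13_lane hP ((hP.In h0 h1).mono hU) ht hB⟩

theorem Sol.congr (h : Sol t U B) (ht : ∀ x ∈ U, ∀ y ∈ U, t' s(x, y) = t s(x, y))
    (hB : ∀ x ∈ U, B' x = B x) : Sol t' U B' := by
  refine ⟨fun x hx y hy hxy => ?_, fun x hx => ?_⟩
  · have := h.1 x hx y hy hxy
    unfold ew at this ⊢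
    rw [hB x hx, hB y hy, ht x hx y hy]
    exact this
  · obtain ⟨P, h0, hP, hb, hc⟩ := h.2 x hx
    refine ⟨P, h0, hP, hb, ?_⟩
    rw [c13_tot ht hP, hB x hx, hB _ hP.lst]
    exact hc
theorem Nice.congr (h : Nice φ t B c r e Up) (hU : Bx φ c (r + 1 / 10) ⊆ U)
    (ht : ∀ x ∈ U, ∀ y ∈ U, t' s(x, y) = t s(x, y)) (hB : ∀ x ∈ U, B' x = B x) :
    Nice φ t' B' c r e Up :=
  ⟨c13_niceH h.1 hU ht hB, c13_niceH h.2 (by rw [Bx_swap]; exact hU) ht hB⟩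
theorem Tilt.congr {α β E : ℝ} (h : Tilt φ t B U α β E)
    (ht : ∀ x ∈ U, ∀ y ∈ U, t' s(x, y) = t s(x, y)) (hB : ∀ x ∈ U, B' x = B x) :
    Tilt φ t' B' U α β E := by
  intro P hP
  rw [c13_tot ht hP, hB _ hP.fst, hB _ hP.lst]
  exact h P hP

theorem Dep.mono {A : Set Env} {U' : Set Z2} (h : Dep A U) (hU : U ⊆ U') : Dep A U' :=
  fun t t' ht hA => h t t' (fun x hx y hy => ht x (hU hx) y (hU hy)) hA
theorem Dep.compl {A : Set Env} (h : Dep A U) : Dep Aᶜ U :=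
  fun t t' ht hA hA' => hA (h t' t (fun x hx y hy => (ht x hx y hy).symm) hA')
theorem Dep.inter {A A' : Set Env} (h : Dep A U) (h' : Dep A' U) : Dep (A ∩ A') U :=
  fun t t' ht hA => ⟨h t t' ht hA.1, h' t t' ht hA.2⟩

theorem GoodN_dep (φ : Chart) (c : ℝ × ℝ) (τ Up : ℝ) : Dep (GoodN φ c τ Up) (Bx φ c 31) := by
  rintro t t' ht ⟨B, hS, hN⟩
  exact ⟨B, hS.congr ht fun _ _ => rfl,
    hN.congr (Bx_mono_r φ c (by norm_num)) ht fun _ _ => rfl⟩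
theorem Good_dep (φ : Chart) (c : ℝ × ℝ) (τ Lo Up : ℝ) : Dep (Good φ c τ Lo Up) (Bx φ c 31) := by
  rintro t t' ht ⟨h1, h2⟩
  refine ⟨GoodN_dep φ c τ Up t t' ht h1, fun P hP hd => ?_⟩
  rw [c13_tot ht hP]
  exact h2 P hP hd
theorem AllGood_dep (φ : Chart) (c : ℝ × ℝ) (N : ℕ) (τ Lo Up : ℝ) :
    Dep (AllGood φ c N τ Lo Up) (Bx (φ.shear (1 / 3) 1) c (N + 31)) := by
  intro t t' ht h g h1 h2
  refine (Good_dep φ (sk (gc c g)) τ Lo Up).mono ?_ t t' ht (h g h1 h2)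
  refine (Bx_shear φ (l := 1 / 3) (ν := 1) (by norm_num) (by norm_num) one_pos _ _).trans ?_
  rw [shr_sk]
  have e1 : |(g.1 : ℝ)| ≤ N := by exact_mod_cast h1
  have e2 : |(g.2 : ℝ)| ≤ N := by exact_mod_cast h2
  refine Bx_mono _ ?_ ?_
  · simp only [gc, add_sub_cancel_left, div_one]
    linarith
  · simp only [gc, add_sub_cancel_left, div_one]
    linarith
theorem c13_cheap_dep (η φ : Chart) (c : ℝ × ℝ) (τ Up x0 x1 y θ : ℝ) :
    Dep (CheapL η c τ Up φ x0 x1 y θ) (Bx η c 31) := by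
  rintro t t' ht ⟨B, hS, hN, P, hH, hP, hc⟩
  refine ⟨B, hS.congr ht fun _ _ => rfl,
    hN.congr (Bx_mono_r η c (by norm_num)) ht fun _ _ => rfl, P, hH, hP, ?_⟩
  rw [c13_tot ht hP]
  exact hc
theorem Sig_dep (η φ : Chart) (τ Up R θ : ℝ) (w : ℝ × ℝ) (y : ℝ) :
    Dep (Sig η φ τ Up R θ w y) (Bx η (η.ap w) 31) :=
  (GoodN_dep η _ τ Up).inter (c13_cheap_dep η φ _ τ Up _ _ y θ).compl
theorem StgA_dep (η φ : Chart) (w : ℝ × ℝ) (τ Up L α β E : ℝ) :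
    Dep (StgA η φ w τ Up L α β E) (Bx η (η.ap w) 13 ∪ Bx φ (φ.ap w) L) := by
  rintro t t' ht ⟨B, hS, hN, hT⟩
  refine ⟨B, hS.congr (fun x hx y hy => ht x (Or.inl hx) y (Or.inl hy)) fun _ _ => rfl,
    hN.congr ((Bx_mono_r η _ (by norm_num)).trans subset_union_left) ht fun _ _ => rfl,
    hT.congr (fun x hx y hy => ht x (Or.inr hx) y (Or.inr hy)) fun _ _ => rfl⟩

theorem GoodN_meas (h : φ.det ≠ 0) (c : ℝ × ℝ) (τ Up : ℝ) : MeasurableSet (GoodN φ c τ Up) := by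
  refine meas_ex (A := fun t B => Sol t (Bx φ c 31) B ∧ Nice φ t B c 30 τ Up) (Bx_fin h c 31)
    ((Fs_Sol (Bx_fin h c 31)).inter (Fs_Nice h c 30 τ Up)) ?_
  rintro t B B' hB ⟨hS, hN⟩
  exact ⟨hS.congr (fun _ _ _ _ => rfl) hB,
    hN.congr (Bx_mono_r φ c (by norm_num)) (fun _ _ _ _ => rfl) hB⟩
theorem LoP_meas (φ : Chart) (U : Set Z2) (d Lo : ℝ) : MeasurableSet {t | LoP φ t U d Lo} := by
  refine (Fs.of_closed ?_).meas
  simp only [LoP, ofPred_forall]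
  exact isClosed_iInter fun P => isClosed_iInter fun _ => isClosed_iInter fun _ =>
    isClosed_le continuous_const (P.cost_cont 0 P.n)
theorem Good_meas (h : φ.det ≠ 0) (c : ℝ × ℝ) (τ Lo Up : ℝ) : MeasurableSet (Good φ c τ Lo Up) :=
  (GoodN_meas h c τ Up).inter (LoP_meas φ _ 1 Lo)
theorem AllGood_meas (h : φ.det ≠ 0) (c : ℝ × ℝ) (N : ℕ) (τ Lo Up : ℝ) :
    MeasurableSet (AllGood φ c N τ Lo Up) := by
  simp only [AllGood, ofPred_forall]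
  exact MeasurableSet.iInter fun g => MeasurableSet.iInter fun _ => MeasurableSet.iInter fun _ =>
    Good_meas h _ τ Lo Up
theorem c13_cheap_meas (h : η.det ≠ 0) (φ : Chart) (c : ℝ × ℝ) (τ Up x0 x1 y θ : ℝ) :
    MeasurableSet (CheapL η c τ Up φ x0 x1 y θ) := by
  have := Pth.countable
  refine meas_ex (A := fun t B => Sol t (Bx η c 31) B ∧ Nice η t B c 30 τ Up ∧
    ∃ P : Pth, HC φ P x0 x1 y (y + 1 / 2) ∧ P.In (Bx η c 31) ∧ P.tot t ≤ B P.fst - B P.lst + θ)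
    (Bx_fin h c 31) ((Fs_Sol (Bx_fin h c 31)).inter ((Fs_Nice h c 30 τ Up).inter
      (Fs.ex fun P => (Fs.const _).inter ((Fs.const _).inter (Fs.of_closed ?_))))) ?_
  · refine isClosed_le ((P.cost_cont 0 P.n).comp continuous_fst) ?_
    fun_prop
  · rintro t B B' hB ⟨hS, hN, P, hH, hP, hc⟩
    refine ⟨hS.congr (fun _ _ _ _ => rfl) hB,
      hN.congr (Bx_mono_r η c (by norm_num)) (fun _ _ _ _ => rfl) hB, P, hH, hP, ?_⟩
    rw [hB _ hP.fst, hB _ hP.lst]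
    exact hc
theorem Sig_meas (h : η.det ≠ 0) (φ : Chart) (τ Up R θ : ℝ) (w : ℝ × ℝ) (y : ℝ) :
    MeasurableSet (Sig η φ τ Up R θ w y) :=
  (GoodN_meas h _ τ Up).diff (c13_cheap_meas h φ _ τ Up _ _ y θ)
theorem StgA_meas (h : η.det ≠ 0) (h' : φ.det ≠ 0) (w : ℝ × ℝ) (τ Up L α β E : ℝ) :
    MeasurableSet (StgA η φ w τ Up L α β E) := by
  refine meas_ex (A := fun t B => Sol t (Bx η (η.ap w) 13) B ∧ Nice η t B (η.ap w) 12 τ Up ∧
    Tilt φ t B (Bx φ (φ.ap w) L) α β E) ((Bx_fin h (η.ap w) 13).union (Bx_fin h' (φ.ap w) L))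
    ((Fs_Sol (Bx_fin h _ 13)).inter ((Fs_Nice h _ 12 τ Up).inter (Fs_Tilt φ _ α β E))) ?_
  rintro t B B' hB ⟨hS, hN, hT⟩
  exact ⟨hS.congr (fun _ _ _ _ => rfl) fun x hx => hB x (Or.inl hx),
    hN.congr ((Bx_mono_r η _ (by norm_num)).trans subset_union_left) (fun _ _ _ _ => rfl) hB,
    hT.congr (fun _ _ _ _ => rfl) fun x hx => hB x (Or.inr hx)⟩
theorem LoU_meas (φ : Chart) (c : ℝ × ℝ) (Lo Up : ℝ) : MeasurableSet (LoU φ c Lo Up) := by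
  have := Pth.countable
  refine (LoP_meas φ _ 1 Lo).inter ?_
  show MeasurableSet {t : Env | ∀ x ∈ Bx φ c (61 / 2), ∀ y ∈ Bx φ c (61 / 2),
    ∃ P : Pth, P.fst = x ∧ P.lst = y ∧ P.In (Bx φ c 31) ∧ P.tot t ≤ Up / 2}
  simp only [ofPred_forall]
  refine MeasurableSet.iInter fun x => MeasurableSet.iInter fun _ =>
    MeasurableSet.iInter fun y => MeasurableSet.iInter fun _ => Fs.meas ?_
  exact Fs.ex fun P => (Fs.const _).inter ((Fs.const _).inter ((Fs.const _).inter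
    (Fs.of_closed (isClosed_le (P.cost_cont 0 P.n) continuous_const))))

end

end Crest.Agent.R151.C
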