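import Crest.Agent.R151.C13
import Crest.Agent.R151.B3
import Crest.Agent.R151.B4

/-! Row 151 (C): translations, independence, counting -/

set_option autoImplicit false

open MeasureTheory Set Filter Topology
open Crest.ProbabilityR.FirstPassage
open Crest.Agent.R151.B

namespace Crest.Agent.R151.C

noncomputable section

variable {G : Measure ℝ} {φ η : Chart}

theorem C14_ex (o : Z2) {Φ : Pth → Prop} : (∃ P, Φ P) ↔ ∃ P : Pth, Φ (P.tr o) :=
  ⟨fun ⟨P, h⟩ => ⟨P.tr (-o), by rwa [Pth.tr_tr]⟩, fun ⟨P, h⟩ => ⟨_, h⟩⟩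

theorem C14_all (o : Z2) {Φ : Pth → Prop} : (∀ P, Φ P) ↔ ∀ P : Pth, Φ (P.tr o) :=
  ⟨fun h P => h _, fun h P => by have := h (P.tr (-o)); rwa [Pth.tr_tr] at this⟩

theorem C14_allZ (o : Z2) {Φ : Z2 → Prop} : (∀ z, Φ z) ↔ ∀ z, Φ (z + o) :=
  ⟨fun h z => h _, fun h z => by have := h (z - o); rwa [sub_add_cancel] at this⟩

theorem C14_exZ (o : Z2) {Φ : Z2 → Prop} : (∃ z, Φ z) ↔ ∃ z, Φ (z + o) :=
  ⟨fun ⟨z, h⟩ => ⟨z - o, by rwa [sub_add_cancel]⟩, fun ⟨z, h⟩ => ⟨_, h⟩⟩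

theorem C14_exB (o : Z2) {Φ : (Z2 → ℝ) → Prop} :
    (∃ B, Φ B) ↔ ∃ B : Z2 → ℝ, Φ fun z => B (z + o) :=
  ⟨fun ⟨B, h⟩ => ⟨fun z => B (z - o), by simpa only [add_sub_cancel_right] using h⟩,
    fun ⟨B, h⟩ => ⟨_, h⟩⟩

theorem C14_In (o : Z2) {U U' : Set Z2} (hU : ∀ z, z + o ∈ U' ↔ z ∈ U) (P : Pth) :
    (P.tr o).In U' ↔ P.In U :=
  forall_congr' fun k => imp_congr_right fun _ => hU (P.v k)

theorem C14_Bd (o : Z2) {U U' : Set Z2} (hU : ∀ z, z + o ∈ U' ↔ z ∈ U) (x : Z2) :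
    Bd U' (x + o) ↔ Bd U x := by
  unfold Bd
  rw [hU, C14_exZ o]
  simp only [hU, adj_add]

theorem C14_HC (φ : Chart) (o : Z2) (P : Pth) (x0 x1 y0 y1 : ℝ) :
    HC φ (P.tr o) (x0 + φ.x o) (x1 + φ.x o) (y0 + φ.y o) (y1 + φ.y o) ↔ HC φ P x0 x1 y0 y1 := by
  unfold HC
  simp only [Pth.tr_n, Pth.tr_v, Pth.tr_fst, Pth.tr_lst, Chart.x_add, Chart.y_add,
    add_le_add_iff_right]
  refine and_congr_left fun _ => forall_congr' fun k => imp_congr_right fun _ => ?_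
  refine and_congr_right fun _ => and_congr_right fun _ => and_congr ?_ ?_
  · constructor <;> intro h <;> linarith
  · constructor <;> intro h <;> linarith

theorem C14_SC (o : Z2) (t : Env) (ψ : Z2 → ℝ) (e : ℝ) (P : Pth) :
    SC t ψ e (P.tr o) ↔ SC (sh o t) (fun z => ψ (z + o)) e P := by
  unfold SC
  simp only [Pth.tr_n, Pth.tr_v, Pth.tr_cost]

theorem C14_Lane (φ : Chart) (o : Z2) (t : Env) (ψ : Z2 → ℝ) (e Up : ℝ) (P : Pth) (x0 x1 y : ℝ) :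
    Lane φ t ψ e Up (P.tr o) (x0 + φ.x o) (x1 + φ.x o) (y + φ.y o) ↔
      Lane φ (sh o t) (fun z => ψ (z + o)) e Up P x0 x1 y := by
  unfold Lane
  rw [show y + φ.y o + 1 = y + 1 + φ.y o by ring, C14_HC, C14_SC, Pth.tr_tot]

theorem C14_NiceH (φ : Chart) (o : Z2) (t : Env) (B : Z2 → ℝ) (c : ℝ × ℝ) (r e Up : ℝ) :
    NiceH φ t B (c + φ.pt o) r e Up ↔ NiceH φ (sh o t) (fun z => B (z + o)) c r e Up := by
  have e1 : (c + φ.pt o).1 = c.1 + φ.x o := rfl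
  have e2 : (c + φ.pt o).2 = c.2 + φ.y o := rfl
  unfold NiceH
  rw [e1, e2, show c.1 + φ.x o - r = c.1 - r + φ.x o by ring,
    show c.1 + φ.x o + r = c.1 + r + φ.x o by ring]
  constructor
  · intro h y h1 h2
    have := h (y + φ.y o) (by linarith) (by linarith)
    rw [C14_ex o] at this
    simpa only [C14_Lane] using this
  · intro h y h1 h2
    have := h (y - φ.y o) (by linarith) (by linarith)
    rw [C14_ex o, ← sub_add_cancel y (φ.y o)]
    simpa only [C14_Lane] using this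

theorem C14_LoP (φ : Chart) (o : Z2) (t : Env) {U U' : Set Z2} (hU : ∀ z, z + o ∈ U' ↔ z ∈ U)
    (d Lo : ℝ) : LoP φ t U' d Lo ↔ LoP φ (sh o t) U d Lo := by
  unfold LoP
  rw [C14_all o]
  simp only [C14_In o hU, Pth.tr_fst, Pth.tr_lst, Chart.x_add, Chart.y_add, Pth.tr_tot,
    add_sub_add_right_eq_sub]

theorem Sol_sh (o : Z2) {t : Env} {U U' : Set Z2} {B : Z2 → ℝ} (hU : ∀ z, z + o ∈ U' ↔ z ∈ U) :
    Sol t U' B ↔ Sol (sh o t) U fun z => B (z + o) := by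
  unfold Sol Sub
  refine and_congr ?_ ?_
  · rw [C14_allZ o]
    refine forall_congr' fun x => imp_congr (hU x) ?_
    rw [C14_allZ o]
    refine forall_congr' fun y => imp_congr (hU y) ?_
    rw [adj_add, ew_sh]
  · rw [C14_allZ o]
    refine forall_congr' fun x => imp_congr (hU x) ?_
    rw [C14_ex o]
    simp only [C14_In o hU, Pth.tr_fst, Pth.tr_lst, C14_Bd o hU, Pth.tr_tot, add_left_inj]

theorem Nice_sh (o : Z2) {t : Env} {B : Z2 → ℝ} {c : ℝ × ℝ} {r e Up : ℝ} :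
    Nice φ t B (c + φ.pt o) r e Up ↔ Nice φ (sh o t) (fun z => B (z + o)) c r e Up := by
  unfold Nice
  rw [C14_NiceH, show (c + φ.pt o).swap = c.swap + φ.swap.pt o from rfl, C14_NiceH]

theorem GoodN_sh (φ : Chart) (o : Z2) (c : ℝ × ℝ) (τ Up : ℝ) :
    GoodN φ (c + φ.pt o) τ Up = sh o ⁻¹' GoodN φ c τ Up := by
  ext t
  simp only [GoodN, mem_ofPred_eq, mem_preimage]
  rw [C14_exB o (Φ := fun B => Sol (sh o t) (Bx φ c 31) B ∧ Nice φ (sh o t) B c 30 τ Up)]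
  simp only [Sol_sh o (Bx_add φ c 31 · o), Nice_sh]

theorem Good_sh (φ : Chart) (o : Z2) (c : ℝ × ℝ) (τ Lo Up : ℝ) :
    Good φ (c + φ.pt o) τ Lo Up = sh o ⁻¹' Good φ c τ Lo Up := by
  ext t
  simp only [Good, mem_ofPred_eq, mem_preimage, GoodN_sh, C14_LoP φ o t (Bx_add φ c 31 · o)]

theorem C14_CheapL (η φ : Chart) (o : Z2) (c : ℝ × ℝ) (τ Up x0 x1 y θ : ℝ) :
    CheapL η (c + η.pt o) τ Up φ (x0 + φ.x o) (x1 + φ.x o) (y + φ.y o) θ =
      sh o ⁻¹' CheapL η c τ Up φ x0 x1 y θ := by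
  ext t
  simp only [CheapL, mem_ofPred_eq, mem_preimage]
  rw [C14_exB o (Φ := fun B => Sol (sh o t) (Bx η c 31) B ∧ Nice η (sh o t) B c 30 τ Up ∧
    ∃ P : Pth, HC φ P x0 x1 y (y + 1 / 2) ∧ P.In (Bx η c 31) ∧
      P.tot (sh o t) ≤ B P.fst - B P.lst + θ)]
  refine exists_congr fun B => and_congr (Sol_sh o (Bx_add η c 31 · o)) (and_congr (Nice_sh o) ?_)
  rw [C14_ex o, show y + φ.y o + 1 / 2 = y + 1 / 2 + φ.y o by ring]
  simp only [C14_HC, C14_In o (Bx_add η c 31 · o), Pth.tr_fst, Pth.tr_lst, Pth.tr_tot]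

theorem Sig_sh (η φ : Chart) (o : Z2) (τ Up R θ : ℝ) (w : ℝ × ℝ) (y : ℝ) :
    Sig η φ τ Up R θ (w + cR o) (y + φ.y o) = sh o ⁻¹' Sig η φ τ Up R θ w y := by
  unfold Sig
  have e1 : (φ.ap (w + cR o)).1 = (φ.ap w).1 + φ.x o := by
    rw [Chart.ap_add, Chart.ap_cR]; rfl
  rw [e1, Chart.ap_add, Chart.ap_cR,
    show (φ.ap w).1 + φ.x o - R = (φ.ap w).1 - R + φ.x o by ring,
    show (φ.ap w).1 + φ.x o + R = (φ.ap w).1 + R + φ.x o by ring, GoodN_sh, C14_CheapL,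
    preimage_sdiff]

theorem Pr_sh (hG : Law G) (o : Z2) {A : Set Env} (hA : MeasurableSet A) :
    Pr G (sh o ⁻¹' A) = Pr G A := by
  exact (hG.mp_sh o).measureReal_preimage hA.nullMeasurableSet


theorem C14_disj {U U' : Set Z2} (hd : Disjoint U U') :
    Disjoint {e : Sym2 Z2 | ∃ x ∈ U, ∃ y ∈ U, e = s(x, y)}
      {e : Sym2 Z2 | ∃ x ∈ U', ∃ y ∈ U', e = s(x, y)} := by
  rw [Set.disjoint_left] at hd ⊢
  rintro e ⟨x, hx, y, -, rfl⟩ ⟨x', hx', y', hy', h⟩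
  rcases Sym2.eq_iff.1 h with ⟨rfl, -⟩ | ⟨rfl, -⟩
  · exact hd hx hx'
  · exact hd hx hy'

theorem C14_dep {A : Set Env} {U : Set Z2} (hA : Dep A U) (t t' : Env)
    (h : ∀ e ∈ {e : Sym2 Z2 | ∃ x ∈ U, ∃ y ∈ U, e = s(x, y)}, t' e = t e) (ht : t ∈ A) : t' ∈ A :=
  hA t t' (fun x hx y hy => h _ ⟨x, hx, y, hy, rfl⟩) ht

theorem indep_dep (hG : Law G) {ι : Type} (I : Finset ι) (U : ι → Set Z2) (A : ι → Set Env)
    (hd : ∀ i ∈ I, ∀ j ∈ I, i ≠ j → Disjoint (U i) (U j)) (hm : ∀ i ∈ I, MeasurableSet (A i))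
    (hA : ∀ i ∈ I, Dep (A i) (U i)) : Pr G (⋂ i ∈ I, A i) = ∏ i ∈ I, Pr G (A i) := by
  exact hG.indep I (fun i => {e : Sym2 Z2 | ∃ x ∈ U i, ∃ y ∈ U i, e = s(x, y)}) A
    (fun i hi j hj hij => C14_disj (hd i hi j hj hij)) hm fun i hi => C14_dep (hA i hi)

theorem indep_two (hG : Law G) {U U' : Set Z2} {A A' : Set Env} (hd : Disjoint U U')
    (hm : MeasurableSet A) (hm' : MeasurableSet A') (hA : Dep A U) (hA' : Dep A' U') :
    Pr G (A ∩ A') = Pr G A * Pr G A' := by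
  exact hG.indep_aux2 (C14_disj hd) hm hm' (C14_dep hA) (C14_dep hA')

theorem AllGood_pr (hG : Law G) {τ Lo Up p : ℝ} (h : ∀ c, Pr G (Good φ c τ Lo Up)ᶜ ≤ p) (c : ℝ × ℝ)
    (N : ℕ) : Pr G (AllGood φ c N τ Lo Up)ᶜ ≤ (2 * N + 1) ^ 2 * p := by
  have hs : (AllGood φ c N τ Lo Up)ᶜ ⊆
      ⋃ g ∈ Finset.Icc (-(N : ℤ)) N ×ˢ Finset.Icc (-(N : ℤ)) N,
        (Good φ (sk (gc c g)) τ Lo Up)ᶜ := by
    intro t ht
    simp only [AllGood, mem_compl_iff, mem_ofPred_eq, not_forall] at ht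
    obtain ⟨g, h1, h2, h3⟩ := ht
    refine mem_iUnion₂.2 ⟨g, ?_, h3⟩
    rw [Finset.mem_product, Finset.mem_Icc, Finset.mem_Icc]
    exact ⟨abs_le.1 h1, abs_le.1 h2⟩
  refine (hG.mono hs).trans ((hG.biUnion _ _).trans ?_)
  refine (Finset.sum_le_card_nsmul _ _ p fun g _ => h _).trans (le_of_eq ?_)
  rw [nsmul_eq_mul, Finset.card_product, Nat.cast_mul, ball_fin_card _ _ (by omega)]
  push_cast
  ring


open Classical in
/-- expectation of a counting inequality -/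
theorem count_le (hG : Law G) {ι κ : Type} (I : Finset ι) (J : Finset κ) (A : ι → Set Env)
    (B : κ → Set Env) (a : κ → ℝ) (b : ℝ) (hA : ∀ i ∈ I, MeasurableSet (A i))
    (hB : ∀ j ∈ J, MeasurableSet (B j))
    (h : ∀ t, ((I.filter fun i => t ∈ A i).card : ℝ) ≤ ∑ j ∈ J.filter fun j => t ∈ B j, a j + b) :
    ∑ i ∈ I, Pr G (A i) ≤ ∑ j ∈ J, a j * Pr G (B j) + b := by
  have := hG.isP
  have hi : ∀ {S : Set Env}, MeasurableSet S → ∀ x : ℝ,
      Integrable (S.indicator fun _ => x) (iidLaw G) :=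
    fun hS x => (integrable_const x).indicator hS
  have hv : ∀ {S : Set Env}, MeasurableSet S → ∀ x : ℝ,
      ∫ t, S.indicator (fun _ => x) t ∂iidLaw G = x * Pr G S := by
    intro S hS x
    rw [integral_indicator_const _ hS, smul_eq_mul, mul_comm]
    rfl
  have i1 : Integrable (fun t => ∑ i ∈ I, (A i).indicator (fun _ => (1 : ℝ)) t) (iidLaw G) :=
    integrable_finsetSum _ fun i hi' => hi (hA i hi') 1
  have i2 : Integrable (fun t => ∑ j ∈ J, (B j).indicator (fun _ => a j) t) (iidLaw G) :=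
    integrable_finsetSum _ fun j hj => hi (hB j hj) _
  have key := integral_mono i1 (i2.add (integrable_const b)) (fun t => by
    have := h t
    rw [Finset.card_filter, Finset.sum_filter] at this
    push_cast at this
    simpa only [Set.indicator_apply, Pi.add_apply] using this)
  simp only [Pi.add_apply] at key
  rw [integral_add i2 (integrable_const b), integral_finsetSum _ fun i hi' => hi (hA i hi') 1,
    integral_finsetSum _ fun j hj => hi (hB j hj) _, integral_const, probReal_univ, one_smul,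
    Finset.sum_congr rfl fun i hi' => hv (hA i hi') 1,
    Finset.sum_congr rfl fun j hj => hv (hB j hj) _] at key
  simpa only [one_mul] using key


end

end Crest.Agent.R151.C
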