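import Crest.Agent.R151.C10
import Crest.Agent.R151.C11
import Crest.Agent.R151.C14

/-! Row 151 (C): boost, one step -/

set_option autoImplicit false

open MeasureTheory Set Filter Topology
open Crest.ProbabilityR.FirstPassage
open Crest.Agent.R151.B

namespace Crest.Agent.R151.C

noncomputable section

variable {G : Measure ℝ} {φ : Chart} {τ Lo K p : ℝ}

theorem top0 (hG : Law G) (hφ : φ.OK) (hLo : 0 < Lo) (hK : 1 ≤ K) (hτ : 0 ≤ τ)
    (h : ∀ c, Pr G (Good φ c τ Lo (K * Lo))ᶜ ≤ p) (c : ℝ × ℝ) :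
    Pr G (GoodN (φ.shear (1 / 3) 800) c (2 ^ 48 * K * τ) (660600 * K * Lo))ᶜ ≤ 2 ^ 32 * p := by
  have hp : 0 ≤ p := (Pr_nonneg _ _).trans (h 0)
  have hKτ : 0 ≤ K * τ := mul_nonneg (by linarith) hτ
  have hKL : 0 < K * Lo := mul_pos (by linarith) hLo
  have h1 := AllGood_pr hG h ((800 : ℝ) • c) (800 * 30 + 1110)
  refine (hG.mono (compl_subset_compl.2 fun t ht => ?_)).trans (h1.trans ?_)
  · obtain ⟨B, hS, hN⟩ := patchsol hφ 30 hLo hK ht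
    rw [show ((30 : ℕ) : ℝ) + 1 = 31 by norm_num] at hS
    rw [show ((30 : ℕ) : ℝ) = 30 by norm_num] at hN
    exact ⟨B, hS, hN.mono (by nlinarith) (by nlinarith)⟩
  · exact mul_le_mul_of_nonneg_right (by norm_num) hp

theorem c15_pref (hφ : φ.OK) (hLo : 0 < Lo) (hK : 1 ≤ K) (hτ : 0 ≤ τ) {c : ℝ × ℝ} {t : Env}
    (ht : t ∈ AllGood φ ((200 : ℝ) • c) (200 * 1100 + 110) τ Lo (K * Lo)) :
    ∃ ψ, PRef (φ.shear (1 / 3) 200) t ψ c 1100 (2 ^ 52 * K * τ) (660600 * K * Lo) := by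
  have hKτ : 0 ≤ K * τ := mul_nonneg (by linarith) hτ
  have hKL : 0 < K * Lo := mul_pos (by linarith) hLo
  obtain ⟨ψ, h1, h2⟩ := pref hφ (R := 1100) (by norm_num) hLo hK ht
  rw [show ((1100 : ℕ) : ℝ) = 1100 by norm_num] at h1 h2
  rw [show (600 : ℝ) * (1100 + 1) = 660600 by norm_num] at h1 h2
  have he : 2 * 10 ^ 9 * (1100 + 1) ^ 2 * K * τ ≤ 2 ^ 52 * K * τ := by nlinarith
  exact ⟨ψ, h1.mono he le_rfl, h2.mono subset_rfl (by nlinarith) he⟩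

/-- the two half boxes on both sides of a line are not both bad -/
theorem step_pair (hG : Law G) (hφ : φ.OK) (hLo : 0 < Lo) (hK : 1 ≤ K) (hτ : 0 ≤ τ)
    (h : ∀ c, Pr G (Good φ c τ Lo (K * Lo))ᶜ ≤ p) {c c' : ℝ × ℝ}
    (hc : 2201 + 3 / 5 ≤ |c.1 - c'.1| ∨ 2201 + 3 / 5 ≤ |c.2 - c'.2|) :
    Pr G {t | ¬ ((∃ ψ, PRef (φ.shear (1 / 3) 200) t ψ c 1100 (2 ^ 52 * K * τ) (660600 * K * Lo)) ∨
      ∃ ψ, PRef (φ.shear (1 / 3) 200) t ψ c' 1100 (2 ^ 52 * K * τ) (660600 * K * Lo))} ≤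
      2 ^ 76 * p ^ 2 := by
  have hp : 0 ≤ p := (Pr_nonneg _ _).trans (h 0)
  have hd : Disjoint (Bx (φ.shear (1 / 3) 1) ((200 : ℝ) • c) (((200 * 1100 + 110 : ℕ) : ℝ) + 31))
      (Bx (φ.shear (1 / 3) 1) ((200 : ℝ) • c') (((200 * 1100 + 110 : ℕ) : ℝ) + 31)) := by
    refine Bx_disj _ ?_
    simp only [Prod.smul_fst, Prod.smul_snd, smul_eq_mul, ← mul_sub, abs_mul]
    rw [abs_of_pos (by norm_num : (0 : ℝ) < 200)]
    push_cast
    rcases hc with hc | hc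
    · left; linarith
    · right; linarith
  have h1 := indep_two hG hd (AllGood_meas hφ.det _ (200 * 1100 + 110) τ Lo (K * Lo)).compl
    (AllGood_meas hφ.det _ (200 * 1100 + 110) τ Lo (K * Lo)).compl (AllGood_dep _ _ _ _ _ _).compl
    (AllGood_dep _ _ _ _ _ _).compl
  have h2 := AllGood_pr hG h ((200 : ℝ) • c) (200 * 1100 + 110)
  have h3 := AllGood_pr hG h ((200 : ℝ) • c') (200 * 1100 + 110)
  refine (hG.mono fun t ht => ?_).trans (h1.le.trans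
    ((mul_le_mul h2 h3 (Pr_nonneg _ _) ((Pr_nonneg _ _).trans h2)).trans ?_))
  · exact ⟨fun h' => ht (Or.inl (c15_pref hφ hLo hK hτ h')),
      fun h' => ht (Or.inr (c15_pref hφ hLo hK hτ h'))⟩
  · push_cast
    nlinarith [sq_nonneg p]

/-- a small cell is bad only if the big cell is bad, up to an event of probability `C p ^ 2` -/
theorem step_cell (hG : Law G) (hφ : φ.OK) (hLo : 0 < Lo) (hK : 1 ≤ K) (hτ : 0 ≤ τ)
    (h : ∀ c, Pr G (Good φ c τ Lo (K * Lo))ᶜ ≤ p) (y : ℝ) {c cb : ℝ × ℝ}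
    (h1 : |c.1 - 128 * cb.1| ≤ 33) (h2 : |c.2 - 128 * cb.2| ≤ 33) :
    Pr G (GoodN ((φ.scale 128).shear (1 / 3) 800) cb y (660600 * K * (128 * Lo)) \
      GoodN (φ.shear (1 / 3) 800) c (2 * y + 2 ^ 61 * K * τ) (660600 * K * Lo)) ≤ 2 ^ 87 * p ^ 2 := by
  have hKτ : 0 ≤ K * τ := mul_nonneg (by linarith) hτ
  have hKL : 0 < K * Lo := mul_pos (by linarith) hLo
  have hζ : (φ.shear (1 / 3) 200).OK := hφ.shear (by norm_num) (by norm_num) (by norm_num)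
  have e1 : (φ.scale 128).shear (1 / 3) 800 = (φ.shear (1 / 3) 200).scale 512 := by
    unfold Chart.scale
    rw [Chart.shear_shear _ (by norm_num) (by norm_num),
      Chart.shear_shear _ (by norm_num) (by norm_num)]
    norm_num
  have e2 : φ.shear (1 / 3) 800 = (φ.shear (1 / 3) 200).scale 4 := by
    unfold Chart.scale
    rw [Chart.shear_shear _ (by norm_num) (by norm_num)]
    norm_num
  have hUp : 0 < 660600 * K * Lo := by nlinarith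
  have e3 : 2 * (2 ^ 52 * K * τ) * (660600 * K * (128 * Lo)) / (660600 * K * Lo) =
      256 * (2 ^ 52 * K * τ) := by
    rw [div_eq_iff hUp.ne']
    ring
  have e4 : 2 * y + 3 * (2 ^ 52 * K * τ) + 256 * (2 ^ 52 * K * τ) ≤ 2 * y + 2 ^ 61 * K * τ := by
    nlinarith
  have e5 : ((961 : ℕ) : ℝ) * (2 ^ 76 * p ^ 2) + ((961 : ℕ) : ℝ) * (2 ^ 76 * p ^ 2) ≤
      2 ^ 87 * p ^ 2 := by
    push_cast
    nlinarith [sq_nonneg p]
  set E : ℝ × ℝ → ℝ × ℝ → Set Env := fun c c' =>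
    {t | ¬ ((∃ ψ, PRef (φ.shear (1 / 3) 200) t ψ c 1100 (2 ^ 52 * K * τ) (660600 * K * Lo)) ∨
      ∃ ψ, PRef (φ.shear (1 / 3) 200) t ψ c' 1100 (2 ^ 52 * K * τ) (660600 * K * Lo))} with hE
  have hH : ∀ k ∈ Finset.Icc (-480 : ℤ) 480, Pr G (E (512 * cb.1, 4 * c.2 + k / 4 + 4 / 5 + 1100)
      (512 * cb.1, 4 * c.2 + k / 4 - 4 / 5 - 1100)) ≤ 2 ^ 76 * p ^ 2 := fun k _ =>
    step_pair hG hφ hLo hK hτ h (Or.inr (le_abs.2 (Or.inl (by dsimp only; linarith))))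
  have hV : ∀ k ∈ Finset.Icc (-480 : ℤ) 480, Pr G (E (4 * c.1 + k / 4 + 4 / 5 + 1100, 512 * cb.2)
      (4 * c.1 + k / 4 - 4 / 5 - 1100, 512 * cb.2)) ≤ 2 ^ 76 * p ^ 2 := fun k _ =>
    step_pair hG hφ hLo hK hτ h (Or.inl (le_abs.2 (Or.inl (by dsimp only; linarith))))
  have hH' := (hG.biUnion _ _).trans (Finset.sum_le_card_nsmul _ _ _ hH)
  have hV' := (hG.biUnion _ _).trans (Finset.sum_le_card_nsmul _ _ _ hV)
  have hcard : (Finset.Icc (-480 : ℤ) 480).card = 961 := by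
    rw [Int.card_Icc]; rfl
  rw [hcard, nsmul_eq_mul] at hH' hV'
  refine (hG.mono fun t ht => ?_).trans ((hG.union _ _).trans ((add_le_add hH' hV').trans e5))
  by_contra hc
  rw [mem_union, not_or] at hc
  have hb := ht.1
  rw [e1] at hb
  have := bd (e := 2 ^ 52 * K * τ) (Up := 660600 * K * Lo) hζ hUp hb h1 h2
    (fun k hk => by
      by_contra h'
      exact hc.1 (mem_biUnion (Finset.mem_coe.2 (Finset.mem_Icc.2 (abs_le.1 hk))) h'))
    (fun k hk => by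
      by_contra h'
      exact hc.2 (mem_biUnion (Finset.mem_coe.2 (Finset.mem_Icc.2 (abs_le.1 hk))) h'))
  rw [← e2, e3] at this
  exact ht.2 (GoodN_mono _ _ e4 le_rfl this)

theorem step1 (hG : Law G) (hφ : φ.OK) (hLo : 0 < Lo) (hK : 1 ≤ K) (hτ : 0 ≤ τ)
    (h : ∀ c, Pr G (Good φ c τ Lo (K * Lo))ᶜ ≤ p) {y g : ℝ}
    (hb : ∀ cb, Pr G (GoodN ((φ.scale 128).shear (1 / 3) 800) cb y (660600 * K * (128 * Lo)))ᶜ ≤ g)
    (hg : g + 2 ^ 88 * p ^ 2 < 3 / 4) (c : ℝ × ℝ) :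
    Pr G (GoodN (φ.shear (1 / 3) 800) c (2 * y + 2 ^ 61 * K * τ) (660600 * K * Lo))ᶜ ≤
      2 / 3 * (g + 2 ^ 88 * p ^ 2) := by
  have hφ' : (φ.shear (1 / 3) 800).OK := hφ.shear (by norm_num) (by norm_num) (by norm_num)
  obtain ⟨o, ho1, ho2⟩ := hφ'.near (64, 0)
  have ho1' := abs_le.1 ho1
  have ho2' := abs_le.1 ho2
  dsimp only at ho1' ho2'
  have a1 := step_cell hG hφ hLo hK hτ h y (c := c) (cb := ((c.1 + 32) / 128, c.2 / 128))
    (abs_le.2 ⟨by dsimp only; linarith, by dsimp only; linarith⟩)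
    (abs_le.2 ⟨by dsimp only; linarith, by dsimp only; linarith⟩)
  have a2 := step_cell hG hφ hLo hK hτ h y (c := c + (φ.shear (1 / 3) 800).pt o)
    (cb := ((c.1 + 32) / 128, c.2 / 128))
    (abs_le.2 ⟨by simp only [Prod.fst_add, Chart.pt]; linarith,
      by simp only [Prod.fst_add, Chart.pt]; linarith⟩)
    (abs_le.2 ⟨by simp only [Prod.snd_add, Chart.pt]; linarith,
      by simp only [Prod.snd_add, Chart.pt]; linarith⟩)
  have a3 := hb ((c.1 + 32) / 128, c.2 / 128)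
  have hd : Disjoint (Bx (φ.shear (1 / 3) 800) c 31)
      (Bx (φ.shear (1 / 3) 800) (c + (φ.shear (1 / 3) 800).pt o) 31) :=
    Bx_disj _ (Or.inl (lt_abs.2 (Or.inr (by simp only [Prod.fst_add, Chart.pt]; linarith))))
  have m1 := GoodN_meas hφ'.det c (2 * y + 2 ^ 61 * K * τ) (660600 * K * Lo)
  have m2 := GoodN_meas hφ'.det (c + (φ.shear (1 / 3) 800).pt o) (2 * y + 2 ^ 61 * K * τ)
    (660600 * K * Lo)
  have a4 := indep_two hG hd m1 m2 (GoodN_dep _ _ _ _) (GoodN_dep _ _ _ _)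
  have a5 : Pr G (GoodN (φ.shear (1 / 3) 800) (c + (φ.shear (1 / 3) 800).pt o)
      (2 * y + 2 ^ 61 * K * τ) (660600 * K * Lo)) =
      Pr G (GoodN (φ.shear (1 / 3) 800) c (2 * y + 2 ^ 61 * K * τ) (660600 * K * Lo)) := by
    rw [GoodN_sh, Pr_sh hG o m1]
  rw [a5] at a4
  rw [hG.compl m1]
  generalize GoodN (φ.shear (1 / 3) 800) (c + (φ.shear (1 / 3) 800).pt o)
    (2 * y + 2 ^ 61 * K * τ) (660600 * K * Lo) = A' at a2 a4
  generalize GoodN (φ.shear (1 / 3) 800) c (2 * y + 2 ^ 61 * K * τ) (660600 * K * Lo) = A at a1 a4 ⊢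
  generalize GoodN ((φ.scale 128).shear (1 / 3) 800) ((c.1 + 32) / 128, c.2 / 128) y
    (660600 * K * (128 * Lo)) = B at a1 a2 a3
  have a6 : Pr G (A ∩ A')ᶜ ≤ Pr G (Bᶜ ∪ (B \ A ∪ B \ A')) := hG.mono fun t ht => by
    by_cases hB : t ∈ B
    · by_cases hA : t ∈ A
      · exact Or.inr (Or.inr ⟨hB, fun hA' => ht ⟨hA, hA'⟩⟩)
      · exact Or.inr (Or.inl ⟨hB, hA⟩)
    · exact Or.inl hB
  have a7 := hG.union Bᶜ (B \ A ∪ B \ A')
  have a8 := hG.union (B \ A) (B \ A')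
  have a9 := hG.compl_ge (A ∩ A')
  have b0 := Pr_nonneg G A
  have b1 := hG.le_one A
  have b2 : 1 - Pr G A * Pr G A ≤ g + 2 ^ 88 * p ^ 2 := by linarith
  have b3 : 1 / 2 ≤ Pr G A := by
    by_contra hc
    nlinarith [not_le.1 hc]
  nlinarith

end

end Crest.Agent.R151.C
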