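import Crest.Agent.R151.C15

/-! Row 151 (C): boost and the net of good cells -/

set_option autoImplicit false

open MeasureTheory Set Filter Topology
open Crest.ProbabilityR.FirstPassage
open Crest.Agent.R151.B

namespace Crest.Agent.R151.C

noncomputable section

variable {G : Measure ℝ} {φ : Chart}

theorem boost_num {a : ℝ} (ha : 0 < a) (ha' : a ≤ 1 / 2 ^ 50) : ∃ I : ℕ,
    (2 / 3 : ℝ) ^ I * (2 ^ 32 * a ^ 4) + 2 ^ 89 * a ^ 8 ≤ a ^ 5 / 2 ∧
      (256 : ℝ) ^ I * 2 ^ 62 ≤ 2 ^ 550 / a ^ 16 := by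
  have hex : ∃ I : ℕ, (2 / 3 : ℝ) ^ I ≤ a / 2 ^ 34 := by
    obtain ⟨n, hn⟩ := exists_pow_lt_of_lt_one (show 0 < a / 2 ^ 34 by positivity)
      (show (2 / 3 : ℝ) < 1 by norm_num)
    exact ⟨n, hn.le⟩
  classical
  have h1 := Nat.find_spec hex
  have ha1 : a ≤ 1 := ha'.trans (by norm_num)
  refine ⟨Nat.find hex, ?_, ?_⟩
  · have e1 : (2 / 3 : ℝ) ^ Nat.find hex * (2 ^ 32 * a ^ 4) ≤ a / 2 ^ 34 * (2 ^ 32 * a ^ 4) :=
      mul_le_mul_of_nonneg_right h1 (by positivity)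
    have e2 : a ^ 3 ≤ (1 / 2 ^ 50) ^ 3 := pow_le_pow_left₀ ha.le ha' 3
    have e3 : a ^ 5 * a ^ 3 ≤ a ^ 5 * (1 / 2 ^ 50) ^ 3 := mul_le_mul_of_nonneg_left e2 (by positivity)
    have e4 : 0 < a ^ 5 := by positivity
    have e5 : a / 2 ^ 34 * (2 ^ 32 * a ^ 4) = a ^ 5 / 4 := by ring
    have e6 : a ^ 8 = a ^ 5 * a ^ 3 := by ring
    rw [e6]; norm_num at e3 ⊢; linarith
  · have h2 : a / 2 ^ 34 * (2 / 3) ≤ (2 / 3 : ℝ) ^ Nat.find hex := by
      rcases Nat.eq_zero_or_pos (Nat.find hex) with h0 | h0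
      · rw [h0, pow_zero]
        have : a / 2 ^ 34 ≤ 1 := by rw [div_le_one (by positivity)]; exact ha1.trans (by norm_num)
        linarith
      · have := Nat.find_min hex (show Nat.find hex - 1 < Nat.find hex by omega)
        have e : (2 / 3 : ℝ) ^ Nat.find hex = (2 / 3) ^ (Nat.find hex - 1) * (2 / 3) := by
          rw [← pow_succ, Nat.sub_add_cancel h0]
        rw [e]
        exact mul_le_mul_of_nonneg_right (not_le.1 this).le (by norm_num)
    generalize Nat.find hex = I at h2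
    have h3 : (a / 2 ^ 34 * (2 / 3)) ^ 14 ≤ ((2 / 3 : ℝ) ^ I) ^ 14 :=
      pow_le_pow_left₀ (by positivity) h2 14
    have h4 : ((2 / 3 : ℝ) ^ I) ^ 14 * 256 ^ I ≤ 1 := by
      rw [← pow_mul, mul_comm I 14, pow_mul, ← mul_pow]
      exact pow_le_one₀ (by positivity) (by norm_num)
    have h5 : (a / 2 ^ 34 * (2 / 3)) ^ 14 * 256 ^ I ≤ 1 :=
      (mul_le_mul_of_nonneg_right h3 (by positivity)).trans h4
    rw [le_div_iff₀ (by positivity)]
    have h6 : a ^ 16 ≤ a ^ 14 := pow_le_pow_of_le_one ha.le ha1 (by norm_num)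
    have h7 : (256 : ℝ) ^ I * a ^ 16 ≤ 256 ^ I * a ^ 14 := mul_le_mul_of_nonneg_left h6 (by positivity)
    have h8 : (a / 2 ^ 34 * (2 / 3)) ^ 14 * 256 ^ I =
        (256 ^ I * a ^ 14) * ((1 / 2 ^ 34 * (2 / 3)) ^ 14) := by ring
    rw [h8] at h5
    have h9 : (1 : ℝ) / 2 ^ 488 ≤ (1 / 2 ^ 34 * (2 / 3)) ^ 14 := by
      rw [show (488 : ℕ) = 244 + 244 from rfl, pow_add]; norm_num
    have h10 : (256 ^ I * a ^ 14) * ((1 : ℝ) / 2 ^ 488) ≤ 1 :=
      (mul_le_mul_of_nonneg_left h9 (by positivity)).trans h5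
    rw [mul_one_div, div_le_one (by positivity)] at h10
    calc (256 : ℝ) ^ I * 2 ^ 62 * a ^ 16 = (256 ^ I * a ^ 16) * 2 ^ 62 := by ring
      _ ≤ 2 ^ 488 * 2 ^ 62 := mul_le_mul_of_nonneg_right (h7.trans h10) (by positivity)
      _ = 2 ^ 550 := by rw [← pow_add]

theorem boost_iter (hG : Law G) {K a : ℝ} (hK : 1 ≤ K) (ha : 0 < a) (ha' : a ≤ 1 / 2 ^ 50) (I : ℕ) :
    ∀ (φ : Chart) (τ Lo : ℝ), φ.OK → 0 ≤ τ → 0 < Lo →
      (∀ (i : ℕ) (c : ℝ × ℝ), Pr G (Good (φ.scale (128 ^ i)) c (128 ^ i * τ) (128 ^ i * Lo)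
        (K * (128 ^ i * Lo)))ᶜ ≤ a ^ 4) → ∀ c,
      Pr G (GoodN (φ.shear (1 / 3) 800) c ((256 ^ I * 2 ^ 62 - 2 ^ 61) * K * τ) (660600 * K * Lo))ᶜ ≤
        (2 / 3) ^ I * (2 ^ 32 * a ^ 4) + 2 ^ 89 * a ^ 8 := by
  have h4 : a ^ 4 ≤ (1 / 2 ^ 50) ^ 4 := pow_le_pow_left₀ ha.le ha' 4
  have h8 : a ^ 8 ≤ (1 / 2 ^ 50) ^ 8 := pow_le_pow_left₀ ha.le ha' 8
  have p4 : 0 < a ^ 4 := by positivity
  have p8 : 0 < a ^ 8 := by positivity
  induction I with
  | zero =>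
    intro φ τ Lo hφ hτ hLo h c
    have h0 := h 0
    simp only [pow_zero, one_mul, Chart.scale, Chart.shear_one] at h0
    have := top0 hG hφ hLo hK hτ h0 c
    have hKτ : 0 ≤ K * τ := mul_nonneg (by linarith) hτ
    refine (hG.mono (compl_subset_compl.2 (GoodN_mono _ _ ?_ le_rfl))).trans (this.trans ?_)
    · norm_num; nlinarith
    · rw [pow_zero, one_mul]; nlinarith
  | succ I ih =>
    intro φ τ Lo hφ hτ hLo h c
    have h0 := h 0
    simp only [pow_zero, one_mul, Chart.scale, Chart.shear_one] at h0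
    have hb := ih (φ.scale 128) (128 * τ) (128 * Lo) (hφ.scale (by norm_num)) (by positivity)
      (by positivity) (fun i c => by
        have := h (i + 1) c
        have e : (φ.scale 128).scale (128 ^ i) = φ.scale (128 ^ (i + 1)) := by
          simp only [Chart.scale]
          rw [Chart.shear_shear _ (by norm_num) (by positivity), one_mul, pow_succ']
        rw [e, show (128 : ℝ) ^ i * (128 * τ) = 128 ^ (i + 1) * τ by ring,
          show (128 : ℝ) ^ i * (128 * Lo) = 128 ^ (i + 1) * Lo by ring]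
        exact this)
    have hI : (2 / 3 : ℝ) ^ I ≤ 1 := pow_le_one₀ (by norm_num) (by norm_num)
    have hI' : (2 / 3 : ℝ) ^ I * (2 ^ 32 * a ^ 4) ≤ 1 * (2 ^ 32 * a ^ 4) :=
      mul_le_mul_of_nonneg_right hI (by positivity)
    have e8 : (a ^ 4) ^ 2 = a ^ 8 := by ring
    have := step1 hG hφ hLo hK hτ h0 hb (by rw [e8]; norm_num at h4 h8 hI' ⊢; linarith) c
    have hKτ : 0 ≤ K * τ := mul_nonneg (by linarith) hτ
    refine (hG.mono (compl_subset_compl.2 (GoodN_mono _ _ ?_ le_rfl))).trans (this.trans (le_of_eq ?_))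
    · have : 2 * ((256 ^ I * 2 ^ 62 - 2 ^ 61) * K * (128 * τ)) + 2 ^ 61 * K * τ =
          (256 ^ (I + 1) * 2 ^ 62 - 2 ^ 61) * K * τ - 254 * 2 ^ 61 * (K * τ) := by ring
      rw [this]; nlinarith
    · rw [e8]; ring

theorem boost (hG : Law G) (hφ : φ.OK) {K a τ Lo : ℝ} (hK : 1 ≤ K) (ha : 0 < a) (ha' : a ≤ 1 / 2 ^ 50)
    (hτ : 0 ≤ τ) (hLo : 0 < Lo)
    (h : ∀ (i : ℕ) (c : ℝ × ℝ), Pr G (Good (φ.scale (128 ^ i)) c (128 ^ i * τ) (128 ^ i * Lo)
      (K * (128 ^ i * Lo)))ᶜ ≤ a ^ 4) (c : ℝ × ℝ) :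
    Pr G (GoodN (φ.shear (1 / 3) 800) c (2 ^ 550 / a ^ 16 * K * τ) (660600 * K * Lo))ᶜ ≤ a ^ 5 / 2 := by
  obtain ⟨I, h1, h2⟩ := boost_num ha ha'
  have := boost_iter hG hK ha ha' I φ τ Lo hφ hτ hLo h c
  refine (hG.mono (compl_subset_compl.2 (GoodN_mono _ _ ?_ le_rfl))).trans (this.trans h1)
  have hKτ : 0 ≤ K * τ := mul_nonneg (by linarith) hτ
  rw [mul_assoc, mul_assoc]
  exact mul_le_mul_of_nonneg_right (le_trans (sub_le_self _ (by positivity)) h2) hKτ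

theorem net_step (hG : Law G) {p : Par} {F : Chart} (hp : p.OK F) {j : ℕ}
    (hLo : ∀ (d : ℕ) (c : ℝ × ℝ), Pr G {t | ¬ LoP (Ph F (800 ^ (j + 1) * 2 ^ (p.k0 + d)) (1 / 3 ^ (j + 1))) t
      (Bx (Ph F (800 ^ (j + 1) * 2 ^ (p.k0 + d)) (1 / 3 ^ (j + 1))) c 31) 1 (p.c1 * 2 ^ (p.k0 + d))} ≤
        pj p.l0 (j + 1) / 2) (h : p.NL G F j) : p.NL G F (j + 1) := by
  intro d c
  have hl : (1000 : ℝ) ≤ ell p.l0 j := by
    have h1 : (1 : ℝ) ≤ (5 / 4) ^ j := one_le_pow₀ (by norm_num)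
    have h2 : (1000 : ℝ) ≤ p.l0 := by exact_mod_cast hp.l0
    unfold ell; nlinarith
  have hs : ell p.l0 (j + 1) = 5 / 4 * ell p.l0 j := by unfold ell; ring
  set a : ℝ := (2 : ℝ) ^ (-(ell p.l0 j / 4)) with ha
  have ha0 : 0 < a := by positivity
  have hpow : ∀ n : ℕ, a ^ n = (2 : ℝ) ^ (-(n * ell p.l0 j / 4)) := fun n => by
    rw [ha, ← Real.rpow_natCast, ← Real.rpow_mul (by norm_num)]; congr 1; ring
  have two : ∀ {x y : ℝ}, x ≤ y → (2 : ℝ) ^ x ≤ 2 ^ y := fun h =>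
    Real.rpow_le_rpow_of_exponent_le (by norm_num) h
  have ha' : a ≤ 1 / 2 ^ 50 := by
    rw [one_div, ← Real.rpow_natCast, ← Real.rpow_neg (by norm_num)]
    exact two (by push_cast; linarith)
  have e4 : pj p.l0 j = a ^ 4 := by rw [hpow]; unfold pj; congr 1; push_cast; ring
  have e5 : pj p.l0 (j + 1) = a ^ 5 := by rw [hpow]; unfold pj; rw [hs]; congr 1; push_cast; ring
  have hK : 1 ≤ Kj p.l0 j := Real.one_le_rpow (by norm_num) (by linarith)
  have hD := hp.D0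
  have hc1 := hp.c1
  have hF : 0 < Fj p.l0 j := by unfold Fj; positivity
  have hg : ∀ d, 0 < gr d := fun d => by unfold gr; positivity
  have hφ : (Ph F (800 ^ j * 2 ^ (p.k0 + d)) (1 / 3 ^ j)).OK := by
    have := hp.ok.shear (l := 1 / 3 ^ j) (ν := 800 ^ j * 2 ^ d) (by positivity)
      (by rw [div_le_one (by positivity)]; exact one_le_pow₀ (by norm_num))
      (one_le_mul_of_one_le_of_one_le (one_le_pow₀ (by norm_num)) (one_le_pow₀ (by norm_num)))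
    unfold Par.ph0 Par.s0 at this
    rw [Ph_shear F (by positivity) (by positivity), one_mul] at this
    convert this using 2; ring
  have hb := boost hG hφ (τ := Fj p.l0 j * gr d * p.D0) (Lo := p.c1 * 2 ^ (p.k0 + d)) hK ha0 ha'
    (by have := hg d; positivity) (by positivity) (fun i c => by
      have h1 := h (d + 7 * i) c
      have e : (Ph F (800 ^ j * 2 ^ (p.k0 + d)) (1 / 3 ^ j)).scale (128 ^ i) =
          Ph F (800 ^ j * 2 ^ (p.k0 + (d + 7 * i))) (1 / 3 ^ j) := by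
        unfold Chart.scale
        rw [Ph_shear F (by positivity) (by positivity), mul_one]
        congr 1
        rw [← add_assoc, pow_add _ _ (7 * i), pow_mul]; norm_num; ring
      have e' : (128 : ℝ) ^ i * (p.c1 * 2 ^ (p.k0 + d)) = p.c1 * 2 ^ (p.k0 + (d + 7 * i)) := by
        rw [← add_assoc, pow_add _ _ (7 * i), pow_mul]; norm_num; ring
      rw [e, e', ← e4]
      refine (hG.mono (compl_subset_compl.2 (Good_mono _ _ ?_ le_rfl le_rfl))).trans h1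
      have : gr (d + 7 * i) ≤ 128 ^ i * gr d := by
        unfold gr
        rw [show (128 : ℝ) = 2 ^ (7 : ℕ) by norm_num, ← pow_mul, ← Real.rpow_natCast,
          ← Real.rpow_add (by norm_num)]
        refine two ?_
        push_cast
        have : (0 : ℝ) ≤ i := Nat.cast_nonneg i
        linarith
      calc Fj p.l0 j * gr (d + 7 * i) * p.D0 ≤ Fj p.l0 j * (128 ^ i * gr d) * p.D0 := by gcongr
        _ = _ := by ring) c
  have e : (Ph F (800 ^ j * 2 ^ (p.k0 + d)) (1 / 3 ^ j)).shear (1 / 3) 800 =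
      Ph F (800 ^ (j + 1) * 2 ^ (p.k0 + d)) (1 / 3 ^ (j + 1)) := by
    rw [Ph_shear F (by positivity) (by positivity)]
    congr 1
    · ring
    · rw [pow_succ]; field_simp
  rw [e] at hb
  have n1 : 2 ^ 550 / a ^ 16 * Kj p.l0 j * Fj p.l0 j ≤ Fj p.l0 (j + 1) := by
    rw [hpow]; unfold Kj Fj
    rw [hs, ← Real.rpow_natCast, ← Real.rpow_sub (by norm_num), ← Real.rpow_add (by norm_num),
      ← Real.rpow_add (by norm_num)]
    exact two (by push_cast; linarith)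
  have n2 : 660600 * Kj p.l0 j ≤ Kj p.l0 (j + 1) := by
    unfold Kj
    rw [hs]
    calc 660600 * (2 : ℝ) ^ (ell p.l0 j / 4) ≤ 2 ^ ((20 : ℕ) : ℝ) * (2 : ℝ) ^ (ell p.l0 j / 4) := by
          rw [Real.rpow_natCast]; gcongr; norm_num
      _ = 2 ^ (((20 : ℕ) : ℝ) + ell p.l0 j / 4) := (Real.rpow_add (by norm_num) _ _).symm
      _ ≤ _ := two (by push_cast; linarith)
  have h2 := hLo d c
  refine (hG.mono ?_).trans ((hG.union _ _).trans ((add_le_add hb h2).trans (by rw [e5]; linarith)))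
  intro t ht
  by_contra hc
  simp only [mem_union, mem_compl_iff, not_or, not_not, mem_ofPred_eq] at hc
  refine ht ⟨GoodN_mono _ _ ?_ ?_ hc.1, hc.2⟩
  · have := hg d
    calc 2 ^ 550 / a ^ 16 * Kj p.l0 j * (Fj p.l0 j * gr d * p.D0) =
          (2 ^ 550 / a ^ 16 * Kj p.l0 j * Fj p.l0 j) * gr d * p.D0 := by ring
      _ ≤ _ := by gcongr
  · exact mul_le_mul_of_nonneg_right n2 (by positivity)

end

end Crest.Agent.R151.C
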