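import Crest.Agent.R151.C14

/-! Row 151 (C): positivity of the tolerance, the record -/

set_option autoImplicit false

open MeasureTheory Set Filter Topology
open Crest.ProbabilityR.FirstPassage
open Crest.Agent.R151.B

namespace Crest.Agent.R151.C

noncomputable section

variable {G : Measure ℝ} {φ : Chart}

theorem C17_eq {t t' : Env} {U : Set Z2} (hout : ∀ x y, x ∉ U ∨ y ∉ U → ew t' x y = ew t x y)
    {P : Pth} {i j : ℕ} (hj : j ≤ P.n) (h : ∀ k, k ≤ P.n → P.v k ∉ U) :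
    P.cost t' i j = P.cost t i j :=
  Finset.sum_congr rfl fun k hk =>
    hout _ _ (Or.inl (h k ((Finset.mem_Ico.1 hk).2.le.trans hj)))

/-- lowering the weights near the centre is seen by the tolerance -/
theorem gain0 (hφ : φ.OK) {t t' : Env} {c : ℝ × ℝ} {θ τ Lo Up : ℝ} (h0 : 0 ≤ θ) (h1 : θ ≤ 1)
    (hin : ∀ x ∈ Bx φ c 1, ∀ y ∈ Bx φ c 1, ew t' x y = (1 - θ) * ew t x y)
    (hout : ∀ x y, x ∉ Bx φ c 1 ∨ y ∉ Bx φ c 1 → ew t' x y = ew t x y)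
    (ht : t ∈ Good φ c τ Lo Up) (ht' : t' ∈ GoodN φ c τ Up) : θ * Lo ≤ 4 * τ := by
  obtain ⟨⟨B, hS, hN⟩, hLo⟩ := ht
  obtain ⟨B', hS', hN'⟩ := ht'
  obtain ⟨H1, hH1⟩ := hN.1 (c.2 - 1 / 2) (by linarith) (by linarith)
  obtain ⟨H2, hH2⟩ := hN'.1 (c.2 + 3) (by linarith) (by linarith)
  obtain ⟨V1, hV1⟩ := hN.2 (c.1 + 3) (by rw [Prod.snd_swap]; linarith)
    (by rw [Prod.snd_swap]; linarith)
  obtain ⟨V2, hV2⟩ := hN'.2 (c.1 - 4) (by rw [Prod.snd_swap]; linarith)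
    (by rw [Prod.snd_swap]; linarith)
  have sub : Bx φ c (30 + 1 / 10) ⊆ Bx φ c 31 := Bx_mono_r φ c (by norm_num)
  have iH1 : H1.In (Bx φ c 31) := (hH1.In (by linarith) (by linarith)).mono sub
  have iH2 : H2.In (Bx φ c 31) := (hH2.In (by linarith) (by linarith)).mono sub
  have iV1 : V1.In (Bx φ c 31) := (hV1.In (by rw [Prod.snd_swap]; linarith)
    (by rw [Prod.snd_swap]; linarith)).mono (by rw [Bx_swap]; exact sub)
  have iV2 : V2.In (Bx φ c 31) := (hV2.In (by rw [Prod.snd_swap]; linarith)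
    (by rw [Prod.snd_swap]; linarith)).mono (by rw [Bx_swap]; exact sub)
  obtain ⟨⟨a1, a2, a3⟩, sH1, -⟩ := hH1
  obtain ⟨⟨b1, b2, b3⟩, sH2, -⟩ := hH2
  obtain ⟨⟨c1, c2, c3⟩, sV1, -⟩ := hV1
  obtain ⟨⟨d1, d2, d3⟩, sV2, -⟩ := hV2
  simp only [Chart.swap_x, Chart.swap_y, Prod.fst_swap] at c1 c2 c3 d1 d2 d3
  obtain ⟨i1, i2, l1, l2, j1, j2, k1, k2, hi, hi2, hl, hl2, hj, hj2, hk, hk2, e1, e2, e3, e4⟩ :=
    rect hφ.det (H1 := H1) (V1 := V1) (V2 := V2) (H2 := H2) (xa := c.1 - 4) (xa' := c.1 - 4 + 1)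
      (xb := c.1 + 3) (xb' := c.1 + 3 + 1) (ya := c.2 - 1 / 2) (ya' := c.2 - 1 / 2 + 1)
      (yb := c.2 + 3) (yb' := c.2 + 3 + 1) (by linarith) (by linarith)
      (fun k hk => ⟨(a1 k hk).1, (a1 k hk).2.1⟩) (by linarith) (by linarith)
      (fun k hk => ⟨(b1 k hk).1, (b1 k hk).2.1⟩) (by linarith) (by linarith)
      (fun k hk => ⟨(c1 k hk).1, (c1 k hk).2.1⟩) (by linarith) (by linarith)
      (fun k hk => ⟨(d1 k hk).1, (d1 k hk).2.1⟩) (by linarith) (by linarith)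
  have f1 := sH1 i1 i2 hi hi2
  have f2 := sV1 l1 l2 hl hl2
  have f3 := hS.1.cost iV2 hj hj2
  have f4 := hS.1.cost iH2 hk hk2
  have f5 := sV2 j1 j2 hj hj2
  have f6 := sH2 k1 k2 hk hk2
  have f7 := hS'.1.cost iH1 hi hi2
  have f8 := hS'.1.cost iV1 hl hl2
  have g1 : V2.cost t' j1 j2 = V2.cost t j1 j2 := C17_eq hout hj2 fun k hk h => by
    have := (abs_le.1 h.1).1; linarith [(d1 k hk).2.1]
  have g2 : H2.cost t' k1 k2 = H2.cost t k1 k2 := C17_eq hout hk2 fun k hk h => by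
    have := (abs_le.1 h.2).2; linarith [(b1 k hk).1]
  have g3 : V1.cost t' l1 l2 = V1.cost t l1 l2 := C17_eq hout hl2 fun k hk h => by
    have := (abs_le.1 h.1).2; linarith [(c1 k hk).1]
  obtain ⟨a, b, ha, hab, hb, x0, x1, hx⟩ := restr hφ H1 hi hi2 (x0 := c.1 - 1 / 2)
    (x1 := c.1 + 1 / 2) (by linarith) (by rw [e1]; linarith [(d1 j1 (hj.trans hj2)).2.1])
    (by rw [e2]; linarith [(c1 l1 (hl.trans hl2)).1])
  have hle : ∀ x y, ew t' x y ≤ ew t x y := by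
    intro x y
    by_cases h : x ∈ Bx φ c 1 ∧ y ∈ Bx φ c 1
    · rw [hin x h.1 y h.2]
      have := mul_nonneg h0 (ew_nonneg t x y)
      linarith
    · exact (hout x y (not_and_or.1 h)).le
  have hle' : ∀ i j, H1.cost t' i j ≤ H1.cost t i j := fun i j =>
    Finset.sum_le_sum fun k _ => hle _ _
  have hbx : ∀ k, a ≤ k → k ≤ b → H1.v k ∈ Bx φ c 1 := by
    intro k h1 h2
    obtain ⟨y0, y1, -⟩ := a1 k (h2.trans (hb.trans hi2))
    obtain ⟨y2, y3⟩ := hx k h1 h2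
    exact ⟨abs_le.2 ⟨by linarith, by linarith⟩, abs_le.2 ⟨by linarith, by linarith⟩⟩
  have g4 : H1.cost t' a b = (1 - θ) * H1.cost t a b := by
    unfold Pth.cost
    rw [Finset.mul_sum]
    refine Finset.sum_congr rfl fun k hk => ?_
    obtain ⟨h1, h2⟩ := Finset.mem_Ico.1 hk
    exact hin _ (hbx k h1 h2.le) _ (hbx (k + 1) (by omega) h2)
  have g5 : Lo ≤ H1.cost t a b := by
    have := hLo (H1.sub a b) (iH1.sub hab (hb.trans hi2)) (Or.inl (by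
      rw [Pth.sub_fst, Pth.sub_lst _ hab (hb.trans hi2)]
      exact le_trans (by linarith) (le_abs_self _)))
    rwa [Pth.sub_tot _ _ hab (hb.trans hi2)] at this
  have g6 := mul_le_mul_of_nonneg_left g5 h0
  have s1 := H1.cost_add t ha hab
  have s2 := H1.cost_add t (ha.trans hab) hb
  have s3 := H1.cost_add t' ha hab
  have s4 := H1.cost_add t' (ha.trans hab) hb
  have s5 := hle' i1 a
  have s6 := hle' b i2
  rw [e1, e2] at f1 f7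
  rw [e4] at f2 f8
  rw [e3] at f3 f5
  linarith

theorem positive (hG : Law G) (hS : Scal G) (hφ : φ.OK) {Lo q : ℝ} (hLo : 0 < Lo) (hq : q ≤ 1 / 8)
    (Up : ℝ) : ∃ τ : ℝ, 0 < τ ∧ ¬ ∀ c, Pr G (Good φ c τ Lo Up)ᶜ ≤ q := by
  classical
  obtain ⟨K, hK, hS⟩ := hS
  obtain ⟨F, hF⟩ : ∃ F : Finset (Sym2 Z2), ∀ x y, s(x, y) ∈ F ↔ x ∈ Bx φ 0 1 ∧ y ∈ Bx φ 0 1 := by
    refine ⟨(Bx_fin hφ.det 0 1).toFinset.sym2, fun x y => ?_⟩
    rw [Finset.mk_mem_sym2_iff, Set.Finite.mem_toFinset, Set.Finite.mem_toFinset]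
  obtain ⟨θ, hθ0, hθ1, hθ2⟩ : ∃ θ : ℝ, 0 < θ ∧ θ ≤ 1 / 2 ∧ K * θ ^ 2 * F.card ≤ 1 / 2 := by
    have h0 : 0 ≤ K * F.card := by positivity
    refine ⟨1 / (2 * (K * F.card + 1)), by positivity,
      one_div_le_one_div_of_le (by norm_num) (by linarith), ?_⟩
    rw [mul_right_comm, one_div_pow, mul_one_div, div_le_div_iff₀ (by positivity) (by norm_num)]
    nlinarith [sq_nonneg (K * F.card)]
  refine ⟨θ * Lo / 5, by positivity, fun h => ?_⟩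
  have h1 := hS F θ _ hθ0.le hθ1 (Good_meas hφ.det 0 (θ * Lo / 5) Lo Up).compl
  have h2 : Pr G (Good φ 0 (θ * Lo / 5) Lo Up)ᶜᶜ ≤
      Pr G (scl F (1 - θ) ⁻¹' (Good φ 0 (θ * Lo / 5) Lo Up)ᶜ) := by
    refine hG.mono fun t ht ht' => ?_
    rw [compl_compl] at ht
    have := gain0 hφ (t := t) (t' := scl F (1 - θ) t) hθ0.le (by linarith) (fun x hx y hy => by
      simp only [ew, scl, if_pos ((hF x y).2 ⟨hx, hy⟩)]
      rw [mul_max_of_nonneg _ _ (by linarith : 0 ≤ 1 - θ), mul_zero]) (fun x y hxy => by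
      have hn : s(x, y) ∉ F := fun hm => (not_and_or.2 hxy) ((hF x y).1 hm)
      simp only [ew, scl, if_neg hn]) ht ht'.1
    have := mul_pos hθ0 hLo
    linarith
  have h3 := hG.compl_ge (Good φ 0 (θ * Lo / 5) Lo Up)ᶜ
  have h4 := h 0
  have h5 : Real.exp (K * θ ^ 2 * F.card) ≤ 3 :=
    (Real.exp_le_exp.2 (show _ ≤ 1 by linarith)).trans (Real.exp_one_lt_d9.le.trans (by norm_num))
  have h6 := mul_le_mul h5 (h4.trans hq) (Pr_nonneg _ _) (by norm_num)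
  have h7 : (7 / 8 : ℝ) ^ 2 ≤ Pr G (scl F (1 - θ) ⁻¹' (Good φ 0 (θ * Lo / 5) Lo Up)ᶜ) ^ 2 :=
    pow_le_pow_left₀ (by norm_num) (by linarith) 2
  linarith

theorem C17_max {a : ℕ → ℝ} {k1 : ℕ} {C r : ℝ} (h0 : 0 ≤ r) (h1 : r < 1) (hp : 0 < a k1)
    (h : ∀ k, k1 ≤ k → a k ≤ C * r ^ k) : ∃ k0, k1 ≤ k0 ∧ ∀ k, k1 ≤ k → a k ≤ a k0 := by
  have ht : Tendsto (fun k : ℕ => C * r ^ k) atTop (𝓝 0) := by
    simpa using (tendsto_pow_atTop_nhds_zero_of_lt_one h0 h1).const_mul C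
  obtain ⟨N, hN⟩ := eventually_atTop.1 (ht.eventually_lt_const hp)
  obtain ⟨k0, hk0, hmax⟩ := (Finset.Icc k1 (k1 + N)).exists_max_image a
    ⟨k1, Finset.mem_Icc.2 ⟨le_rfl, by omega⟩⟩
  refine ⟨k0, (Finset.mem_Icc.1 hk0).1, fun k hk => ?_⟩
  by_cases hk' : k ≤ k1 + N
  · exact hmax k (Finset.mem_Icc.2 ⟨hk, hk'⟩)
  · exact ((h k hk).trans (hN k (by omega)).le).trans
      (hmax k1 (Finset.mem_Icc.2 ⟨le_rfl, by omega⟩))

theorem record {f : ℕ → ℝ → Prop} {k1 : ℕ} {C : ℝ} (hC : 0 < C)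
    (hm : ∀ k τ τ', τ ≤ τ' → f k τ → f k τ') (hp : ∀ k, k1 ≤ k → ∃ τ, 0 < τ ∧ ¬ f k τ)
    (hu : ∀ k, k1 ≤ k → f k (C * (2 ^ k : ℝ) ^ (7 / 8 : ℝ))) :
    ∃ (k0 : ℕ) (D0 : ℝ), k1 ≤ k0 ∧ 0 < D0 ∧ D0 ≤ 2 * C * (2 ^ k0 : ℝ) ^ (7 / 8 : ℝ) ∧
      (∀ d, f (k0 + d) (gr d * D0)) ∧ ¬ f k0 (D0 / 4) := by
  have hgr : ∀ d, 0 < gr d := fun d => Real.rpow_pos_of_pos two_pos _
  have hbd : ∀ k, k1 ≤ k → ∃ τ, 0 < τ ∧ τ ∈ lowerBounds {τ | f k τ} := fun k hk => by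
    obtain ⟨τ, h0, hn⟩ := hp k hk
    exact ⟨τ, h0, fun τ' h' => le_of_not_ge fun hle => hn (hm k _ _ hle h')⟩
  have hpos : ∀ k, k1 ≤ k → 0 < sInf {τ | f k τ} := fun k hk => by
    obtain ⟨τ, h0, hl⟩ := hbd k hk
    exact h0.trans_le (le_csInf ⟨_, hu k hk⟩ hl)
  have hle : ∀ k, k1 ≤ k → ∀ τ, f k τ → sInf {τ | f k τ} ≤ τ := fun k hk τ h => by
    obtain ⟨τ', -, hl⟩ := hbd k hk
    exact csInf_le ⟨τ', hl⟩ h
  have hgt : ∀ k, k1 ≤ k → ∀ τ, sInf {τ | f k τ} < τ → f k τ := fun k hk τ h => by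
    obtain ⟨τ', h1, h2⟩ := exists_lt_of_csInf_lt ⟨_, hu k hk⟩ h
    exact hm k _ _ h2.le h1
  obtain ⟨k0, hk0, hmax⟩ := C17_max (a := fun k => sInf {τ | f k τ} / gr k) (k1 := k1) (C := C)
    (r := (2 : ℝ) ^ (-(1 / 16) : ℝ)) (Real.rpow_pos_of_pos two_pos _).le
    (Real.rpow_lt_one_of_one_lt_of_neg one_lt_two (by norm_num))
    (div_pos (hpos k1 le_rfl) (hgr k1)) fun k hk => by
      rw [div_le_iff₀ (hgr k)]
      refine (hle k hk _ (hu k hk)).trans (le_of_eq ?_)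
      rw [mul_assoc, gr, ← Real.rpow_natCast, ← Real.rpow_natCast, ← Real.rpow_mul two_pos.le,
        ← Real.rpow_mul two_pos.le, ← Real.rpow_add two_pos]
      congr 2
      ring
  have h0 := hpos k0 hk0
  refine ⟨k0, 2 * sInf {τ | f k0 τ}, hk0, by positivity, ?_, fun d => ?_, fun h => ?_⟩
  · have := hle k0 hk0 _ (hu k0 hk0)
    linarith
  · refine hgt _ (by omega) _ ?_
    have h1 := hmax (k0 + d) (by omega)
    have h2 : gr (k0 + d) = gr k0 * gr d := by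
      rw [gr, gr, gr, ← Real.rpow_add two_pos]
      push_cast
      congr 1
      ring
    rw [div_le_iff₀ (hgr _), h2, ← mul_assoc, div_mul_cancel₀ _ (hgr k0).ne'] at h1
    have := mul_pos h0 (hgr d)
    linarith
  · have := hle k0 hk0 _ h
    linarith

end

end Crest.Agent.R151.C
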