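import Crest.Agent.R151.C03

/-! Row 151 (C): the flat edge of the unit ball -/

set_option autoImplicit false

open MeasureTheory Set Filter Topology
open Crest.ProbabilityR.FirstPassage
open Crest.Agent.R151.B

namespace Crest.Agent.R151.C

noncomputable section

variable {μ : ℝ × ℝ → ℝ}

theorem C23_zero (hμ : Nm μ) : μ 0 = 0 := by
  have := hμ.smul 0 0 le_rfl
  rwa [zero_smul, zero_mul] at this

theorem C23_nn (hμ : Nm μ) (v : ℝ × ℝ) : 0 ≤ μ v := by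
  obtain ⟨c, hc, h⟩ := hμ.low
  exact (mul_nonneg hc.le (norm_nonneg v)).trans (h v)

theorem C23_eq (hμ : Nm μ) {v : ℝ × ℝ} (hv : μ v ≤ 0) : v = 0 := by
  obtain ⟨c, hc, h⟩ := hμ.low
  have := (h v).trans hv
  exact norm_le_zero_iff.1 (by nlinarith [norm_nonneg v])

theorem C23_cont (hμ : Nm μ) : Continuous μ := by
  obtain ⟨K, hK, h⟩ := hμ.up
  refine (LipschitzWith.of_le_add_mul' K fun v w => ?_).continuous
  have h1 := hμ.add w (v - w)
  rw [add_sub_cancel] at h1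
  rw [dist_eq_norm]
  linarith [h (v - w)]

theorem C23_conv (hμ : Nm μ) (x d : ℝ × ℝ) {a b s s' r : ℝ} (ha : 0 ≤ a) (hb : 0 ≤ b)
    (hab : a + b = 1) (hr : a * s + b * s' = r) :
    μ (x + r • d) ≤ a * μ (x + s • d) + b * μ (x + s' • d) := by
  rw [← hμ.smul a _ ha, ← hμ.smul b _ hb]
  refine le_trans (le_of_eq (congrArg μ ?_)) (hμ.add _ _)
  have e : b = 1 - a := by linarith
  subst hr
  subst e
  ext <;> simp only [Prod.fst_add, Prod.snd_add, Prod.smul_fst, Prod.smul_snd, smul_eq_mul] <;> ring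

theorem C23_line (hμ : Nm μ) (h : ¬ StrictConvex ℝ {v : ℝ × ℝ | μ v ≤ 1}) :
    ∃ x d : ℝ × ℝ, d ≠ 0 ∧ μ (x + (0 : ℝ) • d) ≤ 1 ∧ μ (x + (1 : ℝ) • d) ≤ 1 ∧
      ∀ s : ℝ, 1 ≤ μ (x + s • d) := by
  unfold StrictConvex Set.Pairwise at h
  push Not at h
  obtain ⟨x, hx, y, hy, hxy, a, b, ha, hb, hab, hz⟩ := h
  have h0 : μ (x + (0 : ℝ) • (y - x)) ≤ 1 := by simpa using hx
  have h1 : μ (x + (1 : ℝ) • (y - x)) ≤ 1 := by simpa using hy
  have h2 : 1 ≤ μ (x + b • (y - x)) := by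
    by_contra hc
    refine hz (interior_maximal (t := {v | μ v < 1}) (fun v (hv : μ v < 1) => show μ v ≤ 1 from hv.le)
      (isOpen_lt (C23_cont hμ) continuous_const) ?_)
    have e : a • x + b • y = x + b • (y - x) := by
      have e : a = 1 - b := by linarith
      rw [e, sub_smul, one_smul, smul_sub]
      abel
    rw [e]
    exact not_le.1 hc
  refine ⟨x, y - x, sub_ne_zero.2 (Ne.symm hxy), h0, h1, fun s => ?_⟩
  rcases le_total b s with hs | hs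
  · have s0 : 0 < s := hb.trans_le hs
    have k0 : 0 < b / s := div_pos hb s0
    have k1 : b / s ≤ 1 := (div_le_one s0).2 hs
    have := C23_conv hμ x (y - x) (a := b / s) (b := 1 - b / s) (s := s) (s' := 0) (r := b) k0.le
      (by linarith) (by ring) (by field_simp; ring)
    nlinarith
  · have s0 : 0 < 1 - s := by linarith
    have k0 : 0 < a / (1 - s) := div_pos ha s0
    have k1 : a / (1 - s) ≤ 1 := (div_le_one s0).2 (by linarith)
    have := C23_conv hμ x (y - x) (a := a / (1 - s)) (b := 1 - a / (1 - s)) (s := s) (s' := 1) (r := b)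
      k0.le (by linarith) (by ring) (by
        have e : b = 1 - a := by linarith
        rw [e]
        field_simp
        ring)
    nlinarith

theorem C23_smul (F : Chart) (c : ℝ) (v : ℝ × ℝ) :
    (F.ap (c • v)).1 = c * (F.ap v).1 ∧ (F.ap (c • v)).2 = c * (F.ap v).2 := by
  simp only [Chart.ap, Prod.smul_fst, Prod.smul_snd, smul_eq_mul]
  constructor <;> ring

/-- coordinates dual to the two ends of a maximal flat edge -/
theorem edge (hμ : Nm μ) (h : ¬ StrictConvex ℝ {v : ℝ × ℝ | μ v ≤ 1}) : ∃ F : Chart, F.det ≠ 0 ∧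
    (∀ v, (F.ap v).1 + (F.ap v).2 ≤ μ v) ∧
    (∀ v, μ v ≤ (F.ap v).1 + (F.ap v).2 → 0 ≤ (F.ap v).1 ∧ 0 ≤ (F.ap v).2) ∧
    (∃ v, F.ap v = (1, 0) ∧ μ v = 1) ∧ ∃ v, F.ap v = (0, 1) ∧ μ v = 1 := by
  obtain ⟨x, d, hd, h0, h1, hg⟩ := C23_line hμ h
  have hD : x.1 * d.2 - x.2 * d.1 ≠ 0 := by
    intro hD
    have key : ∀ s : ℝ, x + s • d ≠ 0 := fun s e => by
      have := hg s
      rw [e, C23_zero hμ] at this
      linarith
    by_cases h2 : d.1 = 0
    · have h3 : d.2 ≠ 0 := fun h3 => hd (Prod.ext h2 h3)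
      refine key (-x.2 / d.2) (Prod.ext ?_ ?_)
      · rw [h2, mul_zero, sub_zero] at hD
        simpa [h2] using (mul_eq_zero.1 hD).resolve_right h3
      · simp only [Prod.snd_add, Prod.smul_snd, smul_eq_mul, Prod.snd_zero]
        field_simp
        ring
    · refine key (-x.1 / d.1) (Prod.ext ?_ ?_)
      · simp only [Prod.fst_add, Prod.smul_fst, smul_eq_mul, Prod.fst_zero]
        field_simp
        ring
      · simp only [Prod.snd_add, Prod.smul_snd, smul_eq_mul, Prod.snd_zero]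
        field_simp
        linarith
  have hS : IsCompact {s : ℝ | μ (x + s • d) ≤ 1} := by
    obtain ⟨c, hc, hl⟩ := hμ.low
    have hd' : 0 < ‖d‖ := norm_pos_iff.2 hd
    refine Metric.isCompact_of_isClosed_isBounded
      (isClosed_le ((C23_cont hμ).comp (by fun_prop)) continuous_const)
      ((Metric.isBounded_closedBall (x := (0 : ℝ)) (r := (1 / c + ‖x‖) / ‖d‖)).subset fun s hs => ?_)
    rw [mem_closedBall_zero_iff, le_div_iff₀ hd', ← norm_smul]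
    have h2 : ‖x + s • d‖ ≤ 1 / c := by
      rw [le_div_iff₀ hc, mul_comm]
      exact (hl _).trans hs
    have h3 := norm_sub_le (x + s • d) x
    rw [add_sub_cancel_left] at h3
    linarith
  obtain ⟨s₀, hs₀, hmin⟩ := hS.exists_isLeast ⟨0, h0⟩
  obtain ⟨s₁, hs₁, hmax⟩ := hS.exists_isGreatest ⟨0, h0⟩
  have hlt : 0 < s₁ - s₀ := by
    have a0 : s₀ ≤ 0 := hmin h0
    have a1 : 1 ≤ s₁ := hmax h1
    linarith
  obtain ⟨D, hDe⟩ : ∃ D, D = x.1 * d.2 - x.2 * d.1 := ⟨_, rfl⟩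
  rw [← hDe] at hD
  have hl0 := hlt.ne'
  obtain ⟨F, hF⟩ : ∃ F : Chart, F = ⟨(x.2 + s₁ * d.2) / ((s₁ - s₀) * D),
      -(x.1 + s₁ * d.1) / ((s₁ - s₀) * D), -(x.2 + s₀ * d.2) / ((s₁ - s₀) * D),
      (x.1 + s₀ * d.1) / ((s₁ - s₀) * D)⟩ := ⟨_, rfl⟩
  have hrep : ∀ v : ℝ × ℝ, v = ((F.ap v).1 + (F.ap v).2) • x + ((F.ap v).1 * s₀ + (F.ap v).2 * s₁) • d := by
    intro v
    ext <;> simp only [hF, Chart.ap, Prod.fst_add, Prod.snd_add, Prod.smul_fst, Prod.smul_snd,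
      smul_eq_mul] <;> field_simp <;> rw [hDe] <;> ring
  have hμv : ∀ v : ℝ × ℝ, 0 < (F.ap v).1 + (F.ap v).2 → μ v = ((F.ap v).1 + (F.ap v).2) *
      μ (x + (((F.ap v).1 * s₀ + (F.ap v).2 * s₁) / ((F.ap v).1 + (F.ap v).2)) • d) := by
    intro v hv
    rw [← hμ.smul _ _ hv.le, smul_add, smul_smul, mul_div_cancel₀ _ hv.ne', ← hrep v]
  refine ⟨F, ?_, fun v => ?_, fun v hv => ?_, ⟨x + s₀ • d, ?_, le_antisymm hs₀ (hg _)⟩,
    ⟨x + s₁ • d, ?_, le_antisymm hs₁ (hg _)⟩⟩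
  · have e : F.det = 1 / ((s₁ - s₀) * D) := by
      simp only [hF, Chart.det]
      field_simp
      rw [hDe]
      ring
    rw [e]
    exact one_div_ne_zero (mul_ne_zero hl0 hD)
  · rcases le_or_gt ((F.ap v).1 + (F.ap v).2) 0 with h2 | h2
    · exact h2.trans (C23_nn hμ v)
    · rw [hμv v h2]
      exact le_mul_of_one_le_right h2.le (hg _)
  · rcases le_or_gt ((F.ap v).1 + (F.ap v).2) 0 with h2 | h2
    · rw [C23_eq hμ (hv.trans h2)]
      simp [Chart.ap]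
    · rw [hμv v h2] at hv
      have h3 := (mul_le_iff_le_one_right h2).1 hv
      have h4 := (le_div_iff₀ h2).1 (hmin h3)
      have h5 := (div_le_iff₀ h2).1 (hmax h3)
      exact ⟨nonneg_of_mul_nonneg_left (b := s₁ - s₀) (by linarith) hlt,
        nonneg_of_mul_nonneg_left (b := s₁ - s₀) (by linarith) hlt⟩
  · ext <;> simp only [hF, Chart.ap, Prod.fst_add, Prod.snd_add, Prod.smul_fst, Prod.smul_snd,
      smul_eq_mul] <;> field_simp <;> simp only [hDe] <;> ring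
  · ext <;> simp only [hF, Chart.ap, Prod.fst_add, Prod.snd_add, Prod.smul_fst, Prod.smul_snd,
      smul_eq_mul] <;> field_simp <;> simp only [hDe] <;> ring

theorem edge_mac (hμ : Nm μ) {F : Chart} (hd : F.det ≠ 0) (h1 : ∀ v, (F.ap v).1 + (F.ap v).2 ≤ μ v)
    (h2 : ∀ v, μ v ≤ (F.ap v).1 + (F.ap v).2 → 0 ≤ (F.ap v).1 ∧ 0 ≤ (F.ap v).2) {ε : ℝ} (hε : 0 < ε) :
    ∃ ω : ℝ, 0 < ω ∧ ∀ (v : ℝ × ℝ) (W : ℝ), |(F.ap v).1| ≤ W → |(F.ap v).2| ≤ W →
      ((F.ap v).1 ≤ -(ε * W) ∨ (F.ap v).2 ≤ -(ε * W)) → (F.ap v).1 + (F.ap v).2 + ω * W ≤ μ v := by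
  obtain ⟨I, hI⟩ : ∃ I : ℝ × ℝ → ℝ × ℝ, I = fun c =>
      ((F.b2 * c.1 - F.a2 * c.2) / F.det, (F.a1 * c.2 - F.b1 * c.1) / F.det) := ⟨_, rfl⟩
  have hc : Continuous I := by
    rw [hI]
    fun_prop
  have i1 : ∀ c, F.ap (I c) = c := fun c => by
    ext <;> simp only [hI, Chart.ap] <;> field_simp <;> simp only [Chart.det] <;> ring
  have i2 : ∀ v, I (F.ap v) = v := fun v => by
    ext <;> simp only [hI, Chart.ap] <;> field_simp <;> simp only [Chart.det] <;> ring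
  have hK : IsCompact ((Icc (-1 : ℝ) 1 ×ˢ Icc (-1 : ℝ) 1) ∩ ({c | c.1 ≤ -ε} ∪ {c | c.2 ≤ -ε})) :=
    (isCompact_Icc.prod isCompact_Icc).inter_right
      ((isClosed_le continuous_fst continuous_const).union
        (isClosed_le continuous_snd continuous_const))
  obtain ⟨ω, hω, hb⟩ := hK.exists_forall_le' (f := fun c => μ (I c) - (c.1 + c.2)) (a := 0)
    ((((C23_cont hμ).comp hc).sub (continuous_fst.add continuous_snd)).continuousOn)
    (fun c hc => by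
      by_contra hn
      have h3 := h2 (I c) (by rw [i1]; linarith [not_lt.1 hn])
      rw [i1] at h3
      rcases hc.2 with h4 | h4
      · have : c.1 ≤ -ε := h4
        linarith [h3.1]
      · have : c.2 ≤ -ε := h4
        linarith [h3.2])
  refine ⟨ω, hω, fun v W a1 a2 a3 => ?_⟩
  rcases ((abs_nonneg _).trans a1).eq_or_lt with hW | hW
  · rw [← hW, mul_zero, add_zero]
    exact h1 v
  obtain ⟨u, rfl⟩ : ∃ u, v = W • u := ⟨W⁻¹ • v, (smul_inv_smul₀ hW.ne' v).symm⟩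
  obtain ⟨e1, e2⟩ := C23_smul F W u
  rw [e1] at a1 a3 ⊢
  rw [e2] at a2 a3 ⊢
  rw [abs_mul, abs_of_pos hW, mul_le_iff_le_one_right hW] at a1 a2
  have h3 := hb (F.ap u) ⟨⟨abs_le.1 a1, abs_le.1 a2⟩, a3.imp
    (fun h => show (F.ap u).1 ≤ -ε from le_of_mul_le_mul_left (by linarith) hW)
    (fun h => show (F.ap u).2 ≤ -ε from le_of_mul_le_mul_left (by linarith) hW)⟩
  simp only [i2] at h3
  rw [hμ.smul _ _ hW.le]
  nlinarith

/-- the tilted functional supports the ball after a normalisation `m ≤ 1 + η κ` -/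
theorem edge_tilt (hμ : Nm μ) {F : Chart} (hd : F.det ≠ 0) (h1 : ∀ v, (F.ap v).1 + (F.ap v).2 ≤ μ v)
    (h2 : ∀ v, μ v ≤ (F.ap v).1 + (F.ap v).2 → 0 ≤ (F.ap v).1 ∧ 0 ≤ (F.ap v).2)
    (h3 : ∃ v, F.ap v = (1, 0) ∧ μ v = 1) {η : ℝ} (hη : 0 < η) :
    ∃ κ₁ : ℝ, 0 < κ₁ ∧ ∀ κ, 0 ≤ κ → κ ≤ κ₁ → ∃ m : ℝ, 1 ≤ m ∧ m ≤ 1 + η * κ ∧
      (∀ v, ((F.ap v).1 + (F.ap v).2 - κ * (F.ap v).2) / m ≤ μ v) ∧
      ∃ v, μ v = 1 ∧ ((F.ap v).1 + (F.ap v).2 - κ * (F.ap v).2) / m = 1 := by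
  obtain ⟨c, hc, hl⟩ := hμ.low
  have hS : IsCompact {v | μ v = 1} := by
    refine Metric.isCompact_of_isClosed_isBounded (isClosed_eq (C23_cont hμ) continuous_const)
      ((Metric.isBounded_closedBall (x := (0 : ℝ × ℝ)) (r := 1 / c)).subset fun v hv => ?_)
    rw [mem_closedBall_zero_iff, le_div_iff₀ hc, mul_comm]
    exact (hl v).trans_eq hv
  have hap : Continuous F.ap := by
    change Continuous fun w : ℝ × ℝ => (F.a1 * w.1 + F.a2 * w.2, F.b1 * w.1 + F.b2 * w.2)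
    fun_prop
  obtain ⟨W₀, hW₀⟩ := hS.exists_bound_of_continuousOn hap.continuousOn
  have hW : 0 < |W₀| + 1 := by positivity
  obtain ⟨ω, hω, hm⟩ := edge_mac hμ hd h1 h2 (div_pos hη hW)
  refine ⟨ω, hω, fun κ k0 k1 => ?_⟩
  obtain ⟨v₀, e0, e1⟩ := h3
  obtain ⟨v, hv, hmax⟩ := hS.exists_isMaxOn (f := fun v => (F.ap v).1 + (F.ap v).2 - κ * (F.ap v).2)
    ⟨v₀, e1⟩ (by fun_prop)
  have hv1 : μ v = 1 := hv
  have m1 : 1 ≤ (F.ap v).1 + (F.ap v).2 - κ * (F.ap v).2 := by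
    have : (F.ap v₀).1 + (F.ap v₀).2 - κ * (F.ap v₀).2 ≤ _ := hmax e1
    rw [e0] at this
    simpa using this
  refine ⟨_, m1, ?_, fun w => ?_, v, hv1, div_self (by linarith)⟩
  · have b0 := h1 v
    have b1 : |(F.ap v).1| ≤ |W₀| + 1 :=
      ((norm_fst_le (F.ap v)).trans (hW₀ v hv)).trans (by linarith [le_abs_self W₀])
    have b2 : |(F.ap v).2| ≤ |W₀| + 1 :=
      ((norm_snd_le (F.ap v)).trans (hW₀ v hv)).trans (by linarith [le_abs_self W₀])
    rcases le_total (F.ap v).2 (-η) with b3 | b3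
    · have b4 := hm v _ b1 b2 (Or.inr (by rwa [div_mul_cancel₀ _ hW.ne']))
      have b5 := mul_le_mul_of_nonneg_left (neg_le_abs (F.ap v).2 |>.trans b2) k0
      have b6 := mul_le_mul_of_nonneg_right k1 hW.le
      have b7 := mul_nonneg hη.le k0
      linarith
    · have b5 := mul_le_mul_of_nonneg_left b3 k0
      linarith
  · rw [div_le_iff₀ (by linarith)]
    rcases (C23_nn hμ w).eq_or_lt with b0 | b0
    · rw [C23_eq hμ b0.ge, C23_zero hμ]
      simp [Chart.ap]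
    · have b1 : μ ((μ w)⁻¹ • w) = 1 := by
        rw [hμ.smul _ _ (inv_nonneg.2 b0.le), inv_mul_cancel₀ b0.ne']
      have b2 : (F.ap ((μ w)⁻¹ • w)).1 + (F.ap ((μ w)⁻¹ • w)).2 - κ * (F.ap ((μ w)⁻¹ • w)).2 ≤ _ :=
        hmax b1
      rw [(C23_smul F _ w).1, (C23_smul F _ w).2] at b2
      rw [← inv_mul_le_iff₀ b0]
      linarith

end

end Crest.Agent.R151.C
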