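import Crest.Agent.R151.C23
import Crest.Agent.R151.B8a
import Crest.Agent.R151.B9

/-! Row 151 (C): the face structure -/

set_option autoImplicit false

open MeasureTheory Set Filter Topology
open Crest.ProbabilityR.FirstPassage
open Crest.Agent.R151.B

namespace Crest.Agent.R151.C

noncomputable section

variable {G : Measure ℝ} {μ : ℝ × ℝ → ℝ}

theorem Face.swap {F : Chart} {D : ℝ} (h : Face G F D) : Face G F.swap D := by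
  refine ⟨Chart.swap_det h.det, h.D1, fun z => (add_comm _ _).trans_le (h.low z), fun ε hε => ?_,
    fun η hη => ?_⟩
  · obtain ⟨ω, hω, h1⟩ := h.mac ε hε
    refine ⟨ω, hω, fun z W a b c => le_trans (le_of_eq ?_) (h1 z W b a c.symm)⟩
    rw [Chart.swap_x, Chart.swap_y, add_comm (F.y z)]
  · obtain ⟨κ₁, hκ, h1⟩ := h.tilt η hη
    exact ⟨κ₁, hκ, fun κ a b => (h1 κ a b).symm⟩

/-- a supporting functional is asymptotically attained by the mean passage time -/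
theorem face_att (hμ : Nm μ) (hu : ∀ η : ℝ, 0 < η → ∃ B : ℝ, ∀ x, mE G x ≤ μ (cR x) + η * n1 x + B)
    {a b : ℝ} (h : ∃ v : ℝ × ℝ, μ v = 1 ∧ a * v.1 + b * v.2 = 1) {η : ℝ} (hη : 0 < η) :
    ∀ᶠ s : ℝ in atTop, ∃ y : Z2, s ≤ a * y.1 + b * y.2 ∧ mE G y ≤ (1 + η) * s := by
  obtain ⟨v, hv, hab⟩ := h
  obtain ⟨K, hK, hup⟩ := hμ.up
  obtain ⟨N, hN⟩ : ∃ N, N = |v.1| + |v.2| := ⟨_, rfl⟩
  have hN0 : 0 ≤ N := by rw [hN]; positivity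
  obtain ⟨e, he, he1⟩ : ∃ e : ℝ, 0 < e ∧ e * N ≤ η / 2 := by
    refine ⟨η / 2 / (N + 1), by positivity, ?_⟩
    rw [div_mul_eq_mul_div, div_le_iff₀ (by positivity)]
    nlinarith
  obtain ⟨B, hB⟩ := hu e he
  obtain ⟨c, hc⟩ : ∃ c, c = |a| + |b| := ⟨_, rfl⟩
  have hc0 : 0 ≤ c := by rw [hc]; positivity
  filter_upwards [eventually_ge_atTop (0 : ℝ),
    eventually_ge_atTop ((c + K + e * (c * N + 2) + B) / (η / 2))] with s hs hs'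
  have hr : 0 ≤ s + c := by linarith
  have f1 := mu_lim_fl ((s + c) * v.1)
  have f2 := mu_lim_fl ((s + c) * v.2)
  refine ⟨(⌊(s + c) * v.1⌋, ⌊(s + c) * v.2⌋), ?_, (hB _).trans ?_⟩
  · have g1 := (abs_le.1 ((abs_mul _ _).trans_le (mul_le_of_le_one_right (abs_nonneg a) f1))).1
    have g2 := (abs_le.1 ((abs_mul _ _).trans_le (mul_le_of_le_one_right (abs_nonneg b) f2))).1
    have g3 : a * ((s + c) * v.1) + b * ((s + c) * v.2) = s + c := by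
      linear_combination (s + c) * hab
    dsimp only
    linarith
  · have g1 := (mu_lim_n1 v hr).1
    rw [← hN] at g1
    have g2 : cR (⌊(s + c) * v.1⌋, ⌊(s + c) * v.2⌋) = (s + c) • v +
        (((⌊(s + c) * v.1⌋ : ℤ) : ℝ) - (s + c) * v.1, ((⌊(s + c) * v.2⌋ : ℤ) : ℝ) - (s + c) * v.2) := by
      refine Prod.ext ?_ ?_ <;> simp [cR]
    have g3 := hμ.add ((s + c) • v)
      (((⌊(s + c) * v.1⌋ : ℤ) : ℝ) - (s + c) * v.1, ((⌊(s + c) * v.2⌋ : ℤ) : ℝ) - (s + c) * v.2)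
    rw [← g2, hμ.smul _ _ hr, hv, mul_one] at g3
    have g4 := (hup _).trans (mul_le_of_le_one_right hK.le
      (norm_prod_le_iff.2 ⟨f1, f2⟩ : ‖((((⌊(s + c) * v.1⌋ : ℤ) : ℝ) - (s + c) * v.1,
        ((⌊(s + c) * v.2⌋ : ℤ) : ℝ) - (s + c) * v.2) : ℝ × ℝ)‖ ≤ 1))
    have g5 := mul_le_mul_of_nonneg_left g1 he.le
    have g6 := mul_le_mul_of_nonneg_right he1 hs
    rw [div_le_iff₀ (by positivity)] at hs'
    nlinarith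

theorem c23b_tl (hμ : Nm μ) (hl : ∀ x, μ (cR x) ≤ mE G x)
    (hu : ∀ η : ℝ, 0 < η → ∃ B : ℝ, ∀ x, mE G x ≤ μ (cR x) + η * n1 x + B) {D : ℝ}
    (hD : ∀ ξ : Z2 →+ ℝ, (∀ x, ξ x ≤ mE G x) →
      (∀ η : ℝ, 0 < η → ∀ᶠ s : ℝ in atTop, ∃ y, s ≤ ξ y ∧ mE G y ≤ (1 + η) * s) →
      ∀ s : ℝ, 1 ≤ s → ∃ y, s ≤ ξ y ∧ mE G y ≤ s + D * s ^ (7 / 8 : ℝ))
    {F : Chart} (hd : F.det ≠ 0) (h1 : ∀ v, (F.ap v).1 + (F.ap v).2 ≤ μ v)
    (h2 : ∀ v, μ v ≤ (F.ap v).1 + (F.ap v).2 → 0 ≤ (F.ap v).1 ∧ 0 ≤ (F.ap v).2)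
    (h3 : ∃ v, F.ap v = (1, 0) ∧ μ v = 1) {η : ℝ} (hη : 0 < η) :
    ∃ κ₁ : ℝ, 0 < κ₁ ∧ ∀ κ, 0 ≤ κ → κ ≤ κ₁ → Tl G D F κ η := by
  obtain ⟨κ₁, hκ, h⟩ := edge_tilt hμ hd h1 h2 h3 hη
  refine ⟨κ₁, hκ, fun κ a b => ?_⟩
  obtain ⟨m, m1, m2, m3, v, m4, m5⟩ := h κ a b
  have m6 : ∀ z, (F.x z + F.y z - κ * F.y z) / m ≤ mE G z := fun z => (m3 (cR z)).trans (hl z)
  refine ⟨m, m1, m2, m6, hD (AddMonoidHom.mk' (fun z => (F.x z + F.y z - κ * F.y z) / m)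
    fun z z' => by rw [Chart.x_add, Chart.y_add]; ring) m6 fun ε hε => ?_⟩
  refine (face_att hμ hu (a := (F.a1 + F.b1 - κ * F.b1) / m) (b := (F.a2 + F.b2 - κ * F.b2) / m)
    ⟨v, m4, Eq.trans ?_ m5⟩ hε).mono fun s ⟨y, p, q⟩ => ⟨y, p.trans_eq ?_, q⟩
  · simp only [Chart.ap]
    ring
  · simp only [AddMonoidHom.mk'_apply, Chart.x, Chart.y]
    ring

theorem face (hG : Law G) (hμ : Nm μ) (hl : ∀ x, μ (cR x) ≤ mE G x)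
    (hu : ∀ η : ℝ, 0 < η → ∃ B : ℝ, ∀ x, mE G x ≤ μ (cR x) + η * n1 x + B)
    (h : ¬ StrictConvex ℝ {v : ℝ × ℝ | μ v ≤ 1}) : ∃ F D, Face G F D := by
  obtain ⟨F, hd, h1, h2, h3, v, h4, h5⟩ := edge hμ h
  obtain ⟨D, hD1, hD⟩ := hG.p2l
  refine ⟨F, D, hd, hD1, fun z => (h1 (cR z)).trans (hl z), fun ε hε => ?_, fun η hη => ?_⟩
  · obtain ⟨ω, hω, a⟩ := edge_mac hμ hd h1 h2 hε
    exact ⟨ω, hω, fun z W p q r => (a (cR z) W p q r).trans (hl z)⟩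
  · obtain ⟨κ, hκ, a⟩ := c23b_tl hμ hl hu hD hd h1 h2 h3 hη
    obtain ⟨κ', hκ', a'⟩ := c23b_tl hμ hl hu hD (Chart.swap_det hd)
      (fun w => (add_comm _ _).trans_le (h1 w))
      (fun w hw => (h2 w (hw.trans_eq (add_comm _ _))).symm)
      ⟨v, by rw [Chart.swap_ap, h4]; rfl, h5⟩ hη
    exact ⟨min κ κ', lt_min hκ hκ', fun k p q =>
      ⟨a k p (q.trans (min_le_left _ _)), a' k p (q.trans (min_le_right _ _))⟩⟩

end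

end Crest.Agent.R151.C
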