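import Crest.Agent.R151.C05
import Crest.Agent.R151.B5b
import Crest.Agent.R151.B6c

/-! Row 151 (C): consequences of uniform concentration -/

set_option autoImplicit false

open MeasureTheory Set Filter Topology
open Crest.ProbabilityR.FirstPassage
open Crest.Agent.R151.B

namespace Crest.Agent.R151.C

noncomputable section

variable {G : Measure ℝ} {F : Chart} {t : Env} {z : Z2} {n e : ℝ}

theorem UCe_pr (hG : Law G) : ∃ C : ℝ, 1 ≤ C ∧ ∀ (A S : ℝ) (z : Z2), 1 ≤ A → 1 ≤ S →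
    Pr G (UCe G z (A * S) (S ^ (7 / 8 : ℝ)))ᶜ ≤ C * A ^ 5 * S ^ (-(1 / 4) : ℝ) := by
  obtain ⟨C, hC, h⟩ := hG.UC
  refine ⟨C, hC, fun A S z hA hS => ?_⟩
  have hS0 : 0 < S := by linarith
  have h1 : 1 ≤ S ^ (7 / 8 : ℝ) := Real.one_le_rpow hS (by norm_num)
  have h2 : S ^ (7 / 8 : ℝ) ≤ S := by
    simpa using Real.rpow_le_rpow_of_exponent_le hS (show (7 / 8 : ℝ) ≤ 1 by norm_num)
  have h3 := h z (A * S) (S ^ (7 / 8 : ℝ)) h1 (h2.trans (le_mul_of_one_le_left hS0.le hA))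
  have h4 : (UCe G z (A * S) (S ^ (7 / 8 : ℝ)))ᶜ = {t | ∃ x y, n1 (x - z) ≤ A * S ∧
      n1 (y - z) ≤ A * S ∧ S ^ (7 / 8 : ℝ) < |T t x y - mE G (y - x)|} := by
    ext t
    simp [UCe]
  rw [h4]
  refine h3.trans_eq ?_
  have h5 : S ^ (-(1 / 4) : ℝ) = S ^ 5 / (S ^ (7 / 8 : ℝ)) ^ 6 := by
    rw [← Real.rpow_natCast, ← Real.rpow_natCast, ← Real.rpow_mul hS0.le, ← Real.rpow_sub hS0]
    norm_num
  rw [h5]
  ring

theorem UCe_low (ht : NN t) (hU : t ∈ UCe G z n e) {P : Pth} {i j : ℕ} (hij : i ≤ j) (hj : j ≤ P.n)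
    (hi' : n1 (P.v i - z) ≤ n) (hj' : n1 (P.v j - z) ≤ n) :
    mE G (P.v j - P.v i) ≤ P.cost t i j + e := by
  have h1 := Pth.T_le_cost ht P hij hj
  have h2 := (abs_le.1 (hU _ _ hi' hj')).1
  linarith

/-- an almost geodesic which stays in a ball -/
theorem UCe_geo {c ρ : ℝ} (hc0 : 0 < c) (hc : ∀ x, c * n1 x ≤ mE G x) (ht : NN t)
    (hU : t ∈ UCe G z n e) (he : 0 ≤ e) {x d : Z2} (hx : n1 (x - z) + ρ ≤ n)
    (hd : mE G d + 2 * e + 1 < c * (ρ - 1)) :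
    ∃ P : Pth, P.fst = x ∧ P.lst = x + d ∧ P.tot t ≤ mE G d + e + 1 ∧
      ∀ k, k ≤ P.n → n1 (P.v k - z) ≤ n := by
  have h1 : n1 d < ρ - 1 := lt_of_mul_lt_mul_left (by linarith [hc d]) hc0.le
  have h2 := n1_nonneg d
  have h3 : ∀ u, n1 (u - x) ≤ ρ → n1 (u - z) ≤ n := fun u hu => by linarith [n1_tri z x u]
  have h4 : n1 (x - x) ≤ ρ - 1 := by rw [sub_self, n1_zero]; linarith
  obtain ⟨P, p1, p2, p3⟩ := Pth.exists_near ht x (x + d) one_pos
  have h5 := (abs_le.1 (hU x (x + d) (h3 _ (by linarith))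
    (h3 _ (by rw [add_sub_cancel_left]; linarith)))).2
  rw [add_sub_cancel_left] at h5
  refine ⟨P, p1, p2, by linarith, fun k hk => h3 _ ?_⟩
  by_contra hh
  obtain ⟨j, hj, j1, j2⟩ := P.exists_first (A := {u | ρ - 1 < n1 (u - x)}) (j := k)
    (show ρ - 1 < _ by linarith)
  have j1' : ρ - 1 < n1 (P.v j - x) := j1
  have p0 : P.v 0 = x := p1
  obtain _ | i := j
  · rw [p0] at j1'
    linarith
  have a1 : n1 (P.v i - x) ≤ ρ - 1 := not_lt.1 (j2 i (Nat.lt_succ_self i))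
  have a2 := adj_iff.1 (P.adj i (by omega))
  have a3 := n1_tri x (P.v i) (P.v (i + 1))
  have a4 := UCe_low ht hU (P := P) (Nat.zero_le (i + 1)) (hj.trans hk)
    (h3 _ (by rw [p0]; linarith)) (h3 _ (by linarith))
  have a5 := P.cost_le_tot t 0 (hj.trans hk)
  have a6 := hc (P.v (i + 1) - x)
  have a7 := mul_lt_mul_of_pos_left j1' hc0
  rw [p0] at a4
  linarith

theorem UCe_sc (hl : ∀ z, F.x z + F.y z ≤ mE G z) (ht : NN t) (hU : t ∈ UCe G z n e) {P : Pth}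
    (hP : ∀ k, k ≤ P.n → n1 (P.v k - z) ≤ n) {a : ℝ}
    (ha : P.tot t ≤ ψ0 F P.fst - ψ0 F P.lst + a) : SC t (ψ0 F) (a + 2 * e) P := by
  intro i j hij hj
  have hi := hij.trans hj
  have h1 := UCe_low ht hU (Nat.zero_le i) hi (hP 0 (Nat.zero_le _)) (hP i hi)
  have h2 := UCe_low ht hU hj le_rfl (hP j hj) (hP _ le_rfl)
  have h3 := hl (P.v i - P.v 0)
  have h4 := hl (P.v P.n - P.v j)
  have h5 := P.cost_add t (Nat.zero_le i) hij
  have h6 := P.cost_add t (Nat.zero_le j) hj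
  rw [F.x_sub, F.y_sub] at h3 h4
  simp only [ψ0, Pth.tot, Pth.fst, Pth.lst] at ha ⊢
  linarith

/-- real arithmetic of the two tilts: the transversal coordinate `b` is small -/
theorem lane_num {ρ b g κ η m m' e S : ℝ} (hκ : 0 < κ) (hη : 0 ≤ η) (hηκ : η * κ ≤ 1 / 30) (hm : 1 ≤ m)
    (hm1 : m ≤ 1 + η * κ) (hm' : 1 ≤ m') (hm1' : m' ≤ 1 + η * (2 * κ)) (he : 0 ≤ e)
    (h1 : |ρ| ≤ g) (h2 : |(ρ - κ * b) / m| ≤ g) (h3 : (ρ - 2 * κ * b) / m' ≤ g)
    (h4 : g ≤ (ρ - κ * b) / m + e) (h5 : g ≤ S) : κ * |b| ≤ 6 / 5 * e + 11 / 5 * (η * κ) * S := by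
  have hm0 : 0 < m := by linarith
  have hg : 0 ≤ g := (abs_nonneg _).trans h1
  have hk := mul_nonneg hη hκ.le
  rw [div_le_iff₀ (by linarith)] at h3
  have h6 : (g - e) * m ≤ ρ - κ * b := by rw [← le_div_iff₀ hm0]; linarith
  have h7 : e * m ≤ 6 / 5 * e := by nlinarith
  have h8 := mul_le_mul_of_nonneg_left hm hg
  have h9 := mul_le_mul_of_nonneg_left hm1' hg
  have h10 := mul_le_mul_of_nonneg_left h5 hk
  have h11 := mul_nonneg hk hg
  have h12 := le_abs_self ρ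
  rcases abs_cases b with ⟨hb, -⟩ | ⟨hb, -⟩ <;> rw [hb] <;> nlinarith

/-- a thin cheap lane for the linear potential -/
theorem lane_det (hG : Law G) {D s r κ η c ρ e1 x0 y : ℝ} (hs : 1 ≤ s) (hr : 0 ≤ r)
    (hφ : (Ph F s 1).OK) (hl : ∀ z, F.x z + F.y z ≤ mE G z) (hT : Tl G D F κ η)
    (hT' : Tl G D F (2 * κ) η) (hD : 0 ≤ D) (hc0 : 0 < c) (hc : ∀ x, c * n1 x ≤ mE G x)
    (ht : NN t) (hU : t ∈ UCe G z n e) (he : 0 ≤ e)
    (he1 : e1 = D * ((2 * r + 2) * s) ^ (7 / 8 : ℝ) + 3 * e + 1) (hκ : κ * s = 10 * e1)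
    (hes : 10 * e1 ≤ s) (hη : η * (2 * r + 1) = 1 / 30) (hρ : (2 * r + 3) * s < c * (ρ - 1))
    (hn : ∀ x ∈ Bx (Ph F s 1) (x0, y) 1, n1 (x - z) + ρ ≤ n) :
    ∃ P, Lane (Ph F s 1) t (ψ0 F) (5 * e1) ((2 * r + 3) * s) P x0 (x0 + 2 * r) y := by
  have hs0 : 0 < s := by linarith
  have hS1 : 1 ≤ (2 * r + 2) * s := by nlinarith
  have he0 : 0 ≤ D * ((2 * r + 2) * s) ^ (7 / 8 : ℝ) := by positivity
  set e0 := D * ((2 * r + 2) * s) ^ (7 / 8 : ℝ) with he0d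
  have hκ0 : 0 < κ := (mul_pos_iff_of_pos_right hs0).1 (by linarith)
  have hκ1 : κ ≤ 1 := le_of_mul_le_mul_right (by linarith) hs0
  have hη0 : 0 < η := (mul_pos_iff_of_pos_right (show 0 < 2 * r + 1 by linarith)).1 (by linarith)
  have hη1 : η ≤ 1 / 30 := by nlinarith
  have hX : ∀ u, (Ph F s 1).x u = F.x u / s := fun u => F.scale_x hs0.ne' u
  have hY : ∀ u, (Ph F s 1).y u = F.y u / s := fun u => F.scale_y hs0.ne' u
  have nx : ∀ u, F.x (-u) = -F.x u := fun u => by simp [Chart.x]; ring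
  have ny : ∀ u, F.y (-u) = -F.y u := fun u => by simp [Chart.y]; ring
  obtain ⟨m, m1, m2, m3, m4⟩ := hT
  obtain ⟨m', m1', m2', m3', -⟩ := hT'
  have hm0 : 0 < m := by linarith
  obtain ⟨w, w1, w2⟩ := m4 _ hS1
  obtain ⟨x, x1, x2⟩ := hφ.near (x0 - 1 / 50, y + 1 / 2)
  rw [abs_le] at x1 x2
  dsimp only at x1 x2
  obtain ⟨P, p1, p2, p3, p4⟩ := UCe_geo (d := w) hc0 hc ht hU he
    (hn x ⟨abs_le.2 ⟨by dsimp only; linarith, by dsimp only; linarith⟩,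
      abs_le.2 ⟨by dsimp only; linarith, by dsimp only; linarith⟩⟩) (by linarith)
  have p0 : P.v 0 = x := p1
  have pn : P.v P.n = x + w := p2
  have key : ∀ k, k ≤ P.n → |F.y (P.v k - x)| ≤ 274 / 1000 * s := by
    intro k hk
    have a1 := UCe_low ht hU (Nat.zero_le k) hk (p4 0 (Nat.zero_le _)) (p4 k hk)
    have a2 := UCe_low ht hU hk le_rfl (p4 k hk) (p4 _ le_rfl)
    have a3 : P.cost t 0 k + P.cost t k P.n = P.tot t := P.cost_add t (Nat.zero_le k) hk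
    rw [p0] at a1
    rw [pn, show x + w - P.v k = w - (P.v k - x) by abel] at a2
    generalize P.v k - x = d at a1 a2 ⊢
    have a4 := m3 (w - d)
    have a5 : 0 ≤ mE G (w - d) := (mul_nonneg hc0.le (n1_nonneg _)).trans (hc _)
    have a6 : (F.x (w - d) + F.y (w - d) - κ * F.y (w - d)) / m =
        (F.x w + F.y w - κ * F.y w) / m - (F.x d + F.y d - κ * F.y d) / m := by
      rw [F.x_sub, F.y_sub]; ring
    have a7 := hl (-d)
    have a8 := m3 (-d)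
    rw [hG.mE_neg, nx, ny] at a7 a8
    have a9 : (-F.x d + -F.y d - κ * -F.y d) / m = -((F.x d + F.y d - κ * F.y d) / m) := by ring
    have a10 := lane_num (ρ := F.x d + F.y d) (b := F.y d) (g := mE G d) (e := e1)
      (S := (2 * r + 21 / 10) * s) hκ0 hη0.le (by nlinarith) m1 m2 m1' m2' (by linarith)
      (abs_le.2 ⟨by linarith, hl d⟩) (abs_le.2 ⟨by linarith, m3 d⟩) (m3' d) (by linarith)
      (by linarith)
    refine le_of_mul_le_mul_left (a10.trans ?_) hκ0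
    have a11 : η * (2 * r + 21 / 10) ≤ 7 / 100 := by linarith
    have a12 := mul_le_mul_of_nonneg_right a11 (mul_pos hκ0 hs0).le
    linarith
  have b1 := key _ le_rfl
  rw [pn, add_sub_cancel_left, abs_le] at b1
  rw [le_div_iff₀ hm0] at w1
  have b2 : (2 * r + 2) * s ≤ (2 * r + 2) * s * m := le_mul_of_one_le_right (by linarith) m1
  have b3 := mul_le_mul_of_nonneg_left b1.1 hκ0.le
  have b4 := mul_le_mul_of_nonneg_left b1.2 (sub_nonneg.2 hκ1)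
  have b5 := mul_pos hκ0 hs0
  have hsc := UCe_sc hl ht hU p4 (a := 3 * e1 + e0 + e + 1) (by
    simp only [ψ0, p1, p2, F.x_add, F.y_add]
    linarith)
  obtain ⟨a, b, -, hab, hb, hH⟩ := restr_HC hφ P (Nat.zero_le P.n) le_rfl
    (x0 := x0) (x1 := x0 + 2 * r) (y0 := y) (y1 := y + 1) (by linarith) (by rw [p0]; linarith)
    (by
      have : 2 * r + 1 ≤ F.x w / s := by rw [le_div_iff₀ hs0]; linarith
      rw [pn, Chart.x_add, hX w]
      linarith)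
    (fun k _ hk => by
      have c1 := abs_le.1 (key k hk)
      have c2 : (Ph F s 1).y (P.v k) = (Ph F s 1).y x + F.y (P.v k - x) / s := by
        rw [← hY, Chart.y_sub]; ring
      have c3 : F.y (P.v k - x) / s ≤ 274 / 1000 := by rw [div_le_iff₀ hs0]; linarith
      have c4 : -(274 / 1000) ≤ F.y (P.v k - x) / s := by rw [le_div_iff₀ hs0]; linarith
      constructor <;> linarith)
  refine ⟨P.sub a b, hH, (hsc.sub hab hb).mono (by linarith), ?_⟩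
  rw [P.sub_tot t hab hb]
  linarith [P.cost_le_tot t a hb]

end

end Crest.Agent.R151.C
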