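import Crest.Agent.R151.C24
import Crest.Agent.R151.C09
import Crest.Agent.R151.C23b

/-! Row 151 (C): a priori linear structure at one scale -/

set_option autoImplicit false

open MeasureTheory Set Filter Topology
open Crest.ProbabilityR.FirstPassage
open Crest.Agent.R151.B

namespace Crest.Agent.R151.C

noncomputable section

variable {G : Measure ℝ} {F : Chart} {D : ℝ}

theorem C25_one {s : ℝ} (hs : 1 ≤ s) : 1 ≤ s ^ (7 / 8 : ℝ) ∧ s ^ (7 / 8 : ℝ) ≤ s := by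
  refine ⟨Real.one_le_rpow hs (by norm_num), ?_⟩
  have := Real.rpow_le_rpow_of_exponent_le hs (show (7 / 8 : ℝ) ≤ 1 by norm_num)
  rwa [Real.rpow_one] at this

theorem C25_mul {a s : ℝ} (ha : 1 ≤ a) (hs : 0 ≤ s) :
    (a * s) ^ (7 / 8 : ℝ) ≤ a * s ^ (7 / 8 : ℝ) := by
  rw [Real.mul_rpow (by linarith) hs]
  exact mul_le_mul_of_nonneg_right (C25_one ha).2 (Real.rpow_nonneg hs _)

theorem C25_small {K : ℝ} (hK : 0 ≤ K) : ∃ C : ℝ, 1 ≤ C ∧ ∀ s, C ≤ s → K * s ^ (7 / 8 : ℝ) ≤ s := by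
  refine ⟨(K + 1) ^ 8, one_le_pow₀ (by linarith), fun s hs => ?_⟩
  have h0 : 0 < (K + 1) ^ 8 := by positivity
  have hs0 : 0 < s := by linarith
  have h1 : K + 1 ≤ s ^ (1 / 8 : ℝ) := by
    have := Real.rpow_le_rpow h0.le hs (show (0 : ℝ) ≤ 1 / 8 by norm_num)
    rwa [← Real.rpow_natCast, ← Real.rpow_mul (by linarith), show ((8 : ℕ) : ℝ) * (1 / 8) = 1 by
      norm_num, Real.rpow_one] at this
  have h2 : s ^ (1 / 8 : ℝ) * s ^ (7 / 8 : ℝ) = s := by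
    rw [← Real.rpow_add hs0]
    norm_num
  have h3 : 0 ≤ s ^ (7 / 8 : ℝ) := Real.rpow_nonneg hs0.le _
  nlinarith

theorem C25_psi (F : Chart) (x y : Z2) : ψ0 F x - ψ0 F y = F.x (y - x) + F.y (y - x) := by
  rw [Chart.x_sub, Chart.y_sub]
  unfold ψ0
  ring

theorem C25_mono {φ : Chart} {t : Env} {ψ : Z2 → ℝ} {c : ℝ × ℝ} {r e e' Up : ℝ}
    (h : NiceH φ t ψ c r e Up) (he : e ≤ e') : NiceH φ t ψ c r e' Up := fun y h0 h1 =>
  (h y h0 h1).imp fun _ hP => hP.mono he le_rfl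

/-- a box is contained in an `ℓ¹` ball -/
theorem ball_of_Bx (h : F.det ≠ 0) : ∃ C : ℝ, 1 ≤ C ∧ ∀ (s r : ℝ) (c : ℝ × ℝ), C ≤ s → 0 ≤ r →
    (Ph F s 1).OK ∧ ∃ z, ∀ x ∈ Bx (Ph F s 1) c r, n1 (x - z) ≤ C * (r + 1) * s := by
  obtain ⟨C, hC, h1, h2⟩ := Chart.exists_n1 h
  refine ⟨100 * C, by linarith, fun s r c hs hr => ?_⟩
  have hφ := h2 s 1 hs one_pos le_rfl
  have hs0 : 0 < s := by linarith
  obtain ⟨z, z1, z2⟩ := hφ.near c
  refine ⟨hφ, z, fun x hx => ?_⟩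
  obtain ⟨x1, x2⟩ := hx
  have a1 : |(Ph F s 1).x (x - z)| ≤ r + 1 := by
    rw [Chart.x_sub]
    rw [abs_le] at *
    constructor <;> linarith [x1.1, x1.2, z1.1, z1.2]
  have a2 : |(Ph F s 1).y (x - z)| ≤ r + 1 := by
    rw [Chart.y_sub]
    rw [abs_le] at *
    constructor <;> linarith [x2.1, x2.2, z2.1, z2.2]
  rw [Ph_one_x F hs0.ne', abs_div, abs_of_pos hs0, div_le_iff₀ hs0] at a1
  rw [Ph_one_y F hs0.ne', abs_div, abs_of_pos hs0, div_le_iff₀ hs0] at a2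
  have a3 : C * (|F.x (x - z)| + |F.y (x - z)|) ≤ C * (2 * ((r + 1) * s)) :=
    mul_le_mul_of_nonneg_left (by linarith) (by linarith)
  have a4 : 0 ≤ C * ((r + 1) * s) := by positivity
  nlinarith [(h1 (x - z)).1]

theorem ap_niceH (hG : Law G) (hF : Face G F D) {r : ℝ} (hr : 1 ≤ r) : ∃ C : ℝ, 1 ≤ C ∧
    ∀ (s : ℝ) (c : ℝ × ℝ), C ≤ s →
      Pr G {t | ¬ NiceH (Ph F s 1) t (ψ0 F) c r (C * s ^ (7 / 8 : ℝ)) ((2 * r + 3) * s)} ≤
        C * s ^ (-(1 / 4) : ℝ) := by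
  obtain ⟨c0, hc0, hc⟩ := hG.mE_ge
  obtain ⟨C1, hC1, h1⟩ := ball_of_Bx hF.det
  obtain ⟨C2, hC2, h2⟩ := UCe_pr hG
  have hD := hF.D1
  obtain ⟨κ₁, hκ₁, hT⟩ := hF.tilt (1 / (30 * (2 * r + 1))) (by positivity)
  obtain ⟨K, hK⟩ : ∃ K : ℝ, K = D * (2 * r + 2) + 4 := ⟨_, rfl⟩
  have hK0 : 0 ≤ K := by rw [hK]; positivity
  obtain ⟨C3, hC3, h3⟩ := C25_small (show 0 ≤ 10 * K + 20 * K / κ₁ by positivity)
  obtain ⟨A, hA⟩ : ∃ A : ℝ, A = C1 * (r + 1 + 1) + ((2 * r + 4) / c0 + 2) := ⟨_, rfl⟩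
  have hA1 : 1 ≤ A := by
    have : 0 ≤ C1 * (r + 1 + 1) := by positivity
    have : 0 ≤ (2 * r + 4) / c0 := by positivity
    linarith
  have hA5 : 0 ≤ C2 * A ^ 5 := by positivity
  refine ⟨C1 + C3 + 5 * K + C2 * A ^ 5, by linarith, fun s c hs => ?_⟩
  have hs1 : 1 ≤ s := by linarith
  have hs0 : 0 < s := by linarith
  obtain ⟨hφ, z, hz⟩ := h1 s (r + 1) c (by linarith) (by linarith)
  obtain ⟨p1, p2⟩ := C25_one hs1
  refine le_trans (hG.mono_nn (B := (UCe G z (A * s) (s ^ (7 / 8 : ℝ)))ᶜ) ?_)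
    ((h2 A s z hA1 hs1).trans (mul_le_mul_of_nonneg_right (by linarith) (Real.rpow_nonneg hs0.le _)))
  intro t ht hbad hU
  apply hbad
  intro y y0 y1
  obtain ⟨e1, he1⟩ : ∃ e1 : ℝ, e1 = D * ((2 * r + 2) * s) ^ (7 / 8 : ℝ) + 3 * s ^ (7 / 8 : ℝ) + 1 :=
    ⟨_, rfl⟩
  have e0 : 0 ≤ e1 := by rw [he1]; positivity
  have eK : e1 ≤ K * s ^ (7 / 8 : ℝ) := by
    have := mul_le_mul_of_nonneg_left (C25_mul (show 1 ≤ 2 * r + 2 by linarith) hs0.le)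
      (show 0 ≤ D by linarith)
    rw [he1, hK]
    linarith
  have b1 := h3 s (by linarith)
  have b2 : 0 ≤ 20 * K / κ₁ * s ^ (7 / 8 : ℝ) := by positivity
  have b3 : 0 ≤ K * s ^ (7 / 8 : ℝ) := by positivity
  have b4 : 2 * (10 * e1 / s) ≤ κ₁ := by
    have b5 : 20 * K / κ₁ * s ^ (7 / 8 : ℝ) ≤ s := by linarith
    rw [div_mul_eq_mul_div, div_le_iff₀ hκ₁] at b5
    rw [← mul_div_assoc, div_le_iff₀ hs0]
    linarith
  have b6 : 0 ≤ 10 * e1 / s := by positivity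
  obtain ⟨P, hP⟩ := lane_det (x0 := c.1 - r) (y := y) (ρ := ((2 * r + 3) * s + 1) / c0 + 1) hG hs1
    (by linarith) hφ hF.low (hT (10 * e1 / s) b6 (by linarith)).1
    (hT (2 * (10 * e1 / s)) (by linarith) b4).1 (by linarith) hc0 hc ht hU (by linarith) he1
    (by field_simp) (by linarith) (by field_simp)
    (by rw [add_sub_cancel_right, mul_div_cancel₀ _ hc0.ne']; linarith) (by
      intro x hx
      have a1 := hz x (Bx_mono _ (c := (c.1 - r, y)) (by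
        rw [show c.1 - r - c.1 = -r by ring, abs_neg, abs_of_nonneg (by linarith)]) (by
        have : |y - c.2| ≤ r := abs_le.2 ⟨by linarith, by linarith⟩
        linarith) hx)
      have a2 : ((2 * r + 3) * s + 1) / c0 ≤ (2 * r + 4) / c0 * s := by
        rw [div_mul_eq_mul_div]
        exact div_le_div_of_nonneg_right (by linarith) hc0.le
      rw [hA]
      linarith)
  rw [show c.1 - r + 2 * r = c.1 + r by ring] at hP
  refine ⟨P, hP.mono ?_ le_rfl⟩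
  have : 0 ≤ (C1 + C3 + C2 * A ^ 5) * s ^ (7 / 8 : ℝ) := by positivity
  linarith

theorem ap_nice (hG : Law G) (hF : Face G F D) {r : ℝ} (hr : 1 ≤ r) : ∃ C : ℝ, 1 ≤ C ∧
    ∀ (s : ℝ) (c : ℝ × ℝ), C ≤ s →
      Pr G {t | ¬ Nice (Ph F s 1) t (ψ0 F) c r (C * s ^ (7 / 8 : ℝ)) ((2 * r + 3) * s)} ≤
        C * s ^ (-(1 / 4) : ℝ) := by
  obtain ⟨C1, hC1, h1⟩ := ap_niceH hG hF hr
  obtain ⟨C2, hC2, h2⟩ := ap_niceH hG hF.swap hr
  refine ⟨C1 + C2, by linarith, fun s c hs => ?_⟩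
  have hs0 : 0 ≤ s := by linarith
  have p0 : 0 ≤ s ^ (7 / 8 : ℝ) := Real.rpow_nonneg hs0 _
  have a1 := h1 s c (by linarith)
  have a2 := h2 s c.swap (by linarith)
  rw [← Ph_swap, ψ0_swap] at a2
  refine le_trans (hG.mono ?_) ((hG.union _ _).trans ((add_le_add a1 a2).trans (by rw [add_mul])))
  intro t ht
  by_contra hc
  simp only [mem_union, mem_ofPred_eq, not_or, not_not] at hc
  exact ht ⟨C25_mono hc.1 (by nlinarith), C25_mono hc.2 (by nlinarith)⟩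

theorem ap_asol (hG : Law G) (hF : Face G F D) {ε : ℝ} (hε : 0 < ε) : ∃ ω C : ℝ, 0 < ω ∧ 1 ≤ C ∧
    ∀ (S : ℝ) (c : ℝ × ℝ) (U : Set Z2), C ≤ S → U ⊆ Bx (Ph F S 1) c 1 →
      Pr G {t | ¬ (ASol t U (ψ0 F) (C * S ^ (7 / 8 : ℝ)) ∧ MacB F t U ε ω (C * S ^ (7 / 8 : ℝ)))} ≤
        C * S ^ (-(1 / 4) : ℝ) := by
  obtain ⟨c0, hc0, hc⟩ := hG.mE_ge
  obtain ⟨C1, hC1, h1⟩ := ball_of_Bx hF.det
  obtain ⟨C2, hC2, h2⟩ := UCe_pr hG
  have hD := hF.D1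
  obtain ⟨ω, hω, hm⟩ := hF.mac ε hε
  obtain ⟨κ₁, hκ₁, hT⟩ := hF.tilt 1 one_pos
  obtain ⟨m, m1, m2, -, hd⟩ := (hT 0 le_rfl hκ₁.le).1
  obtain rfl : m = 1 := by linarith
  obtain ⟨A, hA⟩ : ∃ A : ℝ, A = C1 * (1 + 1) + ((5 * D + 9) / c0 + 1) := ⟨_, rfl⟩
  have hA1 : 1 ≤ A := by
    have : 0 ≤ (5 * D + 9) / c0 := by positivity
    linarith
  have hA5 : 0 ≤ C2 * A ^ 5 := by positivity
  refine ⟨ω, C1 + (5 * D + 4) + C2 * A ^ 5, hω, by linarith, fun S c U hS hU => ?_⟩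
  have hs1 : 1 ≤ S := by linarith
  have hs0 : 0 < S := by linarith
  obtain ⟨hφ, z, hz⟩ := h1 S 1 c (by linarith) zero_le_one
  obtain ⟨p1, p2⟩ := C25_one hs1
  refine le_trans (hG.mono_nn (B := (UCe G z (A * S) (S ^ (7 / 8 : ℝ)))ᶜ) ?_)
    ((h2 A S z hA1 hs1).trans (mul_le_mul_of_nonneg_right (by linarith) (Real.rpow_nonneg hs0.le _)))
  intro t ht hbad hE
  apply hbad
  have q0 : 0 ≤ (5 * D + 9) / c0 * S := by positivity
  have q1 : 0 ≤ (C1 + C2 * A ^ 5) * S ^ (7 / 8 : ℝ) := by positivity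
  have q2 : 0 ≤ D * S ^ (7 / 8 : ℝ) := by positivity
  have hin : ∀ x ∈ U, n1 (x - z) ≤ A * S := fun x hx => by
    have := hz x (hU hx)
    rw [hA]
    linarith
  have hlow : ∀ P : Pth, P.In U → mE G (P.lst - P.fst) ≤ P.tot t + S ^ (7 / 8 : ℝ) := fun P hP =>
    UCe_low ht hE (Nat.zero_le _) le_rfl (hin _ hP.fst) (hin _ hP.lst)
  refine ⟨⟨fun P hP => ?_, fun x hx => ?_⟩, fun P hP W w1 w2 w3 => ?_⟩
  · rw [C25_psi]
    linarith [hF.low (P.lst - P.fst), hlow P hP]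
  · obtain ⟨d, d1, d2⟩ := hd (5 * S) (by linarith)
    rw [zero_mul, sub_zero, div_one] at d1
    have d3 := mul_le_mul_of_nonneg_left (C25_mul (show (1 : ℝ) ≤ 5 by norm_num) hs0.le)
      (show 0 ≤ D by linarith)
    have d4 : D * S ^ (7 / 8 : ℝ) ≤ D * S := mul_le_mul_of_nonneg_left p2 (by linarith)
    obtain ⟨P, f1, f2, f3, f4⟩ := UCe_geo (ρ := (5 * D + 9) / c0 * S + 1) (x := x) (d := d) hc0 hc ht
      hE (by linarith) (by
        have := hz x (hU hx)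
        rw [hA]
        linarith) (by
        rw [add_sub_cancel_right, ← mul_assoc, mul_div_cancel₀ _ hc0.ne']
        linarith)
    have hSC := UCe_sc (a := 5 * D * S ^ (7 / 8 : ℝ) + 2 * S ^ (7 / 8 : ℝ)) hF.low ht hE f4 (by
      rw [C25_psi, f1, f2, add_sub_cancel_left]
      linarith)
    have hout : P.lst ∉ U := by
      intro h
      rw [f2] at h
      obtain ⟨x1, x2⟩ := hU hx
      obtain ⟨y1, y2⟩ := hU h
      rw [Chart.x_add] at y1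
      rw [Chart.y_add] at y2
      have g1 : (Ph F S 1).x d ≤ 2 := by linarith [(abs_le.1 x1).1, (abs_le.1 y1).2]
      have g2 : (Ph F S 1).y d ≤ 2 := by linarith [(abs_le.1 x2).1, (abs_le.1 y2).2]
      rw [Ph_one_x F hs0.ne', div_le_iff₀ hs0] at g1
      rw [Ph_one_y F hs0.ne', div_le_iff₀ hs0] at g2
      linarith
    obtain ⟨k, k1, k2, k3⟩ := exit_Bd (P := P) (U' := U) (by rw [f1]; exact hx) hout
    refine ⟨P.sub 0 k, by rw [Pth.sub_fst]; exact f1, k2, ?_, ?_⟩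
    · rw [P.sub_lst (Nat.zero_le k) k1.le]
      exact k3
    · exact (hSC.sub (Nat.zero_le k) k1.le).mono (by linarith)
  · rw [← Chart.x_sub] at w1 w3
    rw [← Chart.y_sub] at w2 w3
    rw [C25_psi]
    linarith [hm _ W w1 w2 w3, hlow P hP]

theorem ap_goodN (hG : Law G) (hF : Face G F D) : ∃ C : ℝ, 1 ≤ C ∧ ∀ (s : ℝ) (c : ℝ × ℝ), C ≤ s →
    Pr G (GoodN (Ph F s 1) c (C * s ^ (7 / 8 : ℝ)) (67 * s))ᶜ ≤ C * s ^ (-(1 / 4) : ℝ) := by
  obtain ⟨C1, hC1, h1⟩ := ap_nice hG hF (show (1 : ℝ) ≤ 32 by norm_num)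
  obtain ⟨ω, C2, -, hC2, h2⟩ := ap_asol hG hF one_pos
  obtain ⟨C3, hC3, h3⟩ := ball_of_Bx hF.det
  refine ⟨6 * (C1 + 33 * C2) + C3, by linarith, fun s c hs => ?_⟩
  have hs1 : 1 ≤ s := by linarith
  have hs0 : 0 < s := by linarith
  have p0 : 0 ≤ s ^ (7 / 8 : ℝ) := Real.rpow_nonneg hs0.le _
  have hφ := (h3 s 0 c (by linarith) le_rfl).1
  have a1 := h1 s c (by linarith)
  have a2 := h2 (33 * s) (c.1 / 33, c.2 / 33) (Bx (Ph F s 1) c (32 + 1 / 2)) (by linarith) (by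
    rintro x ⟨x1, x2⟩
    rw [Ph_one_x F hs0.ne'] at x1
    rw [Ph_one_y F hs0.ne'] at x2
    constructor
    · rw [Ph_one_x F (by positivity), show F.x x / (33 * s) = F.x x / s / 33 by field_simp]
      rw [abs_le] at *
      constructor <;> linarith [x1.1, x1.2]
    · rw [Ph_one_y F (by positivity), show F.y x / (33 * s) = F.y x / s / 33 by field_simp]
      rw [abs_le] at *
      constructor <;> linarith [x2.1, x2.2])
  have a3 : (33 * s) ^ (-(1 / 4) : ℝ) ≤ s ^ (-(1 / 4) : ℝ) :=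
    Real.rpow_le_rpow_of_nonpos hs0 (by linarith) (by norm_num)
  have a4 : 0 ≤ s ^ (-(1 / 4) : ℝ) := Real.rpow_nonneg hs0.le _
  have a5 := mul_le_mul_of_nonneg_left (C25_mul (show (1 : ℝ) ≤ 33 by norm_num) hs0.le)
    (show 0 ≤ C2 by linarith)
  refine le_trans (hG.mono ?_) ((hG.union _ _).trans ((add_le_add a1 a2).trans (by nlinarith)))
  intro t ht
  by_contra hc
  simp only [mem_union, mem_ofPred_eq, not_or, not_not] at hc
  obtain ⟨b1, ⟨b2, -⟩, -⟩ := hc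
  rw [show (2 * 32 + 3) * s = 67 * s by norm_num] at b1
  have hP : PRef (Ph F s 1) t (ψ0 F) c 32 ((C1 + 33 * C2) * s ^ (7 / 8 : ℝ)) (67 * s) := by
    refine ⟨b1.mono (by nlinarith) le_rfl, fun P hP => ?_⟩
    have c1 := b2 P hP
    have c2 : 0 ≤ (C1 + 33 * C2) * s ^ (7 / 8 : ℝ) * (P.tot t / (67 * s)) := by
      have := P.tot_nonneg t
      positivity
    nlinarith
  obtain ⟨B, B1, B2⟩ := solify hφ (by norm_num) (by positivity) hP
  rw [show (32 : ℝ) - 1 = 31 by norm_num] at B1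
  rw [show (32 : ℝ) - 2 = 30 by norm_num] at B2
  exact ht ⟨B, B1, B2.mono (by nlinarith) le_rfl⟩

end

end Crest.Agent.R151.C
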