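import Crest.Agent.R151.C25
import Crest.Agent.R151.B5a

/-! Row 151 (C): a priori lower and upper bounds of costs -/

set_option autoImplicit false

open MeasureTheory Set Filter Topology
open Crest.ProbabilityR.FirstPassage
open Crest.Agent.R151.B

namespace Crest.Agent.R151.C

noncomputable section

variable {G : Measure ℝ} {F : Chart} {D : ℝ}

theorem c26_diam {C s l r : ℝ} {c : ℝ × ℝ} (hC : 1 ≤ C)
    (hn : ∀ z, n1 z ≤ C * (|F.x z| + |F.y z|)) (hs : 0 < s) (hl : 0 < l) (hl1 : l ≤ 1) {x y : Z2}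
    (hx : x ∈ Bx (Ph F s l) c r) (hy : y ∈ Bx (Ph F s l) c r) : n1 (y - x) ≤ 4 * C * r * s / l := by
  have e : ((Ph F s l).x (y - x), (Ph F s l).y (y - x)) = shr l s (F.pt (y - x)) :=
    F.shear_pt l s (y - x)
  have a1 := abs_le.1 hx.1
  have a2 := abs_le.1 hx.2
  have a3 := abs_le.1 hy.1
  have a4 := abs_le.1 hy.2
  have b : |F.x (y - x)| ≤ 2 * r * s / l ∧ |F.y (y - x)| ≤ 2 * r * s / l := by
    refine shr_ge (c := F.pt (y - x)) hl hl1 hs ?_ ?_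
    · rw [← e, Chart.x_sub, abs_le]
      constructor <;> linarith [a1.1, a1.2, a3.1, a3.2]
    · rw [← e]
      show |(Ph F s l).y (y - x)| ≤ 2 * r
      rw [Chart.y_sub, abs_le]
      constructor <;> linarith [a2.1, a2.2, a4.1, a4.2]
  calc n1 (y - x) ≤ C * (|F.x (y - x)| + |F.y (y - x)|) := hn _
    _ ≤ C * (2 * r * s / l + 2 * r * s / l) :=
        mul_le_mul_of_nonneg_left (add_le_add b.1 b.2) (by linarith)
    _ = 4 * C * r * s / l := by ring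

theorem c26_card {U : Set Z2} {ρ : ℝ} (hρ : 0 ≤ ρ) (h : ∀ x ∈ U, ∀ y ∈ U, n1 (y - x) ≤ ρ) :
    ∃ A : Finset Z2, (∀ x ∈ U, x ∈ A) ∧ (A.card : ℝ) ≤ (2 * ρ + 1) ^ 2 := by
  rcases U.eq_empty_or_nonempty with rfl | ⟨z, hz⟩
  · exact ⟨∅, fun x hx => absurd hx (notMem_empty x), by simp only [Finset.card_empty, Nat.cast_zero]; positivity⟩
  · obtain ⟨A, h1, h2⟩ := ball_fin z hρ
    exact ⟨A, fun x hx => (h1 x).2 (h z hz x hx), h2⟩

theorem c26_inv {s : ℝ} (hs : 1 ≤ s) : s⁻¹ ≤ s ^ (-(1 / 4) : ℝ) := by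
  rw [← Real.rpow_neg_one]
  exact Real.rpow_le_rpow_of_exponent_le hs (by norm_num)

theorem c26_half {a : ℝ} {N : ℕ} (h : a ≤ N) : (1 / 2 : ℝ) ^ N ≤ Real.exp (-(a / 2)) := by
  have h1 : (1 / 2 : ℝ) ≤ Real.exp (-(1 / 2)) := by
    have := Real.add_one_le_exp (-(1 / 2) : ℝ)
    linarith
  calc (1 / 2 : ℝ) ^ N ≤ Real.exp (-(1 / 2)) ^ N := pow_le_pow_left₀ (by norm_num) h1 N
    _ = Real.exp (N * -(1 / 2)) := (Real.exp_nat_mul _ _).symm
    _ ≤ _ := Real.exp_le_exp.2 (by linarith)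

theorem ap_lo (hG : Law G) (h : F.det ≠ 0) : ∃ c1 C : ℝ, 0 < c1 ∧ 1 ≤ C ∧
    ∀ (s l : ℝ) (c : ℝ × ℝ), C ≤ s → 0 < l → l ≤ 1 →
      Pr G {t | ¬ LoP (Ph F s l) t (Bx (Ph F s l) c 31) 1 (c1 * s)} ≤
        C / l ^ 2 * Real.exp (-(c1 * s)) := by
  obtain ⟨C, hC, hn, -⟩ := Chart.exists_n1 h
  obtain ⟨c0, hc0, hlen⟩ := hG.len
  have hC0 : 0 < C := by linarith
  have hC2 : 1 ≤ C ^ 2 := one_le_pow₀ hC
  refine ⟨min (c0 / C) (1 / (4 * C)), 249 ^ 2 * C ^ 2 * (32 * C ^ 2), by positivity,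
    by nlinarith, fun s l c hs hl hl1 => ?_⟩
  have hs1 : 1 ≤ s := le_trans (by nlinarith) hs
  have hs0 : 0 < s := by linarith
  set c1 := min (c0 / C) (1 / (4 * C)) with hc1
  obtain ⟨A, hA, hcard⟩ := c26_card (U := Bx (Ph F s l) c 31) (ρ := 4 * C * 31 * s / l)
    (by positivity) fun x hx y hy => c26_diam hC (fun z => (hn z).1) hs0 hl hl1 hx hy
  set N := ⌈s / C⌉₊ with hN
  have hN1 : s / C ≤ N := Nat.le_ceil _
  have h1 : Pr G {t | ¬ LoP (Ph F s l) t (Bx (Ph F s l) c 31) 1 (c1 * s)} ≤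
      Pr G (⋃ x ∈ A, {t | ∃ y, ∃ w : Wk x y, w.IsPath ∧ N ≤ w.length ∧ walkCost t w ≤ c0 * N}) := by
    refine hG.mono_nn fun t ht hbad => ?_
    simp only [LoP, mem_ofPred_eq, not_forall, not_le] at hbad
    obtain ⟨P, hP, hd, hcost⟩ := hbad
    obtain ⟨Q, q1, q2, q3, q4, -⟩ := P.erase
    obtain ⟨w, w1, -, w3, w4⟩ := Q.to_walk
    have e : ((Ph F s l).x (P.lst - P.fst), (Ph F s l).y (P.lst - P.fst)) =
        shr l s (F.pt (P.lst - P.fst)) := F.shear_pt l s _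
    have b := shr_le (c := F.pt (P.lst - P.fst)) hl.le hl1 hs0 (hn _).2.1 (hn _).2.2
    rw [← e] at b
    simp only [Chart.x_sub, Chart.y_sub] at b
    have b1 : 1 ≤ C * n1 (P.lst - P.fst) / s := by
      rcases hd with hd | hd
      · exact hd.trans b.1
      · exact hd.trans b.2
    have b2 : s / C ≤ Q.n := by
      have := Q.n1_le
      rw [q1, q2] at this
      rw [le_div_iff₀ hs0] at b1
      rw [div_le_iff₀ hC0]
      nlinarith
    refine mem_iUnion₂.2 ⟨Q.fst, hA _ (q1 ▸ hP.fst), Q.lst, w, w3 q3, ?_, ?_⟩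
    · rw [w1]
      exact Nat.ceil_le.2 b2
    · rw [w4 t ht]
      calc Q.tot t ≤ c1 * s := (q4 t).trans hcost.le
        _ ≤ c0 / C * s := mul_le_mul_of_nonneg_right (min_le_left _ _) hs0.le
        _ = c0 * (s / C) := by ring
        _ ≤ c0 * N := mul_le_mul_of_nonneg_left hN1 hc0.le
  have h2 := (hG.biUnion A _).trans (Finset.sum_le_sum fun x (_ : x ∈ A) => hlen x N)
  rw [Finset.sum_const, nsmul_eq_mul] at h2
  refine h1.trans (h2.trans ?_)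
  have h3 : 2 * (4 * C * 31 * s / l) + 1 ≤ 249 * C * s / l := by
    have : 1 ≤ C * s / l := by
      rw [le_div_iff₀ hl]
      nlinarith
    calc 2 * (4 * C * 31 * s / l) + 1 = 248 * (C * s / l) + 1 := by ring
      _ ≤ 249 * (C * s / l) := by linarith
      _ = _ := by ring
  have h4 : (A.card : ℝ) ≤ (249 * C * s / l) ^ 2 :=
    hcard.trans (pow_le_pow_left₀ (by positivity) h3 2)
  have h5 : s ^ 2 ≤ 32 * C ^ 2 * Real.exp (s / (4 * C)) := by
    have := Real.pow_div_factorial_le_exp (s / (4 * C)) (by positivity) 2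
    have e : s ^ 2 = 32 * C ^ 2 * ((s / (4 * C)) ^ 2 / (Nat.factorial 2 : ℕ)) := by
      simp only [Nat.factorial]
      field_simp
      norm_num
    rw [e]
    exact mul_le_mul_of_nonneg_left this (by positivity)
  have h6 : Real.exp (s / (4 * C)) * Real.exp (-(s / C / 2)) ≤ Real.exp (-(c1 * s)) := by
    rw [← Real.exp_add]
    refine Real.exp_le_exp.2 ?_
    have : c1 * s ≤ 1 / (4 * C) * s := mul_le_mul_of_nonneg_right (min_le_right _ _) hs0.le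
    have e : s / (4 * C) + -(s / C / 2) = -(1 / (4 * C) * s) := by
      field_simp
      ring
    linarith
  calc (A.card : ℝ) * (1 / 2) ^ N ≤ (249 * C * s / l) ^ 2 * Real.exp (-(s / C / 2)) :=
        mul_le_mul h4 (c26_half hN1) (by positivity) (by positivity)
    _ = 249 ^ 2 * C ^ 2 / l ^ 2 * s ^ 2 * Real.exp (-(s / C / 2)) := by ring
    _ ≤ 249 ^ 2 * C ^ 2 / l ^ 2 * (32 * C ^ 2 * Real.exp (s / (4 * C))) *
        Real.exp (-(s / C / 2)) := by gcongr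
    _ = 249 ^ 2 * C ^ 2 * (32 * C ^ 2) / l ^ 2 *
        (Real.exp (s / (4 * C)) * Real.exp (-(s / C / 2))) := by ring
    _ ≤ _ := mul_le_mul_of_nonneg_left h6 (by positivity)

theorem ap_up (hG : Law G) (h : F.det ≠ 0) : ∃ C : ℝ, 1 ≤ C ∧ ∀ (s : ℝ) (c : ℝ × ℝ), C ≤ s →
    Pr G {t | ¬ ∀ x ∈ Bx (Ph F s 1) c (61 / 2), ∀ y ∈ Bx (Ph F s 1) c (61 / 2), ∃ P : Pth,
      P.fst = x ∧ P.lst = y ∧ P.In (Bx (Ph F s 1) c 31) ∧ P.tot t ≤ C * s} ≤
        C * s ^ (-(1 / 4) : ℝ) := by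
  obtain ⟨C, hC, hn, hOK⟩ := Chart.exists_n1 h
  obtain ⟨C1, hC1, htail⟩ := hG.path_tail
  have hCC : C ≤ C1 * C := by nlinarith
  refine ⟨9720 + 122 * (C1 * C), by linarith, fun s c hs => ?_⟩
  have hs1 : 1 ≤ s := by linarith
  have hs0 : 0 < s := by linarith
  have hφ := hOK s 1 (by linarith) one_pos le_rfl
  obtain ⟨ρ, hρ⟩ : ∃ ρ, ρ = 122 * C * s := ⟨_, rfl⟩
  have hsρ : s ≤ ρ := by rw [hρ]; nlinarith
  have hd : ∀ x ∈ Bx (Ph F s 1) c (61 / 2), ∀ y ∈ Bx (Ph F s 1) c (61 / 2), n1 (y - x) ≤ ρ := by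
    intro x hx y hy
    refine (c26_diam hC (fun z => (hn z).1) hs0 one_pos le_rfl hx hy).trans (le_of_eq ?_)
    rw [hρ]
    ring
  obtain ⟨A, hA, hcard⟩ := c26_card (by linarith) hd
  have hE : ∀ p : Z2 × Z2, ∃ E : Set Env, Pr G E ≤ Real.exp (-ρ) ∧
      (p.1 ∈ Bx (Ph F s 1) c (61 / 2) → p.2 ∈ Bx (Ph F s 1) c (61 / 2) → ∀ t, NN t → t ∉ E →
        ∃ P : Pth, P.fst = p.1 ∧ P.lst = p.2 ∧ P.In (Bx (Ph F s 1) c 31) ∧
          P.tot t ≤ (9720 + 122 * (C1 * C)) * s) := by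
    intro p
    by_cases hp : p.1 ∈ Bx (Ph F s 1) c (61 / 2) ∧ p.2 ∈ Bx (Ph F s 1) c (61 / 2)
    · obtain ⟨P, p1, p2, p3, p4, p5⟩ := conn hφ hp.1 hp.2
      obtain ⟨w, w1, -, w3, w4⟩ := P.to_walk
      refine ⟨_, htail _ _ w (w3 p4) ρ (by rw [w1, p3]; exact hd _ hp.1 _ hp.2),
        fun _ _ t ht hE => ⟨P, p1, p2, p5.mono (Bx_mono_r _ c (by norm_num)), ?_⟩⟩
      have h1 : walkCost t w ≤ C1 * ρ := not_lt.1 hE
      rw [w4 t ht, hρ] at h1
      nlinarith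
    · refine ⟨∅, ?_, fun h1 h2 => absurd ⟨h1, h2⟩ hp⟩
      simp only [Pr, measureReal_empty]
      positivity
  choose E hE1 hE2 using hE
  have h1 := hG.mono_nn (A := {t | ¬ ∀ x ∈ Bx (Ph F s 1) c (61 / 2), ∀ y ∈ Bx (Ph F s 1) c (61 / 2),
      ∃ P : Pth, P.fst = x ∧ P.lst = y ∧ P.In (Bx (Ph F s 1) c 31) ∧
        P.tot t ≤ (9720 + 122 * (C1 * C)) * s}) (B := ⋃ p ∈ A ×ˢ A, E p) fun t ht hbad => by
    by_contra hne
    refine hbad fun x hx y hy => hE2 (x, y) hx hy t ht fun hm => hne ?_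
    exact mem_iUnion₂.2 ⟨(x, y), Finset.mem_product.2 ⟨hA x hx, hA y hy⟩, hm⟩
  have h2 := (hG.biUnion (A ×ˢ A) E).trans (Finset.sum_le_sum fun p (_ : p ∈ A ×ˢ A) => hE1 p)
  rw [Finset.sum_const, nsmul_eq_mul, Finset.card_product, Nat.cast_mul] at h2
  refine h1.trans (h2.trans ?_)
  have hρ1 : 1 ≤ ρ := hs1.trans hsρ
  have hρ0 : 0 < ρ := by linarith
  have h3 : (A.card : ℝ) ≤ (3 * ρ) ^ 2 :=
    hcard.trans (pow_le_pow_left₀ (by positivity) (by linarith) 2)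
  have h4 : Real.exp (-ρ) ≤ 120 / ρ ^ 5 := by
    have := Real.pow_div_factorial_le_exp ρ hρ0.le 5
    have e : ((Nat.factorial 5 : ℕ) : ℝ) = 120 := by norm_num [Nat.factorial]
    rw [e, div_le_iff₀ (by norm_num)] at this
    rw [Real.exp_neg, le_div_iff₀ (by positivity), inv_mul_le_iff₀ (Real.exp_pos _)]
    exact this
  have hr := c26_inv hs1
  calc (A.card : ℝ) * A.card * Real.exp (-ρ) ≤ (3 * ρ) ^ 2 * (3 * ρ) ^ 2 * (120 / ρ ^ 5) := by
        gcongr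
    _ = 9720 * ρ⁻¹ := by
        field_simp
        norm_num
    _ ≤ 9720 * s⁻¹ := by gcongr
    _ ≤ _ := mul_le_mul (by nlinarith) hr (by positivity) (by nlinarith)

theorem ap_zero (hG : Law G) (hF : Face G F D) : ∃ c1 K0 C : ℝ, 0 < c1 ∧ 1 ≤ K0 ∧ 1 ≤ C ∧
    (∀ s, C ≤ s → (Ph F s 1).OK) ∧
    (∀ (s l : ℝ) (c : ℝ × ℝ), C ≤ s → 0 < l → l ≤ 1 →
      Pr G {t | ¬ LoP (Ph F s l) t (Bx (Ph F s l) c 31) 1 (c1 * s)} ≤
        C / l ^ 2 * Real.exp (-(c1 * s))) ∧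
    ∀ (s K : ℝ) (c : ℝ × ℝ), C ≤ s → K0 ≤ K →
      Pr G (Good (Ph F s 1) c (C * s ^ (7 / 8 : ℝ)) (c1 * s) (K * (c1 * s)))ᶜ ≤ C * s ^ (-(1 / 4) : ℝ) ∧
      Pr G (LoU (Ph F s 1) c (c1 * s) (K * (c1 * s)))ᶜ ≤ C * s ^ (-(1 / 4) : ℝ) := by
  obtain ⟨C0, hC0, -, hOK⟩ := Chart.exists_n1 hF.det
  obtain ⟨c1, C1, hc1, hC1, hlo⟩ := ap_lo hG hF.det
  obtain ⟨C2, hC2, hup⟩ := ap_up hG hF.det
  obtain ⟨C3, hC3, hgood⟩ := ap_goodN hG hF
  have k1 : 0 < C1 / c1 := by positivity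
  have k2 : 0 < 67 / c1 := by positivity
  have k3 : 0 < 2 * C2 / c1 := by positivity
  obtain ⟨C, hC⟩ : ∃ C, C = 100 * C0 + C1 + C1 / c1 + C2 + C3 := ⟨_, rfl⟩
  refine ⟨c1, 1 + 67 / c1 + 2 * C2 / c1, C, hc1, by linarith, by linarith,
    fun s hs => hOK s 1 (by linarith) one_pos le_rfl, fun s l c hs hl hl1 => ?_,
    fun s K c hs hK => ?_⟩
  · refine (hlo s l c (by linarith) hl hl1).trans ?_
    have : C1 ≤ C := by linarith
    gcongr
  · have hs1 : 1 ≤ s := by linarith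
    have hs0 : 0 < s := by linarith
    have hp : 0 ≤ s ^ (-(1 / 4) : ℝ) := by positivity
    have a1 : Pr G {t | ¬ LoP (Ph F s 1) t (Bx (Ph F s 1) c 31) 1 (c1 * s)} ≤
        C1 / c1 * s ^ (-(1 / 4) : ℝ) := by
      refine (hlo s 1 c (by linarith) one_pos le_rfl).trans ?_
      have b1 : Real.exp (-(c1 * s)) ≤ (c1 * s)⁻¹ := by
        rw [Real.exp_neg]
        exact inv_anti₀ (by positivity) (by linarith [Real.add_one_le_exp (c1 * s)])
      calc C1 / 1 ^ 2 * Real.exp (-(c1 * s)) ≤ C1 / 1 ^ 2 * (c1 * s)⁻¹ := by gcongr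
        _ = C1 / c1 * s⁻¹ := by field_simp
        _ ≤ _ := mul_le_mul_of_nonneg_left (c26_inv hs1) k1.le
    have a2 := hup s c (by linarith)
    have a3 := hgood s c (by linarith)
    have u1 : 67 * s ≤ K * (c1 * s) := by
      calc 67 * s = 67 / c1 * (c1 * s) := by field_simp
        _ ≤ _ := mul_le_mul_of_nonneg_right (by linarith) (by positivity)
    have u2 : C2 * s ≤ K * (c1 * s) / 2 := by
      have : 2 * C2 / c1 * (c1 * s) ≤ K * (c1 * s) :=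
        mul_le_mul_of_nonneg_right (by linarith) (by positivity)
      have e : 2 * C2 / c1 * (c1 * s) = 2 * (C2 * s) := by field_simp
      linarith
    have u3 : C3 * s ^ (7 / 8 : ℝ) ≤ C * s ^ (7 / 8 : ℝ) :=
      mul_le_mul_of_nonneg_right (by linarith) (by positivity)
    constructor
    · refine le_trans (hG.mono ?_) (((hG.union _ _).trans (add_le_add a3 a1)).trans ?_)
      · intro t ht
        by_contra hne
        simp only [mem_union, mem_compl_iff, mem_ofPred_eq, not_or, not_not] at hne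
        exact ht ⟨GoodN_mono _ c u3 u1 hne.1, hne.2⟩
      · rw [← add_mul]
        exact mul_le_mul_of_nonneg_right (by linarith) hp
    · refine le_trans (hG.mono ?_) (((hG.union _ _).trans (add_le_add a2 a1)).trans ?_)
      · intro t ht
        by_contra hne
        simp only [mem_union, mem_ofPred_eq, not_or, not_not] at hne
        refine ht ⟨hne.2, fun x hx y hy => ?_⟩
        obtain ⟨P, p1, p2, p3, p4⟩ := hne.1 x hx y hy
        exact ⟨P, p1, p2, p3, p4.trans u2⟩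
      · rw [← add_mul]
        exact mul_le_mul_of_nonneg_right (by linarith) hp

end

end Crest.Agent.R151.C
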