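import Crest.Agent.R151.C25
import Crest.Agent.R151.C08

/-! Row 151 (C): a priori linear structure in a sheared chart -/

set_option autoImplicit false

open MeasureTheory Set Filter Topology
open Crest.ProbabilityR.FirstPassage
open Crest.Agent.R151.B

namespace Crest.Agent.R151.C

noncomputable section

variable {G : Measure ℝ} {F : Chart} {D : ℝ}

theorem linp (hG : Law G) (hF : Face G F D) {ε : ℝ} (hε : 0 < ε) : ∃ ω C : ℝ, 0 < ω ∧ 1 ≤ C ∧
    ∀ (s l : ℝ) (c : ℝ × ℝ), C ≤ s → 0 < l → l ≤ 1 / 3 →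
      Pr G (LinE (Ph F (200 * s) l) F c ε ω (C / l * s ^ (7 / 8 : ℝ)))ᶜ ≤
        C / l ^ 2 * s ^ (-(1 / 4) : ℝ) := by
  obtain ⟨C1, hC1, h1⟩ := ap_nice hG hF (show (1 : ℝ) ≤ 10 by norm_num)
  obtain ⟨ω, C2, hω, hC2, h2⟩ := ap_asol hG hF hε
  obtain ⟨C3, hC3, h3⟩ := ball_of_Bx hF.det
  refine ⟨ω, 5001 ^ 2 * C1 + 2600 * C2 + C3, hω, by linarith, fun s l c hs hl hl3 => ?_⟩
  have hs1 : 1 ≤ s := by linarith
  have hs0 : 0 < s := by linarith
  have p0 : 0 ≤ s ^ (7 / 8 : ℝ) := Real.rpow_nonneg hs0.le _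
  have p1 : 0 ≤ s ^ (-(1 / 4) : ℝ) := Real.rpow_nonneg hs0.le _
  have hφ := (h3 s 0 c (by linarith) le_rfl).1
  obtain ⟨c0, rfl⟩ := shr_surj hl.ne' (show (200 : ℝ) ≠ 0 by norm_num) c
  have hsh : Ph F (200 * s) l = (Ph F s 1).shear l 200 := by
    rw [Ph_shear F hs0.ne' (by norm_num), one_mul, mul_comm]
  obtain ⟨u, hu⟩ : ∃ u : ℝ, u = 1 / l := ⟨_, rfl⟩
  have hu3 : 3 ≤ u := by
    rw [hu, le_div_iff₀ hl]
    linarith
  have hdiv : ∀ a : ℝ, a / l = a * u := fun a => by rw [hu]; ring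
  have hdiv2 : ∀ a : ℝ, a / l ^ 2 = a * u ^ 2 := fun a => by rw [hu]; ring
  have hν : (0 : ℝ) < 2600 * u := by linarith
  have hsS : s ≤ s * (2600 * u) := by nlinarith
  have a2 := h2 (s * (2600 * u)) ((2600 * u)⁻¹ • c0)
    (Bx ((Ph F s 1).shear l 200) (shr l 200 c0) 13) (by linarith) (by
      have e1 : Ph F (s * (2600 * u)) 1 = (Ph F s 1).scale (2600 * u) := by
        rw [Chart.scale, Ph_shear F hs0.ne' hν.ne', one_mul]
      rw [e1, Bx_scale _ hν, smul_inv_smul₀ hν.ne']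
      refine (Bx_unshear _ hl (by linarith) (by norm_num) c0 13).trans (Bx_mono_r _ _ ?_)
      rw [hdiv]
      linarith)
  have a3 : (s * (2600 * u)) ^ (-(1 / 4) : ℝ) ≤ s ^ (-(1 / 4) : ℝ) :=
    Real.rpow_le_rpow_of_nonpos hs0 hsS (by norm_num)
  have a4 : (s * (2600 * u)) ^ (7 / 8 : ℝ) ≤ 2600 * u * s ^ (7 / 8 : ℝ) := by
    rw [mul_comm s]
    exact C25_mul (by linarith) hs0.le
  obtain ⟨N, hN⟩ : ∃ N : ℕ, N = ⌈2500 * u⌉₊ := ⟨_, rfl⟩
  have hN1 : 2500 * u ≤ N := hN ▸ Nat.le_ceil _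
  have hN2 : (N : ℝ) ≤ 2500 * u + 1 := hN ▸ (Nat.ceil_lt_add_one (by linarith)).le
  obtain ⟨I, hI⟩ : ∃ I : Finset (ℤ × ℤ),
    I = Finset.Icc (-(N : ℤ)) N ×ˢ Finset.Icc (-(N : ℤ)) N := ⟨_, rfl⟩
  have hcard : (I.card : ℝ) ≤ 5001 ^ 2 * u ^ 2 := by
    have e : (Finset.Icc (-(N : ℤ)) N).card = 2 * N + 1 := by
      rw [Int.card_Icc]
      omega
    rw [hI, Finset.card_product, e]
    push_cast
    have : (2 * (N : ℝ) + 1) ≤ 5001 * u := by linarith
    have h0 : (0 : ℝ) ≤ 2 * (N : ℝ) + 1 := by positivity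
    nlinarith [mul_le_mul this this h0 (by linarith)]
  have a1 : Pr G (⋃ g ∈ I, {t | ¬ Nice (Ph F s 1) t (ψ0 F) (gc c0 g) 10 (C1 * s ^ (7 / 8 : ℝ))
      ((2 * 10 + 3) * s)}) ≤ 5001 ^ 2 * u ^ 2 * (C1 * s ^ (-(1 / 4) : ℝ)) := by
    refine (hG.biUnion _ _).trans ?_
    refine (Finset.sum_le_card_nsmul _ _ (C1 * s ^ (-(1 / 4) : ℝ))
      fun g _ => h1 s _ (by linarith)).trans ?_
    rw [nsmul_eq_mul]
    exact mul_le_mul_of_nonneg_right hcard (by positivity)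
  refine le_trans (hG.mono ?_) ((hG.union _ _).trans ((add_le_add a1 a2).trans ?_))
  · intro t ht
    by_contra hc
    simp only [mem_union, mem_iUnion, mem_ofPred_eq, not_or, not_not, not_exists] at hc
    obtain ⟨hc1, hc2, hc3⟩ := hc
    apply ht
    rw [hsh, hdiv]
    have q1 : 0 ≤ u * s ^ (7 / 8 : ℝ) := by positivity
    have e2 : C2 * (s * (2600 * u)) ^ (7 / 8 : ℝ) ≤
        (5001 ^ 2 * C1 + 2600 * C2 + C3) * u * s ^ (7 / 8 : ℝ) := by
      have := mul_le_mul_of_nonneg_left a4 (show 0 ≤ C2 by linarith)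
      nlinarith [mul_nonneg (show 0 ≤ C1 by linarith) q1, mul_nonneg (show 0 ≤ C3 by linarith) q1]
    refine ⟨⟨200 * (12 + 1) / l * ((2 * 10 + 3) * s), ?_⟩, ⟨fun P hP => ?_, fun x hx => ?_⟩,
      fun P hP W w1 w2 w3 => ?_⟩
    · refine (chain hφ hl hl3 le_rfl (show (1 : ℝ) ≤ 12 by norm_num) (e := C1 * s ^ (7 / 8 : ℝ))
        fun w w1 w2 => ?_).mono ?_ le_rfl
      · obtain ⟨g1, g2⟩ := shr_ge (c := w - c0) (r := 12 + 1 / 2) hl (by linarith)
          (show (0 : ℝ) < 200 by norm_num) (by rw [shr_sub]; exact w1) (by rw [shr_sub]; exact w2)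
        rw [hdiv, abs_le] at g1 g2
        simp only [Prod.fst_sub, Prod.snd_sub] at g1 g2
        have hg : ∀ a : ℝ, -((12 + 1 / 2) * 200 * u) ≤ a → a ≤ (12 + 1 / 2) * 200 * u →
            ⌊a⌋ ∈ Finset.Icc (-(N : ℤ)) N := fun a b1 b2 => by
          rw [Finset.mem_Icc]
          constructor
          · rw [Int.le_floor]
            push_cast
            linarith
          · have := Int.floor_le a
            have : ((⌊a⌋ : ℤ) : ℝ) ≤ ((N : ℤ) : ℝ) := by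
              push_cast
              linarith
            exact_mod_cast this
        have hfl : ∀ a b : ℝ, |a - (b + ((⌊a - b⌋ : ℤ) : ℝ))| + 8 ≤ 10 := fun a b => by
          have f1 := Int.floor_le (a - b)
          have f2 := Int.lt_floor_add_one (a - b)
          have : |a - (b + ((⌊a - b⌋ : ℤ) : ℝ))| ≤ 2 := by
            rw [abs_le]
            constructor <;> linarith
          linarith
        refine (hc1 (⌊w.1 - c0.1⌋, ⌊w.2 - c0.2⌋) ?_).restrict hφ (hfl _ _) (hfl _ _)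
        rw [hI]
        exact Finset.mem_product.2 ⟨hg _ g1.1 g1.2, hg _ g2.1 g2.2⟩
      · rw [hdiv]
        nlinarith [mul_nonneg (show 0 ≤ C1 by linarith) q1, mul_nonneg (show 0 ≤ C3 by linarith) q1,
          mul_nonneg (show 0 ≤ C2 by linarith) q1]
    · linarith [hc2.1 P hP]
    · obtain ⟨P, f1, f2, f3, f4⟩ := hc2.2 x hx
      exact ⟨P, f1, f2, f3, f4.mono e2⟩
    · linarith [hc3 P hP W w1 w2 w3]
  · rw [hdiv2]
    have q1 : 0 ≤ u ^ 2 * s ^ (-(1 / 4) : ℝ) := by positivity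
    have q2 : s ^ (-(1 / 4) : ℝ) ≤ u ^ 2 * s ^ (-(1 / 4) : ℝ) := by
      have : 1 ≤ u ^ 2 := by nlinarith
      nlinarith
    have q3 := mul_le_mul_of_nonneg_left (a3.trans q2) (show 0 ≤ C2 by linarith)
    nlinarith [mul_nonneg (show 0 ≤ C3 by linarith) q1, mul_nonneg (show 0 ≤ C2 by linarith) q1]

end

end Crest.Agent.R151.C
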