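import Crest.Agent.R151.C06

/-! Row 151 (C): signal, deterministic pieces -/

set_option autoImplicit false

open MeasureTheory Set Filter Topology
open Crest.ProbabilityR.FirstPassage
open Crest.Agent.R151.B

namespace Crest.Agent.R151.C

noncomputable section

variable {φ : Chart} {t : Env} {B : Z2 → ℝ} {U : Set Z2}

theorem c27_count (hS : Sub t U B) {P : Pth} (hP : P.In U) {θ δ : ℝ} (hδ : 0 < δ)
    (hc : P.tot t ≤ B P.fst - B P.lst + θ) {a : ℕ → ℕ} (ha : ∀ j, a j ≤ P.n)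
    (hm : ∀ j, a j ≤ a (j + 1)) (N : ℕ) : ∃ bad : Finset ℕ, (bad.card : ℝ) ≤ θ / δ ∧
      ∀ j < N, j ∉ bad → P.cost t (a j) (a (j + 1)) ≤ B (P.v (a j)) - B (P.v (a (j + 1))) + δ := by
  classical
  have hmono : Monotone a := monotone_nat_of_le_succ hm
  have hsum : ∀ N, ∑ j ∈ Finset.range N, (P.cost t (a j) (a (j + 1)) -
      (B (P.v (a j)) - B (P.v (a (j + 1))))) =
      P.cost t (a 0) (a N) - (B (P.v (a 0)) - B (P.v (a N))) := by
    intro N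
    induction N with
    | zero => simp [Pth.cost_self]
    | succ N ih =>
      rw [Finset.sum_range_succ, ih, ← P.cost_add t (hmono (Nat.zero_le N)) (hm N)]
      ring
  have h1 := hS.sc hP hc (a 0) (a N) (hmono (Nat.zero_le N)) (ha N)
  refine ⟨(Finset.range N).filter fun j => δ ≤ P.cost t (a j) (a (j + 1)) -
    (B (P.v (a j)) - B (P.v (a (j + 1)))), ?_, fun j hj hb => ?_⟩
  · rw [le_div_iff₀ hδ, ← nsmul_eq_mul]
    refine (Finset.card_nsmul_le_sum _ _ _ fun j hj => (Finset.mem_filter.1 hj).2).trans ?_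
    refine (Finset.sum_le_sum_of_subset_of_nonneg (Finset.filter_subset _ _) fun j _ _ =>
      sub_nonneg.2 (hS.cost hP (hm j) (ha _))).trans ?_
    rw [hsum]
    linarith
  · simp only [Finset.mem_filter, Finset.mem_range, hj, true_and, not_le] at hb
    linarith

/-- few pieces of a cheap crossing have a large excess -/
theorem pieces (hφ : φ.OK) (hS : Sub t U B) {P : Pth} (hP : P.In U) {X θ δ : ℝ} {n : ℕ}
    (h0 : φ.x P.fst ≤ X - 64 * n) (h1 : X + 64 * n ≤ φ.x P.lst) (hδ : 0 < δ)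
    (hc : P.tot t ≤ B P.fst - B P.lst + θ) :
    ∃ bad : Finset ℤ, (bad.card : ℝ) ≤ θ / δ ∧ ∀ i : ℤ, |i| < n → i ∉ bad →
      ∃ a b, a ≤ b ∧ b ≤ P.n ∧ φ.x (P.v a) ≤ X + 64 * i - 31 ∧ X + 64 * i + 31 ≤ φ.x (P.v b) ∧
        P.cost t a b ≤ B (P.v a) - B (P.v b) + δ := by
  classical
  have hex : ∀ j : ℕ, ∃ k, min (X - 64 * n + 64 * j + 32) (X + 64 * n) ≤ φ.x (P.v k) :=
    fun j => ⟨P.n, (min_le_right _ _).trans h1⟩
  have ha : ∀ j, Nat.find (hex j) ≤ P.n := fun j => Nat.find_min' _ ((min_le_right _ _).trans h1)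
  have hm : ∀ j, Nat.find (hex j) ≤ Nat.find (hex (j + 1)) := fun j =>
    Nat.find_min' _ (le_trans (min_le_min_right _ (by push_cast; linarith)) (Nat.find_spec (hex (j + 1))))
  obtain ⟨bad, hb, hg⟩ := c27_count hS hP hδ hc ha hm (2 * n)
  refine ⟨bad.image fun j : ℕ => (j : ℤ) - n + 1, le_trans (by exact_mod_cast Finset.card_image_le) hb,
    fun i hi hib => ?_⟩
  rw [abs_lt] at hi
  obtain ⟨j, rfl⟩ : ∃ j : ℕ, i = (j : ℤ) - n + 1 := ⟨(i + n - 1).toNat, by omega⟩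
  have hj : (j : ℝ) + 2 ≤ 2 * n := by exact_mod_cast (show j + 2 ≤ 2 * n by omega)
  have hj0 : (0 : ℝ) ≤ j := Nat.cast_nonneg j
  refine ⟨_, _, hm j, ha _, ?_, ?_, hg j (by omega) fun h => hib (Finset.mem_image_of_mem _ h)⟩
  · push_cast
    rcases Nat.eq_zero_or_pos (Nat.find (hex j)) with h | h
    · rw [h]
      exact h0.trans (by linarith)
    · obtain ⟨k, hk⟩ : ∃ k, Nat.find (hex j) = k + 1 := ⟨Nat.find (hex j) - 1, by omega⟩
      have h2 := not_le.1 (Nat.find_min (hex j) (show k < Nat.find (hex j) by omega))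
      have h3 := (abs_le.1 (hφ.step (P.adj k (by have := ha j; omega))).1).2
      have h4 := min_le_left (X - 64 * n + 64 * j + 32) (X + 64 * n)
      rw [hk]
      linarith
  · refine le_trans (le_min ?_ ?_) (Nat.find_spec (hex (j + 1))) <;> push_cast <;> linarith

theorem cell_niceH (hφ : φ.OK) (hS : Sub t U B) {c : ℝ × ℝ} {X Y δ Lo Up : ℝ}
    (hU : Bx φ c 31 ⊆ U) (hL : t ∈ LoU φ c Lo Up) (hδ : δ ≤ Up / 2) (hX : |c.1 - X| ≤ 1 / 50)
    (hY : |c.2 - Y| ≤ 1 / 50)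
    (h : ∀ m : ℤ, -61 ≤ m → m ≤ 60 → ∃ P : Pth, P.In U ∧
      (∀ k, k ≤ P.n → Y + m / 2 ≤ φ.y (P.v k) ∧ φ.y (P.v k) ≤ Y + m / 2 + 1 / 2) ∧
      φ.x P.fst ≤ X - 31 ∧ X + 31 ≤ φ.x P.lst ∧ P.tot t ≤ B P.fst - B P.lst + δ) :
    NiceH φ t B c 30 δ Up := by
  intro y hy0 hy1
  rw [abs_le] at hX hY
  have c1 := Int.le_ceil (2 * (y - Y))
  have c2 := Int.ceil_lt_add_one (2 * (y - Y))
  obtain ⟨P, hP, hy, h0, h1, hc⟩ := h ⌈2 * (y - Y)⌉
    (by exact_mod_cast (show ((-61 : ℤ) : ℝ) ≤ ⌈2 * (y - Y)⌉ by push_cast; linarith))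
    (by exact_mod_cast (show (⌈2 * (y - Y)⌉ : ℝ) ≤ (60 : ℤ) by push_cast; linarith))
  obtain ⟨a, b, -, hab, hb, hH⟩ := restr_HC hφ P (Nat.zero_le P.n) le_rfl (x0 := c.1 - 30)
    (x1 := c.1 + 30) (y0 := y) (y1 := y + 1) (by linarith) (h0.trans (by linarith))
    (le_trans (by linarith) h1) fun k _ hk => ⟨by linarith [(hy k hk).1], by linarith [(hy k hk).2]⟩
  have hsc := (hS.sc hP hc).sub hab hb
  have hin : (P.sub a b).In (Bx φ c (61 / 2)) :=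
    hH.In (by linarith) (by linarith) (by linarith) (by linarith)
  obtain ⟨Q, q0, q1, hQ, hq⟩ := hL.2 _ hin.fst _ hin.lst
  have := hS.tot (hQ.mono hU)
  rw [q0, q1] at this
  exact ⟨_, hH, hsc, by linarith [hsc.tot]⟩

theorem LoU_swap (φ : Chart) (c : ℝ × ℝ) (Lo Up : ℝ) : LoU φ.swap c.swap Lo Up = LoU φ c Lo Up := by
  ext t
  simp only [LoU, Bx_swap, mem_ofPred_eq]
  exact and_congr_left fun _ => ⟨fun h => by simpa only [Chart.swap_swap] using h.swap, LoP.swap⟩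
theorem Good_swap (φ : Chart) (c : ℝ × ℝ) (τ Lo Up : ℝ) :
    Good φ.swap c.swap τ Lo Up = Good φ c τ Lo Up := by
  ext t
  simp only [Good, Bx_swap, GoodN_swap, mem_ofPred_eq]
  exact and_congr_right fun _ => ⟨fun h => by simpa only [Chart.swap_swap] using h.swap, LoP.swap⟩

/-- a thin lane without signal: all but few of its pieces are cheap for the reference solution -/
theorem lane_bad {η : Chart} (hφ : φ.OK) (hη : η.OK) {w : ℝ × ℝ} {τ Up θ δ y : ℝ} {n : ℕ}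
    (hS : Sol t (Bx η (η.ap w) 31) B) (hN : Nice η t B (η.ap w) 30 τ Up)
    (hsub : Bx φ (φ.ap w) (64 * n + 1) ⊆ Bx η (η.ap w) 25) (hy : |y - (φ.ap w).2| ≤ 64 * n)
    (hδ : 0 < δ) (hs : t ∉ Sig η φ τ Up (64 * n) θ w y) :
    ∃ bad : Finset ℤ, (bad.card : ℝ) ≤ (θ + 6 * τ) / δ ∧ ∀ i : ℤ, |i| < n → i ∉ bad →
      ∃ P : Pth, P.In (Bx η (η.ap w) 31) ∧
        (∀ k, k ≤ P.n → y ≤ φ.y (P.v k) ∧ φ.y (P.v k) ≤ y + 1 / 2) ∧
        φ.x P.fst ≤ (φ.ap w).1 + 64 * i - 31 ∧ (φ.ap w).1 + 64 * i + 31 ≤ φ.x P.lst ∧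
        P.tot t ≤ B P.fst - B P.lst + δ := by
  have hC : t ∈ CheapL η (η.ap w) τ Up φ ((φ.ap w).1 - 64 * n) ((φ.ap w).1 + 64 * n) y θ := by
    by_contra hc
    exact hs ⟨⟨B, hS, hN⟩, hc⟩
  obtain ⟨B', hS', hN', P, hH, hP, hc⟩ := hC
  rw [abs_le] at hy
  have hin : P.In (Bx η (η.ap w) (30 - 5)) := by
    rw [show (30 - 5 : ℝ) = 25 by norm_num]
    exact (hH.In (by linarith) (by linarith) (by linarith) (by linarith)).mono hsub
  have e31 : (31 : ℝ) = 30 + 1 := by norm_num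
  have hl := loc_sol hη (r := 30) (by norm_num) (e31 ▸ hS') (e31 ▸ hS) hN' hN _ hin.fst _ hin.lst
  obtain ⟨bad, hb, hg⟩ := pieces hφ hS.1 hP hH.2.1 hH.2.2 hδ (θ := θ + 6 * τ) (by linarith)
  refine ⟨bad, hb, fun i hi hib => ?_⟩
  obtain ⟨a, b, hab, hbn, h0, h1, h2⟩ := hg i hi hib
  refine ⟨P.sub a b, hP.sub hab hbn, fun k hk => ?_, ?_, ?_, ?_⟩
  · rw [P.sub_n a hbn] at hk
    rw [P.sub_v hbn hk]
    exact ⟨(hH.1 _ (by omega)).1, (hH.1 _ (by omega)).2.1⟩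
  · rwa [P.sub_fst]
  · rwa [P.sub_lst hab hbn]
  · rwa [P.sub_fst, P.sub_lst hab hbn, P.sub_tot t hab hbn]

end

end Crest.Agent.R151.C
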