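import Crest.Agent.R151.C27
import Crest.Agent.R151.C14

/-! Row 151 (C): signal -/

set_option autoImplicit false

open MeasureTheory Set Filter Topology
open Crest.ProbabilityR.FirstPassage
open Crest.Agent.R151.B

namespace Crest.Agent.R151.C

noncomputable section

variable {G : Measure ℝ} {φ η : Chart}

theorem C28_cnt (I M : Finset ℤ) (S : ℤ × ℤ → Prop) [DecidablePred S] (bad : ℤ × ℤ → Finset ℤ)
    {β : ℝ} (hb : ∀ j ∈ I ×ˢ M, ((bad j).card : ℝ) ≤ β) (f : ℤ → ℤ → ℤ × ℤ) :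
    ∃ T : Finset (ℤ × ℤ), (T.card : ℝ) ≤ I.card * ((I ×ˢ M).filter S).card + M.card * I.card * β ∧
      ∀ i ∈ I, ∀ j ∈ I, f i j ∉ T → ∀ m ∈ M, ¬ S (j, m) ∧ i ∉ bad (j, m) := by
  refine ⟨(((I ×ˢ M).filter S).biUnion fun j => I.image fun i => f i j.1) ∪
    (I ×ˢ M).biUnion fun j => (bad j).image fun i => f i j.1, ?_, ?_⟩
  · have h1 : (((I ×ˢ M).filter S).biUnion fun j => I.image fun i => f i j.1).card ≤
        ((I ×ˢ M).filter S).card * I.card :=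
      Finset.card_biUnion_le_card_mul _ _ _ fun j _ => Finset.card_image_le
    have h2 : (((I ×ˢ M).biUnion fun j => (bad j).image fun i => f i j.1).card : ℝ) ≤
        ∑ j ∈ I ×ˢ M, β := by
      refine le_trans ?_ (Finset.sum_le_sum hb)
      rw [← Nat.cast_sum, Nat.cast_le]
      exact Finset.card_biUnion_le.trans (Finset.sum_le_sum fun j _ => Finset.card_image_le)
    rw [Finset.sum_const, Finset.card_product, nsmul_eq_mul, Nat.cast_mul] at h2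
    have h3 := Finset.card_union_le
      (((I ×ˢ M).filter S).biUnion fun j => I.image fun i => f i j.1)
      ((I ×ˢ M).biUnion fun j => (bad j).image fun i => f i j.1)
    have h1' := (Nat.cast_le (α := ℝ)).2 h1
    have h3' := (Nat.cast_le (α := ℝ)).2 h3
    rw [Nat.cast_mul] at h1'
    rw [Nat.cast_add] at h3'
    linarith
  · intro i hi j hj hT m hm
    rw [Finset.mem_union, not_or] at hT
    have hjm : (j, m) ∈ I ×ˢ M := Finset.mem_product.2 ⟨hj, hm⟩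
    exact ⟨fun h => hT.1 (Finset.mem_biUnion.2 ⟨(j, m), Finset.mem_filter.2 ⟨hjm, h⟩,
        Finset.mem_image.2 ⟨i, hi, rfl⟩⟩),
      fun h => hT.2 (Finset.mem_biUnion.2 ⟨(j, m), hjm, Finset.mem_image.2 ⟨i, h, rfl⟩⟩)⟩

theorem C28_abs {n : ℕ} {i : ℤ} (hi : i ∈ Finset.Ioo (-n : ℤ) n) :
    |i| < n ∧ -(n : ℝ) + 1 ≤ i ∧ (i : ℝ) + 1 ≤ n := by
  rw [Finset.mem_Ioo] at hi
  refine ⟨abs_lt.2 hi, ?_, ?_⟩
  · have : -(n : ℤ) + 1 ≤ i := by omega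
    exact_mod_cast this
  · have : i + 1 ≤ (n : ℤ) := by omega
    exact_mod_cast this

theorem C28_sub {w c : ℝ × ℝ} {n : ℕ} {i j : ℤ}
    (hsub : Bx φ (φ.ap w) (64 * n + 1) ⊆ Bx η (η.ap w) 25) (hi : i ∈ Finset.Ioo (-n : ℤ) n)
    (hj : j ∈ Finset.Ioo (-n : ℤ) n) (h1 : |c.1 - ((φ.ap w).1 + 64 * i)| ≤ 1 / 50)
    (h2 : |c.2 - ((φ.ap w).2 + 64 * j)| ≤ 1 / 50) : Bx φ c 31 ⊆ Bx η (η.ap w) 31 := by
  obtain ⟨-, i1, i2⟩ := C28_abs hi
  obtain ⟨-, j1, j2⟩ := C28_abs hj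
  rw [abs_le] at h1 h2
  refine (Bx_mono φ ?_ ?_).trans (hsub.trans (Bx_mono_r _ _ (by norm_num)))
  · have : |c.1 - (φ.ap w).1| ≤ 64 * n - 63 := by rw [abs_le]; constructor <;> linarith
    linarith
  · have : |c.2 - (φ.ap w).2| ≤ 64 * n - 63 := by rw [abs_le]; constructor <;> linarith
    linarith

theorem C28_lane {n : ℕ} {j : ℤ × ℤ}
    (hj : j ∈ Finset.Ioo (-n : ℤ) n ×ˢ Finset.Icc (-61 : ℤ) 60) (Y : ℝ) :
    |Y + 64 * j.1 + j.2 / 2 - Y| ≤ 64 * n := by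
  obtain ⟨h1, h2⟩ := Finset.mem_product.1 hj
  obtain ⟨-, j1, j2⟩ := C28_abs h1
  rw [Finset.mem_Icc] at h2
  have m1 : (-61 : ℝ) ≤ j.2 := by exact_mod_cast h2.1
  have m2 : (j.2 : ℝ) ≤ 60 := by exact_mod_cast h2.2
  rw [abs_le]
  constructor <;> linarith

open Classical in
theorem C28_dir (hφ : φ.OK) (hη : η.OK) {w : ℝ × ℝ} {τ Up θ δ : ℝ} (Lo : ℝ) {Up0 : ℝ} {n : ℕ}
    {t : Env} {B : Z2 → ℝ} (hS : Sol t (Bx η (η.ap w) 31) B) (hN : Nice η t B (η.ap w) 30 τ Up)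
    (hsub : Bx φ (φ.ap w) (64 * n + 1) ⊆ Bx η (η.ap w) 25) (hδ : 0 < δ) (hδ' : δ ≤ Up0 / 2)
    (hθ : 0 ≤ θ + 6 * τ) (f : ℤ → ℤ → ℤ × ℤ) :
    ∃ T : Finset (ℤ × ℤ), (T.card : ℝ) ≤ (Finset.Ioo (-n : ℤ) n).card *
        ((Finset.Ioo (-n : ℤ) n ×ˢ Finset.Icc (-61 : ℤ) 60).filter fun j =>
          t ∈ Sig η φ τ Up (64 * n) θ w ((φ.ap w).2 + 64 * j.1 + j.2 / 2)).card +
        122 * (Finset.Ioo (-n : ℤ) n).card * ((θ + 6 * τ) / δ) ∧
      ∀ i ∈ Finset.Ioo (-n : ℤ) n, ∀ j ∈ Finset.Ioo (-n : ℤ) n, f i j ∉ T → ∀ c : ℝ × ℝ,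
        |c.1 - ((φ.ap w).1 + 64 * i)| ≤ 1 / 50 → |c.2 - ((φ.ap w).2 + 64 * j)| ≤ 1 / 50 →
        t ∈ LoU φ c Lo Up0 → NiceH φ t B c 30 δ Up0 := by
  have key : ∀ j : ℤ × ℤ, ∃ bad : Finset ℤ, (bad.card : ℝ) ≤ (θ + 6 * τ) / δ ∧
      (j ∈ Finset.Ioo (-n : ℤ) n ×ˢ Finset.Icc (-61 : ℤ) 60 →
      t ∉ Sig η φ τ Up (64 * n) θ w ((φ.ap w).2 + 64 * j.1 + j.2 / 2) →
      ∀ i : ℤ, |i| < n → i ∉ bad → ∃ P : Pth, P.In (Bx η (η.ap w) 31) ∧
        (∀ k, k ≤ P.n → (φ.ap w).2 + 64 * j.1 + j.2 / 2 ≤ φ.y (P.v k) ∧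
          φ.y (P.v k) ≤ (φ.ap w).2 + 64 * j.1 + j.2 / 2 + 1 / 2) ∧
        φ.x P.fst ≤ (φ.ap w).1 + 64 * i - 31 ∧ (φ.ap w).1 + 64 * i + 31 ≤ φ.x P.lst ∧
        P.tot t ≤ B P.fst - B P.lst + δ) := by
    intro j
    by_cases h : j ∈ Finset.Ioo (-n : ℤ) n ×ˢ Finset.Icc (-61 : ℤ) 60 ∧
        t ∉ Sig η φ τ Up (64 * n) θ w ((φ.ap w).2 + 64 * j.1 + j.2 / 2)
    · obtain ⟨bad, b1, b2⟩ := lane_bad hφ hη hS hN hsub (C28_lane h.1 _) hδ h.2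
      exact ⟨bad, b1, fun _ _ => b2⟩
    · refine ⟨∅, ?_, fun h1 h2 => absurd ⟨h1, h2⟩ h⟩
      rw [Finset.card_empty, Nat.cast_zero]
      exact div_nonneg hθ hδ.le
  choose bad hb1 hb2 using key
  obtain ⟨T, hT1, hT2⟩ := C28_cnt (Finset.Ioo (-n : ℤ) n) (Finset.Icc (-61 : ℤ) 60)
    (fun j => t ∈ Sig η φ τ Up (64 * n) θ w ((φ.ap w).2 + 64 * j.1 + j.2 / 2)) bad
    (fun j _ => hb1 j) f
  have hc : ((Finset.Icc (-61 : ℤ) 60).card : ℝ) = 122 := by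
    rw [Int.card_Icc, show (60 + 1 - -61 : ℤ).toNat = 122 from rfl]; norm_num
  rw [hc] at hT1
  refine ⟨T, hT1, fun i hi j hj hf c h1 h2 hL => ?_⟩
  refine cell_niceH hφ hS.1 (C28_sub hsub hi hj h1 h2) hL hδ' h1 h2 fun m m1 m2 => ?_
  have hm : m ∈ Finset.Icc (-61 : ℤ) 60 := Finset.mem_Icc.2 ⟨m1, m2⟩
  obtain ⟨a1, a2⟩ := hT2 i hi j hj hf m hm
  exact hb2 (j, m) (Finset.mem_product.2 ⟨hj, hm⟩) a1 i (C28_abs hi).1 a2

theorem C28_int (hG : Law G) {ι : Type} (I : Finset ι) (p : ι → Env → Prop)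
    [∀ t, DecidablePred fun i => p i t] (hp : ∀ i ∈ I, MeasurableSet {t | p i t}) :
    Integrable (fun t => ((I.filter fun i => p i t).card : ℝ)) (iidLaw G) ∧
      ∫ t, ((I.filter fun i => p i t).card : ℝ) ∂iidLaw G = ∑ i ∈ I, Pr G {t | p i t} := by
  have := hG.isP
  have e : (fun t => ((I.filter fun i => p i t).card : ℝ)) =
      fun t => ∑ i ∈ I, ({t | p i t} : Set Env).indicator (fun _ => (1 : ℝ)) t := by
    funext t
    rw [Finset.card_filter]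
    push_cast
    refine Finset.sum_congr rfl fun i _ => ?_
    by_cases h : p i t
    · rw [if_pos h, indicator_of_mem (show t ∈ {t | p i t} from h)]
    · rw [if_neg h, indicator_of_notMem (show t ∉ {t | p i t} from h)]
  have hi : ∀ i ∈ I, Integrable (({t | p i t} : Set Env).indicator fun _ => (1 : ℝ)) (iidLaw G) :=
    fun i hi => (integrable_const 1).indicator (hp i hi)
  rw [e]
  refine ⟨integrable_finsetSum _ hi, ?_⟩
  rw [integral_finsetSum _ hi]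
  refine Finset.sum_congr rfl fun i hi => ?_
  rw [integral_indicator_const _ (hp i hi), smul_eq_mul, mul_one]
  rfl

open Classical in
theorem sig_count (hφ : φ.OK) (hη : η.OK) {w : ℝ × ℝ} {τ Up θ δ Lo Up0 : ℝ} {n : ℕ} {t : Env}
    (hsub : Bx φ (φ.ap w) (64 * n + 1) ⊆ Bx η (η.ap w) 25) (hδ : 0 < δ) (hδ' : δ ≤ Up0 / 2)
    (hθ : 0 ≤ θ + 6 * τ) (o : ℤ × ℤ → Z2)
    (ho : ∀ g : ℤ × ℤ, |φ.x (o g) - 64 * g.1| ≤ 1 / 100 ∧ |φ.y (o g) - 64 * g.2| ≤ 1 / 100)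
    (ht : t ∈ GoodN η (η.ap w) τ Up) :
    (((Finset.Ioo (-n : ℤ) n ×ˢ Finset.Ioo (-n : ℤ) n).filter fun g =>
        t ∉ Good φ (φ.ap w + φ.pt (o g)) δ Lo Up0).card : ℝ) ≤
      ((Finset.Ioo (-n : ℤ) n ×ˢ Finset.Ioo (-n : ℤ) n).filter fun g =>
        t ∉ LoU φ (φ.ap w + φ.pt (o g)) Lo Up0).card +
      (Finset.Ioo (-n : ℤ) n).card * ((Finset.Ioo (-n : ℤ) n ×ˢ Finset.Icc (-61 : ℤ) 60).filter fun j =>
        t ∈ Sig η φ τ Up (64 * n) θ w ((φ.ap w).2 + 64 * j.1 + j.2 / 2)).card +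
      (Finset.Ioo (-n : ℤ) n).card * ((Finset.Ioo (-n : ℤ) n ×ˢ Finset.Icc (-61 : ℤ) 60).filter fun j =>
        t ∈ Sig η.swap φ.swap τ Up (64 * n) θ w ((φ.ap w).1 + 64 * j.1 + j.2 / 2)).card +
      244 * (Finset.Ioo (-n : ℤ) n).card * ((θ + 6 * τ) / δ) := by
  obtain ⟨B, hS, hN⟩ := ht
  obtain ⟨TH, h1, h2⟩ := C28_dir hφ hη Lo hS hN hsub hδ hδ' hθ fun i j => (i, j)
  obtain ⟨TV, v1, v2⟩ := C28_dir (w := w) (n := n) (t := t) (B := B) (Up := Up) hφ.swap hη.swap Lo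
    (by rw [Chart.swap_ap, Bx_swap]; exact hS) (by rw [Chart.swap_ap]; exact hN.swap)
    (by rw [Chart.swap_ap, Chart.swap_ap, Bx_swap, Bx_swap]; exact hsub) hδ hδ' hθ
    fun i j => (j, i)
  simp only [Chart.swap_ap, Prod.fst_swap, Prod.snd_swap] at v1 v2
  have hsubs : ((Finset.Ioo (-n : ℤ) n ×ˢ Finset.Ioo (-n : ℤ) n).filter fun g =>
        t ∉ Good φ (φ.ap w + φ.pt (o g)) δ Lo Up0) ⊆
      ((Finset.Ioo (-n : ℤ) n ×ˢ Finset.Ioo (-n : ℤ) n).filter fun g =>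
        t ∉ LoU φ (φ.ap w + φ.pt (o g)) Lo Up0) ∪ TH ∪ TV := by
    intro g hg
    obtain ⟨hg, hbad⟩ := Finset.mem_filter.1 hg
    by_contra hn
    rw [Finset.mem_union, Finset.mem_union, not_or, not_or, Finset.mem_filter] at hn
    obtain ⟨⟨n1, n2⟩, n3⟩ := hn
    have hL : t ∈ LoU φ (φ.ap w + φ.pt (o g)) Lo Up0 := by
      by_contra h
      exact n1 ⟨hg, h⟩
    obtain ⟨g1, g2⟩ := Finset.mem_product.1 hg
    have c1 : |(φ.ap w + φ.pt (o g)).1 - ((φ.ap w).1 + 64 * g.1)| ≤ 1 / 50 := by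
      have : (φ.ap w + φ.pt (o g)).1 - ((φ.ap w).1 + 64 * g.1) = φ.x (o g) - 64 * g.1 := by
        simp only [Prod.fst_add, Chart.pt]; ring
      rw [this]
      linarith [(ho g).1]
    have c2 : |(φ.ap w + φ.pt (o g)).2 - ((φ.ap w).2 + 64 * g.2)| ≤ 1 / 50 := by
      have : (φ.ap w + φ.pt (o g)).2 - ((φ.ap w).2 + 64 * g.2) = φ.y (o g) - 64 * g.2 := by
        simp only [Prod.snd_add, Chart.pt]; ring
      rw [this]
      linarith [(ho g).2]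
    refine hbad ⟨⟨B, hS.mono (C28_sub hsub g1 g2 c1 c2), h2 _ g1 _ g2 n2 _ c1 c2 hL,
      v2 _ g2 _ g1 n3 _ c2 c1 ?_⟩, hL.1⟩
    rw [LoU_swap]
    exact hL
  have k1 := (Finset.card_le_card hsubs).trans
    ((Finset.card_union_le _ _).trans (Nat.add_le_add_right (Finset.card_union_le _ _) _))
  have k2 := (Nat.cast_le (α := ℝ)).2 k1
  rw [Nat.cast_add, Nat.cast_add] at k2
  linarith

theorem signal (hG : Law G) (hφ : φ.OK) (hη : η.OK) {w : ℝ × ℝ} {τ Up θ D q Lo Up0 : ℝ} {n : ℕ}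
    (hn : 1 ≤ n) (hD : 0 < D) (hq : 0 ≤ q) (hτ0 : 0 ≤ τ) (hτ : 6 * τ ≤ θ)
    (hθ : θ = q * (64 * n) * D / 10 ^ 6) (hDU : D / 4 ≤ Up0 / 2)
    (hsub : Bx φ (φ.ap w) (64 * n + 1) ⊆ Bx η (η.ap w) 25)
    (hN : Pr G (GoodN η (η.ap w) τ Up)ᶜ ≤ q / 4) (hL : ∀ c, Pr G (LoU φ c Lo Up0)ᶜ ≤ q / 8)
    (hH : ∀ y, |y - (φ.ap w).2| ≤ 64 * n → Pr G (Sig η φ τ Up (64 * n) θ w y) ≤ q / 1000)
    (hV : ∀ y, |y - (φ.ap w).1| ≤ 64 * n → Pr G (Sig η.swap φ.swap τ Up (64 * n) θ w y) ≤ q / 1000) :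
    Pr G (Good φ (φ.ap w) (D / 4) Lo Up0)ᶜ ≤ q := by
  classical
  have := hG.isP
  choose o ho using fun g : ℤ × ℤ => hφ.near ((64 * g.1 : ℝ), (64 * g.2 : ℝ))
  have hθ0 : 0 ≤ θ + 6 * τ := by linarith
  have hδ : 0 < D / 4 := by linarith
  obtain ⟨N, hN'⟩ : ∃ N : ℝ, N = (Finset.Ioo (-n : ℤ) n).card := ⟨_, rfl⟩
  have hNn : (n : ℝ) ≤ N := by
    rw [hN', Nat.cast_le, Int.card_Ioo]
    omega
  have hn1 : (1 : ℝ) ≤ n := by exact_mod_cast hn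
  have hN0 : 0 < N := by linarith
  obtain ⟨i0, e0⟩ := C28_int hG (Finset.Ioo (-n : ℤ) n ×ˢ Finset.Ioo (-n : ℤ) n)
    (fun g t => t ∉ Good φ (φ.ap w + φ.pt (o g)) (D / 4) Lo Up0)
    fun g _ => (Good_meas hφ.det _ _ _ _).compl
  obtain ⟨i1, e1⟩ := C28_int hG (Finset.Ioo (-n : ℤ) n ×ˢ Finset.Ioo (-n : ℤ) n)
    (fun g t => t ∉ LoU φ (φ.ap w + φ.pt (o g)) Lo Up0) fun g _ => (LoU_meas _ _ _ _).compl
  obtain ⟨i2, e2⟩ := C28_int hG (Finset.Ioo (-n : ℤ) n ×ˢ Finset.Icc (-61 : ℤ) 60)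
    (fun j t => t ∈ Sig η φ τ Up (64 * n) θ w ((φ.ap w).2 + 64 * j.1 + j.2 / 2))
    fun j _ => Sig_meas hη.det _ _ _ _ _ _ _
  obtain ⟨i3, e3⟩ := C28_int hG (Finset.Ioo (-n : ℤ) n ×ˢ Finset.Icc (-61 : ℤ) 60)
    (fun j t => t ∈ Sig η.swap φ.swap τ Up (64 * n) θ w ((φ.ap w).1 + 64 * j.1 + j.2 / 2))
    fun j _ => Sig_meas hη.swap.det _ _ _ _ _ _ _
  have m4 : MeasurableSet (GoodN η (η.ap w) τ Up)ᶜ := (GoodN_meas hη.det _ _ _).compl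
  have i4 : Integrable ((GoodN η (η.ap w) τ Up)ᶜ.indicator fun _ => N * N) (iidLaw G) :=
    (integrable_const _).indicator m4
  have e4 : ∫ t, (GoodN η (η.ap w) τ Up)ᶜ.indicator (fun _ => N * N) t ∂iidLaw G =
      Pr G (GoodN η (η.ap w) τ Up)ᶜ * (N * N) := by
    rw [integral_indicator_const _ m4, smul_eq_mul]
    rfl
  have hb : 0 ≤ 244 * N * ((θ + 6 * τ) / (D / 4)) := by positivity
  have key := integral_mono i0 ((((i1.add (i2.const_mul N)).add (i3.const_mul N)).add i4).add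
    (integrable_const (244 * N * ((θ + 6 * τ) / (D / 4))))) fun t => by
      simp only [Pi.add_apply]
      by_cases ht : t ∈ GoodN η (η.ap w) τ Up
      · have := sig_count (Lo := Lo) hφ hη hsub hδ hDU hθ0 o ho ht
        rw [← hN'] at this
        rw [indicator_of_notMem (notMem_compl_iff.2 ht), add_zero]
        exact this
      · rw [indicator_of_mem (mem_compl ht)]
        have a0 := (Nat.cast_le (α := ℝ)).2 (Finset.card_filter_le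
          (Finset.Ioo (-n : ℤ) n ×ˢ Finset.Ioo (-n : ℤ) n)
          (fun g => t ∉ Good φ (φ.ap w + φ.pt (o g)) (D / 4) Lo Up0))
        rw [Finset.card_product, Nat.cast_mul, ← hN'] at a0
        refine a0.trans (le_add_of_le_of_nonneg (le_add_of_nonneg_left ?_) hb)
        positivity
  rw [integral_add' (((i1.add (i2.const_mul N)).add (i3.const_mul N)).add i4) (integrable_const _),
    integral_add' ((i1.add (i2.const_mul N)).add (i3.const_mul N)) i4,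
    integral_add' (i1.add (i2.const_mul N)) (i3.const_mul N), integral_add' i1 (i2.const_mul N),
    integral_const_mul, integral_const_mul, e0, e1, e2, e3, e4, integral_const, probReal_univ,
    one_smul] at key
  have hc : ((Finset.Icc (-61 : ℤ) 60).card : ℝ) = 122 := by
    rw [Int.card_Icc, show (60 + 1 - -61 : ℤ).toNat = 122 from rfl]; norm_num
  have s0 : ∑ g ∈ Finset.Ioo (-n : ℤ) n ×ˢ Finset.Ioo (-n : ℤ) n,
      Pr G {t | t ∉ Good φ (φ.ap w + φ.pt (o g)) (D / 4) Lo Up0} =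
      N * N * Pr G (Good φ (φ.ap w) (D / 4) Lo Up0)ᶜ := by
    rw [Finset.sum_congr rfl (g := fun _ => Pr G (Good φ (φ.ap w) (D / 4) Lo Up0)ᶜ),
      Finset.sum_const, Finset.card_product, nsmul_eq_mul, Nat.cast_mul, ← hN']
    intro g _
    rw [Good_sh, ← Pr_sh hG (o g) (Good_meas hφ.det _ _ _ _).compl]
    rfl
  have s1 : ∑ g ∈ Finset.Ioo (-n : ℤ) n ×ˢ Finset.Ioo (-n : ℤ) n,
      Pr G {t | t ∉ LoU φ (φ.ap w + φ.pt (o g)) Lo Up0} ≤ N * N * (q / 8) := by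
    refine (Finset.sum_le_sum fun g _ => hL _).trans ?_
    rw [Finset.sum_const, Finset.card_product, nsmul_eq_mul, Nat.cast_mul, ← hN']
  have s2 : ∑ j ∈ Finset.Ioo (-n : ℤ) n ×ˢ Finset.Icc (-61 : ℤ) 60,
      Pr G {t | t ∈ Sig η φ τ Up (64 * n) θ w ((φ.ap w).2 + 64 * j.1 + j.2 / 2)} ≤
      N * 122 * (q / 1000) := by
    refine (Finset.sum_le_sum fun j hj => hH _ (C28_lane hj _)).trans ?_
    rw [Finset.sum_const, Finset.card_product, nsmul_eq_mul, Nat.cast_mul, ← hN', hc]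
  have s3 : ∑ j ∈ Finset.Ioo (-n : ℤ) n ×ˢ Finset.Icc (-61 : ℤ) 60,
      Pr G {t | t ∈ Sig η.swap φ.swap τ Up (64 * n) θ w ((φ.ap w).1 + 64 * j.1 + j.2 / 2)} ≤
      N * 122 * (q / 1000) := by
    refine (Finset.sum_le_sum fun j hj => hV _ (C28_lane hj _)).trans ?_
    rw [Finset.sum_const, Finset.card_product, nsmul_eq_mul, Nat.cast_mul, ← hN', hc]
  have s4 : Pr G (GoodN η (η.ap w) τ Up)ᶜ * (N * N) ≤ q / 4 * (N * N) :=
    mul_le_mul_of_nonneg_right hN (by positivity)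
  have s5 : (θ + 6 * τ) / (D / 4) ≤ 512 / 10 ^ 6 * (q * N) := by
    rw [div_le_iff₀ hδ]
    have : q * n * D ≤ q * N * D :=
      mul_le_mul_of_nonneg_right (mul_le_mul_of_nonneg_left hNn hq) hD.le
    linarith
  have s6 := mul_le_mul_of_nonneg_left s5 (show 0 ≤ 244 * N by positivity)
  have s7 := mul_le_mul_of_nonneg_left s2 hN0.le
  have s8 := mul_le_mul_of_nonneg_left s3 hN0.le
  rw [s0] at key
  have hq2 : 0 ≤ N * N * q := by positivity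
  refine le_of_mul_le_mul_left (a := N * N) ?_ (by positivity)
  linarith

end

end Crest.Agent.R151.C
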