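import Crest.Agent.R151.C06

/-! Row 151 (C): comparison with the linear potential, base and step of the tilt -/

set_option autoImplicit false

open MeasureTheory Set Filter Topology
open Crest.ProbabilityR.FirstPassage
open Crest.Agent.R151.B

namespace Crest.Agent.R151.C

noncomputable section

variable {φ η F : Chart} {t : Env} {B : Z2 → ℝ} {U : Set Z2} {c : ℝ × ℝ}

theorem linloc (hη : η.OK) {τ Up ε ω e : ℝ} (hS : Sol t (Bx η c 13) B) (hN : Nice η t B c 12 τ Up)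
    (hL : t ∈ LinE η F c ε ω e) : ∀ x ∈ Bx η c 7, ∀ y ∈ Bx η c 7,
      B x - B y ≤ ψ0 F x - ψ0 F y + (3 * τ + 5 * e) ∧
      ψ0 F x - ψ0 F y ≤ B x - B y + (3 * τ + 5 * e) := by
  obtain ⟨⟨Up', h1⟩, h2, -⟩ := hL
  have e13 : (13 : ℝ) = 12 + 1 := by norm_num
  have e7 : (7 : ℝ) = 12 - 5 := by norm_num
  rw [e13] at hS h2
  rw [e7]
  intro x hx y hy
  have a1 := loc hη (by norm_num) hS.asol h2 hN h1 x hx y hy
  have a2 := loc hη (by norm_num) h2 hS.asol h1 hN x hx y hy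
  constructor <;> linarith

theorem macof (hη : η.OK) {τ Up ε ω e s Wm Γ : ℝ} (hS : Sol t (Bx η c 13) B)
    (hN : Nice η t B c 12 τ Up) (hL : t ∈ LinE η F c ε ω e) (hU : U ⊆ Bx η c 7) (hs : 0 < s)
    (hω : 0 ≤ ω) (hW : 0 ≤ Wm) (hΓ : 2 * Γ ≤ ω * s) (he : 3 * τ + 6 * e ≤ ω * s * Wm / 2) :
    Mac (Ph F s 1) t B U ε Wm Γ := by
  intro P hP W hW' hx hy h
  have a1 := (linloc hη hS hN hL _ (hU hP.fst) _ (hU hP.lst)).1
  simp only [Ph_one_x F hs.ne', Ph_one_y F hs.ne', ← sub_div] at hx hy h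
  rw [abs_div, abs_of_pos hs, div_le_iff₀ hs] at hx hy
  rw [div_le_iff₀ hs, div_le_iff₀ hs] at h
  have a2 := hL.2.2 P (hP.mono (hU.trans (Bx_mono_r _ _ (by norm_num)))) (W * s) hx hy
    (h.imp (fun h => by linarith) fun h => by linarith)
  have hW0 : 0 ≤ W := hW.trans hW'
  have a3 : 2 * Γ * W ≤ ω * s * W := mul_le_mul_of_nonneg_right hΓ hW0
  have a4 : ω * s * Wm ≤ ω * s * W := mul_le_mul_of_nonneg_left hW' (by positivity)
  linarith

theorem base_det (hφ : φ.OK) {R2 θ Wm : ℝ} (hR : 1 ≤ R2) (hθ : 0 ≤ θ) (hW : Wm ≤ R2)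
    (hS : Sub t U B) (hH : HitP φ t B U R2 θ) (hM : Mac φ t B U (1 / (64 * R2)) Wm (9 * θ)) :
    Tilt φ t B U (θ / (4 * R2)) (8 * θ) θ := by
  intro P hP
  have hR0 : 0 < R2 := by linarith
  have hα : ∀ d, d ≤ R2 + 1 / 100 → θ / (4 * R2) * d ≤ 26 / 100 * θ := fun d hd => by
    rw [div_mul_eq_mul_div, div_le_iff₀ (by positivity)]
    have := mul_le_mul_of_nonneg_left hd hθ
    nlinarith
  have := cut (t := t) (V := fun z => B z + 8 * θ * φ.y z - θ / (4 * R2) * φ.x z) (U := U)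
    (A := univ) (N := fun x => {z | |φ.x z - φ.x x| < R2 ∧ |φ.y z - φ.y x| < 1 / 16}) (κ := 1)
    (E := θ) hθ (fun x => by simp [hR0]) ?_ ?_ P hP fun _ _ => trivial
  · linarith
  · intro Q hQ _ h1 h2
    have hn : Q.n ≠ 0 := fun h => h2 (by
      have : Q.lst = Q.fst := by unfold Pth.lst Pth.fst; rw [h]
      rw [this]; simp [hR0])
    have hall : ∀ k, k ≤ Q.n → |φ.x (Q.v k) - φ.x Q.fst| ≤ R2 + 1 / 100 ∧
        |φ.y (Q.v k) - φ.y Q.fst| ≤ 1 / 16 + 1 / 100 := by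
      intro k hk
      rcases hk.lt_or_eq with hk | rfl
      · exact ⟨by linarith [(h1 k hk).1], by linarith [(h1 k hk).2]⟩
      · obtain ⟨m, hm⟩ := Nat.exists_eq_succ_of_ne_zero hn
        obtain ⟨b1, b2⟩ := h1 m (by omega)
        obtain ⟨b3, b4⟩ := hφ.step (Q.adj m (by omega))
        rw [hm, Nat.succ_eq_add_one]
        rw [abs_lt] at b1 b2; rw [abs_le] at b3 b4
        exact ⟨abs_le.2 ⟨by linarith, by linarith⟩, abs_le.2 ⟨by linarith, by linarith⟩⟩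
    obtain ⟨c1, c2⟩ : |φ.x Q.lst - φ.x Q.fst| ≤ R2 + 1 / 100 ∧
        |φ.y Q.lst - φ.y Q.fst| ≤ 1 / 16 + 1 / 100 := hall _ le_rfl
    have c3 := hα _ (abs_le.1 c1).2
    have c4 := abs_le.1 c2
    have c5 := hS.tot hQ
    have hε : 1 / (64 * R2) * (R2 + 1 / 100) ≤ 1 / 16 := by
      rw [div_mul_eq_mul_div, div_le_iff₀ (by positivity)]; linarith
    have c6 := hM Q hQ (R2 + 1 / 100) (by linarith) c1 (by linarith)
    have c7 : θ * (φ.y Q.fst - φ.y Q.lst) ≤ θ * (1 / 16 + 1 / 100) :=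
      mul_le_mul_of_nonneg_left (by linarith) hθ
    have c8 : θ * 1 ≤ θ * R2 := mul_le_mul_of_nonneg_left hR hθ
    by_cases d1 : 1 / 16 ≤ φ.y Q.lst - φ.y Q.fst
    · have := mul_le_mul_of_nonneg_left d1 hθ
      nlinarith
    by_cases d2 : φ.y Q.lst - φ.y Q.fst ≤ -(1 / 16)
    · have := c6 (Or.inr (by linarith))
      nlinarith
    by_cases d3 : φ.x Q.lst - φ.x Q.fst ≤ -R2
    · have := c6 (Or.inl (by linarith))
      nlinarith
    have d4 : φ.x Q.fst + R2 ≤ φ.x Q.lst := by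
      by_contra d4
      exact h2 ⟨abs_lt.2 ⟨by linarith, by linarith⟩, abs_lt.2 ⟨by linarith, by linarith⟩⟩
    have := hH Q hQ (fun k hk => (hall k hk).2.trans (by norm_num)) d4
    nlinarith
  · intro Q hQ _ h1
    obtain ⟨b1, b2⟩ := h1.lst
    rw [abs_lt] at b1 b2
    have c3 := hα (φ.x Q.lst - φ.x Q.fst) (by linarith)
    have c5 := hS.tot hQ
    have c7 : θ * (φ.y Q.fst - φ.y Q.lst) ≤ θ * (1 / 16) :=
      mul_le_mul_of_nonneg_left (by linarith) hθ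
    nlinarith

/-- crude bound of the loss for a bounded displacement -/
theorem step_crude {ε Wm Γ α β a W : ℝ} (hS : Sub t U B) (hM : Mac φ t B U ε Wm Γ) (hα : 0 ≤ α)
    (hαa : α ≤ a) (hβ : 0 ≤ β) (hε : 0 ≤ ε) (hβε : β * ε ≤ 3 / 5 * a) (hΓ : α + β ≤ Γ) (hW : Wm ≤ W)
    {P : Pth} (hP : P.In U) (hx : |φ.x P.lst - φ.x P.fst| ≤ W) (hy : |φ.y P.lst - φ.y P.fst| ≤ W) :
    (B P.fst + β * φ.y P.fst - α * φ.x P.fst) - (B P.lst + β * φ.y P.lst - α * φ.x P.lst) ≤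
      P.tot t + 8 / 5 * a * W := by
  have hW0 : 0 ≤ W := (abs_nonneg _).trans hx
  obtain ⟨x1, x2⟩ := abs_le.1 hx
  obtain ⟨y1, y2⟩ := abs_le.1 hy
  have a1 : α * (φ.x P.lst - φ.x P.fst) ≤ α * W := mul_le_mul_of_nonneg_left x2 hα
  have a2 : α * W ≤ a * W := mul_le_mul_of_nonneg_right hαa hW0
  have a0 : 0 ≤ α * W := by positivity
  by_cases h : φ.x P.lst - φ.x P.fst ≤ -(ε * W) ∨ φ.y P.lst - φ.y P.fst ≤ -(ε * W)
  · have b1 := hM P hP W hW hx hy h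
    have b2 : β * (φ.y P.fst - φ.y P.lst) ≤ β * W := mul_le_mul_of_nonneg_left (by linarith) hβ
    have b3 := mul_le_mul_of_nonneg_right hΓ hW0
    nlinarith
  · push Not at h
    have b1 := hS.tot hP
    have b2 : β * (φ.y P.fst - φ.y P.lst) ≤ β * (ε * W) :=
      mul_le_mul_of_nonneg_left (by linarith [h.2]) hβ
    have b3 := mul_le_mul_of_nonneg_right hβε hW0
    nlinarith

theorem step_det (hφ : φ.OK) {ε Wm Γ α β δ a E L W : ℝ} {z : ℝ × ℝ} (hS : Sub t U B)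
    (hM : Mac φ t B U ε Wm Γ) (hL : 1 ≤ L) (hW : 4 * L + 1 ≤ W) (hWm : Wm ≤ L / 4) (hε : 0 ≤ ε)
    (hε' : ε ≤ 1 / 4) (hδ : 0 ≤ δ) (hδα : δ ≤ α) (hα : α ≤ a) (hβ : 0 ≤ β)
    (hβε : (β + δ) * ε ≤ 3 / 5 * a) (hΓ : α + β ≤ Γ) (hE : 8 * E ≤ δ * L)
    (hT : ∀ x ∈ U, x ∉ Bx φ z (W + L) → Tilt φ t B (U ∩ Bx φ (φ.pt x) (L / 4 + 1 / 100)) α β E) :
    Tilt φ t B U (α - δ) (β + δ) (12 * a * W) := by
  have ha : 0 ≤ a := by linarith
  have hW0 : 0 ≤ W := by linarith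
  have haW : 0 ≤ a * W := by positivity
  set V : Z2 → ℝ := fun z => B z + (β + δ) * φ.y z - (α - δ) * φ.x z with hV
  have crude : ∀ Q : Pth, Q.In U → |φ.x Q.lst - φ.x Q.fst| ≤ 5 / 2 * W →
      |φ.y Q.lst - φ.y Q.fst| ≤ 5 / 2 * W → V Q.fst - V Q.lst ≤ Q.tot t + 4 * a * W := by
    intro Q hQ h1 h2
    have := step_crude hS hM (α := α - δ) (β := β + δ) (a := a) (by linarith) (by linarith)
      (by linarith) hε hβε (by linarith) (by linarith) hQ h1 h2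
    simp only [hV]; linarith
  have good : ∀ Q : Pth, Q.In U → (∀ k, k < Q.n → Q.v k ∈ (Bx φ z (W + L))ᶜ) →
      V Q.fst - V Q.lst ≤ Q.tot t + 4 * a * W := by
    intro P hP hA
    have := cut (t := t) (V := V) (U := U) (A := (Bx φ z (W + L))ᶜ)
      (N := fun x => {z | |φ.x z - φ.x x| < L / 4 ∧ |φ.y z - φ.y x| < L / 4}) (κ := 1)
      (E := 4 * a * W) (by linarith) (fun x => by simp; linarith) ?_ ?_ P hP hA
    · linarith
    · intro Q hQ hq h1 h2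
      have hn : Q.n ≠ 0 := fun h => h2 (by
        have : Q.lst = Q.fst := by unfold Pth.lst Pth.fst; rw [h]
        rw [this]; simp; linarith)
      have hall : Q.In (Bx φ (φ.pt Q.fst) (L / 4 + 1 / 100)) := by
        intro k hk
        show |φ.x (Q.v k) - φ.x Q.fst| ≤ _ ∧ |φ.y (Q.v k) - φ.y Q.fst| ≤ _
        rcases hk.lt_or_eq with hk | rfl
        · exact ⟨by linarith [(h1 k hk).1], by linarith [(h1 k hk).2]⟩
        · obtain ⟨m, hm⟩ := Nat.exists_eq_succ_of_ne_zero hn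
          obtain ⟨b1, b2⟩ := h1 m (by omega)
          obtain ⟨b3, b4⟩ := hφ.step (Q.adj m (by omega))
          rw [hm, Nat.succ_eq_add_one]
          rw [abs_lt] at b1 b2; rw [abs_le] at b3 b4
          exact ⟨abs_le.2 ⟨by linarith, by linarith⟩, abs_le.2 ⟨by linarith, by linarith⟩⟩
      obtain ⟨c1, c2⟩ : |φ.x Q.lst - φ.x Q.fst| ≤ L / 4 + 1 / 100 ∧
        |φ.y Q.lst - φ.y Q.fst| ≤ L / 4 + 1 / 100 := hall.lst
      obtain ⟨x1, x2⟩ := abs_le.1 c1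
      obtain ⟨y1, y2⟩ := abs_le.1 c2
      simp only [hV]
      by_cases h : φ.x Q.lst - φ.x Q.fst ≤ -(ε * (L / 4 + 1 / 100)) ∨
          φ.y Q.lst - φ.y Q.fst ≤ -(ε * (L / 4 + 1 / 100))
      · have b1 := hM Q hQ _ (by linarith) c1 c2 h
        have b2 : (β + δ) * (φ.y Q.fst - φ.y Q.lst) ≤ (β + δ) * (L / 4 + 1 / 100) :=
          mul_le_mul_of_nonneg_left (by linarith) (by linarith)
        have b4 : (α - δ) * (φ.x Q.lst - φ.x Q.fst) ≤ (α - δ) * (L / 4 + 1 / 100) :=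
          mul_le_mul_of_nonneg_left x2 (by linarith)
        have b3 := mul_le_mul_of_nonneg_right hΓ (show 0 ≤ L / 4 + 1 / 100 by linarith)
        nlinarith
      · push Not at h
        have b0 : ε * (L / 4 + 1 / 100) ≤ 1 / 4 * (L / 4 + 1 / 100) :=
          mul_le_mul_of_nonneg_right hε' (by linarith)
        have b1 : L / 8 ≤ φ.x Q.lst - φ.x Q.fst + (φ.y Q.lst - φ.y Q.fst) := by
          by_contra b1
          exact h2 ⟨abs_lt.2 ⟨by linarith [h.1], by linarith [h.2]⟩,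
            abs_lt.2 ⟨by linarith [h.2], by linarith [h.1]⟩⟩
        have b2 := hT _ hQ.fst hq Q fun k hk => ⟨hQ k hk, hall k hk⟩
        have b3 := mul_le_mul_of_nonneg_left b1 hδ
        nlinarith
    · intro Q hQ _ h1
      obtain ⟨b1, b2⟩ := h1.lst
      have := crude Q hQ (by linarith) (by linarith)
      linarith
  intro P hP
  show V P.fst - V P.lst - 12 * a * W ≤ P.tot t
  by_cases hZ : ∃ j, j ≤ P.n ∧ P.v j ∈ Bx φ z (W + L)
  · obtain ⟨j, hj, hj'⟩ := hZ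
    obtain ⟨i, hi, hi1, hi2⟩ := P.exists_first hj'
    obtain ⟨k, hk, hk0, hk1, hk2⟩ := P.exists_last (hi.trans hj) hi1
    have hin : i ≤ P.n := hi.trans hj
    obtain ⟨m, hm1, hm2, hm3, hm4⟩ : ∃ m, i ≤ m ∧ m ≤ P.n ∧ P.v m ∈ Bx φ z (W + L + 1 / 100) ∧
        ∀ u, m ≤ u → u < P.n → P.v u ∉ Bx φ z (W + L) := by
      rcases hk0.lt_or_eq with h | h
      · refine ⟨k + 1, by omega, h, ?_, fun u hu hu' => hk2 u (by omega) hu'.le⟩
        obtain ⟨b3, b4⟩ := hφ.step (P.adj k h)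
        obtain ⟨b1, b2⟩ := hk1
        rw [abs_le] at b1 b2 b3 b4
        exact ⟨abs_le.2 ⟨by linarith, by linarith⟩, abs_le.2 ⟨by linarith, by linarith⟩⟩
      · exact ⟨k, hk, hk0, Bx_mono_r _ _ (by linarith) hk1, fun u hu hu' => by omega⟩
    have a1 := good (P.sub 0 i) (hP.sub (Nat.zero_le _) hin) fun u hu => by
      rw [P.sub_n 0 hin] at hu
      rw [P.sub_v hin (by omega), Nat.zero_add]; exact hi2 u (by omega)
    have a3 := good (P.sub m P.n) (hP.sub hm2 le_rfl) fun u hu => by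
      rw [P.sub_n m le_rfl] at hu
      rw [P.sub_v le_rfl (by omega)]; exact hm4 _ (by omega) (by omega)
    obtain ⟨b1, b2⟩ := hi1
    obtain ⟨b3, b4⟩ := hm3
    rw [abs_le] at b1 b2 b3 b4
    have a2 := crude (P.sub i m) (hP.sub hm1 hm2)
      (by rw [P.sub_fst, P.sub_lst hm1 hm2]; exact abs_le.2 ⟨by linarith, by linarith⟩)
      (by rw [P.sub_fst, P.sub_lst hm1 hm2]; exact abs_le.2 ⟨by linarith, by linarith⟩)
    rw [P.sub_fst, P.sub_lst (Nat.zero_le _) hin, P.sub_tot t (Nat.zero_le _) hin] at a1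
    rw [P.sub_fst, P.sub_lst hm1 hm2, P.sub_tot t hm1 hm2] at a2
    rw [P.sub_fst, P.sub_lst hm2 le_rfl, P.sub_tot t hm2 le_rfl] at a3
    have e1 := P.cost_add t (Nat.zero_le i) hm1
    have e2 := P.cost_add t (Nat.zero_le m) hm2
    unfold Pth.tot Pth.fst Pth.lst
    linarith
  · have := good P hP fun k hk h => hZ ⟨k, hk.le, h⟩
    linarith

theorem step_link (hη : η.OK) {r τ τ' Up Up' L α β E : ℝ} {w : ℝ × ℝ} (hS : Sol t (Bx η c (r + 1)) B)
    (hN : Nice η t B c r τ' Up') (h1 : |(η.ap w).1 - c.1| + 12 ≤ r) (h2 : |(η.ap w).2 - c.2| + 12 ≤ r)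
    (hsub : Bx φ (φ.ap w) L ⊆ Bx η (η.ap w) 7) (ht : t ∈ StgA η φ w τ Up L α β E) :
    Tilt φ t B (Bx φ (φ.ap w) L) α β (E + (3 * τ + 3 * τ')) := by
  obtain ⟨B', s1, s2, s3⟩ := ht
  have e13 : (13 : ℝ) = 12 + 1 := by norm_num
  have e7 : (7 : ℝ) = 12 - 5 := by norm_num
  rw [e13] at s1
  rw [e7] at hsub
  have a1 : Sol t (Bx η (η.ap w) (12 + 1)) B := hS.mono (Bx_mono _ (by linarith) (by linarith))
  have a2 := hN.restrict hη h1 h2
  refine s3.perturb fun x hx y hy => ?_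
  have := loc_sol hη (by norm_num) a1 s1 a2 s2 x (hsub hx) y (hsub hy)
  linarith

end

end Crest.Agent.R151.C
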