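import Crest.Agent.R151.C03

/-! Row 151 (C): numerics, basic facts on the parameters -/

set_option autoImplicit false

open MeasureTheory Set Filter Topology
open Crest.ProbabilityR.FirstPassage
open Crest.Agent.R151.B

namespace Crest.Agent.R151.C

noncomputable section

namespace Par

variable {p : Par} {i : ℕ}

/-- the inequalities which need a large base scale -/
structure Num (p : Par) (ω C : ℝ) : Prop where
  th : 18 * p.θ ≤ ω * p.s0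
  mac : ∀ i, 3 * p.tauP i + 6 * p.lin C i ≤ ω * p.s0 * ((p.GG i : ℝ) / 4) / 2
  big : ∀ i, C ≤ p.sg (i + 1) * p.s0 / 200
  pr : ∀ i, C * (3 ^ (p.jj (i + 1) + 1)) ^ 2 * (p.sg (i + 1) * p.s0 / 200 : ℝ) ^ (-(1 / 4) : ℝ) ≤
    p.ps i / 4

theorem C30_bern (j : ℕ) : 1 + (j : ℝ) / 4 ≤ (5 / 4 : ℝ) ^ j := by
  have := one_add_mul_le_pow (a := (1 / 4 : ℝ)) (by norm_num) j
  rw [show (1 + 1 / 4 : ℝ) = 5 / 4 by norm_num] at this
  linarith

theorem C30_ell (h : 1000 ≤ p.l0) (j : ℕ) : 1000 + 250 * (j : ℝ) ≤ ell p.l0 j := by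
  have h1 : (1000 : ℝ) ≤ p.l0 := by exact_mod_cast h
  have h2 := C30_bern j
  have h3 : (0 : ℝ) ≤ j := Nat.cast_nonneg j
  have h4 : (1 + (j : ℝ) / 4) * 1000 ≤ (5 / 4 : ℝ) ^ j * p.l0 :=
    mul_le_mul h2 h1 (by norm_num) (by positivity)
  unfold ell
  linarith

theorem C30_ne (h : 1000 ≤ p.l0) (i : ℕ) :
    {j : ℕ | (12 * (p.M + i) : ℝ) ≤ ell p.l0 j}.Nonempty := by
  refine ⟨p.M + i, le_trans ?_ (C30_ell h _)⟩
  have : (0 : ℝ) ≤ (p.M : ℝ) + i := by positivity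
  push_cast
  linarith

theorem C30_dne (p : Par) (i : ℕ) : {d : ℕ | p.GG i ≤ 800 ^ (p.jj i + 1) * 2 ^ d}.Nonempty :=
  ⟨p.GG i, (Nat.lt_two_pow_self).le.trans (Nat.le_mul_of_pos_left _ (by positivity))⟩

theorem ell_ge (l0 j : ℕ) : (l0 : ℝ) ≤ ell l0 j := by
  exact le_mul_of_one_le_left (Nat.cast_nonneg _) (one_le_pow₀ (by norm_num))
theorem jj_spec (h : 1000 ≤ p.l0) (i : ℕ) : (12 * (p.M + i) : ℝ) ≤ ell p.l0 (p.jj i) ∧
    ell p.l0 (p.jj i) ≤ 15 * (p.M + i) := by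
  have h1 : (12 * (p.M + i) : ℝ) ≤ ell p.l0 (p.jj i) := Nat.sInf_mem (C30_ne h i)
  refine ⟨h1, ?_⟩
  have hi : (0 : ℝ) ≤ i := Nat.cast_nonneg i
  have hl : (0 : ℝ) ≤ p.l0 := Nat.cast_nonneg _
  have hM : (p.M : ℝ) = 2 * p.l0 + 5120 := by simp only [M]; push_cast; ring
  rcases hj : p.jj i with _ | j
  · simp only [ell, pow_zero, one_mul]
    linarith
  · have h2 : j ∉ {j : ℕ | (12 * (p.M + i) : ℝ) ≤ ell p.l0 j} :=
      Nat.notMem_of_lt_sInf (by change j < p.jj i; omega)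
    simp only [mem_ofPred_eq, not_le, ell] at h2
    simp only [ell, pow_succ]
    linarith
theorem jj_mono (h : 1000 ≤ p.l0) (i : ℕ) : p.jj i ≤ p.jj (i + 1) := by
  refine Nat.sInf_le (le_trans ?_ (jj_spec h (i + 1)).1)
  push_cast
  linarith
theorem three_pow (h : 1000 ≤ p.l0) (i : ℕ) :
    (3 : ℝ) ^ p.jj i ≤ 2 ^ ((3 / 20 : ℝ) * (p.M + i)) := by
  have h1 := (jj_spec h i).2
  have h2 := C30_ell h (p.jj i)
  have h3 : (0 : ℝ) ≤ p.jj i := Nat.cast_nonneg _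
  calc (3 : ℝ) ^ p.jj i ≤ (2 ^ 2) ^ p.jj i := pow_le_pow_left₀ (by norm_num) (by norm_num) _
    _ = 2 ^ ((2 * p.jj i : ℕ) : ℝ) := by rw [Real.rpow_natCast, pow_mul]
    _ ≤ _ := Real.rpow_le_rpow_of_exponent_le (by norm_num) (by push_cast; linarith)
theorem eight_pow (h : 1000 ≤ p.l0) (i : ℕ) :
    (800 : ℝ) ^ p.jj i ≤ 2 ^ ((3 / 2 : ℝ) * (p.M + i)) := by
  have h1 := (jj_spec h i).2
  have h2 := C30_ell h (p.jj i)
  have h3 : (0 : ℝ) ≤ p.jj i := Nat.cast_nonneg _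
  calc (800 : ℝ) ^ p.jj i ≤ (2 ^ 10) ^ p.jj i := pow_le_pow_left₀ (by norm_num) (by norm_num) _
    _ = 2 ^ ((10 * p.jj i : ℕ) : ℝ) := by rw [Real.rpow_natCast, pow_mul]
    _ ≤ _ := Real.rpow_le_rpow_of_exponent_le (by norm_num) (by push_cast; linarith)
theorem pj_le (h : 1000 ≤ p.l0) (i : ℕ) : pj p.l0 (p.jj i) ≤ (1 / 2) ^ (12 * (p.M + i)) := by
  have h1 := (jj_spec h i).1
  calc pj p.l0 (p.jj i) ≤ (2 : ℝ) ^ (-((12 * (p.M + i) : ℕ) : ℝ)) :=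
        Real.rpow_le_rpow_of_exponent_le (by norm_num) (by push_cast; linarith)
    _ = _ := by rw [Real.rpow_neg (by norm_num), Real.rpow_natCast, one_div, inv_pow]
theorem Fj_le (h : 1000 ≤ p.l0) (i : ℕ) : Fj p.l0 (p.jj i) ≤ 2 ^ (300 * (p.M + i)) := by
  have h1 := (jj_spec h i).2
  calc Fj p.l0 (p.jj i) ≤ (2 : ℝ) ^ ((300 * (p.M + i) : ℕ) : ℝ) :=
        Real.rpow_le_rpow_of_exponent_le (by norm_num) (by push_cast; linarith)
    _ = _ := Real.rpow_natCast _ _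
theorem Kj_le (h : 1000 ≤ p.l0) (i : ℕ) :
    1 ≤ Kj p.l0 (p.jj i) ∧ Kj p.l0 (p.jj i) ≤ 2 ^ ((15 / 4 : ℝ) * (p.M + i)) := by
  have h1 := (jj_spec h i).2
  have h2 := C30_ell h (p.jj i)
  have h3 : (0 : ℝ) ≤ p.jj i := Nat.cast_nonneg _
  exact ⟨Real.one_le_rpow (by norm_num) (by linarith),
    Real.rpow_le_rpow_of_exponent_le (by norm_num) (by linarith)⟩
theorem GG_ge (p : Par) (i : ℕ) : 2 ^ (p.κ0 + i * p.M) ≤ p.GG i := by
  induction i with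
  | zero =>
    rw [zero_mul, add_zero]
    exact Nat.le_mul_of_pos_left _ (by positivity)
  | succ i ih =>
    calc 2 ^ (p.κ0 + (i + 1) * p.M) = 2 ^ p.M * 2 ^ (p.κ0 + i * p.M) := by
          rw [← pow_add]; congr 1; ring
      _ ≤ 2 ^ (p.M + i) * p.GG i :=
          Nat.mul_le_mul (Nat.pow_le_pow_right (by norm_num) (Nat.le_add_right _ _)) ih
theorem GG_succ (p : Par) (i : ℕ) : p.GG (i + 1) = 2 ^ (p.M + i) * p.GG i := rfl
theorem sg_spec (h : 1000 ≤ p.l0) (i : ℕ) : p.GG i ≤ p.sg i ∧ p.sg i ≤ 2 * p.GG i := by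
  refine ⟨Nat.sInf_mem (C30_dne p i), ?_⟩
  unfold sg
  rcases hd : p.dd i with _ | d
  · have h1 := eight_pow h i
    have h2 := (Nat.cast_le (α := ℝ)).2 (GG_ge p i)
    have hi : (0 : ℝ) ≤ i := Nat.cast_nonneg i
    have hl : (0 : ℝ) ≤ p.l0 := Nat.cast_nonneg _
    have hM : (p.M : ℝ) = 2 * p.l0 + 5120 := by simp only [M]; push_cast; ring
    have h3 : (2 : ℝ) ^ ((3 / 2 : ℝ) * (p.M + i) + 10) ≤ 2 ^ ((p.κ0 + i * p.M : ℕ) : ℝ) := by
      refine Real.rpow_le_rpow_of_exponent_le (by norm_num) ?_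
      have : (i : ℝ) * 2 ≤ i * p.M := mul_le_mul_of_nonneg_left (by linarith) hi
      simp only [κ0]
      push_cast
      linarith
    rw [Real.rpow_natCast, Real.rpow_add (by norm_num)] at h3
    have h4 : (2 : ℝ) ^ (10 : ℝ) = 1024 := by norm_num
    rw [h4] at h3
    have h5 : (0 : ℝ) ≤ 800 ^ p.jj i := by positivity
    rw [← Nat.cast_le (α := ℝ)]
    push_cast at h2 ⊢
    rw [pow_succ]
    linarith
  · have h2 : d ∉ {d : ℕ | p.GG i ≤ 800 ^ (p.jj i + 1) * 2 ^ d} :=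
      Nat.notMem_of_lt_sInf (by change d < p.dd i; omega)
    simp only [mem_ofPred_eq, not_le] at h2
    rw [pow_succ 2 d, ← mul_assoc]
    omega
theorem dd_zero (p : Par) : p.dd 0 = p.κ0 := by
  refine le_antisymm (Nat.sInf_le (le_refl (p.GG 0))) ?_
  have h : 800 ^ (p.jj 0 + 1) * 2 ^ p.κ0 ≤ 800 ^ (p.jj 0 + 1) * 2 ^ p.dd 0 :=
    Nat.sInf_mem (C30_dne p 0)
  exact (Nat.pow_le_pow_iff_right (by norm_num)).1 (Nat.le_of_mul_le_mul_left h (by positivity))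
theorem sg_zero (p : Par) : p.sg 0 = p.GG 0 := by
  unfold sg
  rw [dd_zero]
  rfl
theorem gr_dd (h : 1000 ≤ p.l0) (i : ℕ) :
    0 < gr (p.dd i) ∧ gr (p.dd i) ≤ 2 * (p.GG i : ℝ) ^ (15 / 16 : ℝ) := by
  refine ⟨Real.rpow_pos_of_pos (by norm_num) _, ?_⟩
  have h1 : 2 ^ p.dd i ≤ 2 * p.GG i :=
    (Nat.le_mul_of_pos_left _ (by positivity)).trans (sg_spec h i).2
  have h2 := (Nat.cast_le (α := ℝ)).2 h1
  push_cast at h2
  have h3 : (2 : ℝ) ^ (15 / 16 : ℝ) ≤ 2 ^ (1 : ℝ) :=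
    Real.rpow_le_rpow_of_exponent_le (by norm_num) (by norm_num)
  rw [Real.rpow_one] at h3
  calc gr (p.dd i) = ((2 : ℝ) ^ p.dd i) ^ (15 / 16 : ℝ) := by
        unfold gr
        rw [mul_comm, Real.rpow_mul (by norm_num), Real.rpow_natCast]
    _ ≤ (2 * p.GG i : ℝ) ^ (15 / 16 : ℝ) := Real.rpow_le_rpow (by positivity) h2 (by norm_num)
    _ = 2 ^ (15 / 16 : ℝ) * (p.GG i : ℝ) ^ (15 / 16 : ℝ) :=
        Real.mul_rpow (by norm_num) (Nat.cast_nonneg _)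
    _ ≤ _ := mul_le_mul_of_nonneg_right h3 (by positivity)
theorem R2_eq (h : 1000 ≤ p.l0) : p.R2 = 2 ^ (p.M - 14) * p.GG 0 := by
  have hM : p.M + 0 = p.M - 14 + 14 := by simp only [M]; omega
  unfold R2 L
  rw [GG_succ, hM, pow_add, Nat.cast_mul, Nat.cast_mul, Nat.cast_pow, Nat.cast_pow, Nat.cast_ofNat,
    mul_right_comm, mul_div_cancel_right₀ _ (by norm_num)]
theorem R_le (p : Par) : 800 * p.R ≤ p.GG 0 := by
  have h : 800 * 2 ^ p.κ0 ≤ p.GG 0 :=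
    Nat.mul_le_mul_right _ (Nat.le_self_pow (Nat.succ_ne_zero _) 800)
  have h2 := (Nat.cast_le (α := ℝ)).2 h
  push_cast at h2
  exact h2

end Par

end

end Crest.Agent.R151.C
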