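import Crest.Agent.R151.C30

/-! Row 151 (C): the charts of the stages -/

set_option autoImplicit false

open MeasureTheory Set Filter Topology
open Crest.ProbabilityR.FirstPassage
open Crest.Agent.R151.B

namespace Crest.Agent.R151.C

noncomputable section

namespace Par

variable {p : Par}

/-! the charts -/

variable {F : Chart}

theorem C30b_s0 (p : Par) : 0 < p.s0 := by
  show (0 : ℝ) < 2 ^ p.k0
  positivity
theorem C30b_sg (p : Par) (i : ℕ) : (p.sg i : ℝ) = 800 ^ (p.jj i + 1) * 2 ^ p.dd i := by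
  show ((800 ^ (p.jj i + 1) * 2 ^ p.dd i : ℕ) : ℝ) = _
  push_cast
  rfl
theorem C30b_one (a b : ℕ) : (1 : ℝ) ≤ 800 ^ a * 2 ^ b :=
  one_le_mul_of_one_le_of_one_le (one_le_pow₀ (by norm_num)) (one_le_pow₀ (by norm_num))
theorem C30b_sg1 (p : Par) (i : ℕ) : (1 : ℝ) ≤ p.sg i := by
  rw [C30b_sg]
  exact C30b_one _ _
theorem C30b_l (a : ℕ) : (0 : ℝ) < 1 / 3 ^ a ∧ (1 : ℝ) / 3 ^ a ≤ 1 :=
  ⟨by positivity, by rw [div_le_one (by positivity)]; exact one_le_pow₀ (by norm_num)⟩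

theorem phi_eq (p : Par) (F : Chart) (i : ℕ) :
    p.phi F i = (p.ph0 F).shear (1 / 3 ^ p.jj i) (800 ^ p.jj i * 2 ^ p.dd i) := by
  show Ph F (800 ^ p.jj i * 2 ^ (p.k0 + p.dd i)) (1 / 3 ^ p.jj i) = (Ph F p.s0 1).shear _ _
  rw [Ph_shear F (C30b_s0 p).ne' (by positivity), one_mul]
  congr 1
  show _ = (2 : ℝ) ^ p.k0 * _
  ring
theorem eta_eq (p : Par) (F : Chart) (i : ℕ) :
    p.eta F i = (p.ph0 F).shear (1 / 3 ^ (p.jj i + 1)) (p.sg i) := by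
  show Ph F (p.sg i * p.s0) (1 / 3 ^ (p.jj i + 1)) = (Ph F p.s0 1).shear _ _
  rw [Ph_shear F (C30b_s0 p).ne' (by linarith [C30b_sg1 p i]), one_mul, mul_comm]
theorem eta_phi (p : Par) (F : Chart) (i : ℕ) : p.eta F i = (p.phi F i).shear (1 / 3) 800 := by
  rw [eta_eq, phi_eq, Chart.shear_shear _ (by positivity) (by norm_num), C30b_sg]
  congr 1
  · rw [pow_succ]; field_simp
  · ring
theorem eta_succ (p : Par) (F : Chart) (i : ℕ) : p.eta F (i + 1) =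
    (p.eta F i).shear (3 ^ p.jj i / 3 ^ p.jj (i + 1)) (p.sg (i + 1) / p.sg i) := by
  have h1 := C30b_sg1 p i
  have h2 := C30b_sg1 p (i + 1)
  have h3 : (0 : ℝ) < p.sg i := by linarith
  have h4 : (0 : ℝ) < p.sg (i + 1) := by linarith
  rw [eta_eq, eta_eq, Chart.shear_shear _ h3.ne' (div_pos h4 h3).ne']
  congr 1
  · rw [pow_succ, pow_succ]; field_simp
  · field_simp
theorem OK.phi (h : p.OK F) (i : ℕ) : (p.phi F i).OK := by
  rw [phi_eq]
  exact h.ok.shear (C30b_l _).1 (C30b_l _).2 (C30b_one _ _)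
theorem OK.eta (h : p.OK F) (i : ℕ) : (p.eta F i).OK := by
  rw [eta_eq]
  exact h.ok.shear (C30b_l _).1 (C30b_l _).2 (C30b_sg1 _ _)
theorem OK.swap (h : p.OK F) : p.OK F.swap := by
  refine ⟨h.l0, h.D0, h.c1, ?_⟩
  have e : p.ph0 F.swap = (p.ph0 F).swap := (Ph_swap F _ _).symm
  rw [e]
  exact h.ok.swap
theorem Bx_eta (p : Par) (F : Chart) (i : ℕ) (w : ℝ × ℝ) {r r' : ℝ} (h : r ≤ r' * p.sg i) :
    Bx (p.ph0 F) ((p.ph0 F).ap w) r ⊆ Bx (p.eta F i) ((p.eta F i).ap w) r' := by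
  have h1 := C30b_sg1 p i
  rw [eta_eq, Chart.shear_ap]
  refine (Bx_shear _ (C30b_l _).1.le (C30b_l _).2 (by linarith) _ r).trans (Bx_mono_r _ _ ?_)
  rwa [div_le_iff₀ (by linarith)]
theorem eta_Bx (p : Par) (F : Chart) (i : ℕ) (w : ℝ × ℝ) (r : ℝ) :
    Bx (p.eta F i) ((p.eta F i).ap w) r ⊆
      Bx (p.ph0 F) ((p.ph0 F).ap w) (r * p.sg i * 3 ^ (p.jj i + 1)) := by
  have h1 := C30b_sg1 p i
  rw [eta_eq, Chart.shear_ap]
  refine (Bx_unshear _ (C30b_l _).1 (C30b_l _).2 (by linarith) _ r).trans (Bx_mono_r _ _ ?_)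
  rw [div_div_eq_mul_div, div_one]
theorem eta_dist (p : Par) (F : Chart) (i : ℕ) {w w' : ℝ × ℝ} {r : ℝ}
    (h1 : |((p.ph0 F).ap w).1 - ((p.ph0 F).ap w').1| ≤ r * p.sg i)
    (h2 : |((p.ph0 F).ap w).2 - ((p.ph0 F).ap w').2| ≤ r * p.sg i) :
    |((p.eta F i).ap w).1 - ((p.eta F i).ap w').1| ≤ r ∧
      |((p.eta F i).ap w).2 - ((p.eta F i).ap w').2| ≤ r := by
  have h0 := C30b_sg1 p i
  rw [eta_eq, Chart.shear_ap, Chart.shear_ap, ← Prod.fst_sub, ← Prod.snd_sub, ← shr_sub]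
  have := shr_le (c := (p.ph0 F).ap w - (p.ph0 F).ap w') (ν := p.sg i) (r := r * p.sg i)
    (C30b_l (p.jj i + 1)).1.le (C30b_l _).2 (by linarith) h1 h2
  rwa [mul_div_assoc, div_self (by linarith), mul_one] at this

end Par

end

end Crest.Agent.R151.C
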