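import Crest.Agent.R151.C14

/-! Row 151 (C): signals are hit -/

set_option autoImplicit false

open MeasureTheory Set Filter Topology
open Crest.ProbabilityR.FirstPassage
open Crest.Agent.R151.B

namespace Crest.Agent.R151.C

noncomputable section

variable {G : Measure ℝ} {φ : Chart} {l σ τ Up R R2 θ y : ℝ} {w : ℝ × ℝ}

theorem C31_ap (φ : Chart) (w : ℝ × ℝ) (o : Z2) :
    (φ.ap (w + cR o)).1 = (φ.ap w).1 + φ.x o ∧ (φ.ap (w + cR o)).2 = (φ.ap w).2 + φ.y o := by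
  rw [Chart.ap_add, Chart.ap_cR]
  exact ⟨rfl, rfl⟩

theorem hit_det (hφ : φ.OK) (hl : 0 < l) (hl1 : l ≤ 1) (hσ : 1 ≤ σ) {t : Env} {B : Z2 → ℝ}
    {w0 : ℝ × ℝ} {r L : ℝ} (hS : Sol t (Bx (φ.shear l σ) ((φ.shear l σ).ap w0) (r + 1)) B)
    (hN : Nice (φ.shear l σ) t B ((φ.shear l σ).ap w0) r τ Up) (hR : 0 ≤ R) (hR2 : 0 < R2)
    (hy : |y - (φ.ap w).2| ≤ R) (h1 : L + 2 * R2 + R + 2 ≤ (r - 30) * σ) (h2 : R + 1 ≤ 31 * σ)
    (hH : ∀ i m : ℤ, |i * (R2 / 2)| ≤ L + R2 → |(m : ℝ) / 4| ≤ L + 1 →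
      t ∈ HitAt (φ.shear l σ) φ τ Up R θ w y R2 ((φ.ap w0).1 + i * (R2 / 2)) ((φ.ap w0).2 + m / 4)) :
    HitP φ t B (Bx φ (φ.ap w0) L) R2 θ := by
  intro P hP hflat hlen
  have hσ0 : 0 < σ := by linarith
  have hR22 : 0 < R2 / 2 := by linarith
  obtain ⟨hx0, hy0⟩ := hP.fst
  rw [abs_le] at hx0 hy0 hy
  obtain ⟨i, hi1, hi2⟩ : ∃ i : ℤ, φ.x P.fst - (φ.ap w0).1 ≤ i * (R2 / 2) ∧
      i * (R2 / 2) ≤ φ.x P.fst - (φ.ap w0).1 + R2 / 2 := by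
    refine ⟨⌈(φ.x P.fst - (φ.ap w0).1) / (R2 / 2)⌉, (div_le_iff₀ hR22).1 (Int.le_ceil _), ?_⟩
    have h := mul_le_mul_of_nonneg_right
      (Int.ceil_lt_add_one ((φ.x P.fst - (φ.ap w0).1) / (R2 / 2))).le hR22.le
    rwa [add_mul, div_mul_cancel₀ _ hR22.ne', one_mul] at h
  obtain ⟨m, hm1, hm2⟩ : ∃ m : ℤ, (m : ℝ) ≤ 4 * (φ.y P.fst - (φ.ap w0).2) + 1 / 10 ∧
      4 * (φ.y P.fst - (φ.ap w0).2) + 1 / 10 < m + 1 := ⟨_, Int.floor_le _, Int.lt_floor_add_one _⟩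
  obtain ⟨o, ho1, ho2, ho3, -, hC⟩ := hH i m (abs_le.2 ⟨by linarith, by linarith⟩)
    (abs_le.2 ⟨by linarith, by linarith⟩)
  rw [abs_le] at ho3
  obtain ⟨e1, e2⟩ := C31_ap φ w o
  have hd := shr_le (c := φ.ap (w + cR o) - φ.ap w0) (r := (r - 30) * σ) hl.le hl1 hσ0
    (by rw [Prod.fst_sub, e1]; exact abs_le.2 ⟨by linarith, by linarith⟩)
    (by rw [Prod.snd_sub, e2]; exact abs_le.2 ⟨by linarith, by linarith⟩)
  rw [shr_sub, ← Chart.shear_ap, ← Chart.shear_ap, mul_div_cancel_right₀ _ hσ0.ne', Prod.fst_sub,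
    Prod.snd_sub] at hd
  obtain ⟨hS', hN'⟩ := GoodN_of (c' := (φ.shear l σ).ap (w + cR o)) (hφ.shear hl hl1 hσ) hS hN
    (by linarith [hd.1]) (by linarith [hd.2])
  obtain ⟨a, b, -, hab, hb, hHC⟩ := restr_HC hφ P (Nat.zero_le P.n) le_rfl
    (x0 := (φ.ap (w + cR o)).1 - R) (x1 := (φ.ap (w + cR o)).1 + R) (y0 := y + φ.y o)
    (y1 := y + φ.y o + 1 / 2) (by linarith) (by rw [e1]; change φ.x P.fst ≤ _; linarith)
    (by rw [e1]; change _ ≤ φ.x P.lst; linarith) fun k _ hk => by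
      have := abs_le.1 (hflat k hk)
      constructor <;> linarith
  have hIn : (P.sub a b).In (Bx (φ.shear l σ) ((φ.shear l σ).ap (w + cR o)) 31) := by
    intro k hk
    obtain ⟨k1, k2, k3, k4⟩ := hHC.1 k hk
    rw [Chart.shear_ap]
    refine Bx_mono_r _ _ ((div_le_iff₀ hσ0).2 h2) (Bx_shear φ hl.le hl1 hσ0 _ (R + 1) ⟨?_, ?_⟩)
    · exact abs_le.2 ⟨by linarith, by linarith⟩
    · rw [e2]
      exact abs_le.2 ⟨by linarith, by linarith⟩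
  have hex : B (P.v a) - B (P.v b) + θ < P.cost t a b := by
    by_contra hc
    refine hC ⟨B, hS', hN', P.sub a b, hHC, hIn, ?_⟩
    rw [P.sub_tot t hab hb, P.sub_fst, P.sub_lst hab hb]
    exact not_lt.1 hc
  have hP' : P.In (Bx (φ.shear l σ) ((φ.shear l σ).ap w0) (r + 1)) := by
    refine hP.mono ((Bx_shear φ hl.le hl1 hσ0 _ L).trans ?_)
    rw [Chart.shear_ap]
    refine Bx_mono_r _ _ ((div_le_iff₀ hσ0).2 ?_)
    linarith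
  have c1 := hS.1.cost hP' (Nat.zero_le a) (hab.trans hb)
  have c2 := hS.1.cost hP' hb le_rfl
  have c3 := P.cost_add t (Nat.zero_le a) hab
  have c4 := P.cost_add t (Nat.zero_le b) hb
  unfold Pth.tot Pth.fst Pth.lst
  linarith

theorem hit_pr (hG : Law G) (hφ : φ.OK) (hl : 0 < l) (hl1 : l ≤ 1) (hσ : 1 ≤ σ) {q : ℝ} {n : ℕ}
    (hq : q ≤ Pr G (Sig (φ.shear l σ) φ τ Up R θ w y)) (h1 : R + 2 ≤ 65 * σ)
    (h2 : 130 * σ * n ≤ R2 / 2) (X Y : ℝ) :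
    Pr G (HitAt (φ.shear l σ) φ τ Up R θ w y R2 X Y)ᶜ ≤ (1 - q) ^ n := by
  have hσ0 : 0 < σ := by linarith
  have hdet := (hφ.shear hl hl1 hσ).det
  choose o ho using fun k : ℕ => hφ.near (X + 65 * σ + 130 * σ * k - (φ.ap w).1, Y - 1 / 8 - y)
  simp only [abs_le] at ho
  have key : ∀ j k : ℕ, k < j → Disjoint (Bx (φ.shear l σ) ((φ.shear l σ).ap (w + cR (o j))) 31)
      (Bx (φ.shear l σ) ((φ.shear l σ).ap (w + cR (o k))) 31) := fun j k hjk => by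
    refine Bx_disj _ (Or.inl (lt_of_lt_of_le ?_ (le_abs_self _)))
    rw [Chart.shear_ap, Chart.shear_ap, ← Prod.fst_sub, ← shr_sub, shr]
    simp only [Prod.fst_sub, Prod.snd_sub, (C31_ap φ w _).1, (C31_ap φ w _).2]
    rw [lt_div_iff₀ (by linarith)]
    obtain ⟨⟨a1, -⟩, a2, a3⟩ := ho j
    obtain ⟨⟨-, b1⟩, b2, b3⟩ := ho k
    have hjk' : (k : ℝ) + 1 ≤ j := by exact_mod_cast hjk
    have h3 : 130 * σ - 1 / 50 ≤ φ.x (o j) - φ.x (o k) := by nlinarith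
    have h4 : φ.y (o j) - φ.y (o k) ≤ 1 / 50 := by linarith
    nlinarith
  refine (hG.mono (B := ⋂ k ∈ Finset.range n,
    (Sig (φ.shear l σ) φ τ Up R θ (w + cR (o k)) (y + φ.y (o k)))ᶜ) fun t ht => ?_).trans ?_
  · refine mem_iInter₂.2 fun k hk hs => ht ⟨o k, ?_, ?_, ?_, hs⟩
    · have : (0 : ℝ) ≤ σ * k := by positivity
      linarith [(ho k).1.1]
    · have hk' : (k : ℝ) + 1 ≤ n := by exact_mod_cast Finset.mem_range.1 hk
      have := mul_le_mul_of_nonneg_left hk' hσ0.le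
      linarith [(ho k).1.2]
    · exact abs_le.2 ⟨by linarith [(ho k).2.1], by linarith [(ho k).2.2]⟩
  · rw [indep_dep hG _ (fun k => Bx (φ.shear l σ) ((φ.shear l σ).ap (w + cR (o k))) 31) _
      (fun i _ j _ hij => (lt_or_gt_of_ne hij).elim (fun h => (key j i h).symm) (key i j))
      (fun i _ => (Sig_meas hdet _ _ _ _ _ _ _).compl) fun i _ => (Sig_dep _ _ _ _ _ _ _ _).compl]
    have e : ∀ k, Pr G (Sig (φ.shear l σ) φ τ Up R θ (w + cR (o k)) (y + φ.y (o k)))ᶜ =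
        1 - Pr G (Sig (φ.shear l σ) φ τ Up R θ w y) := fun k => by
      rw [hG.compl (Sig_meas hdet _ _ _ _ _ _ _), Sig_sh, Pr_sh hG _ (Sig_meas hdet _ _ _ _ _ _ _)]
    simp only [e, Finset.prod_const, Finset.card_range]
    exact pow_le_pow_left₀ (sub_nonneg.2 (hG.le_one _)) (by linarith) n

theorem hit_all (hG : Law G) {A : ℤ → ℤ → Set Env} {L b : ℝ} (hR2 : 0 < R2) (hL : 0 ≤ L)
    (h : ∀ i m, Pr G (A i m)ᶜ ≤ b) :
    Pr G {t | ¬ ∀ i m : ℤ, |i * (R2 / 2)| ≤ L + R2 → |(m : ℝ) / 4| ≤ L + 1 → t ∈ A i m} ≤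
      (4 * (L + R2) / R2 + 1) * (8 * (L + 1) + 1) * b := by
  have hb : 0 ≤ b := le_trans measureReal_nonneg (h 0 0)
  have hc : ∀ x : ℝ, 0 ≤ x → ((Finset.Icc (-(⌊x⌋₊ : ℤ)) ⌊x⌋₊).card : ℝ) ≤ 2 * x + 1 := fun x hx => by
    have e : (Finset.Icc (-(⌊x⌋₊ : ℤ)) ⌊x⌋₊).card = 2 * ⌊x⌋₊ + 1 := by
      rw [Int.card_Icc]
      omega
    rw [e]
    push_cast
    linarith [Nat.floor_le hx]
  have hm : ∀ (x : ℝ) (i : ℤ), |(i : ℝ)| ≤ x → i ∈ Finset.Icc (-(⌊x⌋₊ : ℤ)) ⌊x⌋₊ := fun x i hi => by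
    have : i.natAbs ≤ ⌊x⌋₊ := Nat.le_floor (by rwa [Nat.cast_natAbs, Int.cast_abs])
    rw [Finset.mem_Icc]
    omega
  refine (hG.mono (B := ⋃ p ∈ Finset.Icc (-(⌊2 * (L + R2) / R2⌋₊ : ℤ)) ⌊2 * (L + R2) / R2⌋₊ ×ˢ
    Finset.Icc (-(⌊4 * (L + 1)⌋₊ : ℤ)) ⌊4 * (L + 1)⌋₊, (A p.1 p.2)ᶜ) fun t ht => ?_).trans
    ((hG.biUnion _ _).trans ((Finset.sum_le_card_nsmul _ _ b fun p _ => h p.1 p.2).trans ?_))
  · simp only [mem_ofPred_eq, not_forall] at ht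
    obtain ⟨i, m, hi, hm', ht⟩ := ht
    refine mem_iUnion₂.2 ⟨(i, m), Finset.mem_product.2 ⟨hm _ i ?_, hm _ m ?_⟩, ht⟩
    · rw [abs_mul, abs_of_pos (by linarith : 0 < R2 / 2)] at hi
      rw [le_div_iff₀ hR2]
      linarith
    · rw [abs_div, abs_of_pos (by norm_num : (0 : ℝ) < 4)] at hm'
      linarith
  · rw [nsmul_eq_mul, Finset.card_product, Nat.cast_mul]
    refine mul_le_mul_of_nonneg_right (mul_le_mul ((hc _ (by positivity)).trans_eq (by ring))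
      ((hc _ (by positivity)).trans_eq (by ring)) (Nat.cast_nonneg _) (by positivity)) hb

end

end Crest.Agent.R151.C
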