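import Crest.Agent.R151.C30

/-! Row 151 (C): numerics of the patches and of the probabilities -/

set_option autoImplicit false

open MeasureTheory Set Filter Topology
open Crest.ProbabilityR.FirstPassage
open Crest.Agent.R151.B

namespace Crest.Agent.R151.C

noncomputable section

namespace Par

variable {p : Par}

theorem C32_rp {x : ℝ} {n : ℕ} (h : x ≤ n) : (2 : ℝ) ^ x ≤ 2 ^ n := by
  rw [← Real.rpow_natCast]
  exact Real.rpow_le_rpow_of_exponent_le one_le_two h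

theorem C32_pw {a b : ℕ} (h : a ≤ b) : (2 : ℝ) ^ a ≤ 2 ^ b := pow_le_pow_right₀ one_le_two h

theorem C32_M (h : 1000 ≤ p.l0) : 7120 ≤ p.M ∧ p.M = 2 * p.l0 + 5120 := ⟨by unfold M; omega, rfl⟩

theorem C32_rr (p : Par) (i : ℕ) : (p.rr i : ℝ) = 64 * 2 ^ (p.M + i) * 3 ^ p.jj (i + 1) := by
  unfold rr
  push_cast
  rfl

theorem C32_three (h : 1000 ≤ p.l0) (i : ℕ) : ∃ k : ℕ, 6 * k ≤ p.M + i ∧
    (3 : ℝ) ^ p.jj (i + 1) ≤ 2 ^ (k + 1) ∧ (p.rr i : ℝ) ≤ 2 ^ (p.M + i + k + 7) := by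
  have h1 : p.M + i ≤ 6 * ((p.M + i) / 6) + 5 := by omega
  have h2 : 6 * ((p.M + i) / 6) ≤ p.M + i := by omega
  generalize (p.M + i) / 6 = k at h1 h2
  have h1' : (p.M : ℝ) + i ≤ 6 * k + 5 := by exact_mod_cast h1
  have h3 : (3 : ℝ) ^ p.jj (i + 1) ≤ 2 ^ (k + 1) :=
    (three_pow h (i + 1)).trans (C32_rp (by push_cast; linarith))
  refine ⟨k, h2, h3, ?_⟩
  rw [C32_rr]
  calc (64 : ℝ) * 2 ^ (p.M + i) * 3 ^ p.jj (i + 1) ≤ 64 * 2 ^ (p.M + i) * 2 ^ (k + 1) := by gcongr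
    _ = _ := by ring

theorem C32_rr_ge (p : Par) (i : ℕ) : 64 * (2 : ℝ) ^ (p.M + i) ≤ p.rr i := by
  rw [C32_rr]
  exact le_mul_of_one_le_right (by positivity) (one_le_pow₀ (by norm_num))

theorem C32_GG (p : Par) (i : ℕ) : (1 : ℝ) ≤ p.GG i := by
  exact_mod_cast (Nat.one_le_two_pow).trans (p.GG_ge i)

theorem C32_GG_succ (p : Par) (i : ℕ) : (p.GG (i + 1) : ℝ) = 2 ^ (p.M + i) * p.GG i := by
  rw [GG_succ]
  push_cast
  rfl

theorem C32_sg (h : 1000 ≤ p.l0) (i : ℕ) : (p.GG i : ℝ) ≤ p.sg i ∧ (p.sg i : ℝ) ≤ 2 * p.GG i := by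
  exact_mod_cast sg_spec h i

/-- comparison of dyadic quantities -/
theorem C32_half {x : ℝ} {a b c : ℕ} (hx : x ≤ 2 ^ a) (h : a + c + 2 ≤ b) :
    x * (1 / 2) ^ b ≤ (1 / 2) ^ c / 4 := by
  obtain ⟨d, rfl⟩ := Nat.exists_eq_add_of_le h
  calc x * (1 / 2) ^ (a + c + 2 + d) ≤ 2 ^ a * (1 / 2) ^ (a + c + 2) :=
        mul_le_mul hx (pow_le_pow_of_le_one (by norm_num) (by norm_num) (by omega))
          (by positivity) (by positivity)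
    _ = (2 * (1 / 2)) ^ a * ((1 / 2) ^ c / 4) := by rw [mul_pow]; ring
    _ = _ := by norm_num

theorem num_patch (h : 1000 ≤ p.l0) (hD : 0 < p.D0) (hc : 0 < p.c1) (i : ℕ) :
    12 * 10 ^ 9 * (4 * (p.rr i : ℝ) + 6) ^ 2 * Kj p.l0 (p.jj i) * p.tc i ≤ p.tau i ∧
      600 * (4 * (p.rr i : ℝ) + 6) * Kj p.l0 (p.jj i) * p.lo i ≤ p.up i := by
  obtain ⟨k, hk, -, hr⟩ := C32_three h i
  have hM := (C32_M h).1
  have a1 : 4 * (p.rr i : ℝ) + 6 ≤ 2 ^ (p.M + i + k + 10) := by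
    have : (2 : ℝ) ^ 7 ≤ 2 ^ (p.M + i + k + 7) := C32_pw (by omega)
    rw [show p.M + i + k + 10 = p.M + i + k + 7 + 3 by ring, pow_add _ _ 3]
    linarith
  have a2 : Kj p.l0 (p.jj i) ≤ 2 ^ (4 * (p.M + i)) := (Kj_le h i).2.trans (C32_rp (by
    have : (0 : ℝ) ≤ p.M + i := by positivity
    push_cast
    linarith))
  have a3 := (Kj_le h i).1
  have a4 := Fj_le h i
  have a5 : 0 ≤ Fj p.l0 (p.jj i) := by unfold Fj; positivity
  have a6 := (gr_dd h i).1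
  constructor
  · unfold tc tau
    rw [← mul_assoc, ← mul_assoc]
    gcongr ?_ * _ * _
    calc 12 * 10 ^ 9 * (4 * (p.rr i : ℝ) + 6) ^ 2 * Kj p.l0 (p.jj i) * Fj p.l0 (p.jj i)
        ≤ 2 ^ 34 * (2 ^ (p.M + i + k + 10)) ^ 2 * 2 ^ (4 * (p.M + i)) * 2 ^ (300 * (p.M + i)) := by
          gcongr
          norm_num
      _ ≤ _ := by
          rw [← pow_mul, ← pow_add, ← pow_add, ← pow_add]
          exact C32_pw (by omega)
  · have a7 : 0 < p.lo i := by unfold lo; positivity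
    unfold up
    gcongr ?_ * _
    calc 600 * (4 * (p.rr i : ℝ) + 6) * Kj p.l0 (p.jj i)
        ≤ 2 ^ 10 * 2 ^ (p.M + i + k + 10) * 2 ^ (4 * (p.M + i)) := by
          gcongr
          norm_num
      _ ≤ _ := by
          rw [← pow_add, ← pow_add]
          exact C32_pw (by omega)

theorem C32_up {g s s' X a b : ℝ} (hg : 1 ≤ g) (a1 : g ≤ s) (a2 : s ≤ 2 * g) (b1 : X * g ≤ s')
    (b2 : s' ≤ 2 * (X * g)) (hX : 2 ^ 9 ≤ X) (ha : 1 ≤ a) (hb : 1 ≤ b) :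
    200 ≤ s' / s ∧ 13 * (s' / s) / (a / b) ≤ 26 * (X * b) ∧ 26 * (X * b) + 8 ≤ 64 * X * b := by
  have s0 : 0 < s := by linarith
  have n0 : 200 ≤ s' / s := by
    rw [le_div_iff₀ s0]
    nlinarith
  have n1 : s' / s ≤ 2 * X := by
    rw [div_le_iff₀ s0]
    nlinarith
  refine ⟨n0, ?_, by nlinarith⟩
  rw [div_div_eq_mul_div]
  refine (div_le_self (by positivity) ha).trans ?_
  nlinarith

theorem num_up (h : 1000 ≤ p.l0) (i : ℕ) :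
    (200 : ℝ) ≤ p.sg (i + 1) / p.sg i ∧
      ((3 : ℝ) ^ p.jj i / 3 ^ p.jj (i + 1) ≤ 1 / 3 ∨ (3 : ℝ) ^ p.jj i / 3 ^ p.jj (i + 1) = 1) ∧
      13 * ((p.sg (i + 1) : ℝ) / p.sg i) / (3 ^ p.jj i / 3 ^ p.jj (i + 1)) + 8 ≤ p.rr i ∧
      13 * ((p.sg (i + 1) : ℝ) / p.sg i) / (3 ^ p.jj i / 3 ^ p.jj (i + 1)) ≤ 2 ^ (2 * (p.M + i)) := by
  obtain ⟨k, hk, h3, -⟩ := C32_three h i
  have hM := (C32_M h).1
  obtain ⟨a1, a2⟩ := C32_sg h i
  obtain ⟨b1, b2⟩ := C32_sg h (i + 1)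
  rw [C32_GG_succ] at b1 b2
  obtain ⟨n0, n2, n3⟩ := C32_up (a := 3 ^ p.jj i) (b := 3 ^ p.jj (i + 1)) (p.C32_GG i) a1 a2 b1 b2
    (C32_pw (by omega)) (one_le_pow₀ (by norm_num)) (one_le_pow₀ (by norm_num))
  refine ⟨n0, ?_, ?_, n2.trans ?_⟩
  · rcases (jj_mono h i).eq_or_lt with e | e
    · right
      rw [e, div_self (by positivity)]
    · left
      rw [div_le_div_iff₀ (by positivity) (by norm_num), one_mul, ← pow_succ]
      exact pow_le_pow_right₀ (by norm_num) e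
  · rw [C32_rr]
    exact (add_le_add n2 le_rfl).trans n3
  · calc 26 * ((2 : ℝ) ^ (p.M + i) * 3 ^ p.jj (i + 1)) ≤ 2 ^ 5 * (2 ^ (p.M + i) * 2 ^ (k + 1)) := by
          gcongr
          norm_num
      _ ≤ _ := by
          rw [← pow_add, ← pow_add]
          exact C32_pw (by omega)

theorem num_cells (h : 1000 ≤ p.l0) (i : ℕ) :
    (2 * (p.NN i : ℝ) + 1) ^ 2 * pj p.l0 (p.jj i) ≤ p.ps i / 4 := by
  obtain ⟨k, hk, -, hr⟩ := C32_three h i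
  have hM := (C32_M h).1
  have a1 : 2 * (p.NN i : ℝ) + 1 ≤ 2 ^ (p.M + i + k + 19) := by
    have : (1 : ℝ) ≤ 2 ^ (p.M + i + k + 7) := one_le_pow₀ one_le_two
    rw [show p.M + i + k + 19 = p.M + i + k + 7 + 12 by ring, pow_add _ _ 12]
    unfold NN
    push_cast
    linarith
  refine (mul_le_mul_of_nonneg_left (pj_le h i) (by positivity)).trans
    (C32_half (a := (p.M + i + k + 19) * 2) ?_ (by omega))
  rw [pow_mul]
  gcongr

theorem num_pairs (h : 1000 ≤ p.l0) (i : ℕ) :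
    (2 * (2 ^ (p.M + i + 2) + 1) + 1 : ℝ) ^ 4 * p.ps i ^ 2 ≤ p.ps (i + 1) / 4 := by
  have hM := (C32_M h).1
  unfold ps
  rw [← pow_mul]
  refine C32_half (a := (p.M + i + 4) * 4) ?_ (by omega)
  have : (2 : ℝ) ^ 2 ≤ 2 ^ (p.M + i + 2) := C32_pw (by omega)
  rw [pow_mul]
  gcongr
  rw [show p.M + i + 4 = p.M + i + 2 + 2 by ring, pow_add _ (p.M + i + 2) 2]
  linarith

theorem C32_far {g Y : ℝ} (hg : 1 ≤ g) (hY : 1 ≤ Y) :
    2 * (13 * (2 * g) * (Y * 3)) ≤ Y * 2 ^ 8 * g ∧ 4 * g + 1 ≤ Y * 2 ^ 8 * g :=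
  ⟨by nlinarith, by nlinarith⟩

theorem num_far (h : 1000 ≤ p.l0) (i : ℕ) :
    p.L i ≤ p.sg (i + 1) ∧ 2 * (13 * (p.sg (i + 1) : ℝ) * 3 ^ (p.jj (i + 1) + 1)) ≤ p.WW i ∧
      4 * p.L i + 1 ≤ p.WW i ∧ p.L (i + 1) + p.L i ≤ (p.rr (i + 1) - 12 : ℝ) * p.sg (i + 1) := by
  obtain ⟨k, hk, h3, -⟩ := C32_three h i
  have hM := (C32_M h).1
  obtain ⟨b1, b2⟩ := C32_sg h (i + 1)
  have g := p.C32_GG (i + 1)
  have w : (2 : ℝ) ^ (k + 9) * p.GG (i + 1) ≤ p.WW i := by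
    unfold WW L
    gcongr
    rw [← Real.rpow_natCast]
    refine Real.rpow_le_rpow_of_exponent_le one_le_two ?_
    rw [le_div_iff₀ two_pos]
    exact_mod_cast (by omega : (k + 9) * 2 ≤ p.M + i + 1)
  have k1 : (1 : ℝ) ≤ 2 ^ (k + 1) := one_le_pow₀ one_le_two
  rw [show k + 9 = k + 1 + 8 by ring, pow_add _ _ 8] at w
  refine ⟨b1, le_trans ?_ w, (C32_far g k1).2.trans w, ?_⟩
  · calc 2 * (13 * (p.sg (i + 1) : ℝ) * 3 ^ (p.jj (i + 1) + 1))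
        ≤ 2 * (13 * (2 * p.GG (i + 1)) * (2 ^ (k + 1) * 3)) := by rw [pow_succ]; gcongr
      _ ≤ _ := (C32_far g k1).1
  · unfold L
    have r := p.C32_rr_ge (i + 1)
    have m1 : (1 : ℝ) ≤ 2 ^ (p.M + (i + 1)) := one_le_pow₀ one_le_two
    rw [C32_GG_succ p (i + 1)]
    calc (2 : ℝ) ^ (p.M + (i + 1)) * p.GG (i + 1) + p.GG (i + 1)
        = (2 ^ (p.M + (i + 1)) + 1) * p.GG (i + 1) := by ring
      _ ≤ _ := mul_le_mul (by linarith) b1 (by linarith) (by linarith)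

theorem C32_hit {g r R X Y : ℝ} (hg : 1 ≤ g) (hr : 64 * X ≤ r) (hR : 800 * R ≤ g) (hX : 1 ≤ X)
    (hY : 1 ≤ Y) : X * g + 2 * (X * g / 2 ^ 14) + R + 2 ≤ (r - 30) * g ∧ R + 2 ≤ 25 * g ∧
      130 * g * Y ≤ Y * 2 ^ 9 * g / 2 ∧ g / 4 ≤ Y * 2 ^ 9 * g ∧ 1 ≤ Y * 2 ^ 9 * g ∧ 30 ≤ r :=
  ⟨by nlinarith, by linarith, by nlinarith, by nlinarith, by nlinarith, by linarith⟩

theorem num_hit (h : 1000 ≤ p.l0) :
    p.L 0 + 2 * p.R2 + p.R + 2 ≤ (p.rr 0 - 30 : ℝ) * p.sg 0 ∧ p.R + 2 ≤ 25 * (p.sg 0 : ℝ) ∧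
      130 * (p.sg 0 : ℝ) * (2 ^ (p.M - 23) : ℕ) ≤ p.R2 / 2 ∧ (p.GG 0 : ℝ) / 4 ≤ p.R2 ∧ 1 ≤ p.R2 ∧
      30 ≤ p.rr 0 := by
  have hM := (C32_M h).1
  have hL : p.L 0 = 2 ^ (p.M + 0) * p.GG 0 := p.C32_GG_succ 0
  have e2 := R2_eq h
  rw [show p.M - 14 = p.M - 23 + 9 by omega, pow_add] at e2
  obtain ⟨a1, a2, a3, a4, a5, a6⟩ := C32_hit (Y := 2 ^ (p.M - 23)) (p.C32_GG 0) (p.C32_rr_ge 0)
    p.R_le (one_le_pow₀ one_le_two) (one_le_pow₀ one_le_two)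
  rw [← e2] at a3 a4 a5
  rw [← hL] at a1
  rw [sg_zero, Nat.cast_pow, Nat.cast_ofNat]
  exact ⟨a1, a2, a3, a4, a5, by exact_mod_cast a6⟩

theorem num_hit_pr (h : 1000 ≤ p.l0) :
    (4 * (p.L 0 + p.R2) / p.R2 + 1) * (8 * (p.L 0 + 1) + 1) * (1 - p.q / 1000) ^ (2 ^ (p.M - 23) : ℕ) ≤
      p.ps 0 / 4 := by
  obtain ⟨hM, eM⟩ := C32_M h
  have g := p.C32_GG 1
  have hL1 : 1 ≤ p.L 0 := g
  have a1 : 4 * (p.L 0 + p.R2) / p.R2 + 1 ≤ 2 ^ 17 := by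
    have : 4 * (p.L 0 + p.R2) / p.R2 = 4 * (2 ^ 14 + 1) := by
      unfold R2
      field_simp
    rw [this]
    norm_num
  have a2 : (800 : ℝ) ^ p.jj 0 ≤ 2 ^ (2 * p.M) := (eight_pow h 0).trans (C32_rp (by
    have : (0 : ℝ) ≤ p.M := by positivity
    push_cast
    linarith))
  have a3 : p.L 0 ≤ 2 ^ (5443 * p.M + 10) := by
    have e : p.L 0 = 2 ^ p.M * (800 ^ p.jj 0 * 800 * 2 ^ (5440 * p.M)) := by
      simp only [L, GG, κ0]
      push_cast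
      rw [pow_succ, add_zero]
    calc p.L 0 ≤ 2 ^ p.M * (2 ^ (2 * p.M) * 2 ^ 10 * 2 ^ (5440 * p.M)) := by
          rw [e]
          gcongr
          norm_num
      _ ≤ _ := by
          rw [← pow_add, ← pow_add, ← pow_add]
          exact C32_pw (by omega)
  have q0 : 0 ≤ p.q := by unfold q; positivity
  have q1 : p.q ≤ 1 := pow_le_one₀ (by norm_num) (by norm_num)
  have a4 : ((5449 * p.M + 34 : ℕ) : ℝ) ≤ (2 ^ (p.M - 23) : ℕ) * (p.q / 1000) := by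
    have b1 : 1000 * (5449 * p.M + 34) ≤ 2 ^ (p.l0 + 5097) := by
      have c1 : p.l0 < 2 ^ p.l0 := Nat.lt_two_pow_self
      have c2 : 2 ^ (p.l0 + 26) ≤ 2 ^ (p.l0 + 5097) := Nat.pow_le_pow_right two_pos (by omega)
      refine le_trans ?_ c2
      rw [pow_add]
      omega
    have b2 : ((2 ^ (p.M - 23) : ℕ) : ℝ) * p.q = (2 ^ (p.l0 + 5097) : ℕ) := by
      rw [show p.M - 23 = p.l0 + 5097 + p.l0 by omega, pow_add _ _ p.l0]
      generalize 2 ^ (p.l0 + 5097) = N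
      unfold q
      push_cast
      rw [mul_assoc, ← mul_pow]
      norm_num
    rw [← mul_div_assoc, b2, le_div_iff₀ (by norm_num), mul_comm]
    exact_mod_cast b1
  have a5 : (1 - p.q / 1000) ^ (2 ^ (p.M - 23) : ℕ) ≤ (1 / 2) ^ (5449 * p.M + 34) := by
    have e1 : Real.exp (-1) ≤ 1 / 2 := by
      rw [Real.exp_neg, one_div]
      exact inv_anti₀ two_pos (by linarith [Real.add_one_le_exp (1 : ℝ)])
    calc (1 - p.q / 1000) ^ (2 ^ (p.M - 23) : ℕ) ≤ Real.exp (-(p.q / 1000)) ^ (2 ^ (p.M - 23) : ℕ) :=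
          pow_le_pow_left₀ (by linarith) (Real.one_sub_le_exp_neg _) _
      _ ≤ Real.exp (-1) ^ (5449 * p.M + 34) := by
          rw [← Real.exp_nat_mul, ← Real.exp_nat_mul]
          exact Real.exp_le_exp.2 (by linarith)
      _ ≤ _ := pow_le_pow_left₀ (Real.exp_pos _).le e1 _
  have r0 : 0 < p.R2 := div_pos (by linarith) (by norm_num)
  have r1 : 0 ≤ 4 * (p.L 0 + p.R2) / p.R2 + 1 :=
    add_nonneg (div_nonneg (by linarith) r0.le) zero_le_one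
  have r2 : 0 ≤ 8 * (p.L 0 + 1) + 1 := by linarith
  refine (mul_le_mul_of_nonneg_left a5 (mul_nonneg r1 r2)).trans
    (C32_half (a := 17 + (5 + (5443 * p.M + 10))) ?_ (by omega))
  rw [pow_add, pow_add _ 5]
  exact mul_le_mul a1 (by linarith) r2 (by norm_num)

theorem num_sig (h : 1000 ≤ p.l0) (hD : 0 < p.D0) :
    6 * p.tau 0 ≤ p.θ ∧ p.ps 0 ≤ p.q ∧ p.R = 64 * (2 ^ (p.κ0 - 6) : ℕ) ∧ ∀ i, p.ps i ≤ 1 / 4 := by
  obtain ⟨hM, eM⟩ := C32_M h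
  refine ⟨?_, pow_le_pow_of_le_one (by norm_num) (by norm_num) (by omega), ?_, fun i => ?_⟩
  · have e1 : gr (p.dd 0) = 2 ^ (5100 * p.M) := by
      rw [dd_zero, gr, κ0, ← Real.rpow_natCast]
      congr 1
      push_cast
      ring
    have e2 : (2 : ℝ) ^ p.l0 * p.q = 1 := by
      unfold q
      rw [← mul_pow]
      norm_num
    have q0 : 0 ≤ p.q := by unfold q; positivity
    have a : (2 : ℝ) ^ 23 * (2 ^ (310 * (p.M + 0)) * 2 ^ (5100 * p.M)) * 2 ^ p.l0 ≤ p.R := by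
      rw [← pow_add, ← pow_add, ← pow_add]
      exact C32_pw (by unfold κ0; omega)
    have b := mul_le_mul_of_nonneg_right a q0
    rw [mul_assoc _ _ p.q, e2] at b
    unfold tau θ
    rw [e1, le_div_iff₀ (by norm_num)]
    have c : (0 : ℝ) ≤ 2 ^ (310 * (p.M + 0)) * 2 ^ (5100 * p.M) := by positivity
    generalize (2 : ℝ) ^ (310 * (p.M + 0)) * 2 ^ (5100 * p.M) = X at b c ⊢
    generalize p.R = R at b ⊢
    linarith [mul_le_mul_of_nonneg_right b hD.le, mul_nonneg c hD.le]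
  · have : p.κ0 = 6 + (p.κ0 - 6) := by unfold κ0; omega
    unfold R
    conv_lhs => rw [this, pow_add]
    push_cast
    norm_num
  · exact (pow_le_pow_of_le_one (by norm_num) (by norm_num)
      (show 2 ≤ 6 * (p.M + i) by omega)).trans (by norm_num)

end Par

end

end Crest.Agent.R151.C
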