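import Crest.Agent.R151.C30

/-! Row 151 (C): numerics of the tilts -/

set_option autoImplicit false

open MeasureTheory Set Filter Topology
open Crest.ProbabilityR.FirstPassage
open Crest.Agent.R151.B

namespace Crest.Agent.R151.C

noncomputable section

namespace Par

variable {p : Par}

theorem C33_a1 {a b u q R D : ℝ} (h1 : u ≤ b) (h2 : 1 ≤ a * q) (ha : 0 < a) (hu : 0 < u)
    (hR : 0 < R) (hD : 0 < D) :
    D * (4 * (a * (u * 800 * R) / 2 ^ 14)) ≤ a * b * a * 2 ^ 18 * (q * R * D / 10 ^ 6) := by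
  have h8 : u * 1 ≤ b * (a * q) := mul_le_mul h1 h2 zero_le_one (by linarith)
  have h9 := mul_le_mul_of_nonneg_left h8 (show 0 ≤ a * R * D by positivity)
  have h10 : 0 ≤ a * R * D * u := by positivity
  linarith

theorem C33_a2 {A B K Y u v a D g x y : ℝ} (hA : 0 < A) (hB : 0 < B) (hY : 0 ≤ Y) (hu : 0 < u)
    (ha : 0 < a) (hD : 0 < D) (a3 : x ≤ A * (2 * Y) * D) (a4 : y ≤ A * (2 * Y) * D)
    (a5 : 1 ≤ v * u) (a6 : 2 ^ 11 * A * B * v ≤ K) (a7 : D ≤ B * a) (g6 : K * Y ≤ g) :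
    16 * (3 * x + 3 * y) ≤ a * u / 8 * g := by
  have c1 : D * 1 ≤ B * a * (v * u) := mul_le_mul a7 a5 zero_le_one (by positivity)
  have c2 := mul_le_mul_of_nonneg_left c1 (show 0 ≤ 2 ^ 11 * A * Y by positivity)
  have c3 := mul_le_mul_of_nonneg_left a6 (show 0 ≤ a * u * Y by positivity)
  have c4 := mul_le_mul_of_nonneg_left g6 (show 0 ≤ a * u by positivity)
  have c5 : 0 ≤ A * Y * D := by positivity
  linarith

theorem C33_a3 {m i : ℕ} (h : 7120 ≤ m) :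
    (340 * m + 445 * (i + 1)) * 16 ≤ 5440 * m + (i + 1) * m := by
  have := Nat.mul_le_mul_left (i + 1) h
  linarith

theorem C33_a4 {C a b x s g L : ℝ} (h1 : a ≤ b * x) (ha : 0 ≤ a) (hs : 0 < s) (hg : 0 ≤ g)
    (h2 : g ≤ 2 * L) : C * a * (g * s / 200) ^ (7 / 8 : ℝ) ≤
      |C| * b * (s / 100) ^ (7 / 8 : ℝ) * x * L ^ (7 / 8 : ℝ) := by
  have hL : 0 ≤ L := by linarith
  have a2 : (g * s / 200) ^ (7 / 8 : ℝ) ≤ (s / 100) ^ (7 / 8 : ℝ) * L ^ (7 / 8 : ℝ) := by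
    rw [← Real.mul_rpow (by positivity) hL]
    refine Real.rpow_le_rpow (by positivity) ?_ (by norm_num)
    nlinarith
  calc _ ≤ |C| * a * (g * s / 200) ^ (7 / 8 : ℝ) :=
        mul_le_mul_of_nonneg_right (mul_le_mul_of_nonneg_right (le_abs_self C) ha) (by positivity)
    _ ≤ |C| * (b * x) * ((s / 100) ^ (7 / 8 : ℝ) * L ^ (7 / 8 : ℝ)) :=
        mul_le_mul (mul_le_mul_of_nonneg_left h1 (abs_nonneg C)) a2 (by positivity)
          (mul_nonneg (abs_nonneg C) (ha.trans h1))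
    _ = _ := by ring

theorem C33_a5 {C s L R : ℝ} (hs : 0 < s) (hL : 0 ≤ L) (hR : 0 < R) :
    C * (s * L / R) ^ (7 / 8 : ℝ) ≤ |C| * (s / R) ^ (7 / 8 : ℝ) * L ^ (7 / 8 : ℝ) := by
  rw [mul_assoc, ← Real.mul_rpow (by positivity) hL, div_mul_eq_mul_div]
  exact mul_le_mul_of_nonneg_right (le_abs_self C) (by positivity)

theorem C33_a6 {K1 K2 a x Y L u v : ℝ} (k2 : 0 ≤ K2) (ha : 0 < a) (hx : 1 ≤ x) (hY : 0 < Y)
    (e3 : (5 * K1 + K2) * 4 / a < x) (g6 : x * x * Y ≤ L) (a3 : u ≤ K1 * x * Y) (a4 : v ≤ K2 * Y) :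
    5 * u + v < a * L / 4 := by
  rw [div_lt_iff₀ ha] at e3
  have c1 := mul_lt_mul_of_pos_left e3 (show 0 < x * Y by positivity)
  have c2 := mul_le_mul_of_nonneg_left g6 ha.le
  have c3 := mul_le_mul_of_nonneg_left hx (show 0 ≤ K2 * Y by positivity)
  linarith

theorem C33_GG (p : Par) (i : ℕ) : (1 : ℝ) ≤ p.GG i := by
  exact_mod_cast (Nat.one_le_two_pow).trans (p.GG_ge i)

theorem C33_R2 (h : 1000 ≤ p.l0) : 1 ≤ p.R2 := by
  rw [R2_eq h]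
  exact one_le_mul_of_one_le_of_one_le (one_le_pow₀ (by norm_num)) (p.C33_GG 0)

theorem C33_θ (hD : 0 < p.D0) : 0 < p.θ := by
  unfold θ q R
  positivity

theorem C33_al0 (h : 1000 ≤ p.l0) (hD : 0 < p.D0) : 0 < p.al0 := by
  have h1 := C33_R2 h
  have h2 := C33_θ hD
  unfold al0
  positivity

theorem C33_diff (p : Par) (i : ℕ) : p.al i - p.al (i + 1) = p.al0 * (3 / 4) ^ i / 8 := by
  unfold al
  ring

theorem C33_root {a g : ℝ} {n : ℕ} (hn : n ≠ 0) (ha : 0 ≤ a) (hg : 0 < g) (h : a ^ n ≤ g) {b : ℝ}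
    (hb : (n : ℝ)⁻¹ + b = 1) : a * g ^ b ≤ g := by
  have h1 : a ≤ g ^ (n : ℝ)⁻¹ := by
    have := Real.rpow_le_rpow (by positivity) h (show (0 : ℝ) ≤ (n : ℝ)⁻¹ by positivity)
    rwa [Real.pow_rpow_inv_natCast ha hn] at this
  have h2 : g ^ (n : ℝ)⁻¹ * g ^ b = g := by rw [← Real.rpow_add hg, hb, Real.rpow_one]
  exact (mul_le_mul_of_nonneg_right h1 (Real.rpow_nonneg hg.le _)).trans h2.le

theorem C33_pow (p : Par) (i : ℕ) {k n : ℕ} (hk : k * n ≤ p.κ0 + i * p.M) :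
    ((2 : ℝ) ^ k) ^ n ≤ p.GG i := by
  rw [← pow_mul]
  exact_mod_cast (Nat.pow_le_pow_right (by norm_num) hk).trans (p.GG_ge i)

theorem C33_low (h : 1000 ≤ p.l0) (hD : 0 < p.D0) : p.D0 ≤ 2 ^ (4 * p.M + 18) * p.al0 := by
  have h1 : (800 : ℝ) ^ p.jj 0 ≤ 2 ^ (2 * p.M) := by
    refine (eight_pow h 0).trans ?_
    rw [← Real.rpow_natCast]
    refine Real.rpow_le_rpow_of_exponent_le (by norm_num) ?_
    push_cast
    have : (0 : ℝ) ≤ p.M := Nat.cast_nonneg _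
    linarith
  have h2 : 1 ≤ 2 ^ p.M * p.q := by
    unfold q
    have : (2 : ℝ) ^ p.l0 ≤ 2 ^ p.M := pow_le_pow_right₀ (by norm_num) (by unfold M; omega)
    calc (1 : ℝ) = 2 ^ p.l0 * (1 / 2) ^ p.l0 := by rw [← mul_pow]; norm_num
      _ ≤ _ := mul_le_mul_of_nonneg_right this (by positivity)
  have h3 : p.R2 = 2 ^ p.M * (800 ^ p.jj 0 * 800 * p.R) / 2 ^ 14 := by
    unfold R2 L R
    rw [GG_succ, anchor_GG1]
    push_cast
    ring
  have hR : 0 < p.R := by unfold R; positivity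
  have h4 := C33_R2 h
  unfold al0 θ
  rw [← mul_div_assoc, le_div_iff₀ (by positivity), h3]
  have h5 : (2 : ℝ) ^ (4 * p.M + 18) = 2 ^ p.M * 2 ^ (2 * p.M) * 2 ^ p.M * 2 ^ 18 := by ring
  rw [h5]
  exact C33_a1 h1 h2 (by positivity) (by positivity) hR hD

theorem num_tilt (h : 1000 ≤ p.l0) (hD : 0 < p.D0) (i : ℕ) :
    0 < p.θ ∧ 0 < p.al0 ∧ p.al0 / 2 ≤ p.al i ∧ p.al i ≤ p.al0 ∧ p.al (i + 1) ≤ p.al i ∧
      p.al i - p.al (i + 1) ≤ p.al0 / 8 ∧ 0 ≤ p.be i ∧ p.be i ≤ 9 * p.θ ∧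
      p.al i + p.be i ≤ 9 * p.θ ∧ p.be (i + 1) = p.be i + (p.al i - p.al (i + 1)) ∧
      p.be i * p.eps ≤ 3 / 5 * p.al0 ∧ 0 < p.eps ∧ p.eps ≤ 1 / 4 ∧ p.θ = 4 * p.R2 * p.al0 ∧
      1 ≤ p.L i ∧ p.al 0 = p.θ / (4 * p.R2) ∧ p.be 0 = 8 * p.θ := by
  have h1 := C33_R2 h
  have h2 := C33_θ hD
  have h3 := C33_al0 h hD
  have h4 : p.θ = 4 * p.R2 * p.al0 := by
    unfold al0
    field_simp
  have h5 : (0 : ℝ) < (3 / 4) ^ i := by positivity
  have h6 : ((3 : ℝ) / 4) ^ i ≤ 1 := pow_le_one₀ (by norm_num) (by norm_num)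
  have h7 := p.C33_diff i
  have h8 : 0 < p.al0 * (3 / 4) ^ i := by positivity
  have h9 : p.al0 * (3 / 4) ^ i ≤ p.al0 := by nlinarith
  have h10 : p.al i = p.al0 / 2 + p.al0 * (3 / 4) ^ i / 2 := by
    unfold al
    ring
  have h11 : 4 * p.al0 ≤ p.θ := by nlinarith
  have h12 : p.be i = 8 * p.θ + p.al0 - p.al i := rfl
  have h13 : p.be (i + 1) = 8 * p.θ + p.al0 - p.al (i + 1) := rfl
  have h14 : 0 < p.eps := by unfold eps; positivity
  have h15 : p.al 0 = p.al0 := by unfold al; ring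
  have h16 : p.R2 * p.eps = 1 / 64 := by unfold eps; field_simp
  refine ⟨h2, h3, by linarith, by linarith, by linarith, by linarith, by linarith, by linarith,
    by linarith, by linarith, ?_, h14, by nlinarith, h4, p.C33_GG _, h15, ?_⟩
  · have h17 : p.be i * p.eps ≤ 9 * p.θ * p.eps := mul_le_mul_of_nonneg_right (by linarith) h14.le
    have h18 : 9 * p.θ * p.eps = 36 * p.al0 * (p.R2 * p.eps) := by rw [h4]; ring
    rw [h16] at h18
    linarith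
  · unfold be
    rw [h15]
    ring

theorem num_EE (h : 1000 ≤ p.l0) (hD : 0 < p.D0) (i : ℕ) :
    0 ≤ p.EE i ∧ 16 * p.EE i ≤ (p.al i - p.al (i + 1)) * p.L i := by
  have h1 := C33_R2 h
  have h2 := C33_θ hD
  have h3 := C33_al0 h hD
  rw [p.C33_diff]
  rcases i with _ | i
  · rw [anchor_EE1]
    have h4 : p.θ = 4 * p.R2 * p.al0 := by
      unfold al0
      field_simp
    have h5 : p.L 0 = 2 ^ 14 * p.R2 := by
      unfold R2
      field_simp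
    refine ⟨h2.le, ?_⟩
    rw [h5, h4]
    have : 0 < p.R2 * p.al0 := by positivity
    nlinarith
  · rw [anchor_EE2]
    have h4 : 1 ≤ p.L i := p.C33_GG _
    have h5 : p.L (i + 1) = 2 ^ (p.M + (i + 1)) * p.L i := by
      unfold L
      rw [GG_succ p (i + 1)]
      push_cast
      ring
    obtain ⟨X, hX⟩ : ∃ X : ℝ, X = (2 : ℝ) ^ (((p.M + i + 1 : ℕ) : ℝ) / 2) := ⟨_, rfl⟩
    have h6 : 0 < X := by rw [hX]; positivity
    have h7 : X * X = 2 ^ (p.M + (i + 1)) := by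
      rw [hX, ← Real.rpow_add (by norm_num), add_halves, Real.rpow_natCast, add_assoc]
    have h8 : p.WW i = X * p.L i := by rw [hX]; rfl
    have h9 : (1536 : ℝ) ≤ (3 / 4) ^ (i + 1) * X := by
      have a1 : ((3 / 4) ^ (i + 1) * X) ^ 2 = (9 / 8) ^ (i + 1) * 2 ^ p.M := by
        rw [mul_pow, pow_two X, h7, pow_add (2 : ℝ) p.M, ← pow_mul, mul_comm (i + 1) 2, pow_mul,
          mul_comm ((2 : ℝ) ^ p.M), ← mul_assoc, ← mul_pow]
        norm_num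
      have a2 : (1 : ℝ) ≤ (9 / 8) ^ (i + 1) := one_le_pow₀ (by norm_num)
      have a3 : (2 : ℝ) ^ 22 ≤ 2 ^ p.M := pow_le_pow_right₀ (by norm_num) (by unfold M; omega)
      have a4 : (1536 : ℝ) ^ 2 ≤ ((3 / 4) ^ (i + 1) * X) ^ 2 := by
        rw [a1]
        nlinarith
      exact (pow_le_pow_iff_left₀ (by norm_num) (by positivity) two_ne_zero).1 a4
    rw [h8, h5, ← h7]
    refine ⟨by positivity, ?_⟩
    have h10 := mul_le_mul_of_nonneg_left h9 (show 0 ≤ p.al0 * X * p.L i by positivity)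
    nlinarith

theorem num_link (h : 1000 ≤ p.l0) (hD : 0 < p.D0) (i : ℕ) :
    0 ≤ p.tau (i + 1) ∧ 16 * (3 * p.tauP i + 3 * p.tau (i + 1)) ≤ (p.al i - p.al (i + 1)) * p.L i := by
  have h3 := C33_al0 h hD
  obtain ⟨g1, g2⟩ := gr_dd h i
  obtain ⟨g3, g4⟩ := gr_dd h (i + 1)
  have hg := p.C33_GG (i + 1)
  have hM : 7120 ≤ p.M := by unfold M; omega
  have g5 : (p.GG i : ℝ) ^ (15 / 16 : ℝ) ≤ (p.GG (i + 1) : ℝ) ^ (15 / 16 : ℝ) := by
    refine Real.rpow_le_rpow (Nat.cast_nonneg _) ?_ (by norm_num)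
    rw [GG_succ]
    exact_mod_cast Nat.le_mul_of_pos_left _ (Nat.two_pow_pos _)
  have g6 := C33_root (n := 16) (b := 15 / 16) (by norm_num) (by positivity) (by linarith)
    (p.C33_pow (i + 1) (k := 340 * p.M + 445 * (i + 1)) (n := 16) (C33_a3 hM)) (by norm_num)
  have g0 : 0 ≤ (p.GG (i + 1) : ℝ) ^ (15 / 16 : ℝ) := by positivity
  unfold tau tauP L
  rw [p.C33_diff]
  refine ⟨by positivity, ?_⟩
  generalize (p.GG (i + 1) : ℝ) ^ (15 / 16 : ℝ) = Y at g4 g5 g6 g0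
  have a1 : (2 : ℝ) ^ (312 * (p.M + i)) ≤ 2 ^ (312 * (p.M + i + 1)) :=
    pow_le_pow_right₀ (by norm_num) (by omega)
  have a2 : (2 : ℝ) ^ (310 * (p.M + (i + 1))) ≤ 2 ^ (312 * (p.M + i + 1)) :=
    pow_le_pow_right₀ (by norm_num) (by omega)
  have a3 : (2 : ℝ) ^ (312 * (p.M + i)) * gr (p.dd i) * p.D0 ≤
      2 ^ (312 * (p.M + i + 1)) * (2 * Y) * p.D0 :=
    mul_le_mul_of_nonneg_right (mul_le_mul a1 (by linarith) g1.le (by positivity)) hD.le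
  have a4 : (2 : ℝ) ^ (310 * (p.M + (i + 1))) * gr (p.dd (i + 1)) * p.D0 ≤
      2 ^ (312 * (p.M + i + 1)) * (2 * Y) * p.D0 :=
    mul_le_mul_of_nonneg_right (mul_le_mul a2 g4 g3.le (by positivity)) hD.le
  have a5 : (1 : ℝ) ≤ 2 ^ i * (3 / 4) ^ i := by
    rw [← mul_pow]
    exact one_le_pow₀ (by norm_num)
  have a6 : (2 : ℝ) ^ 11 * 2 ^ (312 * (p.M + i + 1)) * 2 ^ (4 * p.M + 18) * 2 ^ i ≤
      2 ^ (340 * p.M + 445 * (i + 1)) := by
    rw [← pow_add, ← pow_add, ← pow_add]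
    exact pow_le_pow_right₀ (by norm_num) (by omega)
  exact C33_a2 (pow_pos two_pos _) (pow_pos two_pos _) g0 (pow_pos (by norm_num) _) h3 hD a3 a4 a5
    a6 (C33_low h hD) g6

/-- at large stages the a priori errors are beaten by the tilt -/
theorem num_top (h : 1000 ≤ p.l0) (hD : 0 < p.D0) (C C' : ℝ) : ∃ i,
    C' ≤ p.s0 * p.L i / (512 * p.R2) ∧
      C' * (p.s0 * p.L i / (512 * p.R2)) ^ (-(1 / 4) : ℝ) ≤ 1 / 4 ∧
      5 * p.lin C i + C' * (p.s0 * p.L i / (512 * p.R2)) ^ (7 / 8 : ℝ) < p.al0 * p.L i / 4 := by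
  have h1 := C33_R2 h
  have h3 := C33_al0 h hD
  have hs : 0 < p.s0 := by unfold s0; positivity
  have hM : 7120 ≤ p.M := by unfold M; omega
  have hx : Tendsto (fun i : ℕ => (2 : ℝ) ^ (i + 1)) atTop atTop :=
    (tendsto_pow_atTop_atTop_of_one_lt one_lt_two).comp (tendsto_add_atTop_nat 1)
  have hL : ∀ i, (2 : ℝ) ^ (i + 1) ≤ p.L i := fun i => by
    have := p.C33_pow (i + 1) (k := i + 1) (n := 1) (by
      have := Nat.mul_le_mul_left (i + 1) hM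
      omega)
    rwa [pow_one] at this
  have hS : Tendsto (fun i : ℕ => p.s0 * p.L i / (512 * p.R2)) atTop atTop :=
    ((tendsto_atTop_mono hL hx).const_mul_atTop hs).atTop_div_const (by positivity)
  have hT : Tendsto (fun i : ℕ => C' * (p.s0 * p.L i / (512 * p.R2)) ^ (-(1 / 4) : ℝ)) atTop
      (𝓝 (C' * 0)) := ((tendsto_rpow_neg_atTop (by norm_num)).comp hS).const_mul C'
  rw [mul_zero] at hT
  obtain ⟨K1, hK1⟩ : ∃ K : ℝ, K = |C| * (2 ^ p.M * 3) * (p.s0 / 100) ^ (7 / 8 : ℝ) := ⟨_, rfl⟩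
  obtain ⟨K2, hK2⟩ : ∃ K : ℝ, K = |C'| * (p.s0 / (512 * p.R2)) ^ (7 / 8 : ℝ) := ⟨_, rfl⟩
  have k1 : 0 ≤ K1 := by rw [hK1]; positivity
  have k2 : 0 ≤ K2 := by rw [hK2]; positivity
  obtain ⟨i, e1, e2, e3⟩ := ((hS.eventually_ge_atTop C').and
    ((hT.eventually_le_const (show (0 : ℝ) < 1 / 4 by norm_num)).and
      (hx.eventually_gt_atTop ((5 * K1 + K2) * 4 / p.al0)))).exists
  refine ⟨i, e1, e2, ?_⟩
  have hg : 1 ≤ p.L i := p.C33_GG _
  have g6 : (2 : ℝ) ^ (2 * (i + 1)) * p.L i ^ (7 / 8 : ℝ) ≤ p.L i :=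
    C33_root (n := 8) (b := 7 / 8) (by norm_num) (by positivity) (one_pos.trans_le hg)
      (p.C33_pow (i + 1) (k := 2 * (i + 1)) (n := 8) (by
        have := Nat.mul_le_mul_left (i + 1) hM
        omega)) (by norm_num)
  have hY : 0 < p.L i ^ (7 / 8 : ℝ) := by positivity
  have a1 : (3 : ℝ) ^ (p.jj (i + 1) + 1) ≤ 2 ^ p.M * 3 * 2 ^ (i + 1) := by
    have := three_pow h (i + 1)
    have b : (2 : ℝ) ^ ((3 / 20 : ℝ) * (p.M + (i + 1 : ℕ))) ≤ 2 ^ (p.M + (i + 1)) := by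
      rw [← Real.rpow_natCast]
      refine Real.rpow_le_rpow_of_exponent_le (by norm_num) ?_
      push_cast
      have : (0 : ℝ) ≤ p.M + (i + 1) := by positivity
      linarith
    rw [pow_add (2 : ℝ) p.M] at b
    rw [pow_succ]
    linarith
  have b : (p.sg (i + 1) : ℝ) ≤ 2 * p.L i := by
    unfold L
    exact_mod_cast (sg_spec h (i + 1)).2
  have a3 : p.lin C i ≤ K1 * 2 ^ (i + 1) * p.L i ^ (7 / 8 : ℝ) := by
    rw [hK1]
    exact C33_a4 a1 (pow_pos three_pos _).le hs (Nat.cast_nonneg _) b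
  have a4 : C' * (p.s0 * p.L i / (512 * p.R2)) ^ (7 / 8 : ℝ) ≤ K2 * p.L i ^ (7 / 8 : ℝ) := by
    rw [hK2]
    exact C33_a5 hs (by linarith) (by linarith)
  rw [two_mul, pow_add] at g6
  exact C33_a6 k2 h3 (one_le_pow₀ one_le_two) hY e3 g6 a3 a4

end Par

end

end Crest.Agent.R151.C
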