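import Crest.Agent.R151.C30

/-! Row 151 (C): numerics for a large base scale -/

set_option autoImplicit false

open MeasureTheory Set Filter Topology
open Crest.ProbabilityR.FirstPassage
open Crest.Agent.R151.B

namespace Crest.Agent.R151.C

noncomputable section

theorem c34_root {x : ℝ} (hx : 1 ≤ x) {n : ℕ} (hn : n ≠ 0) : ∃ a : ℝ, 1 ≤ a ∧ x = a ^ n :=
  ⟨x ^ (n : ℝ)⁻¹, Real.one_le_rpow hx (by positivity),
    (Real.rpow_inv_natCast_pow (by linarith) hn).symm⟩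

theorem c34_big (A : ℝ) : ∃ k1 : ℕ, ∀ k, k1 ≤ k → ∃ a : ℝ, 1 ≤ a ∧ A ≤ a ∧ (2 : ℝ) ^ k = a ^ 8 := by
  obtain ⟨k1, hk⟩ := pow_unbounded_of_one_lt (A ^ 8) (one_lt_two (α := ℝ))
  refine ⟨k1, fun k h => ?_⟩
  obtain ⟨a, h1, h2⟩ := c34_root (one_le_pow₀ (one_le_two (α := ℝ)) (n := k)) (n := 8) (by norm_num)
  refine ⟨a, h1, (lt_of_pow_lt_pow_left₀ 8 (by linarith) ?_).le, h2⟩
  rw [← h2]
  exact hk.trans_le (pow_le_pow_right₀ one_le_two h)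

theorem c34_pow {a : ℝ} (ha : 0 ≤ a) (n m : ℕ) {r : ℝ} (h : n * r = m) : (a ^ n) ^ r = a ^ m := by
  rw [← Real.rpow_natCast, ← Real.rpow_mul ha, h, Real.rpow_natCast]

theorem c34_three {p : Par} (h : 1000 ≤ p.l0) (i : ℕ) :
    (3 : ℝ) ^ (p.jj (i + 1) + 1) ≤ 2 ^ (p.M + i) := by
  have h1 := Par.three_pow h (i + 1)
  have h2 : (5120 : ℝ) ≤ p.M := by exact_mod_cast Nat.le_add_left _ _
  have h3 : (0 : ℝ) ≤ i := Nat.cast_nonneg _
  have h4 : (2 : ℝ) ^ ((3 / 20 : ℝ) * (p.M + (i + 1 : ℕ))) * 2 ^ (2 : ℝ) ≤ 2 ^ ((p.M + i : ℕ) : ℝ) := by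
    rw [← Real.rpow_add two_pos]
    refine Real.rpow_le_rpow_of_exponent_le one_le_two ?_
    push_cast
    linarith
  rw [Real.rpow_natCast, Real.rpow_two] at h4
  have h5 : (0 : ℝ) < 3 ^ p.jj (i + 1) := by positivity
  rw [pow_succ]
  linarith

theorem c34_GG (p : Par) (i : ℕ) :
    ∃ b : ℝ, 1 ≤ b ∧ (2 : ℝ) ^ (312 * (p.M + i)) ≤ b ∧ (p.GG i : ℝ) = b ^ 16 := by
  have h1 : (2 : ℝ) ^ (p.κ0 + i * p.M) ≤ p.GG i := by exact_mod_cast p.GG_ge i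
  obtain ⟨b, b1, b2⟩ := c34_root ((one_le_pow₀ one_le_two).trans h1) (n := 16) (by norm_num)
  refine ⟨b, b1, le_of_pow_le_pow_left₀ (n := 16) (by norm_num) (by linarith) ?_, b2⟩
  rw [← b2, ← pow_mul]
  refine (pow_le_pow_right₀ one_le_two ?_).trans h1
  have h2 : 5120 ≤ p.M := Nat.le_add_left _ _
  have h3 : i * 5120 ≤ i * p.M := Nat.mul_le_mul_left _ h2
  unfold Par.κ0
  omega

theorem num_k {l0 : ℕ} (h : 1000 ≤ l0) {ω C C2 : ℝ} (hω : 0 < ω) (hC : 1 ≤ C) (hC2 : 0 < C2) :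
    ∃ k1 : ℕ, ∀ p : Par, p.l0 = l0 → k1 ≤ p.k0 → 0 < p.D0 →
      p.D0 ≤ C2 * (2 ^ p.k0 : ℝ) ^ (7 / 8 : ℝ) → p.Num ω C := by
  obtain ⟨R, hR⟩ : ∃ R : ℝ, R = 2 ^ (5440 * (2 * l0 + 5120)) := ⟨_, rfl⟩
  have hR0 : 0 < R := by rw [hR]; positivity
  obtain ⟨k1, hk⟩ := c34_big ((18 * R * C2 + 96 * C2 + 96 * C) / ω + C)
  refine ⟨k1, fun p hl hk1 hD hD2 => ?_⟩
  obtain ⟨a, a1, a2, a3⟩ := hk _ hk1
  have a0 : 0 < a := by linarith
  have hl0 : 1000 ≤ p.l0 := hl ▸ h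
  have a4 : 0 ≤ (18 * R * C2 + 96 * C2 + 96 * C) / ω := by positivity
  have a5 : 18 * R * C2 + 96 * C2 + 96 * C ≤ a * ω := (div_le_iff₀ hω).1 (by linarith)
  have a6 : C ≤ a := by linarith
  have a7 : 0 < 18 * R * C2 := by positivity
  have hs : p.s0 = a ^ 8 := a3
  rw [a3, c34_pow a0.le 8 7 (by norm_num)] at hD2
  have p7 : 0 < a ^ 7 := by positivity
  have key : ∀ i, ∃ b : ℝ, 1 ≤ b ∧ (2 : ℝ) ^ (312 * (p.M + i)) ≤ b ∧ (p.GG i : ℝ) = b ^ 16 ∧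
      b ^ 16 * a ^ 8 ≤ p.sg (i + 1) * p.s0 / 200 ∧
      p.sg (i + 1) * p.s0 / 200 ≤ (2 ^ (p.M + i) * b ^ 2 * a) ^ 8 := fun i => by
    obtain ⟨b, b1, b2, b3⟩ := c34_GG p i
    have g1 : (p.GG (i + 1) : ℝ) = 2 ^ (p.M + i) * b ^ 16 := by
      rw [p.GG_succ, ← b3]
      push_cast
      rfl
    have g2 : (p.GG (i + 1) : ℝ) ≤ p.sg (i + 1) := by exact_mod_cast (Par.sg_spec hl0 (i + 1)).1
    have g3 : (p.sg (i + 1) : ℝ) ≤ 2 * p.GG (i + 1) := by exact_mod_cast (Par.sg_spec hl0 (i + 1)).2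
    have g4 : (200 : ℝ) ≤ 2 ^ (p.M + i) :=
      le_trans (by norm_num) (pow_le_pow_right₀ one_le_two
        (show 8 ≤ p.M + i by unfold Par.M; omega))
    have g5 : (2 : ℝ) ^ (p.M + i) ≤ (2 ^ (p.M + i)) ^ 8 :=
      le_self_pow₀ (by linarith) (by norm_num)
    have g6 : 0 < b ^ 16 * a ^ 8 := by positivity
    have g7 := mul_le_mul_of_nonneg_right g4 g6.le
    have g8 := mul_le_mul_of_nonneg_right g5 g6.le
    have g9 := mul_le_mul_of_nonneg_right g2 (show 0 ≤ a ^ 8 by positivity)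
    have g10 := mul_le_mul_of_nonneg_right g3 (show 0 ≤ a ^ 8 by positivity)
    rw [g1] at g9 g10
    refine ⟨b, b1, b2, b3, ?_, ?_⟩
    · rw [hs]
      linarith
    · rw [hs, mul_pow, mul_pow, ← pow_mul b]
      generalize (2 : ℝ) ^ (p.M + i) = u at *
      linarith
  refine ⟨?_, fun i => ?_, fun i => ?_, fun i => ?_⟩
  · have q1 : p.q ≤ 1 := pow_le_one₀ (by norm_num) (by norm_num)
    have e1 : p.R = R := by rw [hR, ← hl]; rfl
    have e2 : p.q * R * p.D0 ≤ 1 * R * (C2 * a ^ 7) := by gcongr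
    have e3 : 18 * R * C2 * a ^ 7 ≤ a * ω * a ^ 7 :=
      mul_le_mul_of_nonneg_right (by linarith) p7.le
    have e4 : 0 ≤ R * (C2 * a ^ 7) := by positivity
    rw [Par.θ, e1, hs]
    linarith
  · obtain ⟨b, b1, b2, b3, -, b5⟩ := key i
    have b0 : 0 < b := by linarith
    have g1 := (Par.gr_dd hl0 i).2
    rw [b3, c34_pow b0.le 16 15 (by norm_num)] at g1
    have g0 := (Par.gr_dd hl0 i).1
    have t1 : p.tauP i ≤ b * (2 * b ^ 15) * (C2 * a ^ 7) := by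
      unfold Par.tauP
      gcongr
    have t2 : (p.sg (i + 1) * p.s0 / 200 : ℝ) ^ (7 / 8 : ℝ) ≤ (2 ^ (p.M + i) * b ^ 2 * a) ^ 7 := by
      rw [← c34_pow (by positivity) 8 7 (r := 7 / 8) (by norm_num)]
      exact Real.rpow_le_rpow (by rw [hs]; positivity) b5 (by norm_num)
    have t3 : p.lin C i ≤ C * 2 ^ (p.M + i) * (2 ^ (p.M + i) * b ^ 2 * a) ^ 7 := by
      unfold Par.lin
      have := c34_three hl0 i
      have : 0 ≤ (p.sg (i + 1) * p.s0 / 200 : ℝ) ^ (7 / 8 : ℝ) := by rw [hs]; positivity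
      gcongr
    have t4 : ((2 : ℝ) ^ (p.M + i)) ^ 8 ≤ b ^ 2 := by
      rw [← pow_mul]
      exact ((pow_le_pow_right₀ one_le_two (by omega)).trans b2).trans
        (le_self_pow₀ b1 (by norm_num))
    have t5 := mul_le_mul_of_nonneg_right t4 (show 0 ≤ C * b ^ 14 * a ^ 7 by positivity)
    have t6 : (96 * C2 + 96 * C) * (b ^ 16 * a ^ 7) ≤ a * ω * (b ^ 16 * a ^ 7) :=
      mul_le_mul_of_nonneg_right (by linarith) (by positivity)
    have t7 : 0 ≤ a * ω * (b ^ 16 * a ^ 7) := by positivity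
    rw [b3, hs]
    generalize (2 : ℝ) ^ (p.M + i) = u at *
    linarith
  · obtain ⟨b, b1, -, -, b4, -⟩ := key i
    refine a6.trans ((le_self_pow₀ a1 (by norm_num : 8 ≠ 0)).trans (le_trans ?_ b4))
    exact le_mul_of_one_le_left (by positivity) (one_le_pow₀ b1)
  · obtain ⟨b, b1, b2, -, b4, -⟩ := key i
    have b0 : 0 < b := by linarith
    have t1 : (p.sg (i + 1) * p.s0 / 200 : ℝ) ^ (-(1 / 4) : ℝ) ≤ (b ^ 4 * a ^ 2)⁻¹ := by
      refine (Real.rpow_le_rpow_of_nonpos (by positivity) b4 (by norm_num)).trans_eq ?_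
      rw [show b ^ 16 * a ^ 8 = (b ^ 4 * a ^ 2) ^ 4 by ring, Real.rpow_neg (by positivity),
        c34_pow (by positivity) 4 1 (by norm_num), pow_one]
    have t2 : C * (3 ^ (p.jj (i + 1) + 1)) ^ 2 * (p.sg (i + 1) * p.s0 / 200 : ℝ) ^ (-(1 / 4) : ℝ) ≤
        C * (2 ^ (p.M + i)) ^ 2 * (b ^ 4 * a ^ 2)⁻¹ := by
      have := c34_three hl0 i
      have : 0 ≤ (p.sg (i + 1) * p.s0 / 200 : ℝ) ^ (-(1 / 4) : ℝ) := by rw [hs]; positivity
      gcongr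
    refine t2.trans ?_
    have t3 : (2 : ℝ) ^ 2 * (2 ^ (p.M + i)) ^ 8 ≤ b ^ 4 := by
      rw [← pow_mul, ← pow_add]
      exact ((pow_le_pow_right₀ one_le_two (by unfold Par.M; omega)).trans b2).trans
        (le_self_pow₀ b1 (by norm_num))
    have t4 : C ≤ a ^ 2 := a6.trans (le_self_pow₀ a1 (by norm_num))
    have t5 : C * (2 ^ 2 * (2 ^ (p.M + i)) ^ 8) ≤ a ^ 2 * b ^ 4 := by gcongr
    rw [Par.ps, one_div, inv_pow, mul_comm 6, pow_mul, ← div_eq_mul_inv,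
      div_le_div_iff₀ (by positivity) (by norm_num), inv_mul_eq_div, le_div_iff₀ (by positivity)]
    generalize (2 : ℝ) ^ (p.M + i) = u at *
    linarith

theorem num_lo (l0 : ℕ) {c1 C : ℝ} (hc : 0 < c1) (hC : 1 ≤ C) : ∃ k1 : ℕ, ∀ k j : ℕ, k1 ≤ k →
    C ≤ (800 : ℝ) ^ j * 2 ^ k ∧
      C / (1 / 3 ^ j) ^ 2 * Real.exp (-(c1 * (800 ^ j * 2 ^ k))) ≤ pj l0 j / 2 := by
  obtain ⟨k1, hk⟩ := pow_unbounded_of_one_lt ((2 * C + 1 + l0) / c1 + C) (one_lt_two (α := ℝ))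
  refine ⟨k1, fun k j h => ?_⟩
  have h1 := hk.le.trans (pow_le_pow_right₀ one_le_two h)
  have h2 : 0 ≤ (2 * C + 1 + l0) / c1 := by positivity
  have h3 : 2 * C + 1 + l0 ≤ 2 ^ k * c1 := (div_le_iff₀ hc).1 (by linarith)
  have u1 : (1 : ℝ) ≤ 800 ^ j := one_le_pow₀ (by norm_num)
  have u2 : ((3 : ℝ) ^ j) ^ 2 ≤ 800 ^ j := by
    rw [← pow_mul, mul_comm, pow_mul]
    exact pow_le_pow_left₀ (by norm_num) (by norm_num) _
  have u3 : ell l0 j ≤ 800 ^ j * l0 :=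
    mul_le_mul_of_nonneg_right (pow_le_pow_left₀ (by norm_num) (by norm_num) _) (Nat.cast_nonneg _)
  have u4 : 0 ≤ ell l0 j := (Nat.cast_nonneg _).trans (Par.ell_ge l0 j)
  refine ⟨le_trans (by linarith) (le_mul_of_one_le_left (by positivity) u1), ?_⟩
  have u5 : Real.exp (-(800 ^ j * l0)) ≤ pj l0 j := by
    rw [pj, Real.rpow_def_of_pos two_pos]
    refine Real.exp_le_exp.2 ?_
    have := mul_le_mul_of_nonneg_right
      ((Real.log_le_sub_one_of_pos two_pos).trans_eq (by norm_num : (2 : ℝ) - 1 = 1)) u4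
    linarith
  generalize (800 : ℝ) ^ j = u at *
  have v1 : 2 * C ≤ Real.exp (u * (2 * C)) := by
    have := Real.add_one_le_exp (u * (2 * C))
    have := le_mul_of_one_le_left (show 0 ≤ 2 * C by linarith) u1
    linarith
  have v2 : ((3 : ℝ) ^ j) ^ 2 ≤ Real.exp u := by linarith [Real.add_one_le_exp u]
  have v3 : 2 * C * (3 ^ j) ^ 2 * Real.exp (-(c1 * (u * 2 ^ k))) ≤
      Real.exp (u * (2 * C)) * Real.exp u * Real.exp (-(c1 * (u * 2 ^ k))) := by gcongr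
  rw [← Real.exp_add, ← Real.exp_add] at v3
  have v4 : Real.exp (u * (2 * C) + u + -(c1 * (u * 2 ^ k))) ≤ Real.exp (-(u * l0)) :=
    Real.exp_le_exp.2 (by linarith [mul_le_mul_of_nonneg_left h3 (show 0 ≤ u by linarith)])
  rw [one_div, inv_pow, div_inv_eq_mul]
  linarith

theorem num_zero {c1 C q : ℝ} (hc : 0 < c1) (hC : 1 ≤ C) (hq : 0 < q) : ∃ k1 : ℕ, ∀ k : ℕ, k1 ≤ k →
    C ≤ (2 : ℝ) ^ k ∧ C * (2 ^ k : ℝ) ^ (-(1 / 4) : ℝ) ≤ q / 8 ∧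
      C * (2 ^ k : ℝ) ^ (7 / 8 : ℝ) ≤ c1 * 2 ^ k := by
  obtain ⟨k1, hk⟩ := c34_big (C + 8 * C / q + C / c1)
  refine ⟨k1, fun k h => ?_⟩
  obtain ⟨a, a1, a2, a3⟩ := hk k h
  have a0 : 0 < a := by linarith
  have b1 : 0 ≤ 8 * C / q := by positivity
  have b2 : 0 ≤ C / c1 := by positivity
  have b3 : 8 * C ≤ a ^ 2 * q :=
    (div_le_iff₀ hq).1 (le_trans (by linarith) (le_self_pow₀ a1 (by norm_num)))
  have b4 : C ≤ a * c1 := (div_le_iff₀ hc).1 (by linarith)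
  rw [a3, Real.rpow_neg (by positivity), c34_pow a0.le 8 2 (by norm_num),
    c34_pow a0.le 8 7 (by norm_num), ← div_eq_mul_inv, div_le_div_iff₀ (by positivity) (by norm_num)]
  refine ⟨le_trans (by linarith) (le_self_pow₀ a1 (by norm_num)), by linarith, ?_⟩
  linarith [mul_le_mul_of_nonneg_right b4 (show 0 ≤ a ^ 7 by positivity)]

theorem num_l0 (K0 : ℝ) : ∃ l0 : ℕ, 1000 ≤ l0 ∧ K0 ≤ Kj l0 0 := by
  obtain ⟨N, hN⟩ := pow_unbounded_of_one_lt K0 (one_lt_two (α := ℝ))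
  refine ⟨4 * N + 1000, by omega, hN.le.trans ?_⟩
  rw [← Real.rpow_natCast, Kj, ell]
  refine Real.rpow_le_rpow_of_exponent_le one_le_two ?_
  push_cast
  linarith
theorem pj_zero (p : Par) : pj p.l0 0 = p.q ∧ 1 ≤ Fj p.l0 0 ∧ 1 ≤ Kj p.l0 0 ∧ 0 < p.q := by
  have h : 0 ≤ ell p.l0 0 := (Nat.cast_nonneg _).trans (Par.ell_ge _ 0)
  refine ⟨?_, Real.one_le_rpow one_le_two (by linarith), Real.one_le_rpow one_le_two (by linarith),
    pow_pos (by norm_num) _⟩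
  rw [pj, ell, pow_zero, one_mul, Real.rpow_neg zero_le_two, Real.rpow_natCast, Par.q, one_div,
    inv_pow]

end

end Crest.Agent.R151.C
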