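import Crest.Agent.R151.C10
import Crest.Agent.R151.C29
import Crest.Agent.R151.C31
import Crest.Agent.R151.C32
import Crest.Agent.R151.C33
import Crest.Agent.R151.C30b

/-! Row 151 (C): stages, deterministic part -/

set_option autoImplicit false

open MeasureTheory Set Filter Topology
open Crest.ProbabilityR.FirstPassage
open Crest.Agent.R151.B

namespace Crest.Agent.R151.C

noncomputable section

namespace Par

variable {p : Par} {F : Chart} {t : Env} {w : ℝ × ℝ} {ω C : ℝ} {i : ℕ}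

/-- the reference solution of a stage -/
theorem ref (hp : p.OK F) (ht : t ∈ p.Cells F i w) : ∃ B,
    Sol t (Bx (p.eta F i) ((p.eta F i).ap w) (p.rr i + 1)) B ∧
    Nice (p.eta F i) t B ((p.eta F i).ap w) (p.rr i) (p.tau i) (p.up i) ∧
    Sol t (Bx (p.eta F (i + 1)) ((p.eta F (i + 1)).ap w) 13) B ∧
    Nice (p.eta F (i + 1)) t B ((p.eta F (i + 1)).ap w) 12 (p.tauP i) (p.upP i) := by
  have hLo : 0 < p.lo i := by
    have := hp.c1
    unfold lo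
    positivity
  have hK := (Kj_le hp.l0 i).1
  have hc : (800 : ℝ) • (p.eta F i).ap w = ((p.phi F i).shear (1 / 3) 1).ap w := by
    rw [eta_phi, Chart.shear_ap, Chart.shear_ap]
    ext
    · simp only [shr, Prod.smul_fst, smul_eq_mul]; ring
    · simp only [shr, Prod.smul_snd, smul_eq_mul]; ring
  have ht' : t ∈ AllGood (p.phi F i) ((800 : ℝ) • (p.eta F i).ap w) (800 * p.rr i + 1110)
      (p.tc i) (p.lo i) (Kj p.l0 (p.jj i) * p.lo i) := by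
    rw [hc]; exact ht
  obtain ⟨B, hS, hN⟩ := patchsol (hp.phi i) (p.rr i) hLo hK ht'
  rw [← eta_phi] at hS hN
  obtain ⟨n1, n2⟩ := num_patch hp.l0 hp.D0 hp.c1 i
  have hN' := hN.mono n1 n2
  obtain ⟨u1, u2, u3, u4⟩ := num_up (p := p) hp.l0 i
  have hl : (0 : ℝ) < 3 ^ p.jj i / 3 ^ p.jj (i + 1) := by positivity
  have hl1 : (3 : ℝ) ^ p.jj i / 3 ^ p.jj (i + 1) ≤ 1 := by
    rcases u2 with h | h
    · linarith
    · exact h.le
  have hU := upnice (hp.eta i) hl u2 u1 u3 hN'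
  have hap : (p.eta F (i + 1)).ap w = shr (3 ^ p.jj i / 3 ^ p.jj (i + 1))
      (p.sg (i + 1) / p.sg i) ((p.eta F i).ap w) := by
    rw [eta_succ, Chart.shear_ap]
  have hτ : 0 ≤ p.tau i := by
    have := (gr_dd (p := p) hp.l0 i).1
    have := hp.D0
    unfold tau
    positivity
  have hup : 0 ≤ p.up i := by
    unfold up
    positivity
  refine ⟨B, hS, hN', hS.mono ?_, ?_⟩
  · rw [hap, eta_succ]
    refine (Bx_unshear _ hl hl1 (by linarith) _ _).trans (Bx_mono_r _ _ ?_)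
    linarith
  · rw [hap, eta_succ]
    refine hU.mono ?_ ?_
    · refine (mul_le_mul_of_nonneg_right u4 hτ).trans (le_of_eq ?_)
      unfold tau tauP
      rw [show 312 * (p.M + i) = 2 * (p.M + i) + 310 * (p.M + i) by ring, pow_add]
      ring
    · refine (mul_le_mul_of_nonneg_right u4 hup).trans (le_of_eq ?_)
      unfold up upP
      rw [show 8 * (p.M + i) = 2 * (p.M + i) + 6 * (p.M + i) by ring, pow_add]
      ring

theorem C35_sub (hp : p.OK F) (i : ℕ) (w : ℝ × ℝ) :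
    Bx (p.ph0 F) ((p.ph0 F).ap w) (p.L i) ⊆ Bx (p.eta F (i + 1)) ((p.eta F (i + 1)).ap w) 7 := by
  refine Bx_eta p F (i + 1) w ?_
  have := (num_far (p := p) hp.l0 i).1
  have : (0 : ℝ) ≤ p.sg (i + 1) := Nat.cast_nonneg _
  linarith

theorem ref_mac (hp : p.OK F) (hω : 0 < ω) (hn : p.Num ω C) {B : Z2 → ℝ}
    (hS : Sol t (Bx (p.eta F (i + 1)) ((p.eta F (i + 1)).ap w) 13) B)
    (hN : Nice (p.eta F (i + 1)) t B ((p.eta F (i + 1)).ap w) 12 (p.tauP i) (p.upP i))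
    (hL : t ∈ p.Lin F ω C i w) :
    Sub t (Bx (p.ph0 F) ((p.ph0 F).ap w) (p.L i)) B ∧
      Mac (p.ph0 F) t B (Bx (p.ph0 F) ((p.ph0 F).ap w) (p.L i)) p.eps ((p.GG i : ℝ) / 4) (9 * p.θ) := by
  have hU := C35_sub hp i w
  have hs : 0 < p.s0 := by unfold s0; positivity
  refine ⟨hS.1.mono (hU.trans (Bx_mono_r _ _ (by norm_num))), ?_⟩
  exact macof (hp.eta (i + 1)) hS hN hL hU hs hω.le (by positivity) (by linarith [hn.th]) (hn.mac i)

theorem stg_zero (hp : p.OK F) (hω : 0 < ω) (hn : p.Num ω C) {w' : ℝ × ℝ} {y : ℝ}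
    (hy : |y - ((p.ph0 F).ap w').2| ≤ p.R) (hc : t ∈ p.Cells F 0 w) (hL : t ∈ p.Lin F ω C 0 w)
    (hH : ∀ i m : ℤ, |i * (p.R2 / 2)| ≤ p.L 0 + p.R2 → |(m : ℝ) / 4| ≤ p.L 0 + 1 →
      t ∈ HitAt (p.eta F 0) (p.ph0 F) (p.tau 0) (p.up 0) p.R p.θ w' y p.R2
        (((p.ph0 F).ap w).1 + i * (p.R2 / 2)) (((p.ph0 F).ap w).2 + m / 4)) :
    t ∈ p.Stg F 0 w := by
  obtain ⟨B, S0, N0, S1, N1⟩ := ref hp hc
  obtain ⟨hS, hM⟩ := ref_mac hp hω hn S1 N1 hL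
  obtain ⟨a1, a2, -, a4, a5, -⟩ := num_hit (p := p) hp.l0
  obtain ⟨b1, -, -, -, -, -, -, -, -, -, -, -, -, -, -, b2, b3⟩ := num_tilt (p := p) hp.l0 hp.D0 0
  have hR : 0 ≤ p.R := by unfold R; positivity
  have hσ : (1 : ℝ) ≤ p.sg 0 := by
    have : 1 ≤ p.sg 0 := Nat.one_le_iff_ne_zero.2 (by unfold sg; positivity)
    exact_mod_cast this
  rw [eta_eq] at S0 N0 hH
  have hl1 : (1 : ℝ) / 3 ^ (p.jj 0 + 1) ≤ 1 := by
    rw [div_le_one (by positivity)]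
    exact one_le_pow₀ (by norm_num)
  have hit := hit_det hp.ok (by positivity) hl1 hσ S0 N0 hR (by linarith) hy a1 (by linarith) hH
  refine ⟨B, S1, N1, ?_⟩
  rw [b2, b3]
  exact base_det hp.ok a5 b1.le a4 hS hit hM

theorem C35_round {x L : ℝ} {n : ℕ} (hL : 0 < L) (hx : |x| ≤ 2 ^ (n + 1) * L) :
    ∃ g : ℤ, |g| ≤ 2 ^ (n + 2) + 1 ∧ |x - g * (L / 2)| ≤ L / 4 := by
  have h1 := abs_sub_round (x / (L / 2))
  refine ⟨round (x / (L / 2)), ?_, ?_⟩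
  · have h2 : |x / (L / 2)| ≤ 2 ^ (n + 2) := by
      rw [abs_div, abs_of_pos (by positivity : 0 < L / 2), div_le_iff₀ (by positivity)]
      calc |x| ≤ 2 ^ (n + 1) * L := hx
        _ = 2 ^ (n + 2) * (L / 2) := by ring
    have h3 : |((round (x / (L / 2)) : ℤ) : ℝ)| ≤ 2 ^ (n + 2) + 1 := by
      have := abs_sub_abs_le_abs_sub ((round (x / (L / 2)) : ℤ) : ℝ) (x / (L / 2))
      rw [abs_sub_comm] at this
      linarith
    exact_mod_cast h3
  · have e : x - (round (x / (L / 2)) : ℤ) * (L / 2) =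
        (x / (L / 2) - (round (x / (L / 2)) : ℤ)) * (L / 2) := by
      field_simp
    rw [e, abs_mul, abs_of_pos (by positivity : 0 < L / 2)]
    nlinarith

theorem stg_succ (hp : p.OK F) (hω : 0 < ω) (hn : p.Num ω C) (hc : t ∈ p.Cells F (i + 1) w)
    (hL : t ∈ p.Lin F ω C (i + 1) w) (u : ℤ × ℤ → ℝ × ℝ)
    (hu : ∀ g : ℤ × ℤ, (p.ph0 F).ap (u g) =
      (((p.ph0 F).ap w).1 + g.1 * (p.L i / 2), ((p.ph0 F).ap w).2 + g.2 * (p.L i / 2)))
    (h2 : ∀ g g' : ℤ × ℤ, |g.1| ≤ 2 ^ (p.M + i + 2) + 1 → |g.2| ≤ 2 ^ (p.M + i + 2) + 1 →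
      |g'.1| ≤ 2 ^ (p.M + i + 2) + 1 → |g'.2| ≤ 2 ^ (p.M + i + 2) + 1 →
      t ∉ p.Stg F i (u g) → t ∉ p.Stg F i (u g') →
      |(g.1 - g'.1 : ℝ)| * (p.L i / 2) ≤ p.WW i ∧ |(g.2 - g'.2 : ℝ)| * (p.L i / 2) ≤ p.WW i) :
    t ∈ p.Stg F (i + 1) w := by
  obtain ⟨B, S0, N0, S1, N1⟩ := ref hp hc
  obtain ⟨hS, hM⟩ := ref_mac hp hω hn S1 N1 hL
  obtain ⟨-, b0, -, b1, b2, -, b3, -, b4, b5, -, b6, b7, -, b8, -, -⟩ :=
    num_tilt (p := p) hp.l0 hp.D0 i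
  obtain ⟨-, -, c0, -, -, -, -, -, -, -, c1, -⟩ := num_tilt (p := p) hp.l0 hp.D0 (i + 1)
  obtain ⟨-, e1⟩ := num_EE (p := p) hp.l0 hp.D0 i
  obtain ⟨-, e2⟩ := num_link (p := p) hp.l0 hp.D0 i
  obtain ⟨-, -, f1, f2⟩ := num_far (p := p) hp.l0 i
  have hL0 : 0 < p.L i := by linarith
  have hLL : p.L (i + 1) = 2 ^ (p.M + i + 1) * p.L i := by
    unfold L
    rw [GG_succ]
    push_cast
    rfl
  obtain ⟨z, hz⟩ : ∃ z : ℝ × ℝ, ∀ g : ℤ × ℤ, |g.1| ≤ 2 ^ (p.M + i + 2) + 1 →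
      |g.2| ≤ 2 ^ (p.M + i + 2) + 1 → t ∉ p.Stg F i (u g) →
      |((p.ph0 F).ap (u g)).1 - z.1| ≤ p.WW i ∧ |((p.ph0 F).ap (u g)).2 - z.2| ≤ p.WW i := by
    by_cases hb : ∃ g : ℤ × ℤ, |g.1| ≤ 2 ^ (p.M + i + 2) + 1 ∧
      |g.2| ≤ 2 ^ (p.M + i + 2) + 1 ∧ t ∉ p.Stg F i (u g)
    · obtain ⟨g0, g1, g2, g3⟩ := hb
      refine ⟨(p.ph0 F).ap (u g0), fun g k1 k2 k3 => ?_⟩
      obtain ⟨d1, d2⟩ := h2 g g0 k1 k2 g1 g2 k3 g3
      rw [hu g, hu g0]
      constructor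
      · rw [← abs_of_pos (by positivity : 0 < p.L i / 2), ← abs_mul] at d1
        refine le_trans (le_of_eq (congrArg _ ?_)) d1
        show _ + _ * _ - (_ + _ * _) = _
        ring
      · rw [← abs_of_pos (by positivity : 0 < p.L i / 2), ← abs_mul] at d2
        refine le_trans (le_of_eq (congrArg _ ?_)) d2
        show _ + _ * _ - (_ + _ * _) = _
        ring
    · exact ⟨0, fun g k1 k2 k3 => absurd ⟨g, k1, k2, k3⟩ hb⟩
  refine ⟨B, S1, N1, ?_⟩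
  have key := step_det (z := z) (α := p.al i) (β := p.be i) (δ := p.al i - p.al (i + 1))
    (a := p.al0) (E := p.EE i + (3 * p.tauP i + 3 * p.tau (i + 1))) (L := p.L i) (W := p.WW i)
    hp.ok hS hM b8 f1 (le_of_eq rfl) b6.le b7 (by linarith) (by linarith) b1 b3
    (by rw [← b5]; exact c1) b4 (by linarith) ?_
  · rw [← b5, show p.al i - (p.al i - p.al (i + 1)) = p.al (i + 1) by ring] at key
    exact key
  intro x hx hxz
  obtain ⟨x1, x2⟩ := hx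
  obtain ⟨g1, k1, m1⟩ := C35_round (n := p.M + i) hL0 (by rw [← hLL]; exact x1)
  obtain ⟨g2, k2, m2⟩ := C35_round (n := p.M + i) hL0 (by rw [← hLL]; exact x2)
  have q1 : |(p.ph0 F).x x - ((p.ph0 F).ap (u (g1, g2))).1| ≤ p.L i / 4 := by
    rw [hu]
    convert m1 using 2
    ring
  have q2 : |(p.ph0 F).y x - ((p.ph0 F).ap (u (g1, g2))).2| ≤ p.L i / 4 := by
    rw [hu]
    convert m2 using 2
    ring
  have good : t ∈ p.Stg F i (u (g1, g2)) := by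
    by_contra hb
    obtain ⟨d1, d2⟩ := hz (g1, g2) k1 k2 hb
    apply hxz
    constructor
    · have := abs_sub_le ((p.ph0 F).x x) ((p.ph0 F).ap (u (g1, g2))).1 z.1
      linarith
    · have := abs_sub_le ((p.ph0 F).y x) ((p.ph0 F).ap (u (g1, g2))).2 z.2
      linarith
  obtain ⟨r1, r2⟩ := eta_dist p F (i + 1) (w := u (g1, g2)) (w' := w)
    (r := (p.rr (i + 1) - 12 : ℝ))
    (by
      have := abs_sub_le ((p.ph0 F).ap (u (g1, g2))).1 ((p.ph0 F).x x) ((p.ph0 F).ap w).1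
      rw [abs_sub_comm] at q1
      linarith)
    (by
      have := abs_sub_le ((p.ph0 F).ap (u (g1, g2))).2 ((p.ph0 F).y x) ((p.ph0 F).ap w).2
      rw [abs_sub_comm] at q2
      linarith)
  have hT := step_link (hp.eta (i + 1)) S0 N0 (by linarith) (by linarith)
    (C35_sub hp i (u (g1, g2))) good
  refine hT.mono (inter_subset_right.trans (Bx_mono _ ?_ ?_)) le_rfl
  · show |(p.ph0 F).x x - _| + _ ≤ _
    linarith
  · show |(p.ph0 F).y x - _| + _ ≤ _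
    linarith

/-- the tilt contradicts a long thin cheap lane -/
theorem top (hp : p.OK F) (hS : t ∈ p.Stg F i w) (hL : t ∈ p.Lin F ω C i w) {e Up : ℝ}
    (hN : Nice (Ph F (p.s0 * p.L i / (512 * p.R2)) 1) t (ψ0 F)
      ((Ph F (p.s0 * p.L i / (512 * p.R2)) 1).ap w) (256 * p.R2) e Up) :
    p.al0 * p.L i / 4 ≤ 5 * p.lin C i + e := by
  obtain ⟨B, S1, N1, hT⟩ := hS
  obtain ⟨b0, b1, b2, -, -, b3, b4, b5, -, -, -, -, -, b6, b7, -, -⟩ :=
    num_tilt (p := p) hp.l0 hp.D0 i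
  obtain ⟨-, e1⟩ := num_EE (p := p) hp.l0 hp.D0 i
  obtain ⟨e0, e2⟩ := num_link (p := p) hp.l0 hp.D0 i
  obtain ⟨-, -, -, -, hR, -⟩ := num_hit (p := p) hp.l0
  have hs : 0 < p.s0 := by unfold s0; positivity
  have hL0 : 0 < p.L i := by linarith
  have hR0 : 0 < p.R2 := by linarith
  obtain ⟨ν, hν⟩ : ∃ ν, ν = p.L i / (512 * p.R2) := ⟨_, rfl⟩
  have hR1 : 0 < 512 * p.R2 := by linarith
  have hν0 : 0 < ν := by rw [hν]; exact div_pos hL0 hR1
  have hνL : ν * (512 * p.R2) = p.L i := by rw [hν]; exact div_mul_cancel₀ _ hR1.ne'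
  have hsν : p.s0 * p.L i / (512 * p.R2) = p.s0 * ν := by rw [hν]; ring
  rw [hsν] at hN
  have hsν0 : p.s0 * ν ≠ 0 := by positivity
  have ex : ∀ z, (p.ph0 F).x z = ν * (Ph F (p.s0 * ν) 1).x z := fun z => by
    unfold ph0
    rw [Ph_one_x F hs.ne', Ph_one_x F hsν0]
    field_simp
  have ey : ∀ z, (p.ph0 F).y z = ν * (Ph F (p.s0 * ν) 1).y z := fun z => by
    unfold ph0
    rw [Ph_one_y F hs.ne', Ph_one_y F hsν0]
    field_simp
  have ea : ((p.ph0 F).ap w).1 = ν * ((Ph F (p.s0 * ν) 1).ap w).1 ∧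
      ((p.ph0 F).ap w).2 = ν * ((Ph F (p.s0 * ν) 1).ap w).2 := by
    unfold ph0 Ph
    rw [Chart.shear_ap, Chart.shear_ap, shr_one hs.ne', shr_one hsν0]
    constructor
    · show _ / _ = ν * (_ / _)
      field_simp
    · show _ / _ = ν * (_ / _)
      field_simp
  obtain ⟨P, hP⟩ := hN.1 ((Ph F (p.s0 * ν) 1).ap w).2 (by linarith) (by linarith)
  have hin := hP.In (by linarith) (by linarith)
  have hνb : ν * (256 * p.R2 + 1 / 10) ≤ p.L i := by nlinarith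
  have hin' : P.In (Bx (p.ph0 F) ((p.ph0 F).ap w) (p.L i)) := by
    intro k hk
    obtain ⟨y1, y2⟩ := hin k hk
    constructor
    · rw [ex, ea.1, ← mul_sub, abs_mul, abs_of_pos hν0]
      exact (mul_le_mul_of_nonneg_left y1 hν0.le).trans hνb
    · rw [ey, ea.2, ← mul_sub, abs_mul, abs_of_pos hν0]
      exact (mul_le_mul_of_nonneg_left y2 hν0.le).trans hνb
  have t1 := hT P hin'
  have t2 := hP.2.1.tot
  have t3 := (linloc (hp.eta (i + 1)) S1 N1 hL P.fst (C35_sub hp i w hin'.fst) P.lst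
    (C35_sub hp i w hin'.lst)).2
  obtain ⟨⟨h1, h2, h3⟩, -, -⟩ := hP
  have dx : p.L i ≤ (p.ph0 F).x P.lst - (p.ph0 F).x P.fst := by
    rw [ex, ex, ← mul_sub, ← hνL]
    exact mul_le_mul_of_nonneg_left (by linarith) hν0.le
  have dy : (p.ph0 F).y P.lst - (p.ph0 F).y P.fst ≤ ν := by
    have a1 := (h1 0 (Nat.zero_le _)).1
    have a2 := (h1 P.n le_rfl).2.1
    rw [ey, ey, ← mul_sub]
    refine (mul_le_mul_of_nonneg_left (?_ : _ ≤ (1 : ℝ)) hν0.le).trans (by linarith)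
    unfold Pth.fst Pth.lst
    linarith
  have u1 : p.al0 / 2 * p.L i ≤ p.al i * ((p.ph0 F).x P.lst - (p.ph0 F).x P.fst) :=
    mul_le_mul b2 dx hL0.le (by linarith)
  have u2 : p.be i * ((p.ph0 F).y P.lst - (p.ph0 F).y P.fst) ≤ 9 * p.θ * ν :=
    (mul_le_mul_of_nonneg_left dy b4).trans (mul_le_mul_of_nonneg_right b5 hν0.le)
  have u3 : 9 * p.θ * ν = 9 / 128 * (p.al0 * p.L i) := by
    rw [b6, ← hνL]; ring
  have u4 : (p.al i - p.al (i + 1)) * p.L i ≤ p.al0 / 8 * p.L i :=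
    mul_le_mul_of_nonneg_right b3 hL0.le
  have u5 : 0 ≤ p.al0 * p.L i := by positivity
  nlinarith

end Par

end

end Crest.Agent.R151.C
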