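import Crest.Agent.R151.C35
import Crest.Agent.R151.C25
import Crest.Agent.R151.C27

/-! Row 151 (C): stages, probabilities; there is no signal -/

set_option autoImplicit false

open MeasureTheory Set Filter Topology
open Crest.ProbabilityR.FirstPassage
open Crest.Agent.R151.B

namespace Crest.Agent.R151.C

noncomputable section

namespace Par

variable {G : Measure ℝ} {p : Par} {F : Chart} {ω C D : ℝ}

theorem C36_three (hG : Law G) {A B B' B'' : Set Env} (h : ∀ t, t ∈ B → t ∈ B' → t ∉ B'' → t ∈ A) :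
    Pr G Aᶜ ≤ Pr G Bᶜ + Pr G B'ᶜ + Pr G B'' := by
  have hs : Aᶜ ⊆ Bᶜ ∪ B'ᶜ ∪ B'' := fun t ht => by
    by_contra hn
    simp only [mem_union, mem_compl_iff, not_or, not_not] at hn
    exact ht (h t hn.1.1 hn.1.2 hn.2)
  exact (hG.mono hs).trans ((hG.union _ _).trans (add_le_add (hG.union _ _) le_rfl))

theorem C36_ps (p : Par) (i : ℕ) : 0 ≤ p.ps i := by
  show (0 : ℝ) ≤ (1 / 2) ^ (6 * (p.M + i))
  positivity

theorem C36_sg (p : Par) (i : ℕ) : (1 : ℝ) ≤ p.sg i := by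
  have : 0 < p.sg i := by
    show 0 < 800 ^ (p.jj i + 1) * 2 ^ p.dd i
    positivity
  exact_mod_cast this

theorem C36_l (n : ℕ) : (1 : ℝ) / 3 ^ (n + 1) ≤ 1 / 3 :=
  one_div_le_one_div_of_le (by norm_num) (le_self_pow₀ (by norm_num) (Nat.succ_ne_zero n))

theorem cells_pr (hG : Law G) (hp : p.OK F) (hN : ∀ j, p.NL G F j) (i : ℕ) (w : ℝ × ℝ) :
    Pr G (p.Cells F i w)ᶜ ≤ p.ps i / 4 := by
  exact (AllGood_pr hG (fun c => hN (p.jj i) (p.dd i) c) _ (p.NN i)).trans (num_cells hp.l0 i)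

theorem lin_pr (hn : p.Num ω C)
    (hL : ∀ (s l : ℝ) (c : ℝ × ℝ), C ≤ s → 0 < l → l ≤ 1 / 3 →
      Pr G (LinE (Ph F (200 * s) l) F c p.eps ω (C / l * s ^ (7 / 8 : ℝ)))ᶜ ≤
        C / l ^ 2 * s ^ (-(1 / 4) : ℝ)) (i : ℕ) (w : ℝ × ℝ) :
    Pr G (p.Lin F ω C i w)ᶜ ≤ p.ps i / 4 := by
  have h := hL (p.sg (i + 1) * p.s0 / 200) (1 / 3 ^ (p.jj (i + 1) + 1)) ((p.eta F (i + 1)).ap w)
    (hn.big i) (by positivity) (C36_l _)
  rw [mul_div_cancel₀ _ (by norm_num : (200 : ℝ) ≠ 0), one_div_pow, div_div_eq_mul_div, div_one,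
    div_div_eq_mul_div, div_one] at h
  exact h.trans (hn.pr i)

theorem stg_pr_zero (hG : Law G) (hp : p.OK F) (hω : 0 < ω) (hn : p.Num ω C)
    (hc : ∀ w, Pr G (p.Cells F 0 w)ᶜ ≤ p.ps 0 / 4) (hl : ∀ w, Pr G (p.Lin F ω C 0 w)ᶜ ≤ p.ps 0 / 4)
    {w' : ℝ × ℝ} {y : ℝ} (hy : |y - ((p.ph0 F).ap w').2| ≤ p.R)
    (hs : p.q / 1000 ≤ Pr G (p.SigE F w' y)) (w : ℝ × ℝ) : Pr G (p.Stg F 0 w)ᶜ ≤ p.ps 0 := by
  obtain ⟨-, a2, a3, -, a5, -⟩ := num_hit hp.l0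
  have hL : 0 ≤ p.L 0 := Nat.cast_nonneg _
  have h1 := hit_all hG (A := fun i m => HitAt (p.eta F 0) (p.ph0 F) (p.tau 0) (p.up 0) p.R p.θ w' y
    p.R2 (((p.ph0 F).ap w).1 + i * (p.R2 / 2)) (((p.ph0 F).ap w).2 + m / 4))
    (b := (1 - p.q / 1000) ^ (2 ^ (p.M - 23) : ℕ)) (R2 := p.R2) (by linarith) hL fun i m => by
      have hs' : p.q / 1000 ≤ Pr G (Sig (p.eta F 0) (p.ph0 F) (p.tau 0) (p.up 0) p.R p.θ w' y) := hs
      rw [eta_eq] at hs' ⊢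
      exact hit_pr hG hp.ok (by positivity) ((C36_l _).trans (by norm_num)) (C36_sg p 0) hs'
        (by linarith [C36_sg p 0]) a3 _ _
  refine (C36_three hG fun t h2 h3 h4 => stg_zero hp hω hn hy h2 h3 (not_not.1 h4)).trans ?_
  refine (add_le_add (add_le_add (hc w) (hl w)) (h1.trans (num_hit_pr hp.l0))).trans ?_
  linarith [C36_ps p 0]

theorem stg_pr_succ (hG : Law G) (hp : p.OK F) (hω : 0 < ω) (hn : p.Num ω C) {i : ℕ}
    (hc : ∀ w, Pr G (p.Cells F (i + 1) w)ᶜ ≤ p.ps (i + 1) / 4)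
    (hl : ∀ w, Pr G (p.Lin F ω C (i + 1) w)ᶜ ≤ p.ps (i + 1) / 4)
    (h : ∀ w, Pr G (p.Stg F i w)ᶜ ≤ p.ps i) (w : ℝ × ℝ) :
    Pr G (p.Stg F (i + 1) w)ᶜ ≤ p.ps (i + 1) := by
  choose u hu using fun g : ℤ × ℤ => Chart.ap_surj hp.ok.det
    (((p.ph0 F).ap w).1 + g.1 * (p.L i / 2), ((p.ph0 F).ap w).2 + g.2 * (p.L i / 2))
  obtain ⟨a1, a2, -, -⟩ := num_far hp.l0 i
  have hL : 0 ≤ p.L i := Nat.cast_nonneg _
  set ρ : ℝ := 13 * (p.sg (i + 1) : ℝ) * 3 ^ (p.jj (i + 1) + 1) with hρ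
  have hLρ : p.L i ≤ ρ := by
    have b1 : (1 : ℝ) ≤ 3 ^ (p.jj (i + 1) + 1) := one_le_pow₀ (by norm_num)
    have b2 := C36_sg p (i + 1)
    nlinarith
  have hdep : ∀ v, Dep (p.Stg F i v)ᶜ (Bx (p.ph0 F) ((p.ph0 F).ap v) ρ) := fun v =>
    ((StgA_dep _ _ _ _ _ _ _ _ _).mono
      (union_subset (eta_Bx p F (i + 1) v 13) (Bx_mono_r _ _ hLρ))).compl
  have hm : ∀ v, MeasurableSet (p.Stg F i v)ᶜ := fun v =>
    (StgA_meas (hp.eta (i + 1)).det hp.ok.det _ _ _ _ _ _ _).compl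
  set n : ℤ := 2 ^ (p.M + i + 2) + 1 with hnn
  have hn0 : 0 ≤ n := by positivity
  set I : Finset (ℤ × ℤ) := Finset.Icc (-n) n ×ˢ Finset.Icc (-n) n with hI
  let A : (ℤ × ℤ) × ℤ × ℤ → Set Env := fun g => {t | ¬ (|(g.1.1 - g.2.1 : ℝ)| * (p.L i / 2) ≤ p.WW i ∧
    |(g.1.2 - g.2.2 : ℝ)| * (p.L i / 2) ≤ p.WW i) ∧ t ∈ (p.Stg F i (u g.1))ᶜ ∩ (p.Stg F i (u g.2))ᶜ}
  have hA : ∀ g, Pr G (A g) ≤ p.ps i ^ 2 := fun g => by
    by_cases hg : |(g.1.1 - g.2.1 : ℝ)| * (p.L i / 2) ≤ p.WW i ∧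
      |(g.1.2 - g.2.2 : ℝ)| * (p.L i / 2) ≤ p.WW i
    · have e : A g = ∅ := eq_empty_of_forall_notMem fun t ht => ht.1 hg
      rw [e, show Pr G ∅ = 0 from measureReal_empty]
      positivity
    · refine (hG.mono fun t ht => ht.2).trans ?_
      rw [indep_two hG (Bx_disj _ ?_) (hm _) (hm _) (hdep _) (hdep _), sq]
      · exact mul_le_mul (h _) (h _) (Pr_nonneg _ _) (C36_ps p i)
      · rw [hu, hu]
        dsimp only
        rw [add_sub_add_left_eq_sub, add_sub_add_left_eq_sub, ← sub_mul, ← sub_mul, abs_mul, abs_mul,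
          abs_of_nonneg (show 0 ≤ p.L i / 2 by positivity)]
        rcases not_and_or.1 hg with hg | hg
        · exact Or.inl (by linarith [not_le.1 hg])
        · exact Or.inr (by linarith [not_le.1 hg])
  have h1 : Pr G (⋃ g ∈ I ×ˢ I, A g) ≤ p.ps (i + 1) / 4 := by
    refine (hG.biUnion _ _).trans ((Finset.sum_le_card_nsmul _ _ _ fun g _ => hA g).trans ?_)
    refine le_trans (le_of_eq ?_) (num_pairs hp.l0 i)
    rw [nsmul_eq_mul, Finset.card_product, hI, Finset.card_product, Nat.cast_mul, Nat.cast_mul,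
      ball_fin_card _ _ (by omega), hnn]
    push_cast
    ring
  refine (C36_three hG (B'' := ⋃ g ∈ I ×ˢ I, A g) fun t h2 h3 h4 =>
    stg_succ hp hω hn h2 h3 u hu fun g g' b1 b2 b3 b4 b5 b6 => ?_).trans ?_
  · by_contra hg
    refine h4 (mem_iUnion₂.2 ⟨(g, g'), ?_, hg, b5, b6⟩)
    simp only [hI, Finset.mem_product, Finset.mem_Icc]
    exact ⟨⟨abs_le.1 b1, abs_le.1 b2⟩, abs_le.1 b3, abs_le.1 b4⟩
  · linarith [hc w, hl w, C36_ps p (i + 1)]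

theorem no_sig (hG : Law G) (hF : Face G F D) (hp : p.OK F) (hN : ∀ j, p.NL G F j) (hω : 0 < ω)
    (hn : p.Num ω C)
    (hL : ∀ (s l : ℝ) (c : ℝ × ℝ), C ≤ s → 0 < l → l ≤ 1 / 3 →
      Pr G (LinE (Ph F (200 * s) l) F c p.eps ω (C / l * s ^ (7 / 8 : ℝ)))ᶜ ≤
        C / l ^ 2 * s ^ (-(1 / 4) : ℝ)) {w : ℝ × ℝ} {y : ℝ}
    (hy : |y - ((p.ph0 F).ap w).2| ≤ p.R) : Pr G (p.SigE F w y) ≤ p.q / 1000 := by
  by_contra hs
  have hall : ∀ i v, Pr G (p.Stg F i v)ᶜ ≤ p.ps i := fun i => by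
    induction i with
    | zero => exact stg_pr_zero hG hp hω hn (cells_pr hG hp hN 0) (lin_pr hn hL 0) hy (not_le.1 hs).le
    | succ i ih => exact stg_pr_succ hG hp hω hn (cells_pr hG hp hN _) (lin_pr hn hL _) ih
  obtain ⟨-, -, -, -, a5, -⟩ := num_hit hp.l0
  obtain ⟨C', -, hC⟩ := ap_nice hG hF (r := 256 * p.R2) (by linarith)
  obtain ⟨i, b1, b2, b3⟩ := num_top hp.l0 hp.D0 C C'
  have h1 := (hC _ ((Ph F (p.s0 * p.L i / (512 * p.R2)) 1).ap w) b1).trans b2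
  have h2 := C36_three hG (A := ∅) fun t (h2 : t ∈ p.Stg F i w) (h3 : t ∈ p.Lin F ω C i w)
    (h4 : t ∉ {t | ¬ Nice (Ph F (p.s0 * p.L i / (512 * p.R2)) 1) t (ψ0 F)
      ((Ph F (p.s0 * p.L i / (512 * p.R2)) 1).ap w) (256 * p.R2)
      (C' * (p.s0 * p.L i / (512 * p.R2)) ^ (7 / 8 : ℝ))
      ((2 * (256 * p.R2) + 3) * (p.s0 * p.L i / (512 * p.R2)))}) =>
    absurd (top hp h2 h3 (not_not.1 h4)) (not_le.2 b3)
  have h3 := hG.compl_ge ∅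
  rw [show Pr G ∅ = 0 from measureReal_empty] at h3
  linarith [hall i w, lin_pr hn hL i w, (num_sig hp.l0 hp.D0).2.2.2 i]

theorem NL.swap {j : ℕ} (h : p.NL G F j) : p.NL G F.swap j := by
  intro d c
  have h1 := h d c.swap
  rw [← Good_swap] at h1
  exact h1

end Par

end

end Crest.Agent.R151.C
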