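import Crest.Agent.R151.C36
import Crest.Agent.R151.C28
import Crest.Agent.R151.C16
import Crest.Agent.R151.C17
import Crest.Agent.R151.C26
import Crest.Agent.R151.C26b
import Crest.Agent.R151.C34
import Crest.Agent.R151.B7

/-! Row 151 (C): there is no flat edge -/

set_option autoImplicit false

open MeasureTheory Set Filter Topology
open Crest.ProbabilityR.FirstPassage
open Crest.Agent.R151.B

namespace Crest.Agent.R151.C

noncomputable section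

variable {G : Measure ℝ} {F : Chart} {D : ℝ}

theorem sig_par (hG : Law G) {p : Par} (hp : p.OK F) (hN : ∀ j, p.NL G F j) {Lo Up : ℝ}
    (hD : p.D0 / 4 ≤ Up / 2) (hL : ∀ c, Pr G (LoU (p.ph0 F) c Lo Up)ᶜ ≤ p.q / 8)
    (hH : ∀ w y, |y - ((p.ph0 F).ap w).2| ≤ p.R → Pr G (p.SigE F w y) ≤ p.q / 1000)
    (hV : ∀ w y, |y - ((p.ph0 F.swap).ap w).2| ≤ p.R → Pr G (p.SigE F.swap w y) ≤ p.q / 1000)
    (c : ℝ × ℝ) : Pr G (Good (p.ph0 F) c (p.D0 / 4) Lo Up)ᶜ ≤ p.q := by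
  obtain ⟨w, rfl⟩ := Chart.ap_surj hp.ok.det c
  obtain ⟨h1, h2, h3, -⟩ := Par.num_sig hp.l0 hp.D0
  obtain ⟨-, h5, -, -, -, h6⟩ := Par.num_hit (p := p) hp.l0
  have hq : 0 < p.q := (pj_zero p).2.2.2
  have hτ : 0 ≤ p.tau 0 := by
    have := (Par.gr_dd (p := p) hp.l0 0).1
    have := hp.D0
    show 0 ≤ 2 ^ (310 * (p.M + 0)) * gr (p.dd 0) * p.D0
    positivity
  refine signal (η := p.eta F 0) (τ := p.tau 0) (Up := p.up 0) (θ := p.θ) (n := 2 ^ (p.κ0 - 6))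
    hG hp.ok (hp.eta 0) Nat.one_le_two_pow hp.D0 hq.le hτ h1 ?_ hD ?_ ?_ hL ?_ ?_
  · rw [← h3]; rfl
  · rw [← h3]
    exact Par.Bx_eta p F 0 w (by linarith)
  · refine le_trans (hG.mono ?_) ((Par.cells_pr hG hp hN 0 w).trans (by linarith))
    refine compl_subset_compl.2 fun t ht => ?_
    obtain ⟨B, hS, hN', -⟩ := Par.ref hp ht
    have h7 : (30 : ℝ) ≤ p.rr 0 := by exact_mod_cast h6
    exact ⟨B, GoodN_of (hp.eta 0) hS hN' (by simpa using h7) (by simpa using h7)⟩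
  · rw [← h3]
    exact fun y hy => hH w y hy
  · rw [← h3]
    intro y hy
    have e1 : p.ph0 F.swap = (p.ph0 F).swap := (Ph_swap F _ _).symm
    have e2 : p.eta F.swap 0 = (p.eta F 0).swap := (Ph_swap F _ _).symm
    have := hV w y (by rw [e1, Chart.swap_ap]; exact hy)
    rw [← e1, ← e2]
    exact this

theorem nl_all (hG : Law G) {p : Par} (hp : p.OK F) {C : ℝ}
    (hLo : ∀ (s l : ℝ) (c : ℝ × ℝ), C ≤ s → 0 < l → l ≤ 1 →
      Pr G {t | ¬ LoP (Ph F s l) t (Bx (Ph F s l) c 31) 1 (p.c1 * s)} ≤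
        C / l ^ 2 * Real.exp (-(p.c1 * s)))
    (hk : ∀ k j : ℕ, p.k0 ≤ k → C ≤ (800 : ℝ) ^ j * 2 ^ k ∧
      C / (1 / 3 ^ j) ^ 2 * Real.exp (-(p.c1 * (800 ^ j * 2 ^ k))) ≤ pj p.l0 j / 2)
    (h0 : ∀ (d : ℕ) (c : ℝ × ℝ), Pr G (Good (Ph F (2 ^ (p.k0 + d)) 1) c (gr d * p.D0)
      (p.c1 * 2 ^ (p.k0 + d)) (Kj p.l0 0 * (p.c1 * 2 ^ (p.k0 + d))))ᶜ ≤ p.q) (j : ℕ) :
    p.NL G F j := by
  induction j with
  | zero =>
    intro d c
    obtain ⟨h1, h2, -, -⟩ := pj_zero p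
    rw [h1, pow_zero, pow_zero, one_mul, div_one]
    refine le_trans (hG.mono (compl_subset_compl.2 (Good_mono _ _ ?_ le_rfl le_rfl))) (h0 d c)
    have h3 : 0 ≤ gr d := Real.rpow_nonneg (by norm_num) _
    have h4 : 0 ≤ gr d * p.D0 := mul_nonneg h3 hp.D0.le
    rw [mul_assoc]
    exact le_mul_of_one_le_left h4 h2
  | succ j ih =>
    refine net_step hG hp (fun d c => ?_) ih
    obtain ⟨h1, h2⟩ := hk (p.k0 + d) (j + 1) (Nat.le_add_right _ _)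
    have h3 : (1 : ℝ) ≤ 3 ^ (j + 1) := one_le_pow₀ (by norm_num)
    have h4 : (1 : ℝ) ≤ 800 ^ (j + 1) := one_le_pow₀ (by norm_num)
    refine le_trans (hG.mono ?_) ((hLo _ _ c h1 (by positivity)
      (by rw [div_le_one (by positivity)]; exact h3)).trans h2)
    intro t ht ht'
    refine ht (ht'.mono subset_rfl (mul_le_mul_of_nonneg_left ?_ hp.c1.le))
    exact le_mul_of_one_le_left (by positivity) h4

theorem no_face (hG : Law G) (hS : Scal G) (hF : Face G F D) : False := by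
  obtain ⟨c1, K0, C, hc1, -, hC, hok, hLo, hG0⟩ := ap_zero hG hF
  obtain ⟨l0, hl0, hK0⟩ := num_l0 K0
  have hε : 0 < (Par.mk l0 0 1 1).eps :=
    (Par.num_tilt (p := Par.mk l0 0 1 1) hl0 one_pos 0).2.2.2.2.2.2.2.2.2.2.2.1
  obtain ⟨ω, C', hω, hC', hL⟩ := linp hG hF hε
  obtain ⟨ω2, C2, hω2, hC2, hL2⟩ := linp hG hF.swap hε
  have hC0 : 0 < C := by linarith
  have hq0 : (0 : ℝ) < (1 / 2) ^ l0 := by positivity
  have hq8 : ((1 / 2) ^ l0 : ℝ) ≤ 1 / 8 := by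
    have := pow_le_pow_of_le_one (a := (1 / 2 : ℝ)) (by norm_num) (by norm_num)
      (show 3 ≤ l0 by omega)
    linarith [show ((1 / 2) ^ 3 : ℝ) = 1 / 8 by norm_num]
  obtain ⟨ka, hka⟩ := num_k hl0 hω hC' (C2 := 2 * C) (by linarith)
  obtain ⟨kb, hkb⟩ := num_k hl0 hω2 hC2 (C2 := 2 * C) (by linarith)
  obtain ⟨kc, hkc⟩ := num_lo l0 hc1 hC
  obtain ⟨kd, hkd⟩ := num_zero hc1 hC hq0
  obtain ⟨k0, D0, hk0, hD0, hD1, hrec, hnot⟩ := record
    (f := fun k τ => ∀ c, Pr G (Good (Ph F (2 ^ k) 1) c τ (c1 * 2 ^ k)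
      (Kj l0 0 * (c1 * 2 ^ k)))ᶜ ≤ (1 / 2) ^ l0) (k1 := ka + kb + kc + kd) hC0
    (fun k τ τ' h h' c =>
      le_trans (hG.mono (compl_subset_compl.2 (Good_mono _ _ h le_rfl le_rfl))) (h' c))
    (fun k hk => positive hG hS (hok _ (hkd k (by omega)).1) (by positivity) hq8 _)
    (fun k hk c => by
      obtain ⟨h1, h2, -⟩ := hkd k (by omega)
      exact ((hG0 _ _ c h1 hK0).1.trans h2).trans (by linarith))
  obtain ⟨h1, h2, h3⟩ := hkd k0 (by omega)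
  have hp : (Par.mk l0 k0 D0 c1).OK F := ⟨hl0, hD0, hc1, hok _ h1⟩
  have hN : ∀ j, (Par.mk l0 k0 D0 c1).NL G F j :=
    nl_all hG hp hLo (fun k j hk => hkc k j (le_trans (show kc ≤ k0 by omega) hk)) hrec
  have hK1 : 1 ≤ Kj l0 0 := (pj_zero (Par.mk l0 k0 D0 c1)).2.2.1
  have he : (Par.mk l0 k0 D0 c1).eps = (Par.mk l0 0 1 1).eps := rfl
  refine hnot fun c => sig_par hG hp hN ?_ (fun c' => (hG0 _ _ c' h1 hK0).2.trans h2) ?_ ?_ c
  · have h4 : c1 * 2 ^ k0 ≤ Kj l0 0 * (c1 * 2 ^ k0) := le_mul_of_one_le_left (by positivity) hK1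
    show D0 / 4 ≤ _
    linarith
  · intro w y hy
    exact Par.no_sig hG hF hp hN hω (hka _ rfl (le_trans (by omega) hk0) hD0 hD1)
      (by rw [he]; exact hL) hy
  · intro w y hy
    exact Par.no_sig hG hF.swap hp.swap (fun j => (hN j).swap) hω2
      (hkb _ rfl (le_trans (by omega) hk0) hD0 hD1) (by rw [he]; exact hL2) hy

theorem strict {κ r : ℝ} (hκ : 0 < κ) (hr : 0 < r) {μ : ℝ × ℝ → ℝ}
    (hμ : ∀ v : ℝ × ℝ, ∀ᵐ t ∂iidLaw (ProbabilityTheory.gammaMeasure κ r),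
      Tendsto (fun s : ℝ => passageTime t (0, 0) (⌊s * v.1⌋, ⌊s * v.2⌋) / s) atTop (𝓝 (μ v))) :
    StrictConvex ℝ {v : ℝ × ℝ | μ v ≤ 1} := by
  by_contra h
  have hG := gamma_Law hκ hr
  obtain ⟨h1, h2, h3⟩ := hG.mu hμ
  obtain ⟨F, D, hF⟩ := face hG h1 h2 h3 h
  exact no_face hG (gamma_Scal hκ hr) hF

end

end Crest.Agent.R151.C
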