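import Crest.Agent.R151.B1a

/-!
Row 151, part (C) (strict convexity of the limit shape): definitions.
-/

set_option autoImplicit false

open MeasureTheory Set Filter Topology
open Crest.ProbabilityR.FirstPassage
open Crest.Agent.R151.B

namespace Crest.Agent.R151.C

noncomputable section

/-- nonnegative part of the weight of the pair `x, y` -/
def ew (t : Env) (x y : Z2) : ℝ := max (t s(x, y)) 0

/-- a lattice path with `n` steps, constant after time `n` -/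
structure Pth where
  n : ℕ
  v : ℕ → Z2
  adj : ∀ k, k < n → squareLattice.Adj (v k) (v (k + 1))
  stab : ∀ k, n ≤ k → v k = v n

namespace Pth

/-- cost of the steps `i, …, j - 1` -/
def cost (P : Pth) (t : Env) (i j : ℕ) : ℝ := ∑ k ∈ Finset.Ico i j, ew t (P.v k) (P.v (k + 1))
def tot (P : Pth) (t : Env) : ℝ := P.cost t 0 P.n
def fst (P : Pth) : Z2 := P.v 0
def lst (P : Pth) : Z2 := P.v P.n
def In (P : Pth) (U : Set Z2) : Prop := ∀ k, k ≤ P.n → P.v k ∈ U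

/-- the trivial path -/
def nil (x : Z2) : Pth := ⟨0, fun _ => x, fun _ h => absurd h (Nat.not_lt_zero _), fun _ _ => rfl⟩

/-- the piece between the times `i ≤ j ≤ n` -/
def sub (P : Pth) (i j : ℕ) : Pth where
  n := min j P.n - i
  v := fun k => P.v (i + min k (min j P.n - i))
  adj := fun k h => by
    have h1 : min k (min j P.n - i) = k := by omega
    have h2 : min (k + 1) (min j P.n - i) = k + 1 := by omega
    rw [h1, h2]
    exact P.adj (i + k) (by omega)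
  stab := fun k h => by
    have h1 : min k (min j P.n - i) = min j P.n - i := by omega
    rw [h1, min_self]

/-- concatenation -/
def app (P Q : Pth) (h : P.lst = Q.fst) : Pth where
  n := P.n + Q.n
  v := fun k => if k ≤ P.n then P.v k else Q.v (k - P.n)
  adj := fun k hk => by
    by_cases h1 : k + 1 ≤ P.n
    · rw [if_pos (by omega), if_pos h1]; exact P.adj k (by omega)
    · by_cases h2 : k ≤ P.n
      · have hk' : k = P.n := by omega
        rw [if_pos h2, if_neg h1, hk']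
        have : P.v P.n = Q.v 0 := h
        rw [this, show P.n + 1 - P.n = 0 + 1 by omega]
        exact Q.adj 0 (by omega)
      · rw [if_neg h2, if_neg h1, show k + 1 - P.n = (k - P.n) + 1 by omega]
        exact Q.adj _ (by omega)
  stab := fun k hk => by
    by_cases h0 : Q.n = 0
    · have e : P.v P.n = Q.v 0 := h
      by_cases h1 : k ≤ P.n
      · have : k = P.n := by omega
        rw [if_pos h1, if_pos (by omega), this, h0, Nat.add_zero]
      · rw [if_neg h1, if_pos (by omega), h0, Nat.add_zero, e, Q.stab _ (by omega), h0]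
    · rw [if_neg (by omega), if_neg (by omega), Q.stab _ (by omega),
        show P.n + Q.n - P.n = Q.n by omega]

/-- reversal -/
def rev (P : Pth) : Pth where
  n := P.n
  v := fun k => P.v (P.n - k)
  adj := fun k h => by
    have := (P.adj (P.n - (k + 1)) (by omega)).symm
    rwa [show P.n - (k + 1) + 1 = P.n - k by omega] at this
  stab := fun k h => by rw [show P.n - k = 0 by omega, Nat.sub_self]

/-- translation -/
def tr (P : Pth) (z : Z2) : Pth :=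
  ⟨P.n, fun k => P.v k + z, fun k hk => (adj_add z).2 (P.adj k hk), fun k hk => by rw [P.stab k hk]⟩

end Pth

/-- every piece of `P` is `e`-cheap for the potential `ψ` -/
def SC (t : Env) (ψ : Z2 → ℝ) (e : ℝ) (P : Pth) : Prop :=
  ∀ i j, i ≤ j → j ≤ P.n → P.cost t i j ≤ ψ (P.v i) - ψ (P.v j) + e

/-- linear coordinates -/
structure Chart where
  a1 : ℝ
  a2 : ℝ
  b1 : ℝ
  b2 : ℝ

/-- the shear with eigenvalues `l / ν` on `(1, 1)` and `1 / ν` on `(1, -1)` -/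
def shr (l ν : ℝ) (c : ℝ × ℝ) : ℝ × ℝ :=
  (((1 + l) * c.1 - (1 - l) * c.2) / (2 * ν), ((1 + l) * c.2 - (1 - l) * c.1) / (2 * ν))

namespace Chart

def ap (φ : Chart) (w : ℝ × ℝ) : ℝ × ℝ := (φ.a1 * w.1 + φ.a2 * w.2, φ.b1 * w.1 + φ.b2 * w.2)
def x (φ : Chart) (z : Z2) : ℝ := φ.a1 * z.1 + φ.a2 * z.2
def y (φ : Chart) (z : Z2) : ℝ := φ.b1 * z.1 + φ.b2 * z.2
def det (φ : Chart) : ℝ := φ.a1 * φ.b2 - φ.a2 * φ.b1
def swap (φ : Chart) : Chart := ⟨φ.b1, φ.b2, φ.a1, φ.a2⟩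
def shear (φ : Chart) (l ν : ℝ) : Chart :=
  ⟨((1 + l) * φ.a1 - (1 - l) * φ.b1) / (2 * ν), ((1 + l) * φ.a2 - (1 - l) * φ.b2) / (2 * ν),
   ((1 + l) * φ.b1 - (1 - l) * φ.a1) / (2 * ν), ((1 + l) * φ.b2 - (1 - l) * φ.a2) / (2 * ν)⟩
def scale (φ : Chart) (ν : ℝ) : Chart := φ.shear 1 ν
def neg (φ : Chart) : Chart := ⟨-φ.a1, -φ.a2, -φ.b1, -φ.b2⟩
/-- coordinates of a lattice point -/
def pt (φ : Chart) (z : Z2) : ℝ × ℝ := (φ.x z, φ.y z)

/-- nondegenerate, and lattice steps are small -/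
structure OK (φ : Chart) : Prop where
  det : φ.det ≠ 0
  a1 : |φ.a1| ≤ 1 / 100
  a2 : |φ.a2| ≤ 1 / 100
  b1 : |φ.b1| ≤ 1 / 100
  b2 : |φ.b2| ≤ 1 / 100

end Chart

/-- box of radius `r` around `c` in the chart `φ` -/
def Bx (φ : Chart) (c : ℝ × ℝ) (r : ℝ) : Set Z2 := {z | |φ.x z - c.1| ≤ r ∧ |φ.y z - c.2| ≤ r}
/-- grid point -/
def gc (c : ℝ × ℝ) (g : ℤ × ℤ) : ℝ × ℝ := (c.1 + g.1, c.2 + g.2)

/-- horizontal crossing of `[x0, x1] × [y0, y1]` -/
def HC (φ : Chart) (P : Pth) (x0 x1 y0 y1 : ℝ) : Prop :=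
  (∀ k, k ≤ P.n → y0 ≤ φ.y (P.v k) ∧ φ.y (P.v k) ≤ y1 ∧ x0 - 1 / 10 ≤ φ.x (P.v k) ∧
    φ.x (P.v k) ≤ x1 + 1 / 10) ∧ φ.x P.fst ≤ x0 ∧ x1 ≤ φ.x P.lst

/-- cheap crossing of a band of height one -/
def Lane (φ : Chart) (t : Env) (ψ : Z2 → ℝ) (e Up : ℝ) (P : Pth) (x0 x1 y : ℝ) : Prop :=
  HC φ P x0 x1 y (y + 1) ∧ SC t ψ e P ∧ P.tot t ≤ Up

def NiceH (φ : Chart) (t : Env) (ψ : Z2 → ℝ) (c : ℝ × ℝ) (r e Up : ℝ) : Prop :=
  ∀ y, c.2 - r ≤ y → y + 1 ≤ c.2 + r → ∃ P, Lane φ t ψ e Up P (c.1 - r) (c.1 + r) y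
/-- all unit bands of the box, in both directions, have a cheap crossing -/
def Nice (φ : Chart) (t : Env) (ψ : Z2 → ℝ) (c : ℝ × ℝ) (r e Up : ℝ) : Prop :=
  NiceH φ t ψ c r e Up ∧ NiceH φ.swap t ψ c.swap r e Up
/-- subsolution -/
def Sub (t : Env) (U : Set Z2) (B : Z2 → ℝ) : Prop :=
  ∀ x ∈ U, ∀ y ∈ U, squareLattice.Adj x y → B x ≤ ew t x y + B y
/-- inner boundary -/
def Bd (U : Set Z2) (x : Z2) : Prop := x ∈ U ∧ ∃ z, z ∉ U ∧ squareLattice.Adj x z
/-- solution: subsolution with a tight path to the boundary from every point -/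
def Sol (t : Env) (U : Set Z2) (B : Z2 → ℝ) : Prop :=
  Sub t U B ∧ ∀ x ∈ U, ∃ P : Pth, P.fst = x ∧ P.In U ∧ Bd U P.lst ∧ P.tot t ≤ B x - B P.lst
/-- approximate solution -/
def ASol (t : Env) (U : Set Z2) (ψ : Z2 → ℝ) (e : ℝ) : Prop :=
  (∀ P : Pth, P.In U → ψ P.fst - ψ P.lst ≤ P.tot t + e) ∧
    ∀ x ∈ U, ∃ P : Pth, P.fst = x ∧ P.In U ∧ Bd U P.lst ∧ SC t ψ e P
/-- approximate subsolution, error proportional to the cost -/
def ASub (t : Env) (U : Set Z2) (ψ : Z2 → ℝ) (Up e : ℝ) : Prop :=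
  ∀ P : Pth, P.In U → ψ P.fst - ψ P.lst ≤ P.tot t + e * (P.tot t / Up + 1)
/-- displacement `≥ d` costs `≥ Lo` -/
def LoP (φ : Chart) (t : Env) (U : Set Z2) (d Lo : ℝ) : Prop :=
  ∀ P : Pth, P.In U → (d ≤ |φ.x P.lst - φ.x P.fst| ∨ d ≤ |φ.y P.lst - φ.y P.fst|) → Lo ≤ P.tot t

def GoodN (φ : Chart) (c : ℝ × ℝ) (τ Up : ℝ) : Set Env :=
  {t | ∃ B, Sol t (Bx φ c 31) B ∧ Nice φ t B c 30 τ Up}
/-- good cell -/
def Good (φ : Chart) (c : ℝ × ℝ) (τ Lo Up : ℝ) : Set Env :=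
  {t | t ∈ GoodN φ c τ Up ∧ LoP φ t (Bx φ c 31) 1 Lo}
/-- inverse of `shr (1 / 3) 1` -/
def sk (c : ℝ × ℝ) : ℝ × ℝ := (2 * c.1 + c.2, c.1 + 2 * c.2)
/-- all cells of a skew grid are good; `c` is a point of the chart `φ.shear (1 / 3) 1` -/
def AllGood (φ : Chart) (c : ℝ × ℝ) (N : ℕ) (τ Lo Up : ℝ) : Set Env :=
  {t | ∀ g : ℤ × ℤ, |g.1| ≤ N → |g.2| ≤ N → t ∈ Good φ (sk (gc c g)) τ Lo Up}
/-- reference potential -/
def PRef (φ : Chart) (t : Env) (ψ : Z2 → ℝ) (c : ℝ × ℝ) (r e Up : ℝ) : Prop :=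
  Nice φ t ψ c r e Up ∧ ASub t (Bx φ c (r + 1 / 2)) ψ Up e

/-- the tilted potential `B + β y - α x` is a subsolution up to `E` -/
def Tilt (φ : Chart) (t : Env) (B : Z2 → ℝ) (U : Set Z2) (α β E : ℝ) : Prop :=
  ∀ P : Pth, P.In U → (B P.fst + β * φ.y P.fst - α * φ.x P.fst) -
    (B P.lst + β * φ.y P.lst - α * φ.x P.lst) - E ≤ P.tot t
/-- displacements which leave the cone have a macroscopic excess -/
def Mac (φ : Chart) (t : Env) (B : Z2 → ℝ) (U : Set Z2) (ε Wm Γ : ℝ) : Prop :=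
  ∀ P : Pth, P.In U → ∀ W, Wm ≤ W → |φ.x P.lst - φ.x P.fst| ≤ W → |φ.y P.lst - φ.y P.fst| ≤ W →
    (φ.x P.lst - φ.x P.fst ≤ -(ε * W) ∨ φ.y P.lst - φ.y P.fst ≤ -(ε * W)) →
    B P.fst - B P.lst + Γ * W ≤ P.tot t
/-- flat crossings of length `R2` have excess `θ` -/
def HitP (φ : Chart) (t : Env) (B : Z2 → ℝ) (U : Set Z2) (R2 θ : ℝ) : Prop :=
  ∀ P : Pth, P.In U → (∀ k, k ≤ P.n → |φ.y (P.v k) - φ.y P.fst| ≤ 2 / 25) →
    φ.x P.fst + R2 ≤ φ.x P.lst → B P.fst - B P.lst + θ ≤ P.tot t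

/-- the thin lane `[x0, x1] × [y, y + 1 / 2]` of `φ` is `θ`-cheap for some nice solution in `η` -/
def CheapL (η : Chart) (c : ℝ × ℝ) (τ Up : ℝ) (φ : Chart) (x0 x1 y θ : ℝ) : Set Env :=
  {t | ∃ B, Sol t (Bx η c 31) B ∧ Nice η t B c 30 τ Up ∧ ∃ P : Pth, HC φ P x0 x1 y (y + 1 / 2) ∧
    P.In (Bx η c 31) ∧ P.tot t ≤ B P.fst - B P.lst + θ}
/-- signal: thin lane of half length `R` centred at the abscissa of the point `w` of the plane -/
def Sig (η φ : Chart) (τ Up R θ : ℝ) (w : ℝ × ℝ) (y : ℝ) : Set Env :=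
  GoodN η (η.ap w) τ Up \ CheapL η (η.ap w) τ Up φ ((φ.ap w).1 - R) ((φ.ap w).1 + R) y θ
/-- some lattice translate of the signal lane sits in the stretch `[X, X + R2 / 2] × [Y, Y + 1 / 4]` -/
def HitAt (η φ : Chart) (τ Up R θ : ℝ) (w : ℝ × ℝ) (y R2 X Y : ℝ) : Set Env :=
  {t | ∃ o : Z2, X ≤ (φ.ap w).1 + φ.x o - R - 1 ∧ (φ.ap w).1 + φ.x o + R + 1 ≤ X + R2 / 2 ∧
    |y + φ.y o - (Y - 1 / 8)| ≤ 1 / 50 ∧ t ∈ Sig η φ τ Up R θ (w + cR o) (y + φ.y o)}
/-- stage event -/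
def StgA (η φ : Chart) (w : ℝ × ℝ) (τ Up L α β E : ℝ) : Set Env :=
  {t | ∃ B, Sol t (Bx η (η.ap w) 13) B ∧ Nice η t B (η.ap w) 12 τ Up ∧
    Tilt φ t B (Bx φ (φ.ap w) L) α β E}

/-- countable union of closed sets -/
def Fs {X : Type} [TopologicalSpace X] (A : Set X) : Prop :=
  ∃ K : ℕ → Set X, (∀ n, IsClosed (K n)) ∧ A = ⋃ n, K n
/-- `A` only reads the weights of pairs of points of `U` -/
def Dep (A : Set Env) (U : Set Z2) : Prop :=
  ∀ t t' : Env, (∀ x ∈ U, ∀ y ∈ U, t' s(x, y) = t s(x, y)) → t ∈ A → t' ∈ A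

/-! the flat edge: `F.x, F.y` are the coordinates dual to its two ends -/

/-- the chart of scale `s` and shear `l` -/
def Ph (F : Chart) (s l : ℝ) : Chart := F.shear l s
/-- the linear potential -/
def ψ0 (F : Chart) (z : Z2) : ℝ := -(F.x z + F.y z)
/-- tilted supporting functional with a point to line bound -/
def Tl (G : Measure ℝ) (D : ℝ) (F : Chart) (κ η : ℝ) : Prop :=
  ∃ m : ℝ, 1 ≤ m ∧ m ≤ 1 + η * κ ∧ (∀ z, (F.x z + F.y z - κ * F.y z) / m ≤ mE G z) ∧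
    ∀ s : ℝ, 1 ≤ s → ∃ z, s ≤ (F.x z + F.y z - κ * F.y z) / m ∧ mE G z ≤ s + D * s ^ (7 / 8 : ℝ)

structure Face (G : Measure ℝ) (F : Chart) (D : ℝ) : Prop where
  det : F.det ≠ 0
  D1 : 1 ≤ D
  low : ∀ z, F.x z + F.y z ≤ mE G z
  mac : ∀ ε : ℝ, 0 < ε → ∃ ω : ℝ, 0 < ω ∧ ∀ (z : Z2) (W : ℝ), |F.x z| ≤ W → |F.y z| ≤ W →
    (F.x z ≤ -(ε * W) ∨ F.y z ≤ -(ε * W)) → F.x z + F.y z + ω * W ≤ mE G z
  tilt : ∀ η : ℝ, 0 < η → ∃ κ₁ : ℝ, 0 < κ₁ ∧ ∀ κ, 0 ≤ κ → κ ≤ κ₁ → Tl G D F κ η ∧ Tl G D F.swap κ η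

/-- uniform concentration in a ball -/
def UCe (G : Measure ℝ) (z : Z2) (n e : ℝ) : Set Env :=
  {t | ∀ x y, n1 (x - z) ≤ n → n1 (y - z) ≤ n → |T t x y - mE G (y - x)| ≤ e}
def MacB (F : Chart) (t : Env) (U : Set Z2) (ε ω e : ℝ) : Prop :=
  ∀ P : Pth, P.In U → ∀ W, |F.x P.lst - F.x P.fst| ≤ W → |F.y P.lst - F.y P.fst| ≤ W →
    (F.x P.lst - F.x P.fst ≤ -(ε * W) ∨ F.y P.lst - F.y P.fst ≤ -(ε * W)) →
    ψ0 F P.fst - ψ0 F P.lst + ω * W - e ≤ P.tot t
def LoU (φ : Chart) (c : ℝ × ℝ) (Lo Up : ℝ) : Set Env :=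
  {t | LoP φ t (Bx φ c 31) 1 Lo ∧ ∀ x ∈ Bx φ c (61 / 2), ∀ y ∈ Bx φ c (61 / 2),
    ∃ P : Pth, P.fst = x ∧ P.lst = y ∧ P.In (Bx φ c 31) ∧ P.tot t ≤ Up / 2}
/-- a priori linear structure -/
def LinE (η F : Chart) (c : ℝ × ℝ) (ε ω e : ℝ) : Set Env :=
  {t | (∃ Up, Nice η t (ψ0 F) c 12 e Up) ∧ ASol t (Bx η c 13) (ψ0 F) e ∧
    MacB F t (Bx η c 13) ε ω e}

/-! parameters -/

def ell (l0 j : ℕ) : ℝ := (5 / 4) ^ j * l0
def pj (l0 j : ℕ) : ℝ := (2 : ℝ) ^ (-ell l0 j)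
def Fj (l0 j : ℕ) : ℝ := (2 : ℝ) ^ (20 * ell l0 j)
def Kj (l0 j : ℕ) : ℝ := (2 : ℝ) ^ (ell l0 j / 4)
/-- growth allowed by the record -/
def gr (d : ℕ) : ℝ := (2 : ℝ) ^ ((15 / 16 : ℝ) * d)

structure Par where
  l0 : ℕ
  k0 : ℕ
  D0 : ℝ
  c1 : ℝ

namespace Par

/-- the cells of depth `j` are good with probability `1 - pj` at all scales above the record -/
def NL (p : Par) (G : Measure ℝ) (F : Chart) (j : ℕ) : Prop :=
  ∀ (d : ℕ) (c : ℝ × ℝ), Pr G (Good (Ph F (800 ^ j * 2 ^ (p.k0 + d)) (1 / 3 ^ j)) c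
    (Fj p.l0 j * gr d * p.D0) (p.c1 * 2 ^ (p.k0 + d)) (Kj p.l0 j * (p.c1 * 2 ^ (p.k0 + d))))ᶜ ≤ pj p.l0 j

def M (p : Par) : ℕ := 2 * p.l0 + 5120
def κ0 (p : Par) : ℕ := 5440 * p.M
def jj (p : Par) (i : ℕ) : ℕ := sInf {j : ℕ | (12 * (p.M + i) : ℝ) ≤ ell p.l0 j}
def GG (p : Par) : ℕ → ℕ
  | 0 => 800 ^ (p.jj 0 + 1) * 2 ^ p.κ0
  | i + 1 => 2 ^ (p.M + i) * GG p i
def dd (p : Par) (i : ℕ) : ℕ := sInf {d : ℕ | p.GG i ≤ 800 ^ (p.jj i + 1) * 2 ^ d}
def sg (p : Par) (i : ℕ) : ℕ := 800 ^ (p.jj i + 1) * 2 ^ p.dd i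
def rr (p : Par) (i : ℕ) : ℕ := 64 * 2 ^ (p.M + i) * 3 ^ p.jj (i + 1)
def NN (p : Par) (i : ℕ) : ℕ := 800 * p.rr i + 1110
def s0 (p : Par) : ℝ := 2 ^ p.k0
def q (p : Par) : ℝ := (1 / 2) ^ p.l0
def ph0 (p : Par) (F : Chart) : Chart := Ph F p.s0 1
def phi (p : Par) (F : Chart) (i : ℕ) : Chart :=
  Ph F (800 ^ p.jj i * 2 ^ (p.k0 + p.dd i)) (1 / 3 ^ p.jj i)
def eta (p : Par) (F : Chart) (i : ℕ) : Chart := Ph F (p.sg i * p.s0) (1 / 3 ^ (p.jj i + 1))
def tc (p : Par) (i : ℕ) : ℝ := Fj p.l0 (p.jj i) * gr (p.dd i) * p.D0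
def lo (p : Par) (i : ℕ) : ℝ := p.c1 * 2 ^ (p.k0 + p.dd i)
def tau (p : Par) (i : ℕ) : ℝ := 2 ^ (310 * (p.M + i)) * gr (p.dd i) * p.D0
def up (p : Par) (i : ℕ) : ℝ := 2 ^ (6 * (p.M + i)) * p.lo i
def tauP (p : Par) (i : ℕ) : ℝ := 2 ^ (312 * (p.M + i)) * gr (p.dd i) * p.D0
def upP (p : Par) (i : ℕ) : ℝ := 2 ^ (8 * (p.M + i)) * p.lo i
def R (p : Par) : ℝ := 2 ^ p.κ0
def θ (p : Par) : ℝ := p.q * p.R * p.D0 / 10 ^ 6
def L (p : Par) (i : ℕ) : ℝ := p.GG (i + 1)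
def R2 (p : Par) : ℝ := p.L 0 / 2 ^ 14
def al0 (p : Par) : ℝ := p.θ / (4 * p.R2)
def al (p : Par) (i : ℕ) : ℝ := p.al0 * (1 / 2 + (3 / 4) ^ i / 2)
def be (p : Par) (i : ℕ) : ℝ := 8 * p.θ + p.al0 - p.al i
def eps (p : Par) : ℝ := 1 / (64 * p.R2)
def WW (p : Par) (i : ℕ) : ℝ := (2 : ℝ) ^ (((p.M + i + 1 : ℕ) : ℝ) / 2) * p.L i
def EE (p : Par) : ℕ → ℝ
  | 0 => p.θ
  | i + 1 => 12 * p.al0 * p.WW i
def ps (p : Par) (i : ℕ) : ℝ := (1 / 2) ^ (6 * (p.M + i))
/-- precision of the a priori linear structure at stage `i` -/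
def lin (p : Par) (C : ℝ) (i : ℕ) : ℝ :=
  C * 3 ^ (p.jj (i + 1) + 1) * (p.sg (i + 1) * p.s0 / 200) ^ (7 / 8 : ℝ)
def SigE (p : Par) (F : Chart) (w : ℝ × ℝ) (y : ℝ) : Set Env :=
  Sig (p.eta F 0) (p.ph0 F) (p.tau 0) (p.up 0) p.R p.θ w y
def Stg (p : Par) (F : Chart) (i : ℕ) (w : ℝ × ℝ) : Set Env :=
  StgA (p.eta F (i + 1)) (p.ph0 F) w (p.tauP i) (p.upP i) (p.L i) (p.al i) (p.be i) (p.EE i)
def Cells (p : Par) (F : Chart) (i : ℕ) (w : ℝ × ℝ) : Set Env :=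
  AllGood (p.phi F i) (((p.phi F i).shear (1 / 3) 1).ap w) (p.NN i)
    (p.tc i) (p.lo i) (Kj p.l0 (p.jj i) * p.lo i)
def Lin (p : Par) (F : Chart) (ω C : ℝ) (i : ℕ) (w : ℝ × ℝ) : Set Env :=
  LinE (p.eta F (i + 1)) F ((p.eta F (i + 1)).ap w) p.eps ω (p.lin C i)

/-- standing assumptions -/
structure OK (p : Par) (F : Chart) : Prop where
  l0 : 1000 ≤ p.l0
  D0 : 0 < p.D0
  c1 : 0 < p.c1
  ok : (p.ph0 F).OK

theorem anchor_GG : type_of% @GG.eq_def := @GG.eq_def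
theorem anchor_GG1 : type_of% @GG.eq_1 := @GG.eq_1
theorem anchor_GG2 : type_of% @GG.eq_2 := @GG.eq_2
theorem anchor_EE : type_of% @EE.eq_def := @EE.eq_def
theorem anchor_EE1 : type_of% @EE.eq_1 := @EE.eq_1
theorem anchor_EE2 : type_of% @EE.eq_2 := @EE.eq_2

end Par

theorem cDefs_anchor : True := by
  have := @Fs.eq_1
  have := @Fs.eq_def
  have := @Fs.eq_unfold
  have := @Fs.congr_simp
  have := @ew.eq_1
  have := @ew.eq_def
  have := @ew.eq_unfold
  have := @ew.congr_simp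
  have := @Pth.cost.eq_1
  have := @Pth.cost.eq_def
  have := @Pth.cost.eq_unfold
  have := @Pth.cost.congr_simp
  have := @Pth.tot.eq_1
  have := @Pth.tot.eq_def
  have := @Pth.tot.eq_unfold
  have := @Pth.tot.congr_simp
  have := @Pth.fst.eq_1
  have := @Pth.fst.eq_def
  have := @Pth.fst.eq_unfold
  have := @Pth.fst.congr_simp
  have := @Pth.lst.eq_1
  have := @Pth.lst.eq_def
  have := @Pth.lst.eq_unfold
  have := @Pth.lst.congr_simp
  have := @Pth.In.eq_1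
  have := @Pth.In.eq_def
  have := @Pth.In.eq_unfold
  have := @Pth.In.congr_simp
  have := @Pth.nil.eq_1
  have := @Pth.nil.eq_def
  have := @Pth.nil.eq_unfold
  have := @Pth.nil.congr_simp
  have := @Pth.sub.eq_1
  have := @Pth.sub.eq_def
  have := @Pth.sub.eq_unfold
  have := @Pth.sub.congr_simp
  have := @Pth.app.eq_1
  have := @Pth.app.eq_def
  have := @Pth.app.eq_unfold
  have := @Pth.app.congr_simp
  have := @Pth.rev.eq_1
  have := @Pth.rev.eq_def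
  have := @Pth.rev.eq_unfold
  have := @Pth.rev.congr_simp
  have := @Pth.tr.eq_1
  have := @Pth.tr.eq_def
  have := @Pth.tr.eq_unfold
  have := @Pth.tr.congr_simp
  have := @SC.eq_1
  have := @SC.eq_def
  have := @SC.eq_unfold
  have := @SC.congr_simp
  have := @shr.eq_1
  have := @shr.eq_def
  have := @shr.eq_unfold
  have := @shr.congr_simp
  have := @Chart.ap.eq_1
  have := @Chart.ap.eq_def
  have := @Chart.ap.eq_unfold
  have := @Chart.ap.congr_simp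
  have := @Chart.x.eq_1
  have := @Chart.x.eq_def
  have := @Chart.x.eq_unfold
  have := @Chart.x.congr_simp
  have := @Chart.y.eq_1
  have := @Chart.y.eq_def
  have := @Chart.y.eq_unfold
  have := @Chart.y.congr_simp
  have := @Chart.det.eq_1
  have := @Chart.det.eq_def
  have := @Chart.det.eq_unfold
  have := @Chart.det.congr_simp
  have := @Chart.swap.eq_1
  have := @Chart.swap.eq_def
  have := @Chart.swap.eq_unfold
  have := @Chart.swap.congr_simp
  have := @Chart.shear.eq_1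
  have := @Chart.shear.eq_def
  have := @Chart.shear.eq_unfold
  have := @Chart.shear.congr_simp
  have := @Chart.scale.eq_1
  have := @Chart.scale.eq_def
  have := @Chart.scale.eq_unfold
  have := @Chart.scale.congr_simp
  have := @Chart.neg.eq_1
  have := @Chart.neg.eq_def
  have := @Chart.neg.eq_unfold
  have := @Chart.neg.congr_simp
  have := @Chart.pt.eq_1
  have := @Chart.pt.eq_def
  have := @Chart.pt.eq_unfold
  have := @Chart.pt.congr_simp
  have := @Bx.eq_1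
  have := @Bx.eq_def
  have := @Bx.eq_unfold
  have := @Bx.congr_simp
  have := @gc.eq_1
  have := @gc.eq_def
  have := @gc.eq_unfold
  have := @gc.congr_simp
  have := @HC.eq_1
  have := @HC.eq_def
  have := @HC.eq_unfold
  have := @HC.congr_simp
  have := @Lane.eq_1
  have := @Lane.eq_def
  have := @Lane.eq_unfold
  have := @Lane.congr_simp
  have := @NiceH.eq_1
  have := @NiceH.eq_def
  have := @NiceH.eq_unfold
  have := @NiceH.congr_simp
  have := @Nice.eq_1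
  have := @Nice.eq_def
  have := @Nice.eq_unfold
  have := @Nice.congr_simp
  have := @Sub.eq_1
  have := @Sub.eq_def
  have := @Sub.eq_unfold
  have := @Sub.congr_simp
  have := @Bd.eq_1
  have := @Bd.eq_def
  have := @Bd.eq_unfold
  have := @Bd.congr_simp
  have := @Sol.eq_1
  have := @Sol.eq_def
  have := @Sol.eq_unfold
  have := @Sol.congr_simp
  have := @ASol.eq_1
  have := @ASol.eq_def
  have := @ASol.eq_unfold
  have := @ASol.congr_simp
  have := @ASub.eq_1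
  have := @ASub.eq_def
  have := @ASub.eq_unfold
  have := @ASub.congr_simp
  have := @LoP.eq_1
  have := @LoP.eq_def
  have := @LoP.eq_unfold
  have := @LoP.congr_simp
  have := @GoodN.eq_1
  have := @GoodN.eq_def
  have := @GoodN.eq_unfold
  have := @GoodN.congr_simp
  have := @Good.eq_1
  have := @Good.eq_def
  have := @Good.eq_unfold
  have := @Good.congr_simp
  have := @sk.eq_1
  have := @sk.eq_def
  have := @sk.eq_unfold
  have := @sk.congr_simp
  have := @AllGood.eq_1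
  have := @AllGood.eq_def
  have := @AllGood.eq_unfold
  have := @AllGood.congr_simp
  have := @PRef.eq_1
  have := @PRef.eq_def
  have := @PRef.eq_unfold
  have := @PRef.congr_simp
  have := @Tilt.eq_1
  have := @Tilt.eq_def
  have := @Tilt.eq_unfold
  have := @Tilt.congr_simp
  have := @Mac.eq_1
  have := @Mac.eq_def
  have := @Mac.eq_unfold
  have := @Mac.congr_simp
  have := @HitP.eq_1
  have := @HitP.eq_def
  have := @HitP.eq_unfold
  have := @HitP.congr_simp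
  have := @CheapL.eq_1
  have := @CheapL.eq_def
  have := @CheapL.eq_unfold
  have := @CheapL.congr_simp
  have := @Sig.eq_1
  have := @Sig.eq_def
  have := @Sig.eq_unfold
  have := @Sig.congr_simp
  have := @HitAt.eq_1
  have := @HitAt.eq_def
  have := @HitAt.eq_unfold
  have := @HitAt.congr_simp
  have := @StgA.eq_1
  have := @StgA.eq_def
  have := @StgA.eq_unfold
  have := @StgA.congr_simp
  have := @Dep.eq_1
  have := @Dep.eq_def
  have := @Dep.eq_unfold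
  have := @Dep.congr_simp
  have := @Ph.eq_1
  have := @Ph.eq_def
  have := @Ph.eq_unfold
  have := @Ph.congr_simp
  have := @ψ0.eq_1
  have := @ψ0.eq_def
  have := @ψ0.eq_unfold
  have := @ψ0.congr_simp
  have := @Tl.eq_1
  have := @Tl.eq_def
  have := @Tl.eq_unfold
  have := @Tl.congr_simp
  have := @UCe.eq_1
  have := @UCe.eq_def
  have := @UCe.eq_unfold
  have := @UCe.congr_simp
  have := @MacB.eq_1
  have := @MacB.eq_def
  have := @MacB.eq_unfold
  have := @MacB.congr_simp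
  have := @LoU.eq_1
  have := @LoU.eq_def
  have := @LoU.eq_unfold
  have := @LoU.congr_simp
  have := @LinE.eq_1
  have := @LinE.eq_def
  have := @LinE.eq_unfold
  have := @LinE.congr_simp
  have := @ell.eq_1
  have := @ell.eq_def
  have := @ell.eq_unfold
  have := @ell.congr_simp
  have := @pj.eq_1
  have := @pj.eq_def
  have := @pj.eq_unfold
  have := @pj.congr_simp
  have := @Fj.eq_1
  have := @Fj.eq_def
  have := @Fj.eq_unfold
  have := @Fj.congr_simp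
  have := @Kj.eq_1
  have := @Kj.eq_def
  have := @Kj.eq_unfold
  have := @Kj.congr_simp
  have := @gr.eq_1
  have := @gr.eq_def
  have := @gr.eq_unfold
  have := @gr.congr_simp
  have := @Par.NL.eq_1
  have := @Par.NL.eq_def
  have := @Par.NL.eq_unfold
  have := @Par.NL.congr_simp
  have := @Par.M.eq_1
  have := @Par.M.eq_def
  have := @Par.M.eq_unfold
  have := @Par.M.congr_simp
  have := @Par.κ0.eq_1
  have := @Par.κ0.eq_def
  have := @Par.κ0.eq_unfold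
  have := @Par.κ0.congr_simp
  have := @Par.jj.eq_1
  have := @Par.jj.eq_def
  have := @Par.jj.eq_unfold
  have := @Par.jj.congr_simp
  have := @Par.GG.eq_1
  have := @Par.GG.eq_def
  have := @Par.GG.eq_unfold
  have := @Par.GG.congr_simp
  have := @Par.dd.eq_1
  have := @Par.dd.eq_def
  have := @Par.dd.eq_unfold
  have := @Par.dd.congr_simp
  have := @Par.sg.eq_1
  have := @Par.sg.eq_def
  have := @Par.sg.eq_unfold
  have := @Par.sg.congr_simp
  have := @Par.rr.eq_1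
  have := @Par.rr.eq_def
  have := @Par.rr.eq_unfold
  have := @Par.rr.congr_simp
  have := @Par.NN.eq_1
  have := @Par.NN.eq_def
  have := @Par.NN.eq_unfold
  have := @Par.NN.congr_simp
  have := @Par.s0.eq_1
  have := @Par.s0.eq_def
  have := @Par.s0.eq_unfold
  have := @Par.s0.congr_simp
  have := @Par.q.eq_1
  have := @Par.q.eq_def
  have := @Par.q.eq_unfold
  have := @Par.q.congr_simp
  have := @Par.ph0.eq_1
  have := @Par.ph0.eq_def
  have := @Par.ph0.eq_unfold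
  have := @Par.ph0.congr_simp
  have := @Par.phi.eq_1
  have := @Par.phi.eq_def
  have := @Par.phi.eq_unfold
  have := @Par.phi.congr_simp
  have := @Par.eta.eq_1
  have := @Par.eta.eq_def
  have := @Par.eta.eq_unfold
  have := @Par.eta.congr_simp
  have := @Par.tc.eq_1
  have := @Par.tc.eq_def
  have := @Par.tc.eq_unfold
  have := @Par.tc.congr_simp
  have := @Par.lo.eq_1
  have := @Par.lo.eq_def
  have := @Par.lo.eq_unfold
  have := @Par.lo.congr_simp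
  have := @Par.tau.eq_1
  have := @Par.tau.eq_def
  have := @Par.tau.eq_unfold
  have := @Par.tau.congr_simp
  have := @Par.up.eq_1
  have := @Par.up.eq_def
  have := @Par.up.eq_unfold
  have := @Par.up.congr_simp
  have := @Par.tauP.eq_1
  have := @Par.tauP.eq_def
  have := @Par.tauP.eq_unfold
  have := @Par.tauP.congr_simp
  have := @Par.upP.eq_1
  have := @Par.upP.eq_def
  have := @Par.upP.eq_unfold
  have := @Par.upP.congr_simp
  have := @Par.R.eq_1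
  have := @Par.R.eq_def
  have := @Par.R.eq_unfold
  have := @Par.R.congr_simp
  have := @Par.θ.eq_1
  have := @Par.θ.eq_def
  have := @Par.θ.eq_unfold
  have := @Par.θ.congr_simp
  have := @Par.L.eq_1
  have := @Par.L.eq_def
  have := @Par.L.eq_unfold
  have := @Par.L.congr_simp
  have := @Par.R2.eq_1
  have := @Par.R2.eq_def
  have := @Par.R2.eq_unfold
  have := @Par.R2.congr_simp
  have := @Par.al0.eq_1
  have := @Par.al0.eq_def
  have := @Par.al0.eq_unfold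
  have := @Par.al0.congr_simp
  have := @Par.al.eq_1
  have := @Par.al.eq_def
  have := @Par.al.eq_unfold
  have := @Par.al.congr_simp
  have := @Par.be.eq_1
  have := @Par.be.eq_def
  have := @Par.be.eq_unfold
  have := @Par.be.congr_simp
  have := @Par.eps.eq_1
  have := @Par.eps.eq_def
  have := @Par.eps.eq_unfold
  have := @Par.eps.congr_simp
  have := @Par.WW.eq_1
  have := @Par.WW.eq_def
  have := @Par.WW.eq_unfold
  have := @Par.WW.congr_simp
  have := @Par.EE.eq_1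
  have := @Par.EE.eq_def
  have := @Par.EE.eq_unfold
  have := @Par.EE.congr_simp
  have := @Par.ps.eq_1
  have := @Par.ps.eq_def
  have := @Par.ps.eq_unfold
  have := @Par.ps.congr_simp
  have := @Par.lin.eq_1
  have := @Par.lin.eq_def
  have := @Par.lin.eq_unfold
  have := @Par.lin.congr_simp
  have := @Par.SigE.eq_1
  have := @Par.SigE.eq_def
  have := @Par.SigE.eq_unfold
  have := @Par.SigE.congr_simp
  have := @Par.Stg.eq_1
  have := @Par.Stg.eq_def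
  have := @Par.Stg.eq_unfold
  have := @Par.Stg.congr_simp
  have := @Par.Cells.eq_1
  have := @Par.Cells.eq_def
  have := @Par.Cells.eq_unfold
  have := @Par.Cells.congr_simp
  have := @Par.Lin.eq_1
  have := @Par.Lin.eq_def
  have := @Par.Lin.eq_unfold
  have := @Par.Lin.congr_simp
  trivial

end

end Crest.Agent.R151.C
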