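import Crest.Agent.R151.Cross
import Crest.Agent.R151.ADefs

/-! Row 151 (A): four interlaced points on the boundary of a box -/

set_option autoImplicit false

open Set
open Crest.ProbabilityR.FirstPassage

namespace Crest.Agent.R151.A

open Crest.Agent.R151.B

noncomputable section

def cfP : Z2 →+ ℝ := (Int.castAddHom ℝ).comp (AddMonoidHom.fst ℤ ℤ)
def cfQ : Z2 →+ ℝ := (Int.castAddHom ℝ).comp (AddMonoidHom.snd ℤ ℤ)
/-- `1` on the bottom and left sides -/
def cfE (R : ℕ) (z : Z2) : ℤ :=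
  if z.2 = -R then 1 else if z.1 = R then 0 else if z.2 = R then 0 else 1
def cfF (R : ℕ) (z : Z2) : ℤ := if z.2 = -R then 1 else 0
def cfG (R : ℕ) (z : Z2) : ℤ :=
  if z.2 = -R then 1 else if z.1 = R then 1 else if z.2 = R then 1 else 0

theorem crossA_anchor : True := by
  have := @cfP.eq_1
  have := @cfP.eq_def
  have := @cfP.eq_unfold
  have := @cfQ.eq_1
  have := @cfQ.eq_def
  have := @cfQ.eq_unfold
  have := @cfE.eq_1
  have := @cfE.eq_def
  have := @cfE.eq_unfold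
  have := @cfF.eq_1
  have := @cfF.eq_def
  have := @cfF.eq_unfold
  have := @cfG.eq_1
  have := @cfG.eq_def
  have := @cfG.eq_unfold
  trivial

theorem cfP_apply (z : Z2) : cfP z = z.1 := rfl
theorem cfQ_apply (z : Z2) : cfQ z = z.2 := rfl
theorem cf_det : crD cfP cfQ ≠ 0 := by simp [crD, cfP_apply, cfQ_apply]

theorem cf_H (u : Z2) : crH (cfQ - cfP) u = if u.1 < u.2 then 1 else 0 := by
  unfold crH
  rw [AddMonoidHom.sub_apply, cfP_apply, cfQ_apply]
  simp only [sub_pos, Int.cast_lt]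

theorem cf_ni {R : ℕ} {z : Z2} (h : ni z ≤ R) : (-R ≤ z.1 ∧ z.1 ≤ R) ∧ (-R ≤ z.2 ∧ z.2 ≤ R) := by
  unfold ni at h
  omega
theorem cf_ni' {R : ℕ} {z : Z2} (h : ni z = R) : z.2 = -R ∨ z.1 = R ∨ z.2 = R ∨ z.1 = -R := by
  unfold ni at h
  omega

theorem cf_in {R n : ℕ} {z : Z2} (hz : ni z = R) {g : ℕ → Z2} (hg : ∀ i ≤ n, ni (g i) ≤ R) :
    CrSide cfP cfQ (cfE R z) (fun i => g i - z) n := by
  have h := cf_ni' hz
  have k := fun i hi => cf_ni (hg i hi)
  unfold cfE CrSide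
  simp only [cfP_apply, cfQ_apply, Prod.fst_sub, Prod.snd_sub, Int.cast_nonneg_iff,
    Int.cast_nonpos]
  split_ifs with a b c
  · exact Or.inl ⟨rfl, Or.inr fun i hi => by have := k i hi; omega⟩
  · exact Or.inr ⟨rfl, Or.inl fun i hi => by have := k i hi; omega⟩
  · exact Or.inr ⟨rfl, Or.inr fun i hi => by have := k i hi; omega⟩
  · exact Or.inl ⟨rfl, Or.inl fun i hi => by have := k i hi; omega⟩

theorem cf_out {R n : ℕ} {z : Z2} (hz : ni z = R) {g : ℕ → Z2} (hg : ∀ i ≤ n, ni (g i) ≤ R) :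
    CrSide cfP cfQ (1 - cfE R z) (fun i => z - g i) n := by
  have h := cf_ni' hz
  have k := fun i hi => cf_ni (hg i hi)
  unfold cfE CrSide
  simp only [cfP_apply, cfQ_apply, Prod.fst_sub, Prod.snd_sub, Int.cast_nonneg_iff,
    Int.cast_nonpos]
  split_ifs with a b c
  · exact Or.inr ⟨rfl, Or.inr fun i hi => by have := k i hi; omega⟩
  · exact Or.inl ⟨rfl, Or.inl fun i hi => by have := k i hi; omega⟩
  · exact Or.inl ⟨rfl, Or.inr fun i hi => by have := k i hi; omega⟩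
  · exact Or.inr ⟨rfl, Or.inl fun i hi => by have := k i hi; omega⟩

theorem cf_pair {R : ℕ} {x y : Z2} (hx : ni x = R) (hy : ni y = R) (h : per R x ≠ per R y) :
    crH (cfQ - cfP) (x - y) * (cfE R y - (1 - cfE R x)) =
      (if per R x < per R y then 1 else 0) + cfF R y - cfG R x := by
  have a := cf_ni hx.le
  have a' := cf_ni' hx
  have b := cf_ni hy.le
  have b' := cf_ni' hy
  rw [cf_H, Prod.fst_sub, Prod.snd_sub]
  unfold per at h ⊢
  unfold cfE cfF cfG
  split_ifs at h ⊢ <;> omega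

/-- walks inside the box that join interlaced boundary points meet -/
theorem cross_four {R n m : ℕ} {g g' : ℕ → Z2} (hg : IsP g n) (hg' : IsP g' m)
    (hR : ∀ i ≤ n, ni (g i) ≤ R) (hR' : ∀ j ≤ m, ni (g' j) ≤ R) (ha : ni (g 0) = R)
    (hb : ni (g' 0) = R) (hc : ni (g n) = R) (hd : ni (g' m) = R)
    (hab : per R (g 0) < per R (g' 0)) (hbc : per R (g' 0) < per R (g n))
    (hcd : per R (g n) < per R (g' m)) : ∃ i ≤ n, ∃ j ≤ m, g i = g' j := by
  by_contra hcon
  have hne : ∀ i ≤ n, ∀ j ≤ m, g i ≠ g' j := fun i hi j hj e => hcon ⟨i, hi, j, hj, e⟩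
  have key := cross_key cf_det hg hg' hne (cf_in hb hR) (cf_out hc hR') (cf_in hd hR)
    (cf_out ha hR')
  have e1 := cf_pair hc hb hbc.ne'
  have e2 := cf_pair ha hb hab.ne
  have e3 := cf_pair hc hd hcd.ne
  have e4 := cf_pair ha hd ((hab.trans hbc).trans hcd).ne
  rw [if_neg hbc.not_gt] at e1
  rw [if_pos hab] at e2
  rw [if_pos hcd] at e3
  rw [if_pos ((hab.trans hbc).trans hcd)] at e4
  have : (0 : ℤ) = 1 := by linear_combination key - e1 + e2 + e3 - e4
  omega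

/-- the same for a box with an arbitrary centre -/
theorem cross_four' (z : Z2) {R n m : ℕ} {g g' : ℕ → Z2} (hg : IsP g n) (hg' : IsP g' m)
    (hR : ∀ i ≤ n, ni (g i - z) ≤ R) (hR' : ∀ j ≤ m, ni (g' j - z) ≤ R) (ha : ni (g 0 - z) = R)
    (hb : ni (g' 0 - z) = R) (hc : ni (g n - z) = R) (hd : ni (g' m - z) = R)
    (hab : per R (g 0 - z) < per R (g' 0 - z)) (hbc : per R (g' 0 - z) < per R (g n - z))
    (hcd : per R (g n - z) < per R (g' m - z)) : ∃ i ≤ n, ∃ j ≤ m, g i = g' j := by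
  obtain ⟨i, hi, j, hj, e⟩ := cross_four (g := fun i => g i - z) (g' := fun j => g' j - z)
    (fun i hi => cr_adj_sub z (hg i hi)) (fun j hj => cr_adj_sub z (hg' j hj)) hR hR' ha hb hc hd
    hab hbc hcd
  exact ⟨i, hi, j, hj, sub_left_injective e⟩

end

end Crest.Agent.R151.A
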