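import Crest.Agent.R151.D1a
import Crest.Agent.R151.B8a

set_option autoImplicit false

open MeasureTheory ProbabilityTheory Set Filter Topology
open scoped ENNReal
open Crest.ProbabilityR.FirstPassage

namespace Crest.Agent.R151.B

noncomputable section

/-! a flat edge -/

variable {G : Measure ℝ} {μ : ℝ × ℝ → ℝ}

theorem flat_edge_cont (hμ : Nm μ) : Continuous μ := by
  obtain ⟨K, hK, hup⟩ := hμ.up
  refine (LipschitzWith.of_dist_le_mul (K := ⟨K, hK.le⟩) fun v w => ?_).continuous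
  rw [Real.dist_eq, dist_eq_norm, abs_le]
  have h1 := hμ.add (v - w) w
  have h2 := hμ.add (w - v) v
  have h3 := hup (v - w)
  have h4 := hup (w - v)
  rw [norm_sub_rev] at h4
  rw [sub_add_cancel] at h1 h2
  change -(K * ‖v - w‖) ≤ _ ∧ _ ≤ K * ‖v - w‖
  constructor <;> linarith

theorem flat_edge_comb (hμ : Nm μ) (v w : ℝ × ℝ) {a b : ℝ} (ha : 0 ≤ a) (hb : 0 ≤ b) :
    μ (a • v + b • w) ≤ a * μ v + b * μ w := by
  have := hμ.add (a • v) (b • w)
  rwa [hμ.smul a v ha, hμ.smul b w hb] at this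

theorem flat_edge_line (hμ : Nm μ) (h : ¬StrictConvex ℝ {v : ℝ × ℝ | μ v ≤ 1}) :
    ∃ x d : ℝ × ℝ, d ≠ 0 ∧ μ x ≤ 1 ∧ μ (x + d) ≤ 1 ∧ ∀ s : ℝ, 1 ≤ μ (x + s • d) := by
  simp only [StrictConvex, Set.Pairwise, not_forall] at h
  obtain ⟨x, hx, y, hy, hxy, a, b, ha, hb, hab, hz⟩ := h
  have hx' : μ x ≤ 1 := hx
  have hy' : μ y ≤ 1 := hy
  have hz' : 1 ≤ μ (a • x + b • y) := by
    by_contra hc
    refine hz (mem_interior.mpr ⟨{v | μ v < 1}, fun v (hv : μ v < 1) => hv.le, ?_, not_le.mp hc⟩)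
    exact isOpen_lt (flat_edge_cont hμ) continuous_const
  have ea : a = 1 - b := by linarith
  subst ea
  refine ⟨x, y - x, sub_ne_zero.mpr (Ne.symm hxy), hx', by rwa [add_sub_cancel], fun s => ?_⟩
  rcases le_total b s with hs | hs
  · have hs0 : 0 < s := hb.trans_le hs
    have hl : 0 < b / s := div_pos hb hs0
    have hl1 : 0 ≤ 1 - b / s := by rw [sub_nonneg, div_le_one hs0]; exact hs
    have e : (1 - b) • x + b • y = (b / s) • (x + s • (y - x)) + (1 - b / s) • x := by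
      have : b / s * s = b := div_mul_cancel₀ b hs0.ne'
      rw [smul_add, smul_smul, this]
      module
    have := flat_edge_comb hμ (x + s • (y - x)) x hl.le hl1
    rw [← e] at this
    nlinarith
  · have hs0 : 0 < 1 - s := by linarith
    have hl : 0 < (1 - b) / (1 - s) := div_pos ha hs0
    have hl1 : 0 ≤ 1 - (1 - b) / (1 - s) := by rw [sub_nonneg, div_le_one hs0]; linarith
    have e : (1 - b) • x + b • y =
        ((1 - b) / (1 - s)) • (x + s • (y - x)) + (1 - (1 - b) / (1 - s)) • y := by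
      have : (1 - b) / (1 - s) * (1 - s) = 1 - b := div_mul_cancel₀ _ hs0.ne'
      generalize (1 - b) / (1 - s) = l at this
      have eb : b = 1 - l * (1 - s) := by linarith
      rw [eb]
      module
    have := flat_edge_comb hμ (x + s • (y - x)) y hl.le hl1
    rw [← e] at this
    nlinarith

theorem flat_edge_coord {x d : ℝ × ℝ} (hD : x.1 * d.2 - x.2 * d.1 ≠ 0) :
    ∃ ρ β : ℝ × ℝ →ₗ[ℝ] ℝ, (∀ w, w = ρ w • x + β w • d) ∧ ρ x = 1 ∧ ρ d = 0 ∧ β x = 0 ∧ β d = 1 := by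
  refine ⟨(x.1 * d.2 - x.2 * d.1)⁻¹ • (d.2 • LinearMap.fst ℝ ℝ ℝ - d.1 • LinearMap.snd ℝ ℝ ℝ),
    (x.1 * d.2 - x.2 * d.1)⁻¹ • (x.1 • LinearMap.snd ℝ ℝ ℝ - x.2 • LinearMap.fst ℝ ℝ ℝ),
    fun w => ?_, ?_, ?_, ?_, ?_⟩
  · ext <;> simp <;> field_simp <;> ring
  all_goals
    simp only [LinearMap.smul_apply, LinearMap.sub_apply, LinearMap.fst_apply, LinearMap.snd_apply,
      smul_eq_mul]
    field_simp
    try ring

/-- There are `x ≠ y` in the ball with a strict convex combination `z` outside the interior; `μ` is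
continuous, so `{μ < 1}` lies in the interior and `μ x = μ y = μ z = 1`. A supporting functional `ρ`
at `z` (`exists_extension_of_le_sublinear` or a separation theorem) has `ρ x = ρ y = 1`. The face
`{ρ = 1, μ ≤ 1}` is a compact convex subset of a line, i.e. `{x + s • (y - x) | s₋ ≤ s ≤ s₊}`; `A, B` are
the coordinates in the basis of its two ends. -/
theorem flat_edge (hμ : Nm μ) (h : ¬StrictConvex ℝ {v : ℝ × ℝ | μ v ≤ 1}) :
    ∃ A B : ℝ × ℝ →ₗ[ℝ] ℝ, (∃ v u, A v = 1 ∧ B v = 0 ∧ A u = 0 ∧ B u = 1) ∧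
      (∀ w, A w + B w ≤ μ w) ∧ ∀ w, μ w = A w + B w ↔ 0 ≤ A w ∧ 0 ≤ B w := by
  obtain ⟨x, d, hd, hx, hy, hg⟩ := flat_edge_line hμ h
  obtain ⟨c, hc, hlow⟩ := hμ.low
  have h0 : μ 0 = 0 := by simpa using hμ.smul 0 0 le_rfl
  have hnn : ∀ w, 0 ≤ μ w := fun w => (mul_nonneg hc.le (norm_nonneg w)).trans (hlow w)
  have hD : x.1 * d.2 - x.2 * d.1 ≠ 0 := by
    intro hD
    have key : ∃ s : ℝ, x + s • d = 0 := by
      by_cases h1 : d.1 = 0
      · have h2 : d.2 ≠ 0 := fun h2 => hd (Prod.ext h1 h2)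
        refine ⟨-x.2 / d.2, Prod.ext ?_ ?_⟩
        · simp only [Prod.fst_add, Prod.smul_fst, smul_eq_mul, Prod.fst_zero]
          field_simp
          linarith
        · simp only [Prod.snd_add, Prod.smul_snd, smul_eq_mul, Prod.snd_zero]
          field_simp
          ring
      · refine ⟨-x.1 / d.1, Prod.ext ?_ ?_⟩
        · simp only [Prod.fst_add, Prod.smul_fst, smul_eq_mul, Prod.fst_zero]
          field_simp
          ring
        · simp only [Prod.snd_add, Prod.smul_snd, smul_eq_mul, Prod.snd_zero]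
          field_simp
          linarith
    obtain ⟨s, hs⟩ := key
    have := hg s
    rw [hs, h0] at this
    linarith
  obtain ⟨ρ, β, hw, ρx, ρd, βx, βd⟩ := flat_edge_coord hD
  have hscale : ∀ w, 0 < ρ w → μ w = ρ w * μ (x + (β w / ρ w) • d) := by
    intro w hp
    rw [← hμ.smul _ _ hp.le, smul_add, smul_smul, mul_div_cancel₀ _ hp.ne', ← hw w]
  have hρ : ∀ w, ρ w ≤ μ w := by
    intro w
    rcases le_or_gt (ρ w) 0 with hp | hp
    · exact hp.trans (hnn w)
    · rw [hscale w hp]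
      exact le_mul_of_one_le_right hp.le (hg _)
  have hFc : IsClosed {s : ℝ | μ (x + s • d) ≤ 1} :=
    isClosed_le ((flat_edge_cont hμ).comp (by fun_prop)) continuous_const
  have hdn : 0 < ‖d‖ := norm_pos_iff.mpr hd
  have hFb : ∀ s ∈ {s : ℝ | μ (x + s • d) ≤ 1}, |s| ≤ (1 / c + ‖x‖) / ‖d‖ := by
    intro s hs
    have h1 : c * ‖x + s • d‖ ≤ 1 := (hlow _).trans hs
    have h2 : ‖x + s • d‖ ≤ 1 / c := by rw [le_div_iff₀ hc]; linarith
    have h3 : ‖s • d‖ ≤ ‖x + s • d‖ + ‖x‖ := by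
      have := norm_sub_le (x + s • d) x
      rwa [add_sub_cancel_left] at this
    rw [norm_smul, Real.norm_eq_abs] at h3
    rw [le_div_iff₀ hdn]
    linarith
  have hba : BddAbove {s : ℝ | μ (x + s • d) ≤ 1} := ⟨_, fun s hs => (abs_le.mp (hFb s hs)).2⟩
  have hbb : BddBelow {s : ℝ | μ (x + s • d) ≤ 1} := ⟨_, fun s hs => (abs_le.mp (hFb s hs)).1⟩
  have m0 : (0 : ℝ) ∈ {s : ℝ | μ (x + s • d) ≤ 1} := by simpa using hx
  have m1 : (1 : ℝ) ∈ {s : ℝ | μ (x + s • d) ≤ 1} := by simpa using hy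
  obtain ⟨s₀, hs₀, hl₀⟩ : ∃ s₀ : ℝ, μ (x + s₀ • d) ≤ 1 ∧ ∀ s : ℝ, μ (x + s • d) ≤ 1 → s₀ ≤ s :=
    ⟨_, hFc.csInf_mem ⟨0, m0⟩ hbb, fun s hs => csInf_le hbb hs⟩
  obtain ⟨s₁, hs₁, hl₁⟩ : ∃ s₁ : ℝ, μ (x + s₁ • d) ≤ 1 ∧ ∀ s : ℝ, μ (x + s • d) ≤ 1 → s ≤ s₁ :=
    ⟨_, hFc.csSup_mem ⟨0, m0⟩ hba, fun s hs => le_csSup hba hs⟩
  have hΔ : 0 < s₁ - s₀ := by
    have := hl₀ 0 m0
    have := hl₁ 1 m1
    linarith
  have hA : ∀ w, ((s₁ - s₀)⁻¹ • (s₁ • ρ - β)) w = (s₁ * ρ w - β w) / (s₁ - s₀) := by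
    intro w
    simp only [LinearMap.smul_apply, LinearMap.sub_apply, smul_eq_mul]
    ring
  have hB : ∀ w, ((s₁ - s₀)⁻¹ • (β - s₀ • ρ)) w = (β w - s₀ * ρ w) / (s₁ - s₀) := by
    intro w
    simp only [LinearMap.smul_apply, LinearMap.sub_apply, smul_eq_mul]
    ring
  have hAB : ∀ w, (s₁ * ρ w - β w) / (s₁ - s₀) + (β w - s₀ * ρ w) / (s₁ - s₀) = ρ w := by
    intro w
    field_simp
    ring
  refine ⟨(s₁ - s₀)⁻¹ • (s₁ • ρ - β), (s₁ - s₀)⁻¹ • (β - s₀ • ρ),
    ⟨x + s₀ • d, x + s₁ • d, ?_, ?_, ?_, ?_⟩, fun w => ?_, fun w => ?_⟩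
  · rw [hA]
    simp only [map_add, map_smul, ρx, ρd, βx, βd, smul_eq_mul]
    field_simp
    ring
  · rw [hB]
    simp only [map_add, map_smul, ρx, ρd, βx, βd, smul_eq_mul]
    ring
  · rw [hA]
    simp only [map_add, map_smul, ρx, ρd, βx, βd, smul_eq_mul]
    ring
  · rw [hB]
    simp only [map_add, map_smul, ρx, ρd, βx, βd, smul_eq_mul]
    field_simp
    ring
  · rw [hA, hB, hAB]
    exact hρ w
  · rw [hA, hB, hAB]
    constructor
    · intro hw'
      rcases (hnn w).eq_or_lt with hp | hp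
      · have h1 : c * ‖w‖ ≤ 0 := by rw [hp]; exact hlow w
        have h2 : w = 0 := norm_le_zero_iff.mp (by nlinarith [norm_nonneg w])
        simp [h2]
      · rw [hw'] at hp
        have h1 : μ (x + (β w / ρ w) • d) ≤ 1 := by
          have := hscale w hp
          rw [hw'] at this
          nlinarith
        have h2 := hl₀ _ h1
        have h3 := hl₁ _ h1
        rw [le_div_iff₀ hp] at h2
        rw [div_le_iff₀ hp] at h3
        exact ⟨div_nonneg (by linarith) hΔ.le, div_nonneg (by linarith) hΔ.le⟩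
    · rintro ⟨h1, h2⟩
      refine le_antisymm ?_ (hρ w)
      have e : w = ((s₁ * ρ w - β w) / (s₁ - s₀)) • (x + s₀ • d) +
          ((β w - s₀ * ρ w) / (s₁ - s₀)) • (x + s₁ • d) := by
        have e2 : (s₁ * ρ w - β w) / (s₁ - s₀) * s₀ + (β w - s₀ * ρ w) / (s₁ - s₀) * s₁ = β w := by
          field_simp
          ring
        have e1 := hAB w
        generalize (s₁ * ρ w - β w) / (s₁ - s₀) = a at e1 e2
        generalize (β w - s₀ * ρ w) / (s₁ - s₀) = b at e1 e2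
        conv_lhs => rw [hw w, ← e1, ← e2]
        module
      have h3 := flat_edge_comb hμ (x + s₀ • d) (x + s₁ • d) h1 h2
      rw [← e] at h3
      have h4 := hAB w
      nlinarith [mul_le_mul_of_nonneg_left hs₀ h1, mul_le_mul_of_nonneg_left hs₁ h2]
theorem flat_of_out (hμ : Nm μ) {A B : ℝ × ℝ →ₗ[ℝ] ℝ}
    (hc : ∀ w, μ w = A w + B w ↔ 0 ≤ A w ∧ 0 ≤ B w) {w w₀ : ℝ × ℝ} {d : ℝ} (hd : 0 ≤ d)
    (hA : A w ≤ d * A w₀) (hB : B w ≤ d * B w₀) :
    A w + B w + (μ w₀ - A w₀ - B w₀) * d ≤ μ w := by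
  have e1 : A (d • w₀ - w) = d * A w₀ - A w := by simp
  have e2 : B (d • w₀ - w) = d * B w₀ - B w := by simp
  have h1 := (hc (d • w₀ - w)).2 ⟨by linarith, by linarith⟩
  have h2 := hμ.add w (d • w₀ - w)
  rw [add_sub_cancel, hμ.smul d w₀ hd, h1, e1, e2] at h2
  linarith
/-- `frame_of`; for `out`: `μ - A - B` is continuous and positive on the compact set
`{max |2 B - A| |2 A - B| = 1, min A B ≤ -α}`; homogeneity -/
theorem flat_of (hμ : Nm μ) (h1 : ∀ x, μ (cR x) ≤ mE G x)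
    (h2 : ∀ η : ℝ, 0 < η → ∃ B : ℝ, ∀ x, mE G x ≤ μ (cR x) + η * n1 x + B)
    (h : ¬StrictConvex ℝ {v : ℝ × ℝ | μ v ≤ 1}) : ∃ e, Flat G e := by
  obtain ⟨A, B, hb, hl, hc⟩ := flat_edge hμ h
  obtain ⟨e, he, hx⟩ := frame_of hb
  obtain ⟨v, u, a1, a2, a3, a4⟩ := hb
  have hC : 0 < e.C := by linarith [he.C1]
  refine ⟨e, he, fun x => ?_, fun η hη => ?_, fun α hα => ?_⟩
  · rw [(hx x).1, (hx x).2]
    exact (hl _).trans (h1 x)
  · obtain ⟨K, hK⟩ := h2 (η / e.C) (div_pos hη hC)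
    refine ⟨K, fun x hp hq => ?_⟩
    have b1 := (hc (cR x)).2 ⟨(hx x).1 ▸ hp, (hx x).2 ▸ hq⟩
    rw [← (hx x).1, ← (hx x).2] at b1
    have b2 := he.dn x
    rw [abs_of_nonneg hp, abs_of_nonneg hq] at b2
    have b3 : η / e.C * n1 x ≤ η * (e.p x + e.q x) := by
      refine (mul_le_mul_of_nonneg_left b2 (div_pos hη hC).le).trans_eq ?_
      field_simp
    have b4 := hK x
    linarith
  · have c1 : A (u - α • v) = -α := by simp [a1, a3]
    have c2 : B (u - α • v) = 1 := by simp [a2, a4]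
    have c3 : A (v - α • u) = 1 := by simp [a1, a3]
    have c4 : B (v - α • u) = -α := by simp [a2, a4]
    have d1 : 0 < μ (u - α • v) - A (u - α • v) - B (u - α • v) := by
      have := (hl (u - α • v)).lt_of_ne fun h => by
        have := ((hc _).1 h.symm).1
        linarith
      linarith
    have d2 : 0 < μ (v - α • u) - A (v - α • u) - B (v - α • u) := by
      have := (hl (v - α • u)).lt_of_ne fun h => by
        have := ((hc _).1 h.symm).2
        linarith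
      linarith
    refine ⟨min _ _, lt_min d1 d2, fun x hm => le_trans ?_ (h1 x)⟩
    have hd := e.ds_nonneg x
    obtain ⟨b1, b2, -⟩ := e.ds_pq x
    have b3 := le_abs_self (e.p x)
    have b4 := le_abs_self (e.q x)
    rcases min_le_iff.1 hm with b | b
    · have := flat_of_out hμ hc (w := cR x) (w₀ := u - α • v) hd
        (by rw [c1, ← (hx x).1]; linarith) (by rw [c2, ← (hx x).2]; linarith)
      rw [← (hx x).1, ← (hx x).2] at this
      have := mul_le_mul_of_nonneg_right (min_le_left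
        (μ (u - α • v) - A (u - α • v) - B (u - α • v))
        (μ (v - α • u) - A (v - α • u) - B (v - α • u))) hd
      linarith
    · have := flat_of_out hμ hc (w := cR x) (w₀ := v - α • u) hd
        (by rw [c3, ← (hx x).1]; linarith) (by rw [c4, ← (hx x).2]; linarith)
      rw [← (hx x).1, ← (hx x).2] at this
      have := mul_le_mul_of_nonneg_right (min_le_right
        (μ (u - α • v) - A (u - α • v) - B (u - α • v))
        (μ (v - α • u) - A (v - α • u) - B (v - α • u))) hd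
      linarith

end

end Crest.Agent.R151.B
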