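import Crest.Agent.R151.D9a

set_option autoImplicit false

open MeasureTheory ProbabilityTheory Set Filter Topology
open scoped ENNReal
open Crest.ProbabilityR.FirstPassage

namespace Crest.Agent.R151.B

noncomputable section

/-! the tilted lower bound: deterministic steps -/

variable {e : Fr} {φ : Z2 → ℝ} {t : Env}

theorem xp_short_fire {Λ l s c : ℝ} (hΛ : 0 ≤ Λ) (h0 : 0 ≤ s) (h1 : s ≤ 1) {d : Z2}
    (h : 2 * Λ * max l (e.ds d) ≤ c) : Λ * (s * e.p d - e.q d) ≤ c := by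
  obtain ⟨a1, a2, -⟩ := e.ds_pq d
  have b1 : s * e.p d ≤ e.ds d :=
    (mul_le_mul_of_nonneg_left ((le_abs_self _).trans a1) h0).trans
      (mul_le_of_le_one_left (e.ds_nonneg d) h1)
  have b2 : s * e.p d - e.q d ≤ 2 * max l (e.ds d) := by
    linarith [neg_le_abs (e.q d), le_max_right l (e.ds d)]
  linarith [mul_le_mul_of_nonneg_left b2 hΛ]
theorem xp_short {S : Set Z2} {α Λ l s r c : ℝ} (a : e.XP φ S t α Λ l) (hα : 0 ≤ α) (hΛ : 0 ≤ Λ)
    (h0 : 0 ≤ s) (h1 : s ≤ 1) {x z : Z2} (w : Ex φ S t x z c) (hc : 0 ≤ c) (hd : e.ds (z - x) ≤ r)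
    (hl : l ≤ r) : Λ * (s * e.p (z - x) - e.q (z - x)) ≤ c + Λ * (s + α) * r := by
  have hr : 0 ≤ r := (e.ds_nonneg _).trans hd
  by_cases hf : min (e.p (z - x)) (e.q (z - x)) ≤ -(α * max l (e.ds (z - x)))
  · have := xp_short_fire hΛ h0 h1 (a x z c w hf)
    have h2 : 0 ≤ Λ * (s + α) * r := by positivity
    linarith
  · rw [not_le, lt_min_iff] at hf
    have b1 : α * max l (e.ds (z - x)) ≤ α * r := mul_le_mul_of_nonneg_left (max_le hl hd) hα
    have b2 : s * e.p (z - x) ≤ s * r :=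
      mul_le_mul_of_nonneg_left ((le_abs_self _).trans ((e.ds_pq _).1.trans hd)) h0
    have b3 : s * e.p (z - x) - e.q (z - x) ≤ (s + α) * r := by linarith [hf.2]
    linarith [mul_le_mul_of_nonneg_left b3 hΛ]
theorem piece_sq {α β r α' β' r' : ℝ} (h1 : |α' - α| + r' ≤ r) (h2 : |β' - β| + r' ≤ r) :
    e.Sq α' β' r' ⊆ e.Sq α β r := by
  rintro u ⟨a, b⟩
  exact ⟨by linarith [abs_sub_le (e.P u) α' α], by linarith [abs_sub_le (e.Y u) β' β]⟩
theorem piece_idx {i i₁ : ℤ} {n' n'' : ℕ} (hn'' : 5 ≤ n'') (hi : |i₁ - i * n''| ≤ 2 * n'' + 1) :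
    |i₁ * n' - i * n'' * n'| + (3 * n' : ℕ) ≤ (3 * n'' * n' : ℕ) := by
  have h0 : (0 : ℤ) ≤ n' := Int.natCast_nonneg _
  have h1 : (5 : ℤ) ≤ n'' := by exact_mod_cast hn''
  rw [← sub_mul, abs_mul, abs_of_nonneg h0]
  push_cast
  nlinarith [mul_le_mul_of_nonneg_right hi h0]
theorem piece_big {i i₁ : ℤ} {n'' : ℕ} {L : ℝ} (hL : 0 ≤ L) (hn'' : 5 ≤ n'')
    (hi : |i₁ - i * n''| ≤ 2 * n'' + 1) : |i₁ * L - i * (n'' * L)| + 4 * L ≤ 4 * (n'' * L) := by
  have h1 : (5 : ℝ) ≤ n'' := by exact_mod_cast hn''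
  have h2 : |(i₁ : ℝ) - i * n''| ≤ 2 * n'' + 1 := by exact_mod_cast hi
  rw [← mul_assoc, ← sub_mul, abs_mul, abs_of_nonneg hL]
  nlinarith [mul_le_mul_of_nonneg_right h2 hL, mul_le_mul_of_nonneg_right h1 hL]
/-- If `XP` fires on `(a, b)` done. Otherwise `max Δp Δq ≥ ds / 3`; if `Δp < ds / 10` the left side is
negative. Otherwise `transfer` on the grid `n l` (`Nice.restrict` of `hφ.fine` to
`(i₁ n', j₁ n', 3 n')`, `Nice.mono`) to a potential of the good box, `Tilt`, `xp_short` for the two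
end pieces with `r = 3 n l`, and `h1`. -/
theorem piece (he : e.OK) {α Λ l y y' s s' D : ℝ} {n n' n'' : ℕ} {i j i₁ j₁ : ℤ} (hl : e.κ ≤ l)
    (hn : 1 ≤ n) (hn' : 5 ≤ n') (hn'' : 5 ≤ n'') (hα : 0 < α) (hα' : α ≤ 1 / 3) (hΛ : 0 ≤ Λ)
    (hs' : 0 ≤ s') (hs : s' ≤ s) (hs1 : s ≤ 1) (hy : y ≤ y')
    (h1 : 10 * (Λ * (D + 6 * (s + α) * (n * l)) + 6 * y') ≤ Λ * (s - s') * (n' * (n * l)))
    (hφ : e.Cls α Λ (n * l) y' n' n'' i j φ t) (hi : |i₁ - i * n''| ≤ 2 * n'' + 1)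
    (hj : |j₁ - j * n''| ≤ 2 * n'' + 1) (g : t ∈ e.Good α Λ l y n n' s D i₁ j₁) {a b : Z2} {c : ℝ}
    (w : Ex φ (e.Sq (i₁ * (n' * (n * l))) (j₁ * (n' * (n * l))) (2 * (n' * (n * l)))) t a b c)
    (hd : n' * (n * l) ≤ e.ds (b - a)) : Λ * (s' * e.p (b - a) - e.q (b - a)) ≤ c := by
  have hl0 : 0 < l := by linarith [he.κ3]
  have hn1 : (1 : ℝ) ≤ n := by exact_mod_cast hn
  have hn5 : (5 : ℝ) ≤ n' := by exact_mod_cast hn'
  have hn6 : (5 : ℝ) ≤ n'' := by exact_mod_cast hn''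
  have hm : e.κ ≤ n * l := hl.trans (le_mul_of_one_le_left hl0.le hn1)
  obtain ⟨⟨ψ, hψ⟩, hg⟩ := g
  have ht := hg ψ hψ
  have mid := hψ.mid.mono hy
  have pψ := hψ.pot
  have pφ := hφ.pot
  have xφ := hφ.xp
  have fine := hφ.fine
  generalize (n : ℝ) * l = m at *
  have hm0 : 0 < m := by linarith [he.κ3]
  have hL : 5 * m ≤ n' * m := mul_le_mul_of_nonneg_right hn5 hm0.le
  have hL0 : 0 ≤ n' * m := by linarith
  have hL1 : n' * m ≤ n'' * (n' * m) := le_mul_of_one_le_left hL0 (by linarith)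
  have s4 : e.Sq (i₁ * (n' * m)) (j₁ * (n' * m)) (4 * (n' * m)) ⊆
      e.Sq (i * (n'' * (n' * m))) (j * (n'' * (n' * m))) (4 * (n'' * (n' * m))) :=
    piece_sq (piece_big hL0 hn'' hi) (piece_big hL0 hn'' hj)
  have s2 : e.Sq (i₁ * (n' * m)) (j₁ * (n' * m)) (2 * (n' * m)) ⊆
      e.Sq (i₁ * (n' * m)) (j₁ * (n' * m)) (4 * (n' * m)) :=
    piece_sq (by rw [sub_self, abs_zero]; linarith) (by rw [sub_self, abs_zero]; linarith)
  have p2 := pφ.mono (s2.trans s4)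
  have x2 : e.XP φ (e.Sq (i₁ * (n' * m)) (j₁ * (n' * m)) (2 * (n' * m))) t α Λ m :=
    fun x z c w => xφ x z c (w.mono (s2.trans s4))
  have hc : 0 ≤ c := w.nonneg p2
  by_cases hf : min (e.p (b - a)) (e.q (b - a)) ≤ -(α * max m (e.ds (b - a)))
  · exact xp_short_fire hΛ hs' (hs.trans hs1) (x2 a b c w hf)
  rw [not_le, lt_min_iff, max_eq_right (by linarith)] at hf
  have hd0 : 0 < e.ds (b - a) := by linarith
  have hα3 : α * e.ds (b - a) ≤ 1 / 3 * e.ds (b - a) := mul_le_mul_of_nonneg_right hα' hd0.le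
  rcases lt_or_ge (e.p (b - a)) (e.ds (b - a) / 10) with hp | hp
  · have b1 : e.ds (b - a) / 3 ≤ e.q (b - a) := by
      by_contra hq
      rw [not_le] at hq
      have := (e.ds_pq (b - a)).2.2
      have b2 : max |e.p (b - a)| |e.q (b - a)| < e.ds (b - a) / 3 :=
        max_lt (abs_lt.2 ⟨by linarith [hf.1], by linarith⟩) (abs_lt.2 ⟨by linarith [hf.2], hq⟩)
      linarith
    have b2 : s' * e.p (b - a) ≤ e.ds (b - a) / 10 :=
      (mul_le_mul_of_nonneg_left hp.le hs').trans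
        (mul_le_of_le_one_left (by linarith) (hs.trans hs1))
    exact (mul_nonpos_of_nonneg_of_nonpos hΛ (by linarith)).trans hc
  have s3 : e.Sq ((i₁ * n' : ℤ) * m) ((j₁ * n' : ℤ) * m) (((3 * n' : ℕ) + 1) * m) ⊆
      e.Sq (i₁ * (n' * m)) (j₁ * (n' * m)) (4 * (n' * m)) := by
    refine piece_sq ?_ ?_ <;> push_cast <;> rw [mul_assoc, sub_self, abs_zero] <;> linarith
  have s5 : e.Sq ((i * n'' * n' : ℤ) * m) ((j * n'' * n' : ℤ) * m) (((3 * n'' * n' : ℕ) + 1) * m) ⊆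
      e.Sq (i * (n'' * (n' * m))) (j * (n'' * (n' * m))) (4 * (n'' * (n' * m))) := by
    refine piece_sq ?_ ?_ <;> push_cast <;> rw [mul_assoc, mul_assoc, sub_self, abs_zero] <;>
      linarith
  have s6 : e.Sq (i₁ * (n' * m)) (j₁ * (n' * m)) (2 * (n' * m)) ⊆
      e.Sq ((i₁ * n' : ℤ) * m) ((j₁ * n' : ℤ) * m) (((3 * n' : ℕ) - 3) * m) := by
    refine piece_sq ?_ ?_ <;> push_cast <;> rw [mul_assoc, sub_self, abs_zero] <;> linarith
  obtain ⟨x', z', c₁, c₂, c₃, c', w₁, w₃, e1, d1, d3, w', e2⟩ :=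
    transfer he hm (fine.restrict he hm (pφ.mono s5) (piece_idx hn'' hi) (piece_idx hn'' hj)) mid
      (pφ.mono (s3.trans s4)) (pψ.mono s3) s6 w (hL.trans hd)
  have k1 := xp_short x2 hα.le hΛ (hs'.trans hs) hs1 w₁ (w₁.nonneg p2) d1 (by linarith)
  have k3 := xp_short x2 hα.le hΛ (hs'.trans hs) hs1 w₃ (w₃.nonneg p2) d3 (by linarith)
  have k2 := ht x' z' c' w'
  have k4 : Λ * (s - s') * (n' * m) ≤ Λ * (s - s') * (10 * e.p (b - a)) :=
    mul_le_mul_of_nonneg_left (by linarith) (mul_nonneg hΛ (by linarith))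
  simp only [map_sub] at k1 k2 k3 k4 ⊢
  linarith
/-- induction on `⌈(φ z - φ x + c) / δ⌉` with `δ` from `PS.lower` (`Rch.ge_of_ne`); cut with `Ex.ivt` for
`ds (· - x)` at level `L` -/
theorem avoid (he : e.OK) (ht : PS t) {S : Set Z2} (hS : S.Finite) {F : Z2 →+ ℝ} {L E : ℝ}
    (hL : 2 * e.κ ≤ L) (h1 : ∀ a b c, Ex φ (S ∩ {u | e.ds (u - a) ≤ 3 * L / 2}) t a b c →
      L ≤ e.ds (b - a) → F (b - a) ≤ c)
    (h2 : ∀ a b c, Ex φ S t a b c → e.ds (b - a) ≤ L → F (b - a) ≤ c + E) {x z : Z2} {c : ℝ}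
    (w : Ex φ S t x z c) : F (z - x) ≤ c + E := by
  obtain ⟨δ, hδ, hδS⟩ := ht.lower hS
  have hκ := he.κ3
  have p0 : Pot (fun _ => (0 : ℝ)) S t := fun u _ v _ _ => by
    rw [sub_zero]; exact (ht _).le
  have key : ∀ N : ℕ, ∀ x c, Ex φ S t x z c → φ z - φ x + c < N * δ → F (z - x) ≤ c + E := by
    intro N
    induction N with
    | zero =>
      intro x c w hc
      have := p0.le w
      simp only [Nat.cast_zero, zero_mul, sub_zero] at hc this
      linarith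
    | succ N ih =>
      intro x c w hc
      by_cases hd : e.ds (z - x) ≤ L
      · exact h2 x z c w hd
      push Not at hd
      obtain ⟨u, d₁, d₂, w₁, w₂, hs, hu, -⟩ := w.ivt (f := fun u => e.ds (u - x)) (C := e.κ)
        (α := L) (by linarith) (fun u v a => (he.step a).2.2.2.2 x)
        (by simp only [sub_self, e.ds_zero]; linarith) hd.le
      have hne : x ≠ u := by
        rintro rfl
        simp only [sub_self, e.ds_zero] at hu
        linarith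
      have a1 : F (u - x) ≤ d₁ := h1 x u d₁ (w₁.mono fun v hv => ⟨hv.1, by
        have := hv.2
        simp only [mem_ofPred_eq] at this ⊢
        linarith⟩) hu
      have a2 : δ ≤ φ u - φ x + d₁ :=
        Rch.ge_of_ne hδ.le (fun u hu v hv _ => hδS u hu v hv) hne (w₁.mono inter_subset_left)
      have a3 := ih u d₂ w₂ (by push_cast at hc; linarith)
      rw [show z - x = (z - u) + (u - x) by abel, map_add]
      linarith
  obtain ⟨N, hN⟩ := exists_nat_gt ((φ z - φ x + c) / δ)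
  exact key N x c w ((div_lt_iff₀ hδ).1 hN)
theorem step_det_round (a : ℝ) {L : ℝ} (hL : 0 < L) : |a - round (a / L) * L| ≤ L / 2 := by
  have h := abs_sub_round (a / L)
  rw [show a - round (a / L) * L = (a / L - round (a / L)) * L by field_simp, abs_mul,
    abs_of_pos hL]
  nlinarith
theorem step_det_range {a L : ℝ} {k i : ℤ} {m : ℕ} (hL : 0 < L) (h : |a - k * L| ≤ L / 2)
    (h' : |a - i * (m * L)| ≤ 2 * (m * L)) : |k - i * m| ≤ 2 * m + 1 := by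
  have h1 : |((k - i * m : ℤ) : ℝ)| * L ≤ (2 * m + 1) * L := by
    rw [← abs_of_pos hL, ← abs_mul, abs_of_pos hL]
    have := abs_sub_le ((k : ℝ) * L) a (i * (m * L))
    rw [abs_sub_comm ((k : ℝ) * L) a] at this
    rw [Int.cast_sub, sub_mul, Int.cast_mul, Int.cast_natCast, mul_assoc]
    linarith
  exact_mod_cast le_of_mul_le_mul_right h1 hL
theorem step_det_far {a L : ℝ} {k i : ℤ} (hL : 0 < L) (h : |a - k * L| ≤ L / 2)
    (h' : 9 * L ≤ |a - i * L|) : 8 < |k - i| := by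
  have h1 : 8 * L < |((k - i : ℤ) : ℝ)| * L := by
    rw [← abs_of_pos hL, ← abs_mul, abs_of_pos hL]
    have := abs_sub_le a ((k : ℝ) * L) (i * L)
    rw [Int.cast_sub, sub_mul]
    linarith
  exact_mod_cast lt_of_mul_lt_mul_right h1 hL.le
/-- `L = n' n l`. All bad boxes in range are within index distance `8` of one index `(i₀, j₀)`; let
`ψ u = max |P u - i₀ L| |Y u - j₀ L|`. On `S ∩ {9 L ≤ ψ}` `avoid` applies (`piece` in the box with index
`round (P a / L), round (Y a / L)`; `xp_short`, `E = Λ (s' + α) L`). If all cut points have `10 L ≤ ψ` use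
`Ex.confine`; otherwise cut at the first and the last point with `ψ ≤ 10 L` (`Ex.ivt`, `Ex.ivt'` for `-ψ`, or
the end point itself) and use `xp_short` with `r = 20 L` in the middle. -/
theorem step_det (he : e.OK) (ht : PS t) {α Λ l y y' s s' D D' : ℝ} {n n' n'' : ℕ} {i j : ℤ}
    (hl : e.κ ≤ l) (hn : 1 ≤ n) (hn' : 5 ≤ n') (hn'' : 5 ≤ n'') (hα : 0 < α) (hα' : α ≤ 1 / 3)
    (hΛ : 0 ≤ Λ) (hs' : 0 ≤ s') (hs : s' ≤ s) (hs1 : s ≤ 1) (hy : y ≤ y')
    (h1 : 10 * (Λ * (D + 6 * (s + α) * (n * l)) + 6 * y') ≤ Λ * (s - s') * (n' * (n * l)))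
    (h2 : 22 * (s + α) * (n' * (n * l)) ≤ D')
    (hb : ∀ i₁ j₁ i₂ j₂ : ℤ, |i₁ - i * n''| ≤ 2 * n'' + 1 → |j₁ - j * n''| ≤ 2 * n'' + 1 →
      |i₂ - i * n''| ≤ 2 * n'' + 1 → |j₂ - j * n''| ≤ 2 * n'' + 1 → 8 < |i₁ - i₂| ∨ 8 < |j₁ - j₂| →
      t ∈ e.Good α Λ l y n n' s D i₁ j₁ ∨ t ∈ e.Good α Λ l y n n' s D i₂ j₂)
    (hφ : e.Cls α Λ (n * l) y' n' n'' i j φ t) :
    e.Tilt φ (e.Sq (i * (n'' * (n' * (n * l)))) (j * (n'' * (n' * (n * l))))
      (2 * (n'' * (n' * (n * l))))) t Λ s' D' := by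
  intro x z c w
  have hκ := he.κ3
  have hn1 : (1 : ℝ) ≤ n := by exact_mod_cast hn
  have hn5 : (5 : ℝ) ≤ n' := by exact_mod_cast hn'
  have hn5' : (5 : ℝ) ≤ n'' := by exact_mod_cast hn''
  have hl0 : 0 < l := by linarith
  have hnl : l ≤ n * l := by nlinarith
  have hpot := hφ.pot
  have hxp := hφ.xp
  have hpiece := fun i₁ j₁ hi hj g a b c w hd =>
    piece (φ := φ) (t := t) (i₁ := i₁) (j₁ := j₁) (a := a) (b := b) (c := c) he hl hn hn' hn'' hα hα' hΛ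
      hs' hs hs1 hy h1 hφ hi hj g w hd
  obtain ⟨L, hL⟩ : ∃ L : ℝ, L = n' * (n * l) := ⟨_, rfl⟩
  rw [← hL] at hpot hxp hpiece h2 w
  have hL5 : 5 * (n * l) ≤ L := by rw [hL]; nlinarith
  have hL0 : 0 < L := by linarith
  have hκL : 2 * e.κ ≤ L := by linarith
  set S := e.Sq (i * (n'' * L)) (j * (n'' * L)) (2 * (n'' * L)) with hSdef
  have hS4 : S ⊆ e.Sq (i * (n'' * L)) (j * (n'' * L)) (4 * (n'' * L)) := fun u hu => by
    have : 0 ≤ (n'' : ℝ) * L := by positivity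
    exact ⟨hu.1.trans (by linarith), hu.2.trans (by linarith)⟩
  obtain ⟨i₀, j₀, hg⟩ : ∃ i₀ j₀ : ℤ, ∀ i₁ j₁ : ℤ, |i₁ - i * n''| ≤ 2 * n'' + 1 →
      |j₁ - j * n''| ≤ 2 * n'' + 1 → 8 < |i₁ - i₀| ∨ 8 < |j₁ - j₀| →
      t ∈ e.Good α Λ l y n n' s D i₁ j₁ := by
    by_cases hex : ∃ i₀ j₀ : ℤ, |i₀ - i * n''| ≤ 2 * n'' + 1 ∧ |j₀ - j * n''| ≤ 2 * n'' + 1 ∧
        t ∉ e.Good α Λ l y n n' s D i₀ j₀
    · obtain ⟨i₀, j₀, a, b, c⟩ := hex
      exact ⟨i₀, j₀, fun i₁ j₁ a' b' h => (hb i₁ j₁ i₀ j₀ a' b' a b h).resolve_right c⟩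
    · push Not at hex
      exact ⟨0, 0, fun i₁ j₁ a' b' _ => hex i₁ j₁ a' b'⟩
  set ψ : Z2 → ℝ := fun u => max |e.P u - i₀ * L| |e.Y u - j₀ * L| with hψ
  have hψs : ∀ u v, squareLattice.Adj u v → |(-ψ v) - (-ψ u)| ≤ e.κ := fun u v a => by
    obtain ⟨b1, b2, -⟩ := he.step a
    rw [neg_sub_neg, abs_sub_comm]
    refine (abs_max_sub_max_le_max _ _ _ _).trans (max_le ?_ ?_)
    · refine (abs_abs_sub_abs_le_abs_sub _ _).trans ?_
      rwa [sub_sub_sub_cancel_right]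
    · refine (abs_abs_sub_abs_le_abs_sub _ _).trans ?_
      rwa [sub_sub_sub_cancel_right]
  set F : Z2 →+ ℝ := Λ • (s' • e.p - e.q) with hF
  have hFa : ∀ d, F d = Λ * (s' * e.p d - e.q d) := fun d => by
    simp [hF]
  have hE0 : 0 ≤ Λ * (s' + α) * L := by positivity
  have hsh : ∀ a b c r, Ex φ S t a b c → e.ds (b - a) ≤ r → L ≤ r →
      F (b - a) ≤ c + Λ * (s' + α) * r := fun a b c r w hd hr => by
    rw [hFa]
    exact xp_short hxp hα.le hΛ hs' (hs.trans hs1) (w.mono hS4) ((w.mono hS4).nonneg hpot) hd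
      (by linarith)
  have hav : ∀ a b c, Ex φ (S ∩ {u | 9 * L ≤ ψ u}) t a b c →
      F (b - a) ≤ c + Λ * (s' + α) * L := fun a b c w => by
    refine avoid he ht ((he.Sq_fin _ _ _).subset inter_subset_left) hκL (fun a b c w hd => ?_)
      (fun a b c w hd => hsh a b c L (w.mono inter_subset_left) hd le_rfl) w
    obtain ⟨⟨⟨m1, m2⟩, m3⟩, -⟩ := w.mem.1
    have r1 := step_det_round (e.P a) hL0
    have r2 := step_det_round (e.Y a) hL0
    rw [hFa]
    refine hpiece (round (e.P a / L)) (round (e.Y a / L))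
      (step_det_range hL0 r1 m1)
      (step_det_range hL0 r2 m2)
      (hg _ _ (step_det_range hL0 r1 m1)
        (step_det_range hL0 r2 m2) ?_)
      a b c (w.mono fun u hu => ?_) hd
    · rcases le_max_iff.1 (show 9 * L ≤ max |e.P a - i₀ * L| |e.Y a - j₀ * L| from m3) with h | h
      · exact Or.inl (step_det_far hL0 r1 h)
      · exact Or.inr (step_det_far hL0 r2 h)
    · obtain ⟨k1, k2⟩ := max_le_iff.1
        (show max |e.P (u - a)| |e.Y (u - a)| ≤ 3 * L / 2 from hu.2)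
      rw [map_sub] at k1 k2
      refine ⟨?_, ?_⟩
      · have := abs_sub_le (e.P u) (e.P a) (round (e.P a / L) * L)
        linarith
      · have := abs_sub_le (e.Y u) (e.Y a) (round (e.Y a / L) * L)
        linarith
  have hD : Λ * (22 * (s' + α) * L) ≤ Λ * D' :=
    mul_le_mul_of_nonneg_left (le_trans (by nlinarith) h2) hΛ
  have goal : F (z - x) ≤ c + 22 * (Λ * (s' + α) * L) := by
    by_cases hc : ∀ u d₁ d₂, Ex φ S t x u d₁ → Ex φ S t u z d₂ → d₁ + d₂ = c → 10 * L ≤ ψ u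
    · have := hav x z c (w.confine fun u d₁ d₂ a b h => by
        have := hc u d₁ d₂ a b h
        show 9 * L ≤ ψ u
        linarith)
      linarith
    push Not at hc
    obtain ⟨u, d₁, d₂, w₁, w₂, hs, hu⟩ := hc
    have hsub : S ∩ {u | -ψ u ≤ -(10 * L) + e.κ} ⊆ S ∩ {u | 9 * L ≤ ψ u} := fun v hv =>
      ⟨hv.1, by
        have := hv.2
        simp only [mem_ofPred_eq] at this ⊢
        linarith⟩
    obtain ⟨x', c₁, c₂, v₂, e₁, f₁, g₁⟩ : ∃ x' c₁ c₂, Ex φ S t x' u c₂ ∧ c₁ + c₂ = d₁ ∧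
        F (x' - x) ≤ c₁ + Λ * (s' + α) * L ∧ ψ x' ≤ 10 * L := by
      by_cases hx : ψ x ≤ 10 * L
      · exact ⟨x, 0, d₁, w₁, zero_add _, by rw [sub_self, map_zero]; linarith, hx⟩
      push Not at hx
      obtain ⟨x', c₁, c₂, v₁, v₂, e₁, f₁, -⟩ := w₁.ivt (f := fun u => -ψ u) (C := e.κ)
        (α := -(10 * L)) (by linarith) hψs (by linarith) (by linarith)
      exact ⟨x', c₁, c₂, v₂, e₁, hav _ _ _ (v₁.mono hsub), by linarith⟩
    obtain ⟨z', c₃, c₄, v₃, e₂, f₂, g₂⟩ : ∃ z' c₃ c₄, Ex φ S t u z' c₃ ∧ c₃ + c₄ = d₂ ∧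
        F (z - z') ≤ c₄ + Λ * (s' + α) * L ∧ ψ z' ≤ 10 * L := by
      by_cases hz : ψ z ≤ 10 * L
      · exact ⟨z, d₂, 0, w₂, add_zero _, by rw [sub_self, map_zero]; linarith, hz⟩
      push Not at hz
      obtain ⟨z', c₃, c₄, v₃, v₄, e₂, f₂, -⟩ := w₂.ivt' (f := fun u => -ψ u) (C := e.κ)
        (α := -(10 * L)) (by linarith) hψs (by linarith) (by linarith)
      exact ⟨z', c₃, c₄, v₃, e₂, hav _ _ _ (v₄.mono hsub), by linarith⟩
    have hm := hsh x' z' (c₂ + c₃) (20 * L) (v₂.trans v₃) (by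
      obtain ⟨a1, a2⟩ := max_le_iff.1 g₁
      obtain ⟨b1, b2⟩ := max_le_iff.1 g₂
      refine max_le ?_ ?_
      · rw [map_sub]
        have := abs_sub_le (e.P z') (i₀ * L) (e.P x')
        rw [abs_sub_comm (i₀ * L : ℝ)] at this
        linarith
      · rw [map_sub]
        have := abs_sub_le (e.Y z') (j₀ * L) (e.Y x')
        rw [abs_sub_comm (j₀ * L : ℝ)] at this
        linarith) (by linarith)
    rw [show z - x = (z - z') + (z' - x') + (x' - x) by abel, map_add, map_add]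
    linarith
  rw [hFa] at goal
  linarith
theorem base_det_idx {l a : ℝ} (hl : 0 < l) {m : ℤ} {N : ℕ} (h : |a - m * l| + 22 * l ≤ N * l) :
    |⌊a / l⌋ * l - m * l| + 21 * l ≤ N * l ∧ |⌊a / l⌋ - m| + (20 : ℕ) ≤ N := by
  have h1 : ⌊a / l⌋ * l ≤ a := (le_div_iff₀ hl).1 (Int.floor_le _)
  have h2 : a < (⌊a / l⌋ + 1) * l := (div_lt_iff₀ hl).1 (Int.lt_floor_add_one _)
  have h3 : |⌊a / l⌋ * l - m * l| + 21 * l ≤ N * l := by
    have := abs_sub_le (⌊a / l⌋ * l) a (m * l)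
    have h4 : |⌊a / l⌋ * l - a| ≤ l := abs_le.2 ⟨by linarith, by linarith⟩
    linarith
  refine ⟨h3, ?_⟩
  rw [← sub_mul, abs_mul, abs_of_pos hl, ← add_mul] at h3
  have h5 := le_of_mul_le_mul_right h3 hl
  have h6 : |(⌊a / l⌋ : ℝ) - m| + 20 ≤ N := by linarith
  exact_mod_cast h6
theorem base_det_ds {a b r : ℝ} {x z : Z2} (hx : x ∈ e.Sq a b r) (hz : z ∈ e.Sq a b r) :
    e.ds (z - x) ≤ 2 * r := by
  have h1 := abs_le.1 hx.1
  have h2 := abs_le.1 hx.2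
  have h3 := abs_le.1 hz.1
  have h4 := abs_le.1 hz.2
  refine max_le ?_ ?_ <;> rw [map_sub, abs_le] <;> constructor <;>
    linarith [h1.1, h1.2, h2.1, h2.2, h3.1, h3.2, h4.1, h4.2]
theorem base_det_sq {a b r a' b' r' : ℝ} (h1 : |a - a'| + r ≤ r') (h2 : |b - b'| + r ≤ r') :
    e.Sq a b r ⊆ e.Sq a' b' r' := fun _ hx =>
  ⟨(abs_sub_le _ a _).trans (by linarith [hx.1]), (abs_sub_le _ b _).trans (by linarith [hx.2])⟩
theorem base_det_q {S : Set Z2} {α Λ l R K c : ℝ} (a : e.XP φ S t α Λ l) (hα : 0 ≤ α) (hΛ : 0 < Λ)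
    {x z : Z2} (w : Ex φ S t x z c) (hd : e.ds (z - x) ≤ R) (hl : l ≤ R) (h1 : α * R ≤ K)
    (h2 : c ≤ 2 * Λ * K) : -K ≤ e.q (z - x) := by
  by_cases hf : min (e.p (z - x)) (e.q (z - x)) ≤ -(α * max l (e.ds (z - x)))
  · have h3 := (a x z c w hf).trans h2
    have h4 := le_of_mul_le_mul_left h3 (by linarith)
    have h5 := (abs_le.1 ((e.ds_pq (z - x)).2.1.trans ((le_max_right _ _).trans h4))).1
    exact h5
  · have h3 := (not_le.1 hf).le.trans (min_le_right _ _)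
    have h4 := mul_le_mul_of_nonneg_left (max_le hl hd) hα
    linarith
/-- `L = n' n l`. Suppose `c < Λ (s Δp - Δq - s L / 100)`. `XP` does not fire on `(x, z)`, so
`Δq > -4 α L`, `c < 8 Λ s L ≤ θ`, `Δp > L / 200`, `Δq < 4 s L`. For a cut point `u` (fire or not)
`q u - q x ≥ -4 s L` and `q z - q u ≥ -4 s L`: the walk stays in a column `[β, β + v]`,
`β = ⌊(q x - 4 s L) / (v / 2)⌋ v / 2` (`Ex.confine`). With `r = ⌈p x / (50 l)⌉` it crosses the lane of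
the signal (`Ex.trim`); the corner of that lane is within `3 l` of a point of the walk (`Ex.ivt`), so
`Nice.restrict` and `Pot.mono` apply. -/
theorem base_det (he : e.OK) {α Λ l y s v θ : ℝ} {n n' g : ℕ} {i j : ℤ} (hl : e.κ ≤ l)
    (hn : 1 ≤ n) (hn' : 1 ≤ n') (hα : 0 < α) (hαs : α ≤ s / 800) (hs : s ≤ 1) (hΛ : 0 < Λ)
    (hv : v ≤ l) (h1 : 24 * s * (n' * (n * l)) ≤ v) (h2 : (g + 2) * 10 ^ 4 ≤ n * n')
    (h3 : 8 * Λ * s * (n' * (n * l)) ≤ θ)
    (hb : ∀ c r : ℤ, |c * (v / 2) - (2 * i + j) * (n' * (n * l)) / 3| ≤ 3 * (n' * (n * l)) →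
      |50 * l * r - (i + 2 * j) * (n' * (n * l)) / 3| ≤ 3 * (n' * (n * l)) →
      ∃ k : ℕ, k < g ∧ t ∈ e.Sig l y θ v (50 * l * (r + k)) (c * (v / 2)))
    (hφ : e.Cls α Λ l y n n' i j φ t) :
    e.Tilt φ (e.Sq (i * (n' * (n * l))) (j * (n' * (n * l))) (2 * (n' * (n * l)))) t Λ s
      (s * (n' * (n * l)) / 100) := by
  obtain ⟨rt, pot, fine, -, xp⟩ := hφ
  have hκ := he.κ3
  have l0 : 0 < l := by linarith
  have s0 : 0 < s := by linarith
  have hN : ((g : ℝ) + 2) * 10 ^ 4 ≤ n * n' := by exact_mod_cast h2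
  have eI : ∀ i : ℤ, ((i * n' * n : ℤ) : ℝ) * l = i * (n' * (n * l)) := fun i => by push_cast; ring
  have eN : ((3 * n' * n : ℕ) : ℝ) * l = 3 * (n' * (n * l)) := by push_cast; ring
  have hL : ((g : ℝ) + 2) * 10 ^ 4 * l ≤ n' * (n * l) :=
    (mul_le_mul_of_nonneg_right hN l0.le).trans_eq (by ring)
  generalize (n' : ℝ) * (n * l) = L at *
  have gl : 0 ≤ (g : ℝ) * l := mul_nonneg g.cast_nonneg l0.le
  have hlL : 20000 * l ≤ L := by linarith
  have L0 : 0 < L := by linarith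
  have sL : 0 < s * L := mul_pos s0 L0
  have αL : α * L ≤ s / 800 * L := mul_le_mul_of_nonneg_right hαs L0.le
  have hS : e.Sq (i * L) (j * L) (2 * L) ⊆ e.Sq (i * L) (j * L) (4 * L) :=
    base_det_sq (by rw [sub_self, abs_zero]; linarith) (by rw [sub_self, abs_zero]; linarith)
  have pS := pot.mono hS
  intro x z c w
  by_contra hc
  rw [not_le] at hc
  have c0 := w.nonneg pS
  have hd := base_det_ds w.mem.1 w.mem.2
  obtain ⟨d1, d2, -⟩ := e.ds_pq (z - x)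
  rw [abs_le] at d1 d2
  have sp : s * e.p (z - x) ≤ s * e.ds (z - x) := mul_le_mul_of_nonneg_left d1.2 s0.le
  have sd : s * e.ds (z - x) ≤ 1 * e.ds (z - x) := mul_le_mul_of_nonneg_right hs (e.ds_nonneg _)
  have sd' : s * e.ds (z - x) ≤ s * (2 * (2 * L)) := mul_le_mul_of_nonneg_left hd s0.le
  have nf : -(α * (4 * L)) ≤ e.q (z - x) := by
    by_cases hf : min (e.p (z - x)) (e.q (z - x)) ≤ -(α * max l (e.ds (z - x)))
    · have h4 := (xp x z c (w.mono hS) hf).trans_lt hc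
      rw [mul_assoc, mul_left_comm] at h4
      have h5 := lt_of_mul_lt_mul_left h4 hΛ.le
      linarith [le_max_right l (e.ds (z - x))]
    · have h4 := (not_le.1 hf).le.trans (min_le_right _ _)
      have h5 := mul_le_mul_of_nonneg_left
        (max_le (show l ≤ 4 * L by linarith) (show e.ds (z - x) ≤ 4 * L by linarith)) hα.le
      linarith
  have c1 : c ≤ 2 * Λ * (4 * (s * L)) := by
    have := mul_le_mul_of_nonneg_left (show s * e.p (z - x) - e.q (z - x) - s * L / 100 ≤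
      2 * (4 * (s * L)) by linarith) hΛ.le
    linarith
  have c2 : 0 < s * e.p (z - x) - e.q (z - x) - s * L / 100 :=
    pos_of_mul_pos_left (c0.trans_lt hc |>.trans_eq (mul_comm _ _)) hΛ.le
  have p1 : L / 200 ≤ e.p (z - x) := le_of_mul_le_mul_left (a := s) (by linarith) s0
  have q1 : e.q (z - x) ≤ 4 * (s * L) := by linarith
  have v0 : 0 < v / 2 := by linarith
  have b1 : ⌊(e.q x - 4 * (s * L)) / (v / 2)⌋ * (v / 2) ≤ e.q x - 4 * (s * L) :=
    (le_div_iff₀ v0).1 (Int.floor_le _)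
  have b2 : e.q x - 4 * (s * L) < (⌊(e.q x - 4 * (s * L)) / (v / 2)⌋ + 1) * (v / 2) :=
    (div_lt_iff₀ v0).1 (Int.lt_floor_add_one _)
  have r1 : e.p x ≤ ⌈e.p x / (50 * l)⌉ * (50 * l) := (div_le_iff₀ (by linarith)).1 (Int.le_ceil _)
  have r2 : (⌈e.p x / (50 * l)⌉ - 1) * (50 * l) < e.p x :=
    (lt_div_iff₀ (by linarith)).1 (sub_lt_iff_lt_add.2 (Int.ceil_lt_add_one _))
  generalize ⌊(e.q x - 4 * (s * L)) / (v / 2)⌋ = c₀ at b1 b2
  generalize ⌈e.p x / (50 * l)⌉ = r at r1 r2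
  have x1 := abs_le.1 w.mem.1.1
  have x2 := abs_le.1 w.mem.1.2
  have e1 := e.P_apply x
  have e2 := e.Y_apply x
  obtain ⟨k, hk, sig⟩ := hb c₀ r
    (abs_le.2 ⟨by linarith [x1.1, x2.1], by linarith [x1.2, x2.2]⟩)
    (abs_le.2 ⟨by linarith [x1.1, x2.1], by linarith [x1.2, x2.2]⟩)
  have k1 : (k : ℝ) * l ≤ g * l :=
    mul_le_mul_of_nonneg_right (by exact_mod_cast hk.le) l0.le
  have k0 : 0 ≤ (k : ℝ) * l := mul_nonneg k.cast_nonneg l0.le
  have A1 : e.p x ≤ 50 * l * (r + k) := by linarith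
  have A2 : 50 * l * (r + k) + 7 * l ≤ e.p x + L / 200 := by linarith
  have B1 : c₀ * (v / 2) ≤ e.q x - 4 * (s * L) := b1
  have B2 : e.q x + 8 * (s * L) ≤ c₀ * (v / 2) + v := by linarith
  generalize 50 * l * (r + k) = A at sig A1 A2
  generalize c₀ * (v / 2) = β at sig B1 B2
  have w' := w.confine (S' := {u | β ≤ e.q u ∧ e.q u ≤ β + v}) fun u d₁ d₂ w₁ w₂ hu => by
    have n₁ := w₁.nonneg pS
    have n₂ := w₂.nonneg pS
    have u₁ := base_det_q xp hα.le hΛ (w₁.mono hS) (base_det_ds w₁.mem.1 w₁.mem.2) (by linarith)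
      (K := 4 * (s * L)) (by linarith) (by linarith)
    have u₂ := base_det_q xp hα.le hΛ (w₂.mono hS) (base_det_ds w₂.mem.1 w₂.mem.2) (by linarith)
      (K := 4 * (s * L)) (by linarith) (by linarith)
    rw [map_sub] at u₁ u₂ q1
    exact ⟨by linarith, by linarith⟩
  rw [map_sub] at p1
  have ch : Chp e.κ φ t (e.up A (7 * l) β v) c :=
    w'.trim (L := e.up A (7 * l) β v) (pS.mono inter_subset_left) (by linarith)
      (fun u u' huv => (he.step huv).2.2.1) (show 0 ≤ 7 * l by linarith) (fun u hu => hu.2) A1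
      (show A + 7 * l ≤ e.p z by linarith)
  obtain ⟨i1, i2⟩ := base_det_idx l0 (a := 2 * β - A) (m := i * n' * n) (N := 3 * n' * n) (by
    have : |2 * β - A - i * L| ≤ 5 / 2 * L :=
      abs_le.2 ⟨by linarith [x1.1], by linarith [x1.2]⟩
    rw [eI, eN]; linarith)
  obtain ⟨j1, j2⟩ := base_det_idx l0 (a := 2 * A - β) (m := j * n' * n) (N := 3 * n' * n) (by
    have : |2 * A - β - j * L| ≤ 5 / 2 * L :=
      abs_le.2 ⟨by linarith [x2.1], by linarith [x2.2]⟩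
    rw [eI, eN]; linarith)
  rw [eI, eN] at i1 j1
  refine sig φ rt (pot.mono (base_det_sq (by linarith) (by linarith)))
    (fine.restrict he hl (pot.mono (base_det_sq ?_ ?_)) i2 j2) (ch.mono (by linarith))
  · rw [eI, sub_self, abs_zero, add_mul, eN]; linarith
  · rw [eI, sub_self, abs_zero, add_mul, eN]; linarith

end

end Crest.Agent.R151.B
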