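import Crest.Agent.R151.D3a

set_option autoImplicit false

open MeasureTheory ProbabilityTheory Set Filter Topology
open scoped ENNReal
open Crest.ProbabilityR.FirstPassage

namespace Crest.Agent.R151.B

noncomputable section

/-! a priori bounds: excess -/

variable {G : Measure ℝ} {e : Fr} {h : Env → Z2 → ℝ}

theorem hop_num {n d : ℝ} (hn : 1 ≤ n) (hd : 0 ≤ d) (h : d ≤ n) :
    1 ≤ n ^ (31 / 32 : ℝ) ∧ n ^ (31 / 32 : ℝ) ≤ n ∧
      n ^ 7 ≤ n ^ (31 / 32 : ℝ) * (n ^ (31 / 32 : ℝ)) ^ 7 ∧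
        (1 + d) ^ (31 / 32 : ℝ) ≤ 2 * n ^ (31 / 32 : ℝ) := by
  have h0 : 0 ≤ n := by linarith
  refine ⟨Real.one_le_rpow hn (by norm_num), ?_, ?_, ?_⟩
  · simpa using Real.rpow_le_rpow_of_exponent_le hn (show (31 / 32 : ℝ) ≤ 1 by norm_num)
  · rw [← pow_succ', ← Real.rpow_natCast, ← Real.rpow_natCast, ← Real.rpow_mul h0]
    exact Real.rpow_le_rpow_of_exponent_le hn (by norm_num)
  · calc (1 + d) ^ (31 / 32 : ℝ) ≤ (2 * n) ^ (31 / 32 : ℝ) :=
          Real.rpow_le_rpow (by linarith) (by linarith) (by norm_num)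
      _ = 2 ^ (31 / 32 : ℝ) * n ^ (31 / 32 : ℝ) := Real.mul_rpow (by norm_num) h0
      _ ≤ _ := mul_le_mul_of_nonneg_right (by
          simpa using Real.rpow_le_rpow_of_exponent_le (show (1 : ℝ) ≤ 2 by norm_num)
            (show (31 / 32 : ℝ) ≤ 1 by norm_num)) (Real.rpow_nonneg h0 _)
theorem hop_amgm (W : ℝ) {n s : ℝ} (hn : 0 < n) (hs : 0 < s) :
    W ≤ s / n ^ 2 * W ^ 2 + n ^ 2 / s := by
  have h1 : 0 < s / n ^ 2 := by positivity
  have h2 : n ^ 2 / s = (s / n ^ 2)⁻¹ := by rw [inv_div]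
  rw [h2]
  generalize s / n ^ 2 = δ at h1
  have h3 : δ * δ⁻¹ = 1 := mul_inv_cancel₀ h1.ne'
  have h4 : 0 < δ⁻¹ := inv_pos.2 h1
  by_contra hc
  have h5 := mul_lt_mul_of_pos_left (not_le.1 hc) h1
  nlinarith [sq_nonneg (δ * W - 1)]
/-- `geo` (translated by `sh x`, `Rch_sh`) on the good event of `UC` with deviation `n ^ (31/32)`,
the staircase `w` otherwise: `F = mE + s + 1 + 1_bad * walkCost w - (h z - h x)`; Cauchy-Schwarz
(or `a b ≤ δ a² + b² / δ`) with `cost_mom`; `poly`. Bounded `n`: staircase only. -/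
theorem Coc.hop (hG : Law G) (hf : Flat G e) (a : Coc G e h) : ∃ D : ℝ, 1 ≤ D ∧
    ∀ (x z : Z2) (n : ℝ), 1 ≤ n → e.ds (z - x) ≤ n → e.ds (z - x) ≤ 4 * e.p (z - x) →
      e.ds (z - x) ≤ 4 * e.q (z - x) → ∃ F : Env → ℝ, Integrable F (iidLaw G) ∧
        ∫ t, F t ∂iidLaw G ≤ D * n ^ (31 / 32 : ℝ) ∧
        ∀ᵐ t ∂iidLaw G, ∃ c, c ≤ F t ∧ Ex (h t) {u | e.ds (u - x) ≤ D * n} t x z c := by
  have := hG.isP
  obtain ⟨c, hc, hge⟩ := hG.mE_ge
  obtain ⟨C₁, hC₁, hm⟩ := hG.T_mom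
  obtain ⟨C₂, hC₂, hw⟩ := hG.cost_mom 2
  obtain ⟨C₃, hC₃, hU⟩ := hG.UC
  obtain ⟨D₀, hD₀, hP⟩ := hf.poly hG
  have hκ := hf.ok.κ3
  obtain ⟨A, hA1, hA⟩ : ∃ A : ℝ, 1 ≤ A ∧ c * A = C₁ * e.κ + 4 + c :=
    ⟨(C₁ * e.κ + 4) / c + 1, le_add_of_nonneg_left (by positivity), by field_simp⟩
  have p1 : 0 ≤ (C₂ * e.κ) ^ 2 := by positivity
  have p2 : 0 ≤ C₃ * A ^ 5 := by positivity
  have p3 : 0 ≤ e.κ * A := by positivity
  have p4 : 0 ≤ e.κ * e.κ := by positivity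
  refine ⟨2 * D₀ + 2 + (C₂ * e.κ) ^ 2 + C₃ * A ^ 5 + e.κ * A + e.κ * e.κ, by linarith,
    fun x z n hn h1 h2 h3 => ?_⟩
  obtain ⟨s1, s2, s3, s4⟩ := hop_num hn (e.ds_nonneg (z - x)) h1
  have h4 := hP _ h2 h3
  generalize n ^ (31 / 32 : ℝ) = s at s1 s2 s3 s4 ⊢
  have hn0 : 0 < n := by linarith
  have hs0 : 0 < s := by linarith
  have hnA : n ≤ A * n := le_mul_of_one_le_left hn0.le hA1
  obtain ⟨w, -, w2, w3⟩ := stair x z
  have hy : n1 (z - x) ≤ e.κ * n :=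
    (hf.ok.n1_ds _).1.trans (mul_le_mul_of_nonneg_left h1 (by linarith))
  have hy0 := n1_nonneg (z - x)
  have b1 := hU x (A * n) s s1 (by linarith)
  set B := toMeasurable (iidLaw G) {t | ∃ u v, n1 (u - x) ≤ A * n ∧ n1 (v - x) ≤ A * n ∧
    s < |T t u v - mE G (v - u)|} with hB
  have hBm : MeasurableSet B := measurableSet_toMeasurable _ _
  have b2 : (iidLaw G).real B ≤ C₃ * (A * n) ^ 5 / s ^ 6 := by
    rw [hB, Measure.real, measure_toMeasurable]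
    exact b1
  obtain ⟨i1, i2⟩ := hw x z w
  have i3 : Integrable (B.indicator fun _ => n ^ 2 / s) (iidLaw G) :=
    (integrable_const _).indicator hBm
  have i4 : Integrable (fun t => s / n ^ 2 * walkCost t w ^ 2 +
      B.indicator (fun _ => n ^ 2 / s) t) (iidLaw G) := (i1.const_mul _).add i3
  have i5 : Integrable (fun t => mE G (z - x) + s + 1 + (s / n ^ 2 * walkCost t w ^ 2 +
      B.indicator (fun _ => n ^ 2 / s) t)) (iidLaw G) := (integrable_const _).add i4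
  have i6 : Integrable (fun t => h t z - h t x) (iidLaw G) := (a.int z).sub (a.int x)
  refine ⟨fun t => mE G (z - x) + s + 1 + (s / n ^ 2 * walkCost t w ^ 2 +
    B.indicator (fun _ => n ^ 2 / s) t) - (h t z - h t x), i5.sub i6, ?_, ?_⟩
  · rw [integral_sub i5 i6, integral_add (integrable_const _) i4,
      integral_add (i1.const_mul _) i3, integral_sub (a.int z) (a.int x), a.mean, a.mean,
      integral_const, probReal_univ, one_smul, integral_const_mul, integral_indicator_const _ hBm,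
      smul_eq_mul]
    have c1 : s / n ^ 2 * ∫ t, walkCost t w ^ 2 ∂iidLaw G ≤ (C₂ * e.κ) ^ 2 * s := by
      have c0 : (C₂ * w.length) ^ 2 ≤ (C₂ * (e.κ * n)) ^ 2 := by
        rw [w2]; gcongr
      refine (mul_le_mul_of_nonneg_left (i2.trans c0) (by positivity)).trans_eq ?_
      field_simp
    have c2 : (iidLaw G).real B * (n ^ 2 / s) ≤ C₃ * A ^ 5 * s := by
      refine (mul_le_mul_of_nonneg_right b2 (by positivity)).trans ?_
      calc C₃ * (A * n) ^ 5 / s ^ 6 * (n ^ 2 / s) = C₃ * A ^ 5 * (n ^ 7 / s ^ 7) := by field_simp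
        _ ≤ _ := mul_le_mul_of_nonneg_left ((div_le_iff₀ (by positivity)).2 (by linarith)) p2
    have c3 := mul_le_mul_of_nonneg_left s4 (show 0 ≤ D₀ by linarith)
    rw [map_sub, map_sub] at h4
    have c4 := mul_nonneg p3 hs0.le
    have c5 := mul_nonneg p4 hs0.le
    linarith
  · filter_upwards [hG.nn] with t ht
    have q1 : 0 ≤ s / n ^ 2 * walkCost t w ^ 2 := by positivity
    have q2 : 0 ≤ mE G (z - x) := (mul_nonneg hc.le hy0).trans (hge _)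
    have q3 := mul_nonneg p1 hn0.le
    have q4 := mul_nonneg p2 hn0.le
    have q5 := mul_nonneg p3 hn0.le
    have q6 := mul_nonneg p4 hn0.le
    have q7 := mul_nonneg (show 0 ≤ D₀ by linarith) hn0.le
    by_cases hb : t ∈ B
    · have r : Rch {u | e.ds (u - x) ≤ (2 * D₀ + 2 + (C₂ * e.κ) ^ 2 + C₃ * A ^ 5 + e.κ * A +
          e.κ * e.κ) * n} t x z (walkCost t w) := by
        refine ⟨w, fun u hu => ?_, rfl⟩
        have r1 := (hf.ok.n1_ds (u - x)).2.trans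
          (mul_le_mul_of_nonneg_left ((w3 u hu).trans hy) (show 0 ≤ e.κ by linarith))
        change e.ds (u - x) ≤ _
        linarith
      refine ⟨_, ?_, r.ex (h t)⟩
      rw [indicator_of_mem hb]
      linarith [hop_amgm (walkCost t w) hn0 hs0]
    · have hb' : ¬ ∃ u v, n1 (u - x) ≤ A * n ∧ n1 (v - x) ≤ A * n ∧
          s < |T t u v - mE G (v - u)| := fun h' => hb (subset_toMeasurable _ _ h')
      push Not at hb'
      have r0 := (hm (z - x) 0).2.trans (mul_le_mul_of_nonneg_left hy (by linarith))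
      obtain ⟨k, hk, r⟩ := geo (t := Crest.Agent.R151.B.sh x t) (n := A * n) (y := z - x) hc hge (fun _ => ht _) hs0.le
        (fun u v hu hv => by
          have := hb' (u + x) (v + x) (by rwa [add_sub_cancel_right])
            (by rwa [add_sub_cancel_right])
          rwa [add_sub_add_right_eq_sub, ← T_sh] at this)
        (by
          have e1 : c * (A * n - 1) = (C₁ * e.κ + 4 + c) * n - c := by rw [← hA]; ring
          have e2 := mul_le_mul_of_nonneg_left hn hc.le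
          rw [e1]
          linarith)
      rw [Rch_sh, zero_add, sub_add_cancel] at r
      refine ⟨_, ?_, ((r.mono fun u hu => ?_).ex (h t))⟩
      · rw [indicator_of_notMem hb]
        linarith
      · have r1 := (hf.ok.n1_ds (u - x)).2.trans
          (mul_le_mul_of_nonneg_left (show n1 (u - x) ≤ A * n from hu) (show 0 ≤ e.κ by linarith))
        change e.ds (u - x) ≤ _
        linarith
theorem Coc.rate_up_num {D n w m N : ℝ} (hD : 1 ≤ D) (hn : 0 < n) (hw : w = 4 * D * n)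
    (hm : 0 ≤ m) (hN : N * n ≤ 4 * m) :
    N * (D * n ^ (31 / 32 : ℝ)) ≤ 16 * D ^ 2 * w ^ (-(1 / 32) : ℝ) * m := by
  have h1 : n ^ (31 / 32 : ℝ) = n * n ^ (-(1 / 32) : ℝ) := by
    rw [show (31 / 32 : ℝ) = 1 + -(1 / 32) by norm_num, Real.rpow_add hn, Real.rpow_one]
  have h4 : (1 : ℝ) ≤ 4 * D := by linarith
  have h2 : n ^ (-(1 / 32) : ℝ) ≤ 4 * D * w ^ (-(1 / 32) : ℝ) := by
    rw [hw, Real.mul_rpow (by linarith) hn.le, ← mul_assoc]
    refine le_mul_of_one_le_left (Real.rpow_nonneg hn.le _) ?_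
    rw [← Real.rpow_one_add' (by linarith) (by norm_num)]
    exact Real.one_le_rpow h4 (by norm_num)
  have h3 : 0 ≤ n ^ (-(1 / 32) : ℝ) := Real.rpow_nonneg hn.le _
  calc N * (D * n ^ (31 / 32 : ℝ)) = N * n * (D * n ^ (-(1 / 32) : ℝ)) := by rw [h1]; ring
    _ ≤ 4 * m * (D * n ^ (-(1 / 32) : ℝ)) := mul_le_mul_of_nonneg_right hN (by positivity)
    _ ≤ 4 * m * (D * (4 * D * w ^ (-(1 / 32) : ℝ))) :=
        mul_le_mul_of_nonneg_left (mul_le_mul_of_nonneg_left h2 (by linarith)) (by positivity)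
    _ = 16 * D ^ 2 * w ^ (-(1 / 32) : ℝ) * m := by ring
theorem Coc.rate_up_hor (hG : Law G) (hf : Flat G e) (a : Coc G e h) : ∃ D : ℝ, 1 ≤ D ∧
    ∀ w : ℝ, D ≤ w → ∀ α β m : ℝ, w ≤ m → ∫⁻ t, e.W (h t) t (e.hor α m β w) ∂iidLaw G ≤
      ENNReal.ofReal (D * w ^ (-(1 / 32) : ℝ) * m) := by
  obtain ⟨D, hD, hop⟩ := a.hop hG hf
  have hκ := hf.ok.κ3
  have hD2 : D ≤ D ^ 2 := by nlinarith
  have hDκ : D * e.κ ≤ D ^ 2 * e.κ := mul_le_mul_of_nonneg_right hD2 (by linarith)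
  have hD3 : D ^ 2 * 3 ≤ D ^ 2 * e.κ := mul_le_mul_of_nonneg_left hκ (sq_nonneg _)
  refine ⟨144 * (D ^ 2 * e.κ), by linarith, fun w hw α β m hm => ?_⟩
  obtain ⟨n, hwn⟩ : ∃ n, w = 4 * D * n := ⟨w / (4 * D), by field_simp⟩
  have hn : 36 * e.κ ≤ n := le_of_mul_le_mul_left (a := 4 * D) (by linarith) (by linarith)
  have hn0 : 0 < n := by linarith
  have hnw : 4 * n ≤ w := by nlinarith
  choose x hx1 hx2 using fun i : ℕ => hf.ok.denP (α - e.κ + i * (n / 2)) (β + w / 2)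
  have step : ∀ i : ℕ, e.ds (x (i + 1) - x i) ≤ n ∧ e.ds (x (i + 1) - x i) ≤ 4 * e.p (x (i + 1) - x i) ∧
      e.ds (x (i + 1) - x i) ≤ 4 * e.q (x (i + 1) - x i) := fun i => by
    have a1 := abs_le.1 (hx1 i)
    have a2 := abs_le.1 (hx1 (i + 1))
    have a3 := abs_le.1 (hx2 i)
    have a4 := abs_le.1 (hx2 (i + 1))
    have e1 := e.P_apply (x (i + 1) - x i)
    have e2 := e.Y_apply (x (i + 1) - x i)
    have e3 := map_sub e.P (x (i + 1)) (x i)
    have e4 := map_sub e.Y (x (i + 1)) (x i)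
    push_cast at a2
    refine ⟨max_le ?_ ?_, max_le ?_ ?_, max_le ?_ ?_⟩ <;> rw [abs_le] <;> constructor <;>
      linarith [a1.1, a1.2, a2.1, a2.2, a3.1, a3.2, a4.1, a4.2]
  choose F F1 F2 F3 using fun i : ℕ =>
    hop (x i) (x (i + 1)) n (by linarith) (step i).1 (step i).2.1 (step i).2.2
  set N := ⌈(m + 2 * e.κ) / (n / 2)⌉₊ with hN
  have N1 : m + 2 * e.κ ≤ N * (n / 2) := (div_le_iff₀ (by linarith)).1 (Nat.le_ceil _)
  have N2 : N * n ≤ 4 * m := by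
    have h1 : (N : ℝ) < (m + 2 * e.κ) / (n / 2) + 1 :=
      Nat.ceil_lt_add_one (div_nonneg (by linarith) (by linarith))
    rw [div_add_one (by linarith), lt_div_iff₀ (by linarith)] at h1
    linarith
  have key : ∀ᵐ t ∂iidLaw G, 0 ≤ ∑ i ∈ Finset.range N, F i t ∧
      e.W (h t) t (e.hor α m β w) ≤ ENNReal.ofReal (∑ i ∈ Finset.range N, F i t) := by
    filter_upwards [ae_all_iff.2 F3, a.ae hG] with t ht hp
    have hsub : ∀ i, {u | e.ds (u - x i) ≤ D * n} ⊆ {u | β ≤ e.Y u ∧ e.Y u ≤ β + w} := fun i u hu => by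
      have b1 : |e.Y (u - x i)| ≤ D * n := (le_max_right _ _).trans hu
      have a3 := abs_le.1 (hx2 i)
      rw [map_sub, abs_le] at b1
      exact ⟨by linarith [b1.1, a3.1], by linarith [b1.2, a3.2]⟩
    have ind : ∀ k : ℕ, ∃ c, c ≤ ∑ i ∈ Finset.range k, F i t ∧
        Ex (h t) {u | β ≤ e.Y u ∧ e.Y u ≤ β + w} t (x 0) (x k) c := by
      intro k
      induction k with
      | zero =>
        have a3 := abs_le.1 (hx2 0)
        exact ⟨0, by simp, Ex.refl _ _ ⟨by linarith [a3.1], by linarith [a3.2]⟩⟩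
      | succ k ih =>
        obtain ⟨c, c1, c2⟩ := ih
        obtain ⟨d, d1, d2⟩ := ht k
        exact ⟨c + d, by rw [Finset.sum_range_succ]; linarith, c2.trans (d2.mono (hsub k))⟩
    obtain ⟨c, c1, c2⟩ := ind N
    have pS := hp.2.mono (subset_univ {u | β ≤ e.Y u ∧ e.Y u ≤ β + w})
    have a1 := abs_le.1 (hx1 0)
    have a2 := abs_le.1 (hx1 N)
    push_cast at a1
    have c3 : Chp e.κ (h t) t (e.hor α m β w) c :=
      c2.trim (L := e.hor α m β w) pS (by linarith) (fun u v huv => (hf.ok.step huv).1)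
        (show 0 ≤ m by linarith) (fun u hu => hu) (show e.P (x 0) ≤ α by linarith [a1.2])
        (show α + m ≤ e.P (x N) by linarith [a2.1])
    exact ⟨(c2.nonneg pS).trans c1, WL_le (c3.mono c1)⟩
  refine (lintegral_mono_ae (key.mono fun t ht => ht.2)).trans ?_
  rw [← ofReal_integral_eq_lintegral_ofReal (integrable_finsetSum _ fun i _ => F1 i)
    (key.mono fun t ht => ht.1), integral_finsetSum _ fun i _ => F1 i]
  refine ENNReal.ofReal_le_ofReal ((Finset.sum_le_sum fun i _ => F2 i).trans ?_)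
  rw [Finset.sum_const, Finset.card_range, nsmul_eq_mul]
  refine (Coc.rate_up_num hD hn0 hwn (by linarith) N2).trans ?_
  refine mul_le_mul_of_nonneg_right (mul_le_mul_of_nonneg_right ?_
    (Real.rpow_nonneg (by linarith) _)) (by linarith)
  nlinarith [sq_nonneg D]
/-- `n = w / (4 D)`; points `x i` within `κ` of `(α - κ + i n / 2, β + w / 2)` (`denP`), `hop` between
consecutive points, `Ex.trim`; `e.swap` for vertical lanes -/
theorem Coc.rate_up (hG : Law G) (hf : Flat G e) (a : Coc G e h) : ∃ D : ℝ, 1 ≤ D ∧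
    ∀ w : ℝ, D ≤ w → Rate G e h w (D * w ^ (-(1 / 32) : ℝ)) := by
  obtain ⟨D₁, h₁, k₁⟩ := a.rate_up_hor hG hf
  obtain ⟨D₂, h₂, k₂⟩ := a.swap.rate_up_hor hG hf.swap
  refine ⟨max D₁ D₂, le_max_of_le_left h₁, fun w hw α β m hm => ?_⟩
  have w1 := le_of_max_le_left hw
  have p : 0 ≤ w ^ (-(1 / 32) : ℝ) := Real.rpow_nonneg (by linarith) _
  have m0 : 0 ≤ m := by linarith
  exact ⟨(k₁ w w1 α β m hm).trans (ENNReal.ofReal_le_ofReal (mul_le_mul_of_nonneg_right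
      (mul_le_mul_of_nonneg_right (le_max_left _ _) p) m0)),
    (k₂ w (le_of_max_le_right hw) α β m hm).trans (ENNReal.ofReal_le_ofReal
      (mul_le_mul_of_nonneg_right (mul_le_mul_of_nonneg_right (le_max_right _ _) p) m0))⟩
theorem Coc.ap_markov (hG : Law G) (a : Coc G e h) (u v : Z2) {s B : ℝ} (hs : 0 < s)
    (hB : ∫ t, |h t v - h t u - (e.p (v - u) + e.q (v - u))| ∂iidLaw G ≤ B) :
    Pr G {t | s ≤ |h t v - h t u - (e.p (v - u) + e.q (v - u))|} ≤ B / s := by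
  have := hG.isP
  have hi : Integrable (fun t => |h t v - h t u - (e.p (v - u) + e.q (v - u))|) (iidLaw G) :=
    (((a.int v).sub (a.int u)).sub (integrable_const _)).abs
  have h1 := mul_meas_ge_le_integral_of_nonneg (Eventually.of_forall fun t => abs_nonneg _) hi s
  rw [le_div_iff₀ hs, mul_comm]
  exact h1.trans hB
theorem Coc.ap_det (hf : Flat G e) {C g s : ℝ} (hC : ∀ x, mE G x ≤ C * n1 x) (hC0 : 0 ≤ C)
    {t : Env} {φ : Z2 → ℝ} (hp : ∀ x y, φ y - φ x ≤ T t x y) {x z u v : Z2}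
    (hu : n1 (x - u) ≤ 2 * g) (hv : n1 (z - v) ≤ 2 * g) (h1 : |T t x z - mE G (z - x)| ≤ s)
    (h2 : |T t x u - mE G (u - x)| ≤ s) (h3 : |T t v z - mE G (z - v)| ≤ s)
    (h4 : |φ v - φ u - (e.p (v - u) + e.q (v - u))| ≤ s) :
    mE G (z - x) - (e.p (z - x) + e.q (z - x)) - (4 * s + 8 * C * g) ≤ T t x z - (φ z - φ x) := by
  have e1 := hp x u
  have e2 := hp v z
  have e3 := hf.low (x - u)
  have e4 := hf.low (v - z)
  have e5 := (hC (x - u)).trans (mul_le_mul_of_nonneg_left hu hC0)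
  have e6 := (hC (z - v)).trans (mul_le_mul_of_nonneg_left hv hC0)
  rw [n1_sub_comm] at hu hv
  have e7 := (hC (u - x)).trans (mul_le_mul_of_nonneg_left hu hC0)
  have e8 := (hC (v - z)).trans (mul_le_mul_of_nonneg_left hv hC0)
  simp only [map_sub] at e3 e4 h4 ⊢
  linarith [(abs_le.1 h1).1, (abs_le.1 h2).2, (abs_le.1 h3).2, (abs_le.1 h4).2]
theorem Coc.ap_pow {r l : ℝ} (hl : 1 ≤ l) (hr : l ≤ r) :
    1 / l ≤ l ^ (-(1 / 32) : ℝ) ∧ r ^ (31 / 32 : ℝ) / l ≤ r / l * l ^ (-(1 / 32) : ℝ) := by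
  have l0 : 0 < l := by linarith
  have r0 : 0 < r := by linarith
  constructor
  · rw [one_div, ← Real.rpow_neg_one]
    exact Real.rpow_le_rpow_of_exponent_le hl (by norm_num)
  · have e1 : r ^ (31 / 32 : ℝ) = r * r ^ (-(1 / 32) : ℝ) := by
      rw [← Real.rpow_one_add' r0.le (by norm_num)]
      norm_num
    have e2 : r ^ (-(1 / 32) : ℝ) ≤ l ^ (-(1 / 32) : ℝ) :=
      Real.rpow_le_rpow_of_nonpos l0 hr (by norm_num)
    rw [e1, mul_div_right_comm]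
    exact mul_le_mul_of_nonneg_left e2 (by positivity)
set_option maxHeartbeats 800000 in
/-- `UC` with deviation `β λ / 16` (shrink `β`; trivial if `β λ` is bounded); net of mesh `≈ β λ`
(`net_fin`), Markov with `dev` for the net points, `|h x - h u| ≤ T ≤ mE + deviation` for the rest -/
theorem Coc.ap (hG : Law G) (hf : Flat G e) (a : Coc G e h) {β : ℝ} (hβ : 0 < β) :
    ∃ D : ℝ, 1 ≤ D ∧ ∀ α₁ β₁ r l : ℝ, 1 ≤ l → l ≤ r →
      Pr G {t | ∃ x ∈ e.Sq α₁ β₁ r, ∃ z ∈ e.Sq α₁ β₁ r, T t x z - (h t z - h t x) <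
        mE G (z - x) - (e.p (z - x) + e.q (z - x)) - β * l} ≤
          D * (r / l) ^ 5 * l ^ (-(1 / 32) : ℝ) := by
  classical
  obtain ⟨C, hC1, hC⟩ := hG.T_mom
  replace hC : ∀ x, mE G x ≤ C * n1 x := fun x => (hC x 0).2
  obtain ⟨U, hU1, hU⟩ := hG.UC
  obtain ⟨D, hD1, hD⟩ := a.dev hG hf
  obtain ⟨b, hb0, hb1, hbβ⟩ : ∃ b : ℝ, 0 < b ∧ b ≤ 1 ∧ b ≤ β :=
    ⟨min 1 β, lt_min one_pos hβ, min_le_left _ _, min_le_right _ _⟩
  have hκ := hf.ok.κ3
  generalize hk : e.κ = κ at hκ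
  have κ0 : 0 < κ := by linarith
  have C0 : 0 < C := by linarith
  obtain ⟨D₁, hD₁⟩ : ∃ D₁, D₁ = U * (8 * κ ^ 2) ^ 5 * (8 / b) ^ 6 := ⟨_, rfl⟩
  obtain ⟨D₂, hD₂⟩ : ∃ D₂, D₂ = (320 * κ ^ 2 * C / b) ^ 4 * (D * (17 * κ ^ 3) * (8 / b)) := ⟨_, rfl⟩
  have D₁0 : 0 ≤ D₁ := by rw [hD₁]; positivity
  have D₂0 : 0 ≤ D₂ := by rw [hD₂]; positivity
  have L1 : 1 ≤ 16 * C / b := by rw [le_div_iff₀ hb0]; linarith
  refine ⟨16 * C / b + D₁ + D₂, by linarith, fun α₁ β₁ r l hl hr => ?_⟩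
  have l0 : 0 < l := by linarith
  have r1 : 1 ≤ r := by linarith
  have r0 : 0 < r := by linarith
  obtain ⟨w1, w2⟩ := Coc.ap_pow hl hr
  generalize l ^ (-(1 / 32) : ℝ) = w at w1 w2
  have w0 : 0 < w := lt_of_lt_of_le (by positivity) w1
  have q1 : 1 ≤ r / l := (one_le_div l0).2 hr
  have q5 : 1 ≤ (r / l) ^ 5 := one_le_pow₀ q1
  rcases lt_or_ge (b * l) (16 * C) with hsm | hlg
  · refine (hG.le_one _).trans ?_
    have e1 : l ≤ 16 * C / b := by rw [le_div_iff₀ hb0]; linarith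
    have e2 : 1 ≤ l * w := by rw [div_le_iff₀ l0] at w1; linarith
    calc (1 : ℝ) ≤ l * 1 * w := by linarith
      _ ≤ _ := by gcongr; linarith
  -- the net
  obtain ⟨o, ho1, ho2⟩ := hf.ok.denP α₁ β₁
  rw [hk] at ho1 ho2
  have κ2 : 1 ≤ κ ^ 2 := by nlinarith
  have hρ : r ≤ 2 * κ ^ 2 * r := by nlinarith
  have hball : ∀ x ∈ e.Sq α₁ β₁ r, n1 (x - o) ≤ 2 * κ ^ 2 * r := by
    intro x hx
    have e1 := (hf.ok.n1_ds (x - o)).1
    have e2 : e.ds (x - o) ≤ r + κ := by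
      unfold Fr.ds
      rw [map_sub, map_sub]
      refine max_le (abs_le.2 ⟨?_, ?_⟩) (abs_le.2 ⟨?_, ?_⟩) <;>
        linarith [(abs_le.1 hx.1).1, (abs_le.1 hx.1).2, (abs_le.1 hx.2).1, (abs_le.1 hx.2).2,
          (abs_le.1 ho1).1, (abs_le.1 ho1).2, (abs_le.1 ho2).1, (abs_le.1 ho2).2]
    rw [hk] at e1
    have e3 : r + κ ≤ 2 * κ * r := by nlinarith
    calc n1 (x - o) ≤ κ * (2 * κ * r) := e1.trans (by gcongr; linarith)
      _ = _ := by ring
  have hy1 : 1 ≤ b * l / (16 * C) := by rw [le_div_iff₀ (by positivity)]; linarith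
  have hbl : b * l ≤ l := by nlinarith
  have hg1 : 1 ≤ ⌊b * l / (16 * C)⌋₊ := Nat.le_floor (by exact_mod_cast hy1)
  have hg2 : (⌊b * l / (16 * C)⌋₊ : ℝ) ≤ b * l / (16 * C) := Nat.floor_le (by linarith)
  have hg3 : b * l / (16 * C) ≤ 2 * (⌊b * l / (16 * C)⌋₊ : ℝ) := by
    have e1 := Nat.lt_floor_add_one (b * l / (16 * C))
    have e2 : (1 : ℝ) ≤ ⌊b * l / (16 * C)⌋₊ := by exact_mod_cast hg1
    linarith
  generalize ⌊b * l / (16 * C)⌋₊ = g at hg1 hg2 hg3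
  have g0 : (0 : ℝ) < g := by exact_mod_cast hg1
  rw [le_div_iff₀ (by positivity)] at hg2
  rw [div_le_iff₀ (by positivity)] at hg3
  obtain ⟨F, hF1, hF2, hF3⟩ := net_fin o hg1 (ρ := 2 * κ ^ 2 * r) (by nlinarith)
  have s1 : 1 ≤ b * l / 8 := by linarith
  have s0 : 0 < b * l / 8 := by linarith
  have hsub : ∀ᵐ t ∂iidLaw G, t ∈ {t | ∃ x ∈ e.Sq α₁ β₁ r, ∃ z ∈ e.Sq α₁ β₁ r,
      T t x z - (h t z - h t x) < mE G (z - x) - (e.p (z - x) + e.q (z - x)) - β * l} →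
      t ∈ {t | ∃ x y, n1 (x - o) ≤ 4 * (2 * κ ^ 2 * r) ∧ n1 (y - o) ≤ 4 * (2 * κ ^ 2 * r) ∧
        b * l / 8 < |T t x y - mE G (y - x)|} ∪ ⋃ i ∈ F ×ˢ F,
        {t | b * l / 8 ≤ |h t i.2 - h t i.1 - (e.p (i.2 - i.1) + e.q (i.2 - i.1))|} := by
    filter_upwards [a.pot] with t hp
    rintro ⟨x, hx, z, hz, hlt⟩
    by_contra hc
    simp only [mem_union, mem_ofPred_eq, mem_iUnion, not_or, not_exists, not_and, not_lt,
      not_le] at hc
    obtain ⟨hc1, hc2⟩ := hc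
    obtain ⟨u, hu, hxu⟩ := hF1 x (hball x hx)
    obtain ⟨v, hv, hzv⟩ := hF1 z (hball z hz)
    have hx' : n1 (x - o) ≤ 4 * (2 * κ ^ 2 * r) := by linarith [hball x hx]
    have hz' : n1 (z - o) ≤ 4 * (2 * κ ^ 2 * r) := by linarith [hball z hz]
    have := Coc.ap_det hf hC C0.le hp hxu hzv (hc1 x z hx' hz') (hc1 x u hx' (hF2 u hu))
      (hc1 v z (hF2 v hv) hz') (hc2 (u, v) (Finset.mem_product.2 ⟨hu, hv⟩)).le
    have e1 : b * l ≤ β * l := by gcongr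
    linarith
  refine (hG.mono_ae hsub).trans ((hG.union _ _).trans ?_)
  clear hsub
  have hA := hU o (4 * (2 * κ ^ 2 * r)) (b * l / 8) s1 (by linarith)
  have hB : ∀ i ∈ F ×ˢ F,
      Pr G {t | b * l / 8 ≤ |h t i.2 - h t i.1 - (e.p (i.2 - i.1) + e.q (i.2 - i.1))|} ≤
        D * (17 * κ ^ 3) * (8 / b) * (r / l * w) := by
    intro i hi
    obtain ⟨h1, h2⟩ := Finset.mem_product.1 hi
    refine (a.ap_markov hG i.1 i.2 s0 (hD i.1 i.2)).trans ?_
    have e1 := (hf.ok.n1_ds (i.2 - i.1)).2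
    have e2 := n1_tri i.1 o i.2
    have e3 := hF2 _ h1
    have e4 := hF2 _ h2
    rw [n1_sub_comm] at e3
    rw [hk] at e1
    have κ3 : 1 ≤ κ ^ 3 := one_le_pow₀ (by linarith)
    have e5 : 1 + e.ds (i.2 - i.1) ≤ 17 * κ ^ 3 * r := by
      have e7 : κ * n1 (i.2 - i.1) ≤ κ * (16 * κ ^ 2 * r) :=
        mul_le_mul_of_nonneg_left (by linarith) κ0.le
      have e8 : 1 ≤ κ ^ 3 * r := one_le_mul_of_one_le_of_one_le κ3 r1
      linarith
    have e6 : (1 + e.ds (i.2 - i.1)) ^ (31 / 32 : ℝ) ≤ 17 * κ ^ 3 * r ^ (31 / 32 : ℝ) := by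
      refine (Real.rpow_le_rpow (by linarith [e.ds_nonneg (i.2 - i.1)]) e5 (by norm_num)).trans ?_
      rw [Real.mul_rpow (by positivity) r0.le]
      gcongr
      exact Real.rpow_le_self_of_one_le (by linarith) (by norm_num)
    calc D * (1 + e.ds (i.2 - i.1)) ^ (31 / 32 : ℝ) / (b * l / 8)
        ≤ D * (17 * κ ^ 3 * r ^ (31 / 32 : ℝ)) / (b * l / 8) := by gcongr
      _ = D * (17 * κ ^ 3) * (8 / b) * (r ^ (31 / 32 : ℝ) / l) := by field_simp
      _ ≤ _ := by gcongr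
  have hB' := (hG.biUnion (F ×ˢ F) _).trans (Finset.sum_le_card_nsmul _ _ _ hB)
  rw [Finset.card_product, nsmul_eq_mul, Nat.cast_mul] at hB'
  have hcard : (F.card : ℝ) ≤ (320 * κ ^ 2 * C / b * (r / l)) ^ 2 := by
    refine hF3.trans ?_
    gcongr
    rw [div_le_iff₀ g0]
    have : 320 * κ ^ 2 * C / b * (r / l) * g = 10 * κ ^ 2 * r * (2 * g * (16 * C) / (b * l)) := by
      field_simp
      ring
    rw [this]
    have e1 : 1 ≤ 2 * g * (16 * C) / (b * l) := (one_le_div (by positivity)).2 hg3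
    have e2 : 0 ≤ 10 * κ ^ 2 * r := by positivity
    linarith [mul_le_mul_of_nonneg_left e1 e2]
  have hA' : U * (4 * (2 * κ ^ 2 * r)) ^ 5 / (b * l / 8) ^ 6 ≤ D₁ * (r / l) ^ 5 * w := by
    calc U * (4 * (2 * κ ^ 2 * r)) ^ 5 / (b * l / 8) ^ 6 = D₁ * (r / l) ^ 5 * (1 / l) := by
          rw [hD₁]
          field_simp
          ring
      _ ≤ _ := by gcongr
  have hB'' : (F.card : ℝ) * F.card * (D * (17 * κ ^ 3) * (8 / b) * (r / l * w)) ≤
      D₂ * (r / l) ^ 5 * w := by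
    calc (F.card : ℝ) * F.card * (D * (17 * κ ^ 3) * (8 / b) * (r / l * w))
        ≤ (320 * κ ^ 2 * C / b * (r / l)) ^ 2 * (320 * κ ^ 2 * C / b * (r / l)) ^ 2 *
          (D * (17 * κ ^ 3) * (8 / b) * (r / l * w)) := by gcongr
      _ = _ := by rw [hD₂]; ring
  have : 0 ≤ 16 * C / b * (r / l) ^ 5 * w := by positivity
  linarith
/-- `z` with `p z ∈ [ζ L, ζ L + 2 C]`, `q z ∈ [0, 2 C]`; `tight`, `UC`, `geo` with `n = 2 L / κ`,
Markov with `dev` -/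
theorem Coc.cheap (hG : Law G) (hf : Flat G e) (a : Coc G e h) : ∃ ζ : ℝ, 0 < ζ ∧
    ∀ η : ℝ, 0 < η → ∀ᶠ L : ℝ in atTop, Pr G {t | ¬∃ z c, ζ * L ≤ e.p z ∧ e.q z ≤ 2 * e.C ∧
      c ≤ η * L ∧ Ex (h t) (e.Sq 0 0 (2 * L)) t 0 z c} ≤ 1 / 4 := by
  have he := hf.ok
  have hC : 1 ≤ e.C := he.C1
  have hκ : 3 ≤ e.κ := he.κ3
  obtain ⟨c, hc, hc'⟩ := hG.mE_ge
  obtain ⟨U, hU, hU'⟩ := hG.UC
  obtain ⟨D, hD, hD'⟩ := a.dev hG hf
  obtain ⟨ζ, hζ⟩ : ∃ ζ, ζ = c / (4 * e.κ) := ⟨_, rfl⟩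
  have hζ0 : 0 < ζ := by rw [hζ]; positivity
  refine ⟨ζ, hζ0, fun η hη => ?_⟩
  obtain ⟨θ, hθ0, hθ1, hθ2, hθ3⟩ : ∃ θ : ℝ, 0 < θ ∧ θ ≤ η / 4 ∧ θ ≤ ζ ∧ θ ≤ 2 / e.κ :=
    ⟨min (η / 4) (min ζ (2 / e.κ)), by positivity, min_le_left _ _,
      (min_le_right _ _).trans (min_le_left _ _), (min_le_right _ _).trans (min_le_right _ _)⟩
  obtain ⟨η', hη0, hη1, hη2⟩ : ∃ η' : ℝ, 0 < η' ∧ η' ≤ 1 ∧ η' * ζ ≤ η / 4 :=
    ⟨min 1 (η / 4 / ζ), by positivity, min_le_left _ _, by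
      rw [← le_div_iff₀ hζ0]; exact min_le_right _ _⟩
  obtain ⟨B, hB⟩ := hf.tight η' hη0
  obtain ⟨M, hM⟩ : ∃ M, M = 1 + 3 * ζ + 6 * e.C := ⟨_, rfl⟩
  have hM1 : 1 ≤ M := by rw [hM]; linarith
  have ev : ∀ᶠ L : ℝ in atTop, 32 * D * M / η ≤ L ^ (1 / 32 : ℝ) :=
    (tendsto_rpow_atTop (by norm_num)).eventually_ge_atTop _
  filter_upwards [ev, eventually_ge_atTop 1, eventually_ge_atTop (1 / θ),
    eventually_ge_atTop (8 * (U * (2 / e.κ) ^ 5 / θ ^ 6)),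
    eventually_ge_atTop ((4 * e.C + B + 1) / (η / 4)),
    eventually_gt_atTop ((8 * e.C + B + 1 + c) / (4 * ζ))] with L l1 l2 l3 l4 l5 l6
  have hL0 : 0 < L := by linarith
  rw [div_le_iff₀ hθ0] at l3
  rw [div_le_iff₀ (by positivity)] at l5
  rw [div_lt_iff₀ (by positivity)] at l6
  obtain ⟨z, z1, z2⟩ := he.den (ζ * L + e.C) e.C
  rw [abs_le] at z1 z2
  have hζL : 0 < ζ * L := by positivity
  have p0 : 0 ≤ e.p z := by linarith
  have q0 : 0 ≤ e.q z := by linarith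
  have hm := hB z p0 q0
  have := hG.isP
  have u1 := hU' 0 (2 / e.κ * L) (θ * L) (by linarith) (by gcongr)
  have u2 : U * (2 / e.κ * L) ^ 5 / (θ * L) ^ 6 ≤ 1 / 8 := by
    have : U * (2 / e.κ * L) ^ 5 / (θ * L) ^ 6 = U * (2 / e.κ) ^ 5 / θ ^ 6 / L := by
      field_simp
    rw [this, div_le_iff₀ hL0]
    linarith
  have d1 := mul_meas_ge_le_integral_of_nonneg (μ := iidLaw G)
    (f := fun t => |h t z - h t 0 - (e.p (z - 0) + e.q (z - 0))|)
    (Eventually.of_forall fun t => abs_nonneg _)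
    ((((a.int z).sub (a.int 0)).sub (integrable_const _)).abs) (η / 4 * L)
  have d2 : D * (1 + e.ds (z - 0)) ^ (31 / 32 : ℝ) ≤ η / 4 * L * (1 / 8) := by
    have b1 : e.ds (z - 0) ≤ 3 * (ζ * L + 2 * e.C) := by
      rw [sub_zero]
      refine (e.ds_pq z).2.2.trans (mul_le_mul_of_nonneg_left (max_le ?_ ?_) (by norm_num))
      · rw [abs_of_nonneg p0]; linarith
      · rw [abs_of_nonneg q0]; linarith
    have b2 : 1 + e.ds (z - 0) ≤ M * L := by
      rw [hM]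
      nlinarith
    have b3 : (1 + e.ds (z - 0)) ^ (31 / 32 : ℝ) ≤ M * L ^ (31 / 32 : ℝ) := by
      have := e.ds_nonneg (z - 0)
      calc (1 + e.ds (z - 0)) ^ (31 / 32 : ℝ) ≤ (M * L) ^ (31 / 32 : ℝ) := by gcongr
        _ = M ^ (31 / 32 : ℝ) * L ^ (31 / 32 : ℝ) := Real.mul_rpow (by linarith) hL0.le
        _ ≤ M * L ^ (31 / 32 : ℝ) := by
          gcongr
          exact Real.rpow_le_self_of_one_le hM1 (by norm_num)
    have b4 : L ^ (1 / 32 : ℝ) * L ^ (31 / 32 : ℝ) = L := by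
      rw [← Real.rpow_add hL0]
      norm_num
    rw [div_le_iff₀ hη] at l1
    have b5 : 0 ≤ L ^ (31 / 32 : ℝ) := by positivity
    calc D * (1 + e.ds (z - 0)) ^ (31 / 32 : ℝ) ≤ D * (M * L ^ (31 / 32 : ℝ)) := by gcongr
      _ = 32 * D * M * L ^ (31 / 32 : ℝ) / 32 := by ring
      _ ≤ L ^ (1 / 32 : ℝ) * η * L ^ (31 / 32 : ℝ) / 32 := by gcongr
      _ = η / 32 * (L ^ (1 / 32 : ℝ) * L ^ (31 / 32 : ℝ)) := by ring
      _ = _ := by rw [b4]; ring
  have d3 : Pr G {t | η / 4 * L ≤ |h t z - h t 0 - (e.p (z - 0) + e.q (z - 0))|} ≤ 1 / 8 :=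
    le_of_mul_le_mul_left (d1.trans ((hD' 0 z).trans d2)) (by positivity)
  refine le_trans (hG.mono_nn fun t ht hn => ?_) ((hG.union _ _).trans
    ((add_le_add (u1.trans u2) d3).trans_eq (by norm_num)))
  by_contra hb
  simp only [mem_union, mem_ofPred_eq, not_or, not_exists, not_and, not_lt, not_le, sub_zero] at hb
  obtain ⟨g1, g2⟩ := hb
  have hcκ : c * (2 / e.κ * L) = 8 * (ζ * L) := by
    rw [hζ]
    field_simp
    ring
  have hθL : θ * L ≤ ζ * L := by gcongr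
  have hθL' : θ * L ≤ η / 4 * L := by gcongr
  have hη3 : η' * ζ * L ≤ η / 4 * L := by gcongr
  have hpq : η' * (e.p z + e.q z) ≤ η' * ζ * L + 4 * e.C := by
    calc η' * (e.p z + e.q z) ≤ η' * (ζ * L + 4 * e.C) :=
          mul_le_mul_of_nonneg_left (by linarith) hη0.le
      _ = η' * ζ * L + η' * (4 * e.C) := by ring
      _ ≤ η' * ζ * L + 1 * (4 * e.C) := by gcongr
      _ = _ := by ring
  have hpq' : η' * (e.p z + e.q z) ≤ 1 * (e.p z + e.q z) := by gcongr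
  obtain ⟨k, k1, k2⟩ := geo (y := z) hc hc' ht (by positivity) g1 (by
    rw [mul_sub, hcκ]; linarith)
  refine hn ⟨z, _, by linarith, by linarith, ?_, (k2.ex (h t)).mono fun u hu => ?_⟩
  · have := (abs_lt.1 g2).1
    linarith
  · have b1 : e.ds u ≤ 2 * L := by
      refine (he.n1_ds u).2.trans ?_
      calc e.κ * n1 u ≤ e.κ * (2 / e.κ * L) := by gcongr; exact hu
        _ = _ := by field_simp
    exact ⟨by rw [sub_zero]; exact (le_max_left _ _).trans b1,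
      by rw [sub_zero]; exact (le_max_right _ _).trans b1⟩

end

end Crest.Agent.R151.B
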