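import Crest.Agent.R151.D9a
import Crest.Agent.R151.D3b

set_option autoImplicit false

open MeasureTheory ProbabilityTheory Set Filter Topology
open scoped ENNReal
open Crest.ProbabilityR.FirstPassage

namespace Crest.Agent.R151.B

noncomputable section

/-! probabilities of the local events -/

variable {G : Measure ℝ} {e : Fr} {h : Env → Z2 → ℝ}

/-- `4 n` lanes of length `2 n l`, `chp_markov` -/
theorem nice_prob (hG : Law G) (a : Coc G e h) {l ε y : ℝ} (hl : 0 < l) (hε : 0 ≤ ε) (hy : 0 < y)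
    (r : Rate G e h l ε) (i j : ℤ) (n : ℕ) :
    Pr G {t | ¬e.Nice (h t) t l i j n y} ≤ 8 * n ^ 2 * l * ε / y := by
  have h1 : {t | ¬e.Nice (h t) t l i j n y} ⊆ ⋃ s ∈ Finset.Ico (-(n : ℤ)) n,
      ({t | ¬e.Ch (h t) t (e.hor ((i - n) * l) (2 * n * l) ((j + s) * l) l) y} ∪
        {t | ¬e.Ch (h t) t (e.ver ((j - n) * l) (2 * n * l) ((i + s) * l) l) y}) := by
    intro t ht
    by_contra hc
    simp only [mem_iUnion, Finset.mem_Ico, mem_union, mem_setOf_eq, not_exists, not_or,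
      not_not] at hc
    exact ht fun s s1 s2 => hc s ⟨s1, s2⟩
  refine (hG.mono h1).trans ((hG.biUnion _ _).trans ?_)
  refine (Finset.sum_le_card_nsmul _ _ (ε * (2 * n * l) / y + ε * (2 * n * l) / y) fun s hs => ?_).trans ?_
  · have hn : (1 : ℝ) ≤ n := by
      rw [Finset.mem_Ico] at hs
      exact_mod_cast (show 1 ≤ n by omega)
    have hm : l ≤ 2 * n * l := by nlinarith
    exact (hG.union _ _).trans (add_le_add
      (hG.chp_markov a.meas hy (by positivity) (r _ _ _ hm).1)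
      (hG.chp_markov a.meas hy (by positivity) (r _ _ _ hm).2))
  · rw [Int.card_Ico, show ((n : ℤ) - -(n : ℤ)).toNat = 2 * n by omega, nsmul_eq_mul]
    refine le_of_eq ?_
    push_cast
    ring
theorem sig_loc (he : e.OK) {l v : ℝ} (hl : e.κ ≤ l) (h0 : 0 ≤ v) (hv : v ≤ l) (y θ α β : ℝ) :
    Loc (e.Sq (⌊(2 * β - α) / l⌋ * l) (⌊(2 * α - β) / l⌋ * l) (21 * l)) (e.Sig l y θ v α β) := by
  have k3 := he.κ3
  have l0 : 0 < l := by linarith
  have fl : ∀ c : ℝ, (⌊c / l⌋ : ℝ) * l ≤ c ∧ c ≤ ⌊c / l⌋ * l + l := fun c =>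
    ⟨(le_div_iff₀ l0).1 (Int.floor_le _), by
      have := (div_le_iff₀ l0).1 (Int.lt_floor_add_one (c / l)).le
      linarith⟩
  refine Loc.all_rt fun φ => (loc_pot φ _).imp (((nice_loc he hl φ _ _ 20 y).mono ?_).imp
    ((loc_chp e.κ φ _ θ).mono ?_).not)
  · refine subset_of_eq ?_
    norm_num
  · rintro x ⟨a1, a2, a3, a4⟩
    simp only [Fr.up] at a1 a2 a3 a4
    obtain ⟨b1, b2⟩ := fl (2 * β - α)
    obtain ⟨b3, b4⟩ := fl (2 * α - β)
    constructor
    · rw [Fr.P_apply, abs_le]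
      constructor <;> linarith
    · rw [Fr.Y_apply, abs_le]
      constructor <;> linarith
theorem sig_prob_det (he : e.OK) {l v y θ α β : ℝ} (hl : e.κ ≤ l) (hv : v ≤ l) {φ ψ : Z2 → ℝ}
    {t : Env} (p' : Pot ψ univ t)
    (p : Pot φ (e.Sq (⌊(2 * β - α) / l⌋ * l) (⌊(2 * α - β) / l⌋ * l) (21 * l)) t)
    (a : e.Nice φ t l ⌊(2 * β - α) / l⌋ ⌊(2 * α - β) / l⌋ 20 y)
    (b : e.Nice ψ t l ⌊(2 * β - α) / l⌋ ⌊(2 * α - β) / l⌋ 20 y)
    (c : e.Ch φ t (e.up α (7 * l) β v) θ) : e.Ch ψ t (e.up (α + 3 * l) l β v) (θ + 6 * y) := by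
  have κ3 := he.κ3
  have l0 : 0 < l := by linarith
  have i1 := (le_div_iff₀ l0).1 (Int.floor_le ((2 * β - α) / l))
  have i2 := (div_lt_iff₀ l0).1 (Int.lt_floor_add_one ((2 * β - α) / l))
  have j1 := (le_div_iff₀ l0).1 (Int.floor_le ((2 * α - β) / l))
  have j2 := (div_lt_iff₀ l0).1 (Int.lt_floor_add_one ((2 * α - β) / l))
  generalize ⌊(2 * β - α) / l⌋ = i at *
  generalize ⌊(2 * α - β) / l⌋ = j at *
  obtain ⟨x, z, d, hd, hx, hz, w⟩ := c
  have hx' : e.p x ≤ α := hx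
  have hz' : α + 7 * l ≤ e.p z := hz
  have hS : ∀ r, 17 * l ≤ r → (e.up α (7 * l) β v).S e.κ ⊆ e.Sq (i * l) (j * l) r := by
    intro r hr u hu
    have u1 : α - e.κ ≤ e.p u := hu.1
    have u2 : e.p u ≤ α + 7 * l + e.κ := hu.2.1
    have u3 : β ≤ e.q u := hu.2.2.1
    have u4 : e.q u ≤ β + v := hu.2.2.2
    refine ⟨abs_le.2 ⟨?_, ?_⟩, abs_le.2 ⟨?_, ?_⟩⟩ <;> simp only [e.P_apply, e.Y_apply] <;> linarith
  have pS := p.mono (hS (21 * l) (by linarith))
  have h5 : 5 * l ≤ e.ds (z - x) := by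
    have e1 := (abs_le.1 (e.ds_pq (z - x)).1).2
    rw [map_sub] at e1
    linarith
  obtain ⟨x', z', c₁, c₂, c₃, c', w₁, w₃, hc, d₁, d₃, w', hc'⟩ := transfer he hl a b
    (by norm_num; exact p) (p'.mono (subset_univ _)) (hS _ (by norm_num)) w h5
  have n₁ := w₁.nonneg pS
  have n₃ := w₃.nonneg pS
  have e1 := (abs_le.1 ((e.ds_pq (x' - x)).1.trans d₁)).2
  have e2 := (abs_le.1 ((e.ds_pq (z - z')).1.trans d₃)).2
  rw [map_sub] at e1 e2
  refine Chp.mono (w'.trim (L := e.up (α + 3 * l) l β v) (p'.mono (subset_univ _)) (by linarith)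
    (fun u u' huu => (he.step huu).2.2.1) l0.le (fun u hu => hu.2.2) ?_ ?_) (by linarith)
  · show e.p x' ≤ α + 3 * l
    linarith
  · show α + 3 * l + l ≤ e.p z'
    linarith
/-- the long lane lies in the square of radius `17 l`; `transfer` from `φ` to `h t`, `Ex.trim` to the
core lane; `nice_prob` with `n = 20` -/
theorem sig_prob (hG : Law G) (he : e.OK) (a : Coc G e h) {l v ε y θ θ₀ q α β : ℝ} (hl : e.κ ≤ l)
    (h0 : 0 ≤ v) (hv : v ≤ l) (hε : 0 ≤ ε) (hy : 0 < y) (r : Rate G e h l ε)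
    (H : q ≤ Pr G {t | ¬e.Ch (h t) t (e.up (α + 3 * l) l β v) θ₀}) (h1 : 6400 * l * ε ≤ q * y)
    (h2 : θ + 6 * y ≤ θ₀) : q / 2 ≤ Pr G (e.Sig l y θ v α β) := by
  have l0 : 0 < l := by linarith [he.κ3]
  have hN := nice_prob hG a l0 hε hy r ⌊(2 * β - α) / l⌋ ⌊(2 * α - β) / l⌋ 20
  have hsub : ∀ᵐ t ∂iidLaw G, t ∈ {t | ¬e.Ch (h t) t (e.up (α + 3 * l) l β v) θ₀} →
      t ∈ e.Sig l y θ v α β ∪
        {t | ¬e.Nice (h t) t l ⌊(2 * β - α) / l⌋ ⌊(2 * α - β) / l⌋ 20 y} := by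
    filter_upwards [a.ae hG] with t ht hc
    by_cases b : e.Nice (h t) t l ⌊(2 * β - α) / l⌋ ⌊(2 * α - β) / l⌋ 20 y
    · exact Or.inl fun φ _ p n c => hc ((sig_prob_det he hl hv ht.2 p n b c).mono h2)
    · exact Or.inr b
  have h3 := H.trans ((hG.mono_ae hsub).trans (hG.union _ _))
  have h4 : 8 * ((20 : ℕ) : ℝ) ^ 2 * l * ε / y ≤ q / 2 := by
    rw [div_le_iff₀ hy]
    push_cast
    linarith
  linarith
theorem good_loc (he : e.OK) {l : ℝ} (hl : e.κ ≤ l) {n n' : ℕ} (hn : 1 ≤ n) (hn' : 1 ≤ n')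
    (α Λ y s D : ℝ) (i j : ℤ) :
    Loc (e.Sq (i * (n' * (n * l))) (j * (n' * (n * l))) (4 * (n' * (n * l))))
      (e.Good α Λ l y n n' s D i j) := by
  have k3 := he.κ3
  have l0 : 0 < l := by linarith
  have n1 : (1 : ℝ) ≤ n := by exact_mod_cast hn
  have n2 : (1 : ℝ) ≤ n' := by exact_mod_cast hn'
  have hl' : e.κ ≤ n * l := hl.trans (le_mul_of_one_le_left l0.le n1)
  have hl'' : l ≤ n' * (n * l) :=
    (le_mul_of_one_le_left l0.le n1).trans (le_mul_of_one_le_left (by positivity) n2)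
  have hl3 : n * l ≤ n' * (n * l) := le_mul_of_one_le_left (by positivity) n2
  have sq : ∀ {a b r a' b' r' : ℝ}, a = a' → b = b' → r ≤ r' → e.Sq a b r ⊆ e.Sq a' b' r' := by
    rintro a b r _ _ r' rfl rfl hr x hx
    exact ⟨hx.1.trans hr, hx.2.trans hr⟩
  have A : ∀ φ : Z2 → ℝ, Loc (e.Sq (i * (n' * (n * l))) (j * (n' * (n * l))) (4 * (n' * (n * l))))
      {t | Pot φ (e.Sq (i * (n' * (n * l))) (j * (n' * (n * l))) (4 * (n' * (n * l)))) t ∧
        e.Nice φ t l (i * n' * n) (j * n' * n) (3 * n' * n) y ∧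
        e.Nice φ t (n * l) (i * n') (j * n') (3 * n') y ∧
        e.XP φ (e.Sq (i * (n' * (n * l))) (j * (n' * (n * l))) (4 * (n' * (n * l)))) t α Λ l} :=
    fun φ => (loc_pot φ _).and (((nice_loc he hl φ _ _ _ y).mono (sq (by push_cast; ring)
      (by push_cast; ring) (by push_cast; linarith))).and (((nice_loc he hl' φ _ _ _ y).mono
      (sq (by push_cast; ring) (by push_cast; ring) (by push_cast; linarith))).and
      (loc_all_ex φ _ (fun x z => min (e.p (z - x)) (e.q (z - x)) ≤ -(α * max l (e.ds (z - x))))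
        fun x z => 2 * Λ * max l (e.ds (z - x)))))
  have B : ∀ φ : Z2 → ℝ, Loc (e.Sq (i * (n' * (n * l))) (j * (n' * (n * l))) (4 * (n' * (n * l))))
      {t | ∀ x z c, Ex φ (e.Sq (i * (n' * (n * l))) (j * (n' * (n * l))) (2 * (n' * (n * l)))) t x z c →
        True → Λ * (s * e.p (z - x) - e.q (z - x) - D) ≤ c} := fun φ =>
    (loc_all_ex φ _ (fun _ _ => True) fun x z => Λ * (s * e.p (z - x) - e.q (z - x) - D)).mono
      (sq rfl rfl (by linarith))
  convert (Loc.ex_rt A).and (Loc.all_rt fun φ => (A φ).imp (B φ)) using 1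
  ext t
  exact ⟨fun ⟨⟨φ, c⟩, d⟩ => ⟨⟨φ, c.rt, c.pot, c.fine, c.mid, c.xp⟩,
      fun ψ r c x z u w _ => d ψ ⟨r, c.1, c.2.1, c.2.2.1, c.2.2.2⟩ x z u w⟩,
    fun ⟨⟨φ, r, c⟩, d⟩ => ⟨⟨φ, r, c.1, c.2.1, c.2.2.1, c.2.2.2⟩,
      fun ψ c x z u w => d ψ c.rt ⟨c.pot, c.fine, c.mid, c.xp⟩ x z u w trivial⟩⟩
/-- `ω` from `out`, `Λ₀ = ω α / 4`, `ap` with `β = ω α / 4`, `r = 4 n' n l`; `nice_prob` with tolerance
`y / 2` for both grids (`Rate.mono`); `rat_approx` with `η = min 1 (min (y / 4) (ω α l / 8))`.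
For `XP`: `max l ds * α ≤ ds`, so `mE - p - q ≥ ω ds ≥ ω α max l ds`. -/
theorem cls_prob (hG : Law G) (hf : Flat G e) (a : Coc G e h) {α : ℝ} (h0 : 0 < α) (h1 : α ≤ 1) :
    ∃ Λ₀ D : ℝ, 0 < Λ₀ ∧ 0 < D ∧ ∀ (Λ l ε y : ℝ) (n n' : ℕ) (i j : ℤ), Λ ≤ Λ₀ → e.κ ≤ l → 0 ≤ ε →
      0 < y → 1 ≤ n → 1 ≤ n' → Rate G e h l ε →
      Pr G {t | ¬∃ φ, e.Cls α Λ l y n n' i j φ t ∧
        ∀ x ∈ e.Sq (i * (n' * (n * l))) (j * (n' * (n * l))) (4 * (n' * (n * l))),
          |φ x - h t x| ≤ 1} ≤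
        288 * (n * n') ^ 2 * l * ε / y + D * (4 * n * n') ^ 5 * l ^ (-(1 / 32) : ℝ) := by
  obtain ⟨ω, hω, hout⟩ := hf.out α h0
  have hβ : 0 < ω * α / 4 := by positivity
  obtain ⟨D, hD, hap⟩ := a.ap hG hf hβ
  refine ⟨ω * α / 4, D, hβ, by linarith, ?_⟩
  intro Λ l ε y n n' i j hΛ hl hε hy hn hn' r
  have he := hf.ok
  have hl3 : 3 ≤ l := he.κ3.trans hl
  have hl0 : 0 < l := by linarith
  have hnR : (1 : ℝ) ≤ n := by exact_mod_cast hn
  have hnR' : (1 : ℝ) ≤ n' := by exact_mod_cast hn'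
  have hnl : l ≤ n * l := le_mul_of_one_le_left hl0.le hnR
  have hnnl : n * l ≤ n' * (n * l) := le_mul_of_one_le_left (by positivity) hnR'
  have r' : Rate G e h (n * l) ε := r.mono hG he a hl0.le hnl le_rfl
  have p1 := nice_prob hG a hl0 hε (half_pos hy) r (i * n' * n) (j * n' * n) (3 * n' * n)
  have p2 := nice_prob hG a (by positivity) hε (half_pos hy) r' (i * n') (j * n') (3 * n')
  have p3 := hap (i * (n' * (n * l))) (j * (n' * (n * l))) (4 * (n' * (n * l))) l (by linarith)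
    (by linarith)
  have e3 : 4 * (n' * (n * l)) / l = 4 * n * n' := by field_simp
  rw [e3] at p3
  refine le_trans (hG.mono_ae (B := ({t | ¬e.Nice (h t) t l (i * n' * n) (j * n' * n) (3 * n' * n)
      (y / 2)} ∪ {t | ¬e.Nice (h t) t (n * l) (i * n') (j * n') (3 * n') (y / 2)}) ∪
      {t | ∃ x ∈ e.Sq (i * (n' * (n * l))) (j * (n' * (n * l))) (4 * (n' * (n * l))),
        ∃ z ∈ e.Sq (i * (n' * (n * l))) (j * (n' * (n * l))) (4 * (n' * (n * l))),
          T t x z - (h t z - h t x) <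
            mE G (z - x) - (e.p (z - x) + e.q (z - x)) - ω * α / 4 * l}) ?_) ?_
  · filter_upwards [a.ae hG] with t ht hbad
    by_contra hgood
    simp only [mem_union, mem_ofPred_eq, not_or, not_not] at hgood
    obtain ⟨⟨g1, g2⟩, g3⟩ := hgood
    apply hbad
    have hη : 0 < min 1 (min (y / 4) (ω * α * l / 8)) := by positivity
    obtain ⟨ψ, ψ1, ψ2, ψ3⟩ := rat_approx
      (he.Sq_fin (i * (n' * (n * l))) (j * (n' * (n * l))) (4 * (n' * (n * l)))) ht.1
      (ht.2.mono (subset_univ _)) hη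
    have η1 : min 1 (min (y / 4) (ω * α * l / 8)) ≤ 1 := min_le_left _ _
    have η2 : min 1 (min (y / 4) (ω * α * l / 8)) ≤ y / 4 :=
      (min_le_right _ _).trans (min_le_left _ _)
    have η3 : min 1 (min (y / 4) (ω * α * l / 8)) ≤ ω * α * l / 8 :=
      (min_le_right _ _).trans (min_le_right _ _)
    generalize min 1 (min (y / 4) (ω * α * l / 8)) = η at hη ψ3 η1 η2 η3
    refine ⟨ψ, ⟨ψ1, ψ2, ?_, ?_, ?_⟩, fun x hx => (ψ3 x hx).trans η1⟩
    · refine (g1.approx (η := η) hl he fun x hx => ψ3 x ?_).mono (by linarith)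
      obtain ⟨x1, x2⟩ := hx
      push_cast at x1 x2
      constructor
      · rw [show (i : ℝ) * (n' * (n * l)) = i * n' * n * l by ring]
        nlinarith
      · rw [show (j : ℝ) * (n' * (n * l)) = j * n' * n * l by ring]
        nlinarith
    · refine (g2.approx (η := η) (hl.trans hnl) he fun x hx => ψ3 x ?_).mono (by linarith)
      obtain ⟨x1, x2⟩ := hx
      push_cast at x1 x2
      constructor
      · rw [show (i : ℝ) * (n' * (n * l)) = i * n' * (n * l) by ring]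
        nlinarith
      · rw [show (j : ℝ) * (n' * (n * l)) = j * n' * (n * l) by ring]
        nlinarith
    · intro x z c w hm
      obtain ⟨hx, hz⟩ := w.mem
      have t1 : T t x z ≤ ψ z - ψ x + c := T_le ht.1.nn w
      have t2 : mE G (z - x) - (e.p (z - x) + e.q (z - x)) - ω * α / 4 * l ≤
          T t x z - (h t z - h t x) := by
        by_contra hc
        exact g3 ⟨x, hx, z, hz, lt_of_not_ge hc⟩
      have t3 := abs_le.1 (ψ3 x hx)
      have t4 := abs_le.1 (ψ3 z hz)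
      have m1 : l ≤ max l (e.ds (z - x)) := le_max_left _ _
      have m2 : e.ds (z - x) ≤ max l (e.ds (z - x)) := le_max_right _ _
      have t5 := hout (z - x) (hm.trans (neg_le_neg (mul_le_mul_of_nonneg_left m2 h0.le)))
      have t6 : α * max l (e.ds (z - x)) ≤ e.ds (z - x) := by
        obtain ⟨d1, d2, -⟩ := e.ds_pq (z - x)
        have d3 := neg_abs_le (e.p (z - x))
        have d4 := neg_abs_le (e.q (z - x))
        have : -e.ds (z - x) ≤ min (e.p (z - x)) (e.q (z - x)) := le_min (by linarith) (by linarith)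
        linarith
      generalize max l (e.ds (z - x)) = M at m1 m2 t6 hm ⊢
      have t7 : ω * (α * M) ≤ ω * e.ds (z - x) := mul_le_mul_of_nonneg_left t6 hω.le
      have t8 : ω * α * l ≤ ω * α * M := mul_le_mul_of_nonneg_left m1 (by positivity)
      have t9 : Λ * M ≤ ω * α / 4 * M := mul_le_mul_of_nonneg_right hΛ (by linarith)
      nlinarith
  · refine (hG.union _ _).trans (add_le_add ((hG.union _ _).trans ?_) p3)
    refine (add_le_add p1 p2).trans ?_
    push_cast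
    have q1 : 8 * (3 * n' * n : ℝ) ^ 2 * l * ε / (y / 2) = 144 * (n * n') ^ 2 * l * ε / y := by
      field_simp
      ring
    have q2 : 8 * (3 * n' : ℝ) ^ 2 * (n * l) * ε / (y / 2) = 144 * (n * n' ^ 2) * l * ε / y := by
      field_simp
      ring
    have q3 : 144 * (n * n' ^ 2 : ℝ) * l * ε / y ≤ 144 * (n * n') ^ 2 * l * ε / y := by
      have : (n * n' ^ 2 : ℝ) ≤ (n * n') ^ 2 := by
        rw [mul_pow]
        exact mul_le_mul_of_nonneg_right (by nlinarith) (by positivity)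
      gcongr
    rw [q1, q2]
    have q4 : 288 * (n * n' : ℝ) ^ 2 * l * ε / y =
        144 * (n * n') ^ 2 * l * ε / y + 144 * (n * n') ^ 2 * l * ε / y := by ring
    linarith

end

end Crest.Agent.R151.B
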