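import Crest.Agent.R151.D10
import Crest.Agent.R151.D9b

set_option autoImplicit false

open MeasureTheory ProbabilityTheory Set Filter Topology
open scoped ENNReal
open Crest.ProbabilityR.FirstPassage

namespace Crest.Agent.R151.B

noncomputable section

/-! the tilted lower bound: probabilities -/

variable {G : Measure ℝ} {e : Fr}

theorem step_prob_far {L u : ℝ} (hL : 0 < L) {a b : ℤ} (h : 8 < |a - b|) (ha : |u - a * L| ≤ 4 * L)
    (hb : |u - b * L| ≤ 4 * L) : False := by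
  rw [abs_le] at ha hb
  have h1 : ((a : ℝ) - b) * L ≤ 8 * L := by linarith [ha.1, hb.2]
  have h2 : (-8 : ℝ) * L ≤ (a - b) * L := by linarith [ha.2, hb.1]
  have h3 : a - b ≤ 8 := by exact_mod_cast le_of_mul_le_mul_right h1 hL
  have h4 : -8 ≤ a - b := by exact_mod_cast le_of_mul_le_mul_right h2 hL
  exact absurd (abs_le.2 ⟨h4, h3⟩) (not_le.2 h)
theorem step_prob_card (c : ℤ) (k : ℕ) :
    ((Finset.Icc (c - (2 * k + 1)) (c + (2 * k + 1))).card : ℝ) = 4 * k + 3 := by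
  rw [ball_fin_card _ _ (by omega)]
  push_cast
  ring
/-- `step_det`; union bound over the `(4 n'' + 3) ^ 4` quadruples of indices; boxes at index distance
`> 8` have disjoint outer squares (`good_loc`, `Loc.compl`, `loc_indep2`); `Law.ps`, `mono_ae` -/
theorem step_prob (hG : Law G) (he : e.OK) {α Λ l y y' s s' D D' p : ℝ} {n n' n'' : ℕ}
    (hl : e.κ ≤ l) (hn : 1 ≤ n) (hn' : 5 ≤ n') (hn'' : 5 ≤ n'') (hα : 0 < α) (hα' : α ≤ 1 / 3)
    (hΛ : 0 ≤ Λ) (hs' : 0 ≤ s') (hs : s' ≤ s) (hs1 : s ≤ 1) (hy : y ≤ y')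
    (h1 : 10 * (Λ * (D + 6 * (s + α) * (n * l)) + 6 * y') ≤ Λ * (s - s') * (n' * (n * l)))
    (h2 : 22 * (s + α) * (n' * (n * l)) ≤ D')
    (hp : ∀ i j : ℤ, Pr G (e.Good α Λ l y n n' s D i j)ᶜ ≤ p) (i j : ℤ) :
    Pr G (e.Good α Λ (n * l) y' n' n'' s' D' i j)ᶜ ≤
      Pr G {t | ¬∃ φ, e.Cls α Λ (n * l) y' n' n'' i j φ t} + (4 * n'' + 3) ^ 4 * p ^ 2 := by
  classical
  have hκ := he.κ3
  have hl0 : 0 < l := by linarith
  have hn0 : (0 : ℝ) < n := by exact_mod_cast hn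
  have hn0' : (0 : ℝ) < n' := by exact_mod_cast (by omega : 0 < n')
  have hL : 0 < (n' : ℝ) * (n * l) := by positivity
  have hp0 : 0 ≤ p := (Pr_nonneg _ _).trans (hp 0 0)
  set I := Finset.Icc (i * n'' - (2 * n'' + 1)) (i * n'' + (2 * n'' + 1)) with hI
  set J := Finset.Icc (j * n'' - (2 * n'' + 1)) (j * n'' + (2 * n'' + 1)) with hJ
  set F := ((I ×ˢ J) ×ˢ (I ×ˢ J)).filter
    fun a : (ℤ × ℤ) × ℤ × ℤ => 8 < |a.1.1 - a.2.1| ∨ 8 < |a.1.2 - a.2.2| with hF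
  have mI : ∀ {c a : ℤ}, |a - c| ≤ 2 * n'' + 1 →
      a ∈ Finset.Icc (c - (2 * n'' + 1)) (c + (2 * n'' + 1)) := fun h => by
    rw [abs_le] at h
    exact Finset.mem_Icc.2 ⟨by linarith [h.1], by linarith [h.2]⟩
  have hsub : ∀ᵐ t ∂iidLaw G, t ∈ (e.Good α Λ (n * l) y' n' n'' s' D' i j)ᶜ →
      t ∈ {t | ¬∃ φ, e.Cls α Λ (n * l) y' n' n'' i j φ t} ∪ ⋃ a ∈ F,
        (e.Good α Λ l y n n' s D a.1.1 a.1.2)ᶜ ∩ (e.Good α Λ l y n n' s D a.2.1 a.2.2)ᶜ := by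
    filter_upwards [hG.ps] with t ht hb
    by_contra hc
    rw [mem_union, not_or] at hc
    refine hb ⟨not_not.1 hc.1, fun φ hφ => step_det he ht hl hn hn' hn'' hα hα' hΛ hs' hs hs1 hy h1
      h2 (fun i₁ j₁ i₂ j₂ a1 a2 a3 a4 a5 => ?_) hφ⟩
    by_contra hd
    rw [not_or] at hd
    refine hc.2 (mem_iUnion₂.2 ⟨((i₁, j₁), i₂, j₂), ?_, hd.1, hd.2⟩)
    exact Finset.mem_filter.2 ⟨Finset.mem_product.2 ⟨Finset.mem_product.2 ⟨mI a1, mI a2⟩,
      Finset.mem_product.2 ⟨mI a3, mI a4⟩⟩, a5⟩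
  refine (hG.mono_ae hsub).trans ((hG.union _ _).trans (add_le_add le_rfl ?_))
  refine (hG.biUnion F _).trans ((Finset.sum_le_card_nsmul F _ (p ^ 2) fun a ha => ?_).trans ?_)
  · have h3 := (Finset.mem_filter.1 ha).2
    rw [hG.loc_indep2 ?_ (good_loc he hl hn (by omega) α Λ y s D a.1.1 a.1.2).compl
      (good_loc he hl hn (by omega) α Λ y s D a.2.1 a.2.2).compl, sq]
    · exact mul_le_mul (hp _ _) (hp _ _) (Pr_nonneg _ _) hp0
    · rw [Set.disjoint_left]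
      intro x hx hx'
      rcases h3 with h3 | h3
      · exact step_prob_far hL h3 hx.1 hx'.1
      · exact step_prob_far hL h3 hx.2 hx'.2
  · rw [nsmul_eq_mul]
    refine mul_le_mul_of_nonneg_right ?_ (sq_nonneg p)
    have h3 : (F.card : ℝ) ≤ ((I ×ˢ J) ×ˢ (I ×ˢ J)).card := by
      exact_mod_cast Finset.card_filter_le _ _
    refine h3.trans_eq ?_
    simp only [Finset.card_product, Nat.cast_mul]
    rw [hI, hJ, step_prob_card, step_prob_card]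
    ring
theorem base_prob_count {a A ρ : ℝ} (ha : 0 < a) (hρ : 0 ≤ ρ) : ∃ F : Finset ℤ,
    (∀ c : ℤ, |c * a - A| ≤ ρ → c ∈ F) ∧ (F.card : ℝ) ≤ 2 * ρ / a + 1 := by
  refine ⟨Finset.Icc ⌈(A - ρ) / a⌉ ⌊(A + ρ) / a⌋, fun c hc => ?_, ?_⟩
  · rw [Finset.mem_Icc, Int.ceil_le, Int.le_floor, div_le_iff₀ ha, le_div_iff₀ ha]
    constructor <;> linarith [(abs_le.1 hc).1, (abs_le.1 hc).2]
  · rcases le_or_gt ⌈(A - ρ) / a⌉ (⌊(A + ρ) / a⌋ + 1) with h | h
    · rw [ball_fin_card _ _ h]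
      have h1 := Int.le_ceil ((A - ρ) / a)
      have h2 := Int.floor_le ((A + ρ) / a)
      have h3 : 2 * ρ / a = (A + ρ) / a - (A - ρ) / a := by ring
      linarith
    · rw [Finset.Icc_eq_empty (by omega), Finset.card_empty, Nat.cast_zero]
      positivity
theorem base_prob_ind (hG : Law G) (he : e.OK) {l y v θ q : ℝ} (hl : e.κ ≤ l) (h0 : 0 ≤ v)
    (hv : v ≤ l) (hq : ∀ a b, q ≤ Pr G (e.Sig l y θ v a b)) (g : ℕ) (r : ℤ) (β : ℝ) :
    Pr G (⋂ k ∈ Finset.range g, (e.Sig l y θ v (50 * l * (r + k)) β)ᶜ) ≤ (1 - q) ^ g := by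
  have l0 : 0 < l := by linarith [he.κ3]
  rw [hG.loc_indep (Finset.range g) (fun k : ℕ => e.Sq (⌊(2 * β - 50 * l * (r + k)) / l⌋ * l)
    (⌊(2 * (50 * l * (r + k)) - β) / l⌋ * l) (21 * l)) _ ?_
    fun k _ => (sig_loc he hl h0 hv y θ _ β).compl]
  · refine (Finset.prod_le_prod (fun k _ => Pr_nonneg _ _) (g := fun _ => 1 - q)
      fun k _ => ?_).trans (by simp)
    rw [hG.compl (sig_loc he hl h0 hv y θ _ β).1]
    linarith [hq (50 * l * (r + k)) β]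
  · have key : ∀ k k' : ℕ, k < k' → Disjoint (e.Sq (⌊(2 * β - 50 * l * (r + k)) / l⌋ * l)
        (⌊(2 * (50 * l * (r + k)) - β) / l⌋ * l) (21 * l))
        (e.Sq (⌊(2 * β - 50 * l * (r + k')) / l⌋ * l)
          (⌊(2 * (50 * l * (r + k')) - β) / l⌋ * l) (21 * l)) := by
      intro k k' hk
      refine Set.disjoint_left.2 fun x hx hx' => ?_
      have e1 := (abs_le.1 hx.2).2
      have e2 := (abs_le.1 hx'.2).1
      have e3 := (le_div_iff₀ l0).1 (Int.floor_le ((2 * (50 * l * (r + k)) - β) / l))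
      have e4 := (div_lt_iff₀ l0).1 (Int.lt_floor_add_one ((2 * (50 * l * (r + k')) - β) / l))
      have e5 : (k : ℝ) + 1 ≤ k' := by exact_mod_cast hk
      have e6 := mul_le_mul_of_nonneg_left e5 l0.le
      linarith
    intro k _ k' _ hne
    rcases lt_or_gt_of_ne hne with h | h
    · exact key k k' h
    · exact (key k' k h).symm
/-- `base_det`; union bound over the pairs `(c, r)` (at most `12 L / v + 1` and `6 L / (50 l) + 1`
values); for fixed `c` the squares of the signals at levels `r + k` have second index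
`⌊(100 l (r + k) - β) / l⌋ = 100 (r + k) + ⌊-β / l⌋`, so they are disjoint (`sig_loc`, `loc_indep`) -/
theorem base_prob (hG : Law G) (he : e.OK) {α Λ l y s v θ q : ℝ} {n n' g : ℕ} (hl : e.κ ≤ l)
    (hn : 1 ≤ n) (hn' : 1 ≤ n') (hα : 0 < α) (hαs : α ≤ s / 800) (hs : s ≤ 1) (hΛ : 0 < Λ)
    (hv : v ≤ l) (h1 : 24 * s * (n' * (n * l)) ≤ v) (h2 : (g + 2) * 10 ^ 4 ≤ n * n')
    (h3 : 8 * Λ * s * (n' * (n * l)) ≤ θ) (hq : ∀ a b, q ≤ Pr G (e.Sig l y θ v a b)) (i j : ℤ) :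
    Pr G (e.Good α Λ l y n n' s (s * (n' * (n * l)) / 100) i j)ᶜ ≤
      Pr G {t | ¬∃ φ, e.Cls α Λ l y n n' i j φ t} +
        (12 * (n' * (n * l)) / v + 1) * (n * n' + 1) * (1 - q) ^ g := by
  have l0 : 0 < l := by linarith [he.κ3]
  have n0 : (0 : ℝ) < n := by exact_mod_cast hn
  have n0' : (0 : ℝ) < n' := by exact_mod_cast hn'
  have s0 : 0 < s := by linarith
  have L0 : 0 < (n' : ℝ) * (n * l) := by positivity
  have v0 : 0 < v := lt_of_lt_of_le (by positivity) h1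
  have q1 : 0 ≤ 1 - q := by linarith [hq 0 0, hG.le_one (e.Sig l y θ v 0 0)]
  obtain ⟨F, hF, cF⟩ := base_prob_count (A := (2 * i + j) * (n' * (n * l)) / 3) (half_pos v0)
    (ρ := 3 * (n' * (n * l))) (by positivity)
  obtain ⟨R, hR, cR⟩ := base_prob_count (A := (i + 2 * j) * (n' * (n * l)) / 3)
    (by positivity : 0 < 50 * l) (ρ := 3 * (n' * (n * l))) (by positivity)
  have hsub : (e.Good α Λ l y n n' s (s * (n' * (n * l)) / 100) i j)ᶜ ⊆
      {t | ¬∃ φ, e.Cls α Λ l y n n' i j φ t} ∪ ⋃ p ∈ F ×ˢ R, ⋂ k ∈ Finset.range g,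
        (e.Sig l y θ v (50 * l * (p.2 + k)) (p.1 * (v / 2)))ᶜ := by
    intro t ht
    by_contra hc
    rw [mem_union, not_or] at hc
    refine ht ⟨not_not.1 hc.1, fun φ hφ => base_det he hl hn hn' hα hαs hs hΛ hv h1 h2 h3
      (fun c r hc1 hr1 => ?_) hφ⟩
    by_contra hk
    refine hc.2 (mem_iUnion₂.2 ⟨(c, r), Finset.mem_product.2 ⟨hF c hc1, hR r ?_⟩,
      mem_iInter₂.2 fun k hk' hs => hk ⟨k, Finset.mem_range.1 hk', hs⟩⟩)
    rwa [mul_comm]
  refine (hG.mono hsub).trans ((hG.union _ _).trans (add_le_add le_rfl ?_))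
  refine (hG.biUnion _ _).trans ((Finset.sum_le_card_nsmul _ _ _ fun p _ =>
    base_prob_ind hG he hl v0.le hv hq g p.2 _).trans ?_)
  rw [Finset.card_product, nsmul_eq_mul, Nat.cast_mul]
  have e1 : 2 * (3 * ((n' : ℝ) * (n * l))) / (v / 2) = 12 * (n' * (n * l)) / v := by
    field_simp
    ring
  have e2 : 2 * (3 * ((n' : ℝ) * (n * l))) / (50 * l) ≤ n * n' := by
    rw [div_le_iff₀ (by positivity)]
    linarith
  rw [e1] at cF
  have cR' : (R.card : ℝ) ≤ n * n' + 1 := by linarith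
  gcongr

end

end Crest.Agent.R151.B
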