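import Crest.Agent.R151.DDefs

set_option autoImplicit false

open MeasureTheory ProbabilityTheory Set Filter Topology
open scoped ENNReal
open Crest.ProbabilityR.FirstPassage

namespace Crest.Agent.R151.B

noncomputable section

/-! the choice of the scales (lengths in units of `w`, excesses in units of `ε w`) -/

def nN (N k : ℕ) : ℕ := N * 2 ^ k
def nL (A : ℝ) (N : ℕ) : ℕ → ℝ
  | 0 => (N ^ 640 : ℕ) * A / 4
  | k + 1 => nN N k * nL A N k
def nP (N k : ℕ) : ℝ := 1 / (64 * (20 * N) ^ 4 * 32 ^ k)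
def nY (A C : ℝ) (N k : ℕ) : ℝ :=
  1152 * (nN N k * nN N (k + 1)) ^ 2 * nL A N k * (C * (1 / nL A N k) ^ (1 / 64 : ℝ)) / nP N k
def nS (A : ℝ) (N : ℕ) : ℝ := 1 / (384 * nL A N 2)
def nT (A : ℝ) (N k : ℕ) : ℝ := nS A N * (1 / 2 + 1 / 2 ^ (k + 1))
def nD (A : ℝ) (N : ℕ) : ℕ → ℝ
  | 0 => nS A N * nL A N 2 / 100
  | k + 1 => 44 * nS A N * nL A N (k + 2)

variable {A q c C : ℝ} {N : ℕ}

theorem nL_ge (hA : 1 ≤ A) (hN : 2 ≤ N) (k : ℕ) :
    (N : ℝ) ^ (640 + k) / 4 ≤ nL A N k ∧ 1 ≤ nL A N k := by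
  have h2 : (2 : ℝ) ≤ N := by exact_mod_cast hN
  have h1 : (N : ℝ) ^ (640 + k) / 4 ≤ nL A N k := by
    induction k with
    | zero =>
      simp only [nL, Nat.cast_pow, Nat.add_zero]
      exact div_le_div_of_nonneg_right (le_mul_of_one_le_right (by positivity) hA) (by norm_num)
    | succ k ih =>
      have h3 : (N : ℝ) ≤ nN N k := by
        exact_mod_cast Nat.le_mul_of_pos_right N (Nat.pow_pos (by norm_num))
      rw [nL, ← Nat.add_assoc, pow_succ, mul_comm, mul_div_assoc]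
      exact mul_le_mul h3 ih (by positivity) (by positivity)
  refine ⟨h1, le_trans ?_ h1⟩
  rw [le_div_iff₀ (by norm_num)]
  calc (1 : ℝ) * 4 = 2 ^ 2 := by norm_num
    _ ≤ N ^ 2 := pow_le_pow_left₀ (by norm_num) h2 2
    _ ≤ N ^ (640 + k) := pow_le_pow_right₀ (by linarith) (by omega)
theorem nP_pos (hN : 1 ≤ N) (k : ℕ) : 0 < nP N k ∧ nP N k ≤ 1 / 8 ∧
    (4 * (nN N (k + 2) : ℝ) + 3) ^ 4 * nP N k ^ 2 ≤ nP N (k + 1) / 2 := by
  have h1 : (1 : ℝ) ≤ N := by exact_mod_cast hN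
  have h2 : (1 : ℝ) ≤ 2 ^ k := one_le_pow₀ (by norm_num)
  have h3 : (1 : ℝ) ≤ (20 * N) ^ 4 * 32 ^ k :=
    one_le_mul_of_one_le_of_one_le (one_le_pow₀ (by linarith)) (one_le_pow₀ (by norm_num))
  have h4 : (4 * (nN N (k + 2) : ℝ) + 3) ^ 4 ≤ (20 * N) ^ 4 * 32 ^ k := by
    have h5 : 1 ≤ (N : ℝ) * 2 ^ k := one_le_mul_of_one_le_of_one_le h1 h2
    calc (4 * (nN N (k + 2) : ℝ) + 3) ^ 4 ≤ (20 * (N : ℝ) * 2 ^ k) ^ 4 := by
          refine pow_le_pow_left₀ (by positivity) ?_ 4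
          simp only [nN, Nat.cast_mul, Nat.cast_pow, Nat.cast_ofNat, pow_add]
          linarith
      _ = (20 * (N : ℝ)) ^ 4 * 16 ^ k := by
          rw [mul_pow (20 * (N : ℝ)), ← pow_mul, mul_comm k 4, pow_mul (2 : ℝ)]; norm_num
      _ ≤ (20 * (N : ℝ)) ^ 4 * 32 ^ k :=
          mul_le_mul_of_nonneg_left (pow_le_pow_left₀ (by norm_num) (by norm_num) k) (by positivity)
  simp only [nP, pow_succ (32 : ℝ), mul_assoc (64 : ℝ), ← mul_assoc ((20 * (N : ℝ)) ^ 4)]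
  generalize (20 * (N : ℝ)) ^ 4 * 32 ^ k = M at h3 h4
  refine ⟨by positivity, one_div_le_one_div_of_le (by norm_num) (by linarith), ?_⟩
  calc _ ≤ M * (1 / (64 * M)) ^ 2 := mul_le_mul_of_nonneg_right h4 (by positivity)
    _ = _ := by field_simp; norm_num
/-- `L * (1 / L) ^ (1/64) = L ^ (63/64)` is monotone -/
theorem nY_mono (hA : 1 ≤ A) (hC : 0 < C) (hN : 2 ≤ N) (k : ℕ) :
    0 < nY A C N k ∧ nY A C N k ≤ nY A C N (k + 1) ∧
      288 * ((nN N k : ℝ) * nN N (k + 1)) ^ 2 * nL A N k * (C * (1 / nL A N k) ^ (1 / 64 : ℝ)) /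
        nY A C N k ≤ nP N k / 4 := by
  have hL := fun k => (nL_ge hA hN k).2
  have hn : ∀ k, (1 : ℝ) ≤ nN N k := fun k => by
    exact_mod_cast Nat.mul_pos (by omega) (Nat.pow_pos (by norm_num))
  have hn' : ∀ k, (nN N k : ℝ) ≤ nN N (k + 1) := fun k => by
    exact_mod_cast Nat.mul_le_mul_left N (Nat.pow_le_pow_right (by norm_num) (by omega))
  have hP := fun k => (nP_pos (show 1 ≤ N by omega) k).1
  have e : ∀ k, nY A C N k = 1152 * (nN N k * nN N (k + 1)) ^ 2 * (C * nL A N k ^ (63 / 64 : ℝ)) /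
      nP N k := fun k => by
    have h0 : 0 < nL A N k := by linarith [hL k]
    rw [nY, show (63 / 64 : ℝ) = 1 - 1 / 64 by norm_num, Real.rpow_sub h0, Real.rpow_one,
      Real.div_rpow zero_le_one h0.le, Real.one_rpow]
    ring
  have h0 : 0 < nL A N k := by linarith [hL k]
  have h1 : (0 : ℝ) < nN N k := by linarith [hn k]
  have h2 : (0 : ℝ) < nN N (k + 1) := by linarith [hn (k + 1)]
  have h3 := hP k
  refine ⟨by rw [e]; positivity, ?_, le_of_eq ?_⟩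
  · have h4 : nL A N k ≤ nL A N (k + 1) := le_mul_of_one_le_left h0.le (hn k)
    have h5 : nP N (k + 1) ≤ nP N k := by
      have : (0 : ℝ) < N := by exact_mod_cast (show 0 < N by omega)
      exact one_div_le_one_div_of_le (by positivity) (mul_le_mul_of_nonneg_left
        (pow_le_pow_right₀ (by norm_num) (by omega)) (by positivity))
    have h6 := hP (k + 1)
    have h7 := hn' k
    have h8 := hn' (k + 1)
    have h9 : 0 < nL A N (k + 1) := h0.trans_le h4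
    rw [e, e]
    gcongr
  · have : 0 < (1 / nL A N k) ^ (1 / 64 : ℝ) := by positivity
    rw [nY]
    field_simp
    norm_num
theorem nT_facts (hA : 1 ≤ A) (hN : 2 ≤ N) (k : ℕ) : 0 < nS A N ∧ nS A N ≤ 1 ∧
    nT A N 0 = nS A N ∧ nS A N / 2 ≤ nT A N k ∧ nT A N (k + 1) ≤ nT A N k ∧ nT A N k ≤ nS A N ∧
    22 * (nT A N k + nS A N / 800) * nL A N (k + 2) ≤ nD A N (k + 1) := by
  have hL := fun k => (nL_ge hA hN k).2
  have h0 : 0 < nS A N := by
    have := hL 2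
    rw [nS]
    positivity
  have h1 : ∀ k : ℕ, (0 : ℝ) < 1 / 2 ^ k := fun k => by positivity
  have h2 : (1 : ℝ) / 2 ^ (k + 1 + 1) ≤ 1 / 2 ^ (k + 1) :=
    one_div_le_one_div_of_le (by positivity) (pow_le_pow_right₀ (by norm_num) (by omega))
  have h3 : (1 : ℝ) / 2 ^ (k + 1) ≤ 1 / 2 :=
    one_div_le_one_div_of_le (by norm_num) (le_self_pow₀ (by norm_num) (by omega))
  have h4 : nT A N k ≤ nS A N := mul_le_of_le_one_right h0.le (by linarith)
  refine ⟨h0, ?_, by rw [nT]; norm_num, ?_, mul_le_mul_of_nonneg_left (by linarith) h0.le, h4, ?_⟩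
  · rw [nS, div_le_one (by linarith [hL 2])]
    linarith [hL 2]
  · rw [nT]
    nlinarith [h1 (k + 1)]
  · rw [nD]
    exact mul_le_mul_of_nonneg_right (by linarith) (by linarith [hL (k + 2)])
theorem nD_lim (hA : 1 ≤ A) (hN : 2 ≤ N) :
    Tendsto (fun k => nD A N k / nL A N (k + 2)) atTop (𝓝 0) ∧ Tendsto (nL A N) atTop atTop := by
  have h2 : (2 : ℝ) ≤ N := by exact_mod_cast hN
  constructor
  · rw [← tendsto_add_atTop_iff_nat 1]
    have h := (tendsto_pow_atTop_nhds_zero_of_lt_one (r := (1 / 2 : ℝ)) (by norm_num)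
      (by norm_num)).const_mul (44 * nS A N / (4 * N))
    rw [mul_zero] at h
    refine h.congr fun k => ?_
    have := (nL_ge hA hN (k + 2)).2
    rw [nD, show k + 1 + 2 = k + 2 + 1 by ring, nL.eq_2 A N (k + 2), nN]
    push_cast
    rw [one_div_pow, pow_add]
    field_simp
    norm_num
  · refine tendsto_atTop_mono (fun k => le_trans ?_ (nL_ge hA hN k).1)
      ((tendsto_pow_atTop_atTop_of_one_lt (r := (2 : ℝ)) (by norm_num)).atTop_div_const
        (show (0 : ℝ) < 4 by norm_num))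
    exact div_le_div_of_nonneg_right ((pow_le_pow_left₀ (by norm_num) h2 k).trans
      (pow_le_pow_right₀ (by linarith) (by omega))) (by norm_num)
theorem num_sig_rt {M L : ℝ} (hM : 0 < M) (hL : M ^ 64 / 4 ≤ L) :
    (1 / L) ^ (1 / 64 : ℝ) ≤ 2 / M := by
  have h0 : 0 < M ^ 64 := pow_pos hM 64
  have hL0 : 0 < L := lt_of_lt_of_le (by positivity) hL
  have h1 : 1 / L ≤ (2 / M) ^ 64 := by
    rw [div_pow, div_le_div_iff₀ hL0 h0]
    generalize M ^ 64 = X at h0 hL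
    nlinarith
  have h2 := Real.rpow_le_rpow (by positivity) h1 (show (0 : ℝ) ≤ 1 / 64 by norm_num)
  have h3 := Real.pow_rpow_inv_natCast (show 0 ≤ 2 / M by positivity) (show 64 ≠ 0 by norm_num)
  rw [show (((64 : ℕ) : ℝ))⁻¹ = 1 / 64 by norm_num] at h3
  rwa [h3] at h2
theorem num_sig_Y (A C : ℝ) (N : ℕ) : nY A C N 0 =
    47185920000 * (N : ℝ) ^ 8 * (nL A N 0 * (C * (1 / nL A N 0) ^ (1 / 64 : ℝ))) := by
  unfold nY nP nN
  generalize nL A N 0 = L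
  generalize (1 / L) ^ (1 / 64 : ℝ) = R
  rw [one_div, div_inv_eq_mul]
  push_cast
  ring
/-- `nY 0 ≤ const * N ^ 8 * N ^ 630` because `(1 / nL 0) ^ (1/64) ≤ 2 / N ^ 10` -/
theorem num_sig (hA : 1 ≤ A) (hq : 0 < q) (hc : 0 < c) (hC : 0 < C) : ∀ᶠ N : ℕ in atTop,
    6 * nY A C N 0 ≤ q * (N ^ 640 : ℕ) * c / 64 ∧
      6400 * nL A N 0 * (C * (1 / nL A N 0) ^ (1 / 64 : ℝ)) ≤ q / 2 * nY A C N 0 := by
  have h1 : ∀ᶠ N : ℕ in atTop, 1 / q ≤ (N : ℝ) := tendsto_natCast_atTop_atTop.eventually_ge_atTop _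
  have h2 : ∀ᶠ N : ℕ in atTop, 192 * 47185920000 * A * C / (q * c) ≤ (N : ℝ) :=
    tendsto_natCast_atTop_atTop.eventually_ge_atTop _
  filter_upwards [h1, h2, eventually_ge_atTop 1] with N h1 h2 h3
  have hN : (1 : ℝ) ≤ N := by exact_mod_cast h3
  have hM : (0 : ℝ) < (N : ℝ) ^ 10 := by positivity
  have e1 : ((N ^ 640 : ℕ) : ℝ) = ((N : ℝ) ^ 10) ^ 64 := by rw [Nat.cast_pow, ← pow_mul]
  have eL : nL A N 0 = ((N : ℝ) ^ 10) ^ 64 * A / 4 := by rw [← e1]; rfl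
  have hX : 0 < ((N : ℝ) ^ 10) ^ 64 := pow_pos hM 64
  have hL : ((N : ℝ) ^ 10) ^ 64 / 4 ≤ nL A N 0 := by
    rw [eL]
    generalize ((N : ℝ) ^ 10) ^ 64 = X at hX
    nlinarith
  have hR := num_sig_rt hM hL
  have hR0 : 0 ≤ (1 / nL A N 0) ^ (1 / 64 : ℝ) :=
    Real.rpow_nonneg (one_div_nonneg.2 (le_trans (by positivity) hL)) _
  rw [num_sig_Y, e1]
  generalize (1 / nL A N 0) ^ (1 / 64 : ℝ) = R at hR hR0
  rw [eL]
  generalize ((N : ℝ) ^ 10) ^ 64 = X at hX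
  rw [div_le_iff₀ hq] at h1
  rw [div_le_iff₀ (mul_pos hq hc)] at h2
  rw [le_div_iff₀ hM] at hR
  have hA0 : 0 < A := by linarith
  constructor
  · have h4 : (N : ℝ) ^ 8 * R * (N : ℝ) ^ 2 ≤ 2 := by
      calc (N : ℝ) ^ 8 * R * (N : ℝ) ^ 2 = R * (N : ℝ) ^ 10 := by ring
        _ ≤ 2 := hR
    have h5 : 0 ≤ (N : ℝ) ^ 8 * R := by positivity
    have h6 : (N : ℝ) ^ 8 * R * N ≤ 2 := by
      refine le_trans ?_ h4
      gcongr
      nlinarith
    have h7 : 192 * 47185920000 * A * C * ((N : ℝ) ^ 8 * R) ≤ 2 * (q * c) := by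
      calc 192 * 47185920000 * A * C * ((N : ℝ) ^ 8 * R) ≤ N * (q * c) * ((N : ℝ) ^ 8 * R) := by
            gcongr
        _ = (N : ℝ) ^ 8 * R * N * (q * c) := by ring
        _ ≤ 2 * (q * c) := by gcongr
    have h8 := mul_le_mul_of_nonneg_left h7 hX.le
    generalize (N : ℝ) ^ 8 = Z at h8 h5
    have h9 : 0 ≤ X * (q * c) := by positivity
    nlinarith
  · have h4 : 1 ≤ (N : ℝ) ^ 8 * q := by
      refine h1.trans ?_
      gcongr
      exact le_self_pow₀ hN (by norm_num)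
    have h5 : 0 ≤ X * A / 4 * (C * R) := by positivity
    have h6 := mul_le_mul_of_nonneg_left h4 h5
    generalize (N : ℝ) ^ 8 = Z at h6
    nlinarith
/-- a polynomial in `N` against `(1 - q / 4) ^ g`, `g = 2 N² / 10⁴ - 2 ≥ N` -/
theorem num_base (hA : 1 ≤ A) (hq : 0 < q) (hq1 : q ≤ 1) : ∀ᶠ N : ℕ in atTop, ∃ g : ℕ,
    (g + 2) * 10 ^ 4 ≤ nN N 0 * nN N 1 ∧
      (192 * nL A N 2 + 1) * ((nN N 0 : ℝ) * nN N 1 + 1) * (1 - q / 4) ^ g ≤ nP N 0 / 2 := by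
  have hr : |1 - q / 4| < 1 := by rw [abs_lt]; constructor <;> linarith
  have hA0 : 0 < A := by linarith
  have h1 := (tendsto_pow_const_mul_const_pow_of_abs_lt_one 648 hr).eventually
    (gt_mem_nhds (show (0 : ℝ) < 1 / (291 * 128 * 160000 * A) by positivity))
  filter_upwards [h1, eventually_ge_atTop 10000] with N h1 h2
  refine ⟨N, ?_, ?_⟩
  · unfold nN
    nlinarith
  · have hN : (1 : ℝ) ≤ N := by exact_mod_cast (show 1 ≤ N by omega)
    have eL : nL A N 2 = (N : ℝ) ^ 640 * (N : ℝ) ^ 2 * A / 2 := by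
      show ((nN N 1 : ℕ) : ℝ) * (((nN N 0 : ℕ) : ℝ) * (((N ^ 640 : ℕ) : ℝ) * A / 4)) = _
      rw [Nat.cast_pow]
      generalize (N : ℝ) ^ 640 = X
      unfold nN
      push_cast
      ring
    have e2 : (N : ℝ) ^ 648 = (N : ℝ) ^ 640 * (N : ℝ) ^ 8 := by rw [← pow_add]
    have hX : 1 ≤ (N : ℝ) ^ 640 := one_le_pow₀ hN
    have hρ : 0 ≤ (1 - q / 4) ^ N := pow_nonneg (by linarith) _
    rw [e2, lt_div_iff₀ (by positivity)] at h1
    rw [eL]
    generalize (N : ℝ) ^ 640 = X at h1 hX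
    generalize (1 - q / 4) ^ N = ρ at h1 hρ
    unfold nP nN
    push_cast
    have hN2 : 1 ≤ (N : ℝ) ^ 2 := one_le_pow₀ hN
    have h3 : 1 ≤ X * (N : ℝ) ^ 2 * A := one_le_mul_of_one_le_of_one_le
      (one_le_mul_of_one_le_of_one_le hX hN2) hA
    have h4 : 192 * (X * (N : ℝ) ^ 2 * A / 2) + 1 ≤ 97 * (X * (N : ℝ) ^ 2 * A) := by linarith
    have h5 : (N : ℝ) * 1 * (N * 2) + 1 ≤ 3 * (N : ℝ) ^ 2 := by nlinarith
    rw [div_div, le_div_iff₀ (by positivity)]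
    calc (192 * (X * (N : ℝ) ^ 2 * A / 2) + 1) * ((N : ℝ) * 1 * (N * 2) + 1) * ρ *
          (64 * (20 * (N : ℝ)) ^ 4 * 1 * 2)
        ≤ 97 * (X * (N : ℝ) ^ 2 * A) * (3 * (N : ℝ) ^ 2) * ρ * (64 * (20 * (N : ℝ)) ^ 4 * 1 * 2) := by
          gcongr
      _ = X * (N : ℝ) ^ 8 * ρ * (291 * 128 * 160000 * A) := by ring
      _ ≤ 1 := h1.le
theorem num_step_two (hN : 2 ^ 576 ≤ N) : 2 ≤ N :=
  le_trans (le_self_pow₀ (by norm_num) (by norm_num)) hN
theorem num_step_root (hA : 1 ≤ A) (hN : 2 ^ 576 ≤ N) (k : ℕ) :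
    (1 / nL A N k) ^ (1 / 64 : ℝ) ≤ 2 / ((N : ℝ) ^ 10 * (2 ^ k) ^ 9) := by
  have h2 := num_step_two hN
  have hN0 : (0 : ℝ) < N := by exact_mod_cast (by omega : 0 < N)
  obtain ⟨h1, h0⟩ := nL_ge hA h2 k
  have h3 : (((2 : ℝ) ^ k) ^ 9) ^ 64 ≤ (N : ℝ) ^ k := by
    rw [← pow_mul, ← pow_mul, mul_comm k, pow_mul]
    refine pow_le_pow_left₀ (by positivity) ?_ k
    have := (Nat.cast_le (α := ℝ)).2 hN
    rwa [Nat.cast_pow, Nat.cast_ofNat] at this
  have h4 : ((N : ℝ) ^ 10 * (2 ^ k) ^ 9 / 2) ^ 64 ≤ nL A N k := by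
    refine le_trans ?_ h1
    rw [div_pow, mul_pow, ← pow_mul, pow_add]
    exact div_le_div₀ (by positivity) (mul_le_mul_of_nonneg_left h3 (by positivity)) (by norm_num)
      (by norm_num)
  have h5 : 1 / nL A N k ≤ (2 / ((N : ℝ) ^ 10 * (2 ^ k) ^ 9)) ^ 64 := by
    rw [← one_div_div _ (2 : ℝ), one_div_pow]
    exact one_div_le_one_div_of_le (by positivity) h4
  refine (Real.rpow_le_rpow (by positivity) h5 (by norm_num)).trans_eq ?_
  rw [show (1 / 64 : ℝ) = ((64 : ℕ) : ℝ)⁻¹ by norm_num]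
  exact Real.pow_rpow_inv_natCast (by positivity) (by norm_num)
theorem num_step_P (N k : ℕ) : nP N k = 1 / (64 * (20 * N) ^ 4 * (2 ^ k) ^ 5) := by
  rw [← pow_mul, mul_comm k, pow_mul, show (2 : ℝ) ^ 5 = 32 by norm_num]
  rfl
theorem num_step_N (N k : ℕ) : (nN N k : ℝ) = N * 2 ^ k ∧ (nN N (k + 1) : ℝ) = N * (2 ^ k * 2) := by
  refine ⟨?_, ?_⟩
  · show ((N * 2 ^ k : ℕ) : ℝ) = _
    push_cast
    rfl
  · show ((N * 2 ^ (k + 1) : ℕ) : ℝ) = _
    push_cast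
    rw [pow_succ]
theorem num_step_Y (hA : 1 ≤ A) (hC : 0 < C) (hN : 2 ^ 576 ≤ N) (k : ℕ) :
    nY A C N k ≤ 10 ^ 11 * C * nL A N k / (N : ℝ) ^ 2 := by
  have h2 := num_step_two hN
  have hN0 : (0 : ℝ) < N := by exact_mod_cast (by omega : 0 < N)
  have h0 : 0 < nL A N k := lt_of_lt_of_le one_pos (nL_ge hA h2 k).2
  have h1 := num_step_root hA hN k
  show 1152 * (nN N k * nN N (k + 1)) ^ 2 * nL A N k * (C * (1 / nL A N k) ^ (1 / 64 : ℝ)) / nP N k ≤ _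
  rw [(num_step_N N k).1, (num_step_N N k).2, num_step_P]
  generalize (1 / nL A N k) ^ (1 / 64 : ℝ) = ρ at h1
  generalize nL A N k = L at h0
  have hu : (0 : ℝ) < 2 ^ k := by positivity
  generalize (2 : ℝ) ^ k = u at h1 hu
  generalize (N : ℝ) = n at h1 hN0
  calc _ = 1152 * 4 * 64 * 160000 * C * L * (n ^ 8 * u ^ 9) * ρ := by
        field_simp
        ring
    _ ≤ 1152 * 4 * 64 * 160000 * C * L * (n ^ 8 * u ^ 9) * (2 / (n ^ 10 * u ^ 9)) := by gcongr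
    _ = 1152 * 4 * 64 * 160000 * 2 * C * L / n ^ 2 := by field_simp
    _ ≤ _ := by
        gcongr
        norm_num
/-- `s = nS`, `Λ = 48 θ`, `θ = q N ^ 640 c / 64`, `L = nL (k + 1)`. The right side is `Λ s N L / 2`;
`10 nD k ≤ s N L / 5`, `60 (nT k + s / 800) L ≤ s N L / 10`, and
`Λ s N L / 5 = q c L / (1280 A N) ≥ 60 nY (k + 1)` because for `N ≥ 2 ^ 576`
`(1 / L) ^ (1/64) ≤ 2 / (N ^ 10 * 2 ^ (9 k))` (`nL_ge`), so `nY (k + 1) ≤ const * C * L / N ^ 2`. -/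
theorem num_step (hA : 1 ≤ A) (hq : 0 < q) (hc : 0 < c) (hC : 0 < C) : ∀ᶠ N : ℕ in atTop, ∀ k,
    10 * (48 * (q * (N ^ 640 : ℕ) * c / 64) *
      (nD A N k + 6 * (nT A N k + nS A N / 800) * nL A N (k + 1)) + 6 * nY A C N (k + 1)) ≤
        48 * (q * (N ^ 640 : ℕ) * c / 64) * (nT A N k - nT A N (k + 1)) * nL A N (k + 2) := by
  filter_upwards [eventually_ge_atTop (2 ^ 576),
    (tendsto_natCast_atTop_atTop (R := ℝ)).eventually_ge_atTop 2200,
    (tendsto_natCast_atTop_atTop (R := ℝ)).eventually_ge_atTop (10 ^ 16 * C * A / (q * c))]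
    with N hN h1 h2 k
  have hN2 := num_step_two hN
  have hN0 : (0 : ℝ) < N := by linarith
  have hL : 0 < nL A N (k + 1) := lt_of_lt_of_le one_pos (nL_ge hA hN2 _).2
  have hY := num_step_Y hA hC hN (k + 1)
  obtain ⟨hs, -, -, -, -, hT, -⟩ := nT_facts hA hN2 k
  have eL : nL A N (k + 2) = N * (2 ^ k * 2) * nL A N (k + 1) := by
    rw [← (num_step_N N k).2]
    rfl
  have eT : (nT A N k - nT A N (k + 1)) * nL A N (k + 2) = nS A N * N * nL A N (k + 1) / 2 := by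
    rw [eL]
    show (nS A N * (1 / 2 + 1 / 2 ^ (k + 1)) - nS A N * (1 / 2 + 1 / 2 ^ (k + 1 + 1))) * _ = _
    rw [pow_succ, pow_succ, pow_succ]
    field_simp
    ring
  have hsL : 0 < nS A N * nL A N (k + 1) := mul_pos hs hL
  have hD : 10 * nD A N k ≤ nS A N * N * nL A N (k + 1) / 5 := by
    cases k with
    | zero =>
      show 10 * (nS A N * nL A N (0 + 2) / 100) ≤ _
      rw [eL]
      exact le_of_eq (by ring)
    | succ k =>
      show 10 * (44 * nS A N * nL A N (k + 1 + 1)) ≤ _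
      have := mul_le_mul_of_nonneg_left h1 hsL.le
      linarith
  have hE : 60 * ((nT A N k + nS A N / 800) * nL A N (k + 1)) ≤ nS A N * N * nL A N (k + 1) / 10 := by
    have a1 := mul_le_mul_of_nonneg_left h1 hsL.le
    have a2 := mul_le_mul_of_nonneg_right hT hL.le
    linarith
  have hM : (0 : ℝ) < (N ^ 640 : ℕ) := Nat.cast_pos.2 (pow_pos (by omega) _)
  have eS : nS A N = 1 / (384 * (N * (2 ^ 0 * 2) * (N * 2 ^ 0 * ((N ^ 640 : ℕ) * A / 4)))) := by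
    rw [← (num_step_N N 0).2, ← (num_step_N N 0).1]
    rfl
  have hA0 : 0 < A := by linarith
  generalize ((N ^ 640 : ℕ) : ℝ) = M at hM eS ⊢
  have eΛ : 48 * (q * M * c / 64) * (nS A N * N) = q * c / (256 * A * N) := by
    rw [eS]
    field_simp
    ring
  have hΛ : 0 < 48 * (q * M * c / 64) := by positivity
  have hZ : 60 * nY A C N (k + 1) ≤ q * c / (256 * A * N) * nL A N (k + 1) / 5 := by
    rw [div_le_iff₀ (by positivity)] at h2
    have a1 : 60 * (10 ^ 11 * C / (N : ℝ) ^ 2) ≤ q * c / (256 * A * N) / 5 := by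
      rw [div_div, ← mul_div_assoc, div_le_div_iff₀ (by positivity) (by positivity)]
      have a2 := mul_le_mul_of_nonneg_right h2 hN0.le
      have a3 : 0 ≤ C * A * N := by positivity
      linarith
    have a4 := mul_le_mul_of_nonneg_right a1 hL.le
    have a5 : 10 ^ 11 * C * nL A N (k + 1) / (N : ℝ) ^ 2 =
      10 ^ 11 * C / (N : ℝ) ^ 2 * nL A N (k + 1) := by ring
    linarith
  rw [← eΛ] at hZ
  rw [mul_assoc _ (nT A N k - nT A N (k + 1)), eT]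
  generalize 48 * (q * M * c / 64) = Λ at hΛ hZ ⊢
  have b1 := mul_le_mul_of_nonneg_left hD hΛ.le
  have b2 := mul_le_mul_of_nonneg_left hE hΛ.le
  linarith
/-- `nL k ≥ N ^ k ≥ 2 ^ (576 k)`, so the left side is `≤ E (8 N²) ^ 5 2 ^ (-8 k) w ^ (-1/32)` -/
theorem num_cls (hA : 1 ≤ A) (hN : 2 ^ 576 ≤ N) {E : ℝ} (hE : 0 < E) : ∀ᶠ w : ℝ in atTop, ∀ k,
    E * (4 * (nN N k : ℝ) * nN N (k + 1)) ^ 5 * (nL A N k * w) ^ (-(1 / 32) : ℝ) ≤ nP N k / 4 := by
  have hN2 := num_step_two hN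
  have hN1 : (2 : ℝ) ≤ N := by exact_mod_cast hN2
  have hN0 : (0 : ℝ) < N := by linarith
  have hK : 0 < 1 / (E * (8 * (N : ℝ) ^ 2) ^ 5 * (256 * (20 * N) ^ 4)) := by positivity
  filter_upwards [eventually_gt_atTop 0,
    (tendsto_rpow_neg_atTop (show (0 : ℝ) < 1 / 32 by norm_num)).eventually_le_const hK] with w hw h1 k
  have h0 : 0 < nL A N k := lt_of_lt_of_le one_pos (nL_ge hA hN2 k).2
  have hu : (1 : ℝ) ≤ 2 ^ k := one_le_pow₀ (by norm_num)
  have h2 : (1 / nL A N k) ^ (1 / 64 : ℝ) ≤ 1 / (2 ^ k) ^ 9 := by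
    refine (num_step_root hA hN k).trans ?_
    rw [div_le_div_iff₀ (by positivity) (by positivity), one_mul]
    exact mul_le_mul_of_nonneg_right (hN1.trans (le_self_pow₀ (by linarith) (by norm_num)))
      (by positivity)
  have h3 : nL A N k ^ (-(1 / 32) : ℝ) ≤ (1 / (2 ^ k) ^ 9) ^ 2 := by
    refine le_trans (le_of_eq ?_) (pow_le_pow_left₀ (by positivity) h2 2)
    rw [← Real.rpow_natCast, ← Real.rpow_mul (by positivity), Real.rpow_neg h0.le, one_div (nL A N k),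
      Real.inv_rpow h0.le]
    norm_num
  rw [Real.mul_rpow h0.le hw.le, (num_step_N N k).1, (num_step_N N k).2, num_step_P]
  have h4 : 0 ≤ w ^ (-(1 / 32) : ℝ) := Real.rpow_nonneg hw.le _
  generalize w ^ (-(1 / 32) : ℝ) = y at h1 h4
  generalize nL A N k ^ (-(1 / 32) : ℝ) = x at h3
  generalize (2 : ℝ) ^ k = u at h3 hu
  generalize (N : ℝ) = n at h1 hN0
  have hu0 : 0 < u := by linarith
  calc _ ≤ E * (4 * (n * u) * (n * (u * 2))) ^ 5 *
        ((1 / u ^ 9) ^ 2 * (1 / (E * (8 * n ^ 2) ^ 5 * (256 * (20 * n) ^ 4)))) := by gcongr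
    _ = 1 / (64 * (20 * n) ^ 4 * u ^ 8) / 4 := by
        field_simp
        ring
    _ ≤ _ := by
        gcongr
        norm_num

end

end Crest.Agent.R151.B
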