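import Crest.Agent.R151.B8a

set_option autoImplicit false

open MeasureTheory ProbabilityTheory Set Filter Topology
open Crest.ProbabilityR.FirstPassage

namespace Crest.Agent.R151.B

noncomputable section

/-! an exactly stationary cocycle below the passage time with mean `ρ` -/

variable {G : Measure ℝ}

/-- weak `L²` limit along an ultrafilter -/
theorem coc_weak {Ω : Type*} [MeasurableSpace Ω] (P : Measure Ω) [IsFiniteMeasure P]
    (U : Ultrafilter ℕ) (b : ℕ → Ω → ℝ) (F : Ω → ℝ) (hF : MemLp F 2 P)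
    (hb : ∀ n, AEStronglyMeasurable (b n) P) (hbF : ∀ n, ∀ᵐ t ∂P, |b n t| ≤ F t) :
    ∃ h : Ω → ℝ, Measurable h ∧ MemLp h 2 P ∧ ∀ A, MeasurableSet A →
      Tendsto (fun n => ∫ t in A, b n t ∂P) U (𝓝 (∫ t in A, h t ∂P)) := by
  have hm : ∀ n, MemLp (b n) 2 P := fun n => hF.mono' (hb n) (hbF n)
  set M := ‖hF.toLp F‖ with hM
  have hbM : ∀ n, ‖(hm n).toLp (b n)‖ ≤ M := by
    intro n
    refine Lp.norm_le_norm_of_ae_le ?_
    filter_upwards [(hm n).coeFn_toLp, hF.coeFn_toLp, hbF n] with t h1 h2 h3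
    rw [h1, h2]
    exact h3.trans (le_abs_self _)
  have hl : ∀ v : Lp ℝ 2 P, ∃ l : ℝ, |l| ≤ M * ‖v‖ ∧
      Tendsto (fun n => inner ℝ ((hm n).toLp (b n)) v) U (𝓝 l) := by
    intro v
    have h1 : ∀ n, inner ℝ ((hm n).toLp (b n)) v ∈ Icc (-(M * ‖v‖)) (M * ‖v‖) := fun n =>
      abs_le.1 ((abs_real_inner_le_norm _ _).trans
        (mul_le_mul_of_nonneg_right (hbM n) (norm_nonneg _)))
    obtain ⟨l, hl1, hl2⟩ := isCompact_Icc.ultrafilter_le_nhds
      (U.map fun n => inner ℝ ((hm n).toLp (b n)) v)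
      (by rw [Ultrafilter.coe_map, le_principal_iff]; exact mem_map.2 (univ_mem' h1))
    exact ⟨l, abs_le.2 hl1, hl2⟩
  choose l hl1 hl2 using hl
  let L : Lp ℝ 2 P →ₗ[ℝ] ℝ :=
    { toFun := l
      map_add' := fun v w => tendsto_nhds_unique (hl2 (v + w)) (by
        simpa only [inner_add_right] using (hl2 v).add (hl2 w))
      map_smul' := fun c v => tendsto_nhds_unique (hl2 (c • v)) (by
        simpa only [real_inner_smul_right, RingHom.id_apply, smul_eq_mul]
          using (hl2 v).const_mul c) }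
  let L' : StrongDual ℝ (Lp ℝ 2 P) := L.mkContinuous M hl1
  let g : Lp ℝ 2 P := (InnerProductSpace.toDual ℝ (Lp ℝ 2 P)).symm L'
  have hg : ∀ v, inner ℝ g v = l v := fun v => InnerProductSpace.toDual_symm_apply
  refine ⟨(Lp.aestronglyMeasurable g).mk g, (Lp.aestronglyMeasurable g).measurable_mk,
    (Lp.memLp g).ae_eq (Lp.aestronglyMeasurable g).ae_eq_mk, fun A hA => ?_⟩
  have h1 := hl2 (indicatorConstLp 2 hA (measure_ne_top P A) (1 : ℝ))
  rw [← hg, real_inner_comm, L2.inner_indicatorConstLp_one] at h1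
  have h2 : ∫ t in A, (Lp.aestronglyMeasurable g).mk g t ∂P = ∫ t in A, g t ∂P :=
    integral_congr_ae (ae_restrict_of_ae (Lp.aestronglyMeasurable g).ae_eq_mk.symm)
  rw [h2]
  refine h1.congr fun n => ?_
  rw [real_inner_comm, L2.inner_indicatorConstLp_one]
  exact integral_congr_ae (ae_restrict_of_ae (hm n).coeFn_toLp)

/-- the box of sources -/
def cocS (u : Z2) (n : ℕ) : Finset Z2 :=
  (Finset.Ico (-(n * u.1)) (-(n * u.1) + n)) ×ˢ (Finset.Ico (-(n * u.2)) (-(n * u.2) + n))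

theorem cocS_card (u : Z2) (n : ℕ) : ((cocS u n).card : ℝ) = (n : ℝ) ^ 2 := by
  simp [cocS, Finset.card_product, sq]

theorem coc_Ico (a n z : ℤ) : ((Finset.Ico a (a + n)).filter fun i =>
    i + z ∉ Finset.Ico a (a + n)).card ≤ z.natAbs := by
  rcases le_total 0 z with hz | hz
  · refine (Finset.card_le_card (t := Finset.Ico (a + n - z) (a + n)) ?_).trans ?_
    · intro i hi
      simp only [Finset.mem_filter, Finset.mem_Ico] at hi ⊢
      omega
    · rw [Int.card_Ico]; omega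
  · refine (Finset.card_le_card (t := Finset.Ico a (a - z)) ?_).trans ?_
    · intro i hi
      simp only [Finset.mem_filter, Finset.mem_Ico] at hi ⊢
      omega
    · rw [Int.card_Ico]; omega

theorem cocS_bd (u : Z2) (n : ℕ) (z : Z2) :
    (((cocS u n).filter fun s => s + z ∉ cocS u n).card : ℝ) ≤ n1 z * n := by
  set I := Finset.Ico (-(n * u.1)) (-(n * u.1) + n) with hI
  set J := Finset.Ico (-(n * u.2)) (-(n * u.2) + n) with hJ
  have h1 : ((cocS u n).filter fun s => s + z ∉ cocS u n) ⊆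
      (I.filter fun i => i + z.1 ∉ I) ×ˢ J ∪ I ×ˢ (J.filter fun j => j + z.2 ∉ J) := by
    intro s hs
    simp only [cocS, Finset.mem_filter, Finset.mem_product, Finset.mem_union, Prod.fst_add,
      Prod.snd_add, ← hI, ← hJ] at hs ⊢
    tauto
  have hIc : I.card = n := by simp [hI]
  have hJc : J.card = n := by simp [hJ]
  have h2 := (Finset.card_le_card h1).trans (Finset.card_union_le _ _)
  rw [Finset.card_product, Finset.card_product, hIc, hJc] at h2
  have h3 : (I.filter fun i => i + z.1 ∉ I).card ≤ z.1.natAbs := coc_Ico _ _ _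
  have h4 : (J.filter fun j => j + z.2 ∉ J).card ≤ z.2.natAbs := coc_Ico _ _ _
  have h5 : ((cocS u n).filter fun s => s + z ∉ cocS u n).card ≤ (z.1.natAbs + z.2.natAbs) * n :=
    h2.trans (by nlinarith)
  have h6 : (((z.1.natAbs + z.2.natAbs) * n : ℕ) : ℝ) = n1 z * n := by
    simp [n1, Nat.cast_natAbs]
  rw [← h6]
  exact_mod_cast h5

/-- translating the box changes an average by a boundary term -/
theorem coc_shift (u : Z2) (n : ℕ) (z : Z2) (g : Z2 → ℝ) {M : ℝ} (hM0 : 0 ≤ M)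
    (hM : ∀ s ∈ cocS u n, |g s| ≤ M ∧ |g (s + z)| ≤ M) :
    |∑ s ∈ cocS u n, g (s + z) - ∑ s ∈ cocS u n, g s| ≤ 2 * (n1 z * n) * M := by
  classical
  set S := cocS u n with hS
  have h1 : ∑ s ∈ S.filter (fun s => s + z ∈ S), g (s + z) =
      ∑ s ∈ S.filter (fun s => s + -z ∈ S), g s := by
    refine Finset.sum_bij' (fun s _ => s + z) (fun s _ => s + -z) ?_ ?_ ?_ ?_ ?_ <;>
      simp +contextual
  rw [← Finset.sum_filter_add_sum_filter_not S (fun s => s + z ∈ S),
    ← Finset.sum_filter_add_sum_filter_not S (fun s => s + -z ∈ S) g, h1, add_sub_add_left_eq_sub]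
  have h2 : |∑ s ∈ S.filter (fun s => s + z ∉ S), g (s + z)| ≤ n1 z * n * M := by
    refine (Finset.abs_sum_le_sum_abs _ _).trans ((Finset.sum_le_card_nsmul _ _ M
      fun s hs => (hM s (Finset.mem_filter.1 hs).1).2).trans ?_)
    rw [nsmul_eq_mul]
    exact mul_le_mul_of_nonneg_right (cocS_bd u n z) hM0
  have h3 : |∑ s ∈ S.filter (fun s => s + -z ∉ S), g s| ≤ n1 z * n * M := by
    refine (Finset.abs_sum_le_sum_abs _ _).trans ((Finset.sum_le_card_nsmul _ _ M
      fun s hs => (hM s (Finset.mem_filter.1 hs).1).1).trans ?_)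
    rw [nsmul_eq_mul]
    have := cocS_bd u n (-z)
    rw [n1_neg] at this
    exact mul_le_mul_of_nonneg_right this hM0
  have := abs_sub _ _ |>.trans (add_le_add h2 h3)
  linarith

/-- averaged point sources -/
def cocB (u : Z2) (n : ℕ) (t : Env) (x : Z2) : ℝ :=
  (∑ s ∈ cocS u n, (T t s x - T t s 0)) / (n : ℝ) ^ 2

theorem coc_avg {u : Z2} {n : ℕ} {g : Z2 → ℝ} {M : ℝ} (hM : 0 ≤ M) (h : ∀ s, g s ≤ M) :
    (∑ s ∈ cocS u n, g s) / (n : ℝ) ^ 2 ≤ M := by
  refine div_le_of_le_mul₀ (sq_nonneg _) hM ?_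
  refine (Finset.sum_le_card_nsmul _ _ M fun s _ => h s).trans ?_
  rw [nsmul_eq_mul, cocS_card, mul_comm]

theorem cocB_le (u : Z2) (n : ℕ) {t : Env} (ht : NN t) (x y : Z2) :
    cocB u n t y - cocB u n t x ≤ T t x y := by
  rw [cocB, cocB, ← sub_div, ← Finset.sum_sub_distrib]
  exact coc_avg (T_nonneg ht x y) fun s => by linarith [T_tri ht s x y]

theorem cocB_zero (u : Z2) (n : ℕ) (t : Env) : cocB u n t 0 = 0 := by simp [cocB]

theorem cocB_abs (u : Z2) (n : ℕ) {t : Env} (ht : NN t) (x : Z2) : |cocB u n t x| ≤ T t 0 x := by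
  have h1 := cocB_le u n ht 0 x
  have h2 := cocB_le u n ht x 0
  rw [cocB_zero] at h1 h2
  rw [T_symm] at h2
  exact abs_le.2 ⟨by linarith, by linarith⟩

theorem cocB_meas (u : Z2) (n : ℕ) (x : Z2) : Measurable fun t => cocB u n t x :=
  (Finset.measurable_sum _ fun s _ => (T_meas s x).sub (T_meas s 0)).div_const _

theorem cocB_sh (u : Z2) {n : ℕ} (hn : 1 ≤ n) {t : Env} (ht : NN t) (z x : Z2) :
    |cocB u n (sh z t) x - (cocB u n t (x + z) - cocB u n t z)| ≤
      2 * n1 z * T t z (x + z) / n := by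
  have hn' : (0 : ℝ) < n := by exact_mod_cast hn
  have h0 : ∀ s, |T t s (x + z) - T t s z| ≤ T t z (x + z) := fun s =>
    abs_le.2 ⟨by linarith [T_tri ht s (x + z) z, T_symm t z (x + z)], by
      linarith [T_tri ht s z (x + z)]⟩
  have h1 := coc_shift u n z (fun s => T t s (x + z) - T t s z) (T_nonneg ht z (x + z))
    fun s _ => ⟨h0 _, h0 _⟩
  have h2 : cocB u n (sh z t) x - (cocB u n t (x + z) - cocB u n t z) =
      (∑ s ∈ cocS u n, (T t (s + z) (x + z) - T t (s + z) z) -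
        ∑ s ∈ cocS u n, (T t s (x + z) - T t s z)) / (n : ℝ) ^ 2 := by
    simp only [cocB, T_sh, zero_add, Finset.sum_sub_distrib]
    ring
  rw [h2, abs_div, abs_of_pos (pow_pos hn' 2), div_le_div_iff₀ (pow_pos hn' 2) hn']
  have := mul_le_mul_of_nonneg_right h1 hn'.le
  nlinarith

theorem Law.cocB_mean (hG : Law G) (ρ : Z2 →+ ℝ) (u : Z2)
    (hu : ∀ η : ℝ, 0 < η → ∃ N : ℕ, ∀ n : ℕ, N ≤ n → ∀ y : Z2, n1 (y - n • u) ≤ 3 * n →
      |mE G y - ρ y| ≤ η * n) (x : Z2) :
    Tendsto (fun n => ∫ t, cocB u n t x ∂iidLaw G) atTop (𝓝 (ρ x)) := by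
  rw [Metric.tendsto_atTop]
  intro ε hε
  have hx := n1_nonneg x
  obtain ⟨N, hN⟩ := hu (ε / (2 * n1 x + 1)) (by positivity)
  refine ⟨max N (⌈n1 x⌉₊ + 1), fun n hn => ?_⟩
  have hn1 : N ≤ n := (le_max_left _ _).trans hn
  have hn2 : ⌈n1 x⌉₊ + 1 ≤ n := (le_max_right _ _).trans hn
  have hn' : (0 : ℝ) < n := by exact_mod_cast (by omega : 0 < n)
  have hn3 : n1 x ≤ n := (Nat.le_ceil _).trans (by exact_mod_cast (by omega))
  have h1 : ∫ t, cocB u n t x ∂iidLaw G =
      (∑ s ∈ cocS u n, (mE G (x - s) - mE G (-s))) / (n : ℝ) ^ 2 := by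
    simp only [cocB]
    rw [integral_div, integral_finsetSum (f := fun s t => T t s x - T t s 0) _
      fun s _ => (hG.T_int s x).sub (hG.T_int s 0)]
    congr 1
    refine Finset.sum_congr rfl fun s _ => ?_
    rw [integral_sub (hG.T_int s x) (hG.T_int s 0), hG.int_T', hG.int_T', zero_sub]
  have h2 : ∀ s ∈ cocS u n, n1 (-s - n • u) ≤ 2 * n := by
    intro s hs
    simp only [cocS, Finset.mem_product, Finset.mem_Ico] at hs
    have a1 : |(-s - n • u).1| ≤ n := by
      rw [Prod.fst_sub, Prod.fst_neg, Prod.smul_fst, nsmul_eq_mul, abs_le]; omega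
    have a2 : |(-s - n • u).2| ≤ n := by
      rw [Prod.snd_sub, Prod.snd_neg, Prod.smul_snd, nsmul_eq_mul, abs_le]; omega
    have b1 : |((-s - n • u).1 : ℝ)| ≤ n := by exact_mod_cast a1
    have b2 : |((-s - n • u).2 : ℝ)| ≤ n := by exact_mod_cast a2
    rw [n1]; linarith
  have h3 := coc_shift u n (-x) (fun s => mE G (-s) - ρ (-s))
    (M := ε / (2 * n1 x + 1) * n) (by positivity) fun s hs => ⟨hN n hn1 _
      ((h2 s hs).trans (by linarith)), hN n hn1 _ (by
        have := n1_add x (-s - n • u)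
        rw [show -(s + -x) - n • u = x + (-s - n • u) by abel]
        linarith [h2 s hs])⟩
  have h4 : (∑ s ∈ cocS u n, (mE G (x - s) - mE G (-s))) / (n : ℝ) ^ 2 - ρ x =
      (∑ s ∈ cocS u n, (mE G (-(s + -x)) - ρ (-(s + -x))) -
        ∑ s ∈ cocS u n, (mE G (-s) - ρ (-s))) / (n : ℝ) ^ 2 := by
    have : ∀ s : Z2, -(s + -x) = x - s := fun s => by abel
    simp only [this, Finset.sum_sub_distrib, map_sub, map_neg, Finset.sum_const, nsmul_eq_mul,
      cocS_card, Finset.sum_neg_distrib]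
    field_simp
    ring
  rw [h1, Real.dist_eq, h4, abs_div, abs_of_pos (pow_pos hn' 2), div_lt_iff₀ (pow_pos hn' 2)]
  refine h3.trans_lt ?_
  rw [n1_neg]
  have h5 : 2 * n1 x * (ε / (2 * n1 x + 1)) < ε := by
    rw [← mul_div_assoc, div_lt_iff₀ (by positivity)]; nlinarith
  have := mul_lt_mul_of_pos_right h5 (pow_pos hn' 2)
  nlinarith

/-- the stationary cocycle -/
theorem Law.coc (hG : Law G) (ρ : Z2 →+ ℝ) (u : Z2)
    (hu : ∀ η : ℝ, 0 < η → ∃ N : ℕ, ∀ n : ℕ, N ≤ n → ∀ y : Z2, n1 (y - n • u) ≤ 3 * n →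
      |mE G y - ρ y| ≤ η * n) :
    ∃ h : Env → Z2 → ℝ, (∀ x, Measurable fun t => h t x) ∧
      (∀ x, MemLp (fun t => h t x) 2 (iidLaw G)) ∧
      (∀ᵐ t ∂iidLaw G, ∀ x y, h t y - h t x ≤ T t x y) ∧
      (∀ᵐ t ∂iidLaw G, ∀ z x, h (sh z t) x = h t (x + z) - h t z) ∧
      ∀ x, ∫ t, h t x ∂iidLaw G = ρ x := by
  have := hG.isP
  set U : Ultrafilter ℕ := Ultrafilter.of atTop with hU
  have hUa : (U : Filter ℕ) ≤ atTop := Ultrafilter.of_le _
  have hb : ∀ x n, ∀ᵐ t ∂iidLaw G, |cocB u n t x| ≤ T t 0 x := fun x n => by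
    filter_upwards [hG.nn] with t ht using cocB_abs u n ht x
  have hbi : ∀ x n, Integrable (fun t => cocB u n t x) (iidLaw G) := fun x n =>
    (hG.T_int 0 x).mono' (cocB_meas u n x).aestronglyMeasurable (hb x n)
  choose g g1 g2 g3 using fun x => coc_weak (iidLaw G) U (fun n t => cocB u n t x)
    (fun t => T t 0 x) (hG.T_mem 0 x) (fun n => (cocB_meas u n x).aestronglyMeasurable) (hb x)
  have gi : ∀ x, Integrable (g x) (iidLaw G) := fun x => (g2 x).integrable one_le_two
  refine ⟨fun t x => g x t, g1, g2, ?_, ?_, fun x => ?_⟩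
  · refine ae_all_iff.2 fun x => ae_all_iff.2 fun y => ?_
    refine ae_le_of_forall_setIntegral_le ((gi y).sub (gi x)) (hG.T_int x y) fun A hA _ => ?_
    have h1 := (g3 y A hA).sub (g3 x A hA)
    rw [← integral_sub (gi y).integrableOn (gi x).integrableOn] at h1
    refine le_of_tendsto' h1 fun n => ?_
    rw [← integral_sub (hbi y n).integrableOn (hbi x n).integrableOn]
    refine integral_mono_ae ((hbi y n).sub (hbi x n)).integrableOn (hG.T_int x y).integrableOn
      (ae_restrict_of_ae ?_)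
    filter_upwards [hG.nn] with t ht using cocB_le u n ht x y
  · refine ae_all_iff.2 fun z => ae_all_iff.2 fun x => ?_
    have mp := hG.mp_sh z
    refine Integrable.ae_eq_of_forall_setIntegral_eq _ _ (mp.integrable_comp_of_integrable (gi x))
      ((gi (x + z)).sub (gi z)) fun A hA _ => ?_
    have hA' : MeasurableSet (sh (-z) ⁻¹' A) := mp_sh_meas _ hA
    have e1 : sh z ⁻¹' (sh (-z) ⁻¹' A) = A := by
      ext t
      have : sh (-z) (sh z t) = t := by
        funext e
        induction e using Sym2.ind with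
        | _ a b => simp [sh]
      simp [this]
    have e2 : ∀ f : Env → ℝ, Measurable f →
        ∫ t in sh (-z) ⁻¹' A, f t ∂iidLaw G = ∫ t in A, f (sh z t) ∂iidLaw G := by
      intro f hf
      have := setIntegral_map (μ := iidLaw G) (g := sh z) (f := f) hA' hf.aestronglyMeasurable
        (mp_sh_meas z).aemeasurable
      rw [mp.map_eq, e1] at this
      exact this
    have h1 := g3 x _ hA'
    rw [e2 _ (g1 x)] at h1
    have h2 := (g3 (x + z) A hA).sub (g3 z A hA)
    rw [← integral_sub (gi _).integrableOn (gi z).integrableOn] at h2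
    refine tendsto_nhds_unique h1 (h2.congr_dist ?_)
    have h3 : Tendsto (fun n : ℕ => (∫ t in A, 2 * n1 z * T t z (x + z) ∂iidLaw G) / n) U (𝓝 0) :=
      (tendsto_const_div_atTop_nhds_zero_nat _).mono_left hUa
    refine squeeze_zero' (Eventually.of_forall fun n => dist_nonneg) ?_ h3
    filter_upwards [hUa (eventually_ge_atTop 1)] with n hn
    have i1 : Integrable (fun t => cocB u n (sh z t) x) (iidLaw G) :=
      mp.integrable_comp_of_integrable (hbi x n)
    have i2 : Integrable (fun t => cocB u n t (x + z) - cocB u n t z) (iidLaw G) :=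
      (hbi _ n).sub (hbi z n)
    rw [dist_comm, e2 _ (cocB_meas u n x), Real.dist_eq,
      ← integral_sub (hbi _ n).integrableOn (hbi z n).integrableOn,
      ← integral_sub i1.integrableOn i2.integrableOn, ← integral_div]
    refine abs_integral_le_integral_abs.trans (integral_mono_ae
      (i1.sub i2).abs.integrableOn
      (((hG.T_int z (x + z)).const_mul _).div_const _).integrableOn (ae_restrict_of_ae ?_))
    filter_upwards [hG.nn] with t ht using cocB_sh u hn ht z x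
  · have h1 := g3 x univ MeasurableSet.univ
    simp only [Measure.restrict_univ] at h1
    exact tendsto_nhds_unique h1 ((hG.cocB_mean ρ u hu x).mono_left hUa)

/-- the hypothesis of `Law.coc` from the output of `Law.mu` and flatness near the ray of `u` -/
theorem coc_hyp {μ : ℝ × ℝ → ℝ} (h1 : ∀ x, μ (cR x) ≤ mE G x)
    (h2 : ∀ η : ℝ, 0 < η → ∃ B : ℝ, ∀ x, mE G x ≤ μ (cR x) + η * n1 x + B) (ρ : Z2 →+ ℝ) (u : Z2)
    (hf : ∀ n : ℕ, 1 ≤ n → ∀ y : Z2, n1 (y - n • u) ≤ 3 * n → μ (cR y) = ρ y) :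
    ∀ η : ℝ, 0 < η → ∃ N : ℕ, ∀ n : ℕ, N ≤ n → ∀ y : Z2, n1 (y - n • u) ≤ 3 * n →
      |mE G y - ρ y| ≤ η * n := by
  intro η hη
  have hu := n1_nonneg u
  obtain ⟨B, hB⟩ := h2 (η / 2 / (n1 u + 3)) (by positivity)
  refine ⟨⌈2 * B / η⌉₊ + 1, fun n hn y hy => ?_⟩
  have hn1 : 2 * B / η ≤ n := (Nat.le_ceil _).trans (by exact_mod_cast (by omega))
  rw [div_le_iff₀ hη] at hn1
  have h3 := hf n (by omega) y hy
  have h4 : n1 (n • u) = n * n1 u := by
    rw [n1, n1, Prod.smul_fst, Prod.smul_snd]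
    simp only [nsmul_eq_mul, Int.cast_mul, Int.cast_natCast, abs_mul, Nat.abs_cast]
    ring
  have h5 : n1 y ≤ (n1 u + 3) * n := by
    have := n1_add (y - n • u) (n • u)
    rw [sub_add_cancel] at this
    linarith
  have h6 : η / 2 / (n1 u + 3) * n1 y ≤ η / 2 * n := by
    refine (mul_le_mul_of_nonneg_left h5 (by positivity)).trans_eq ?_
    field_simp
  have h7 := h1 y
  have h8 := hB y
  rw [abs_of_nonneg (by linarith)]
  linarith

end

end Crest.Agent.R151.B
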