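import Crest.Agent.R151.D1c
import Crest.Agent.R151.DCoc

set_option autoImplicit false

open MeasureTheory ProbabilityTheory Set Filter Topology
open scoped ENNReal
open Crest.ProbabilityR.FirstPassage

namespace Crest.Agent.R151.B

noncomputable section

/-! the stationary potential -/

variable {G : Measure ℝ} {e : Fr}

/-- `Law.coc` with `ρ = p + q` and `u` a lattice point with `p u, q u ∈ [4 C, 6 C]` (`OK.den`); points
with `n1 (y - n • u) ≤ 3 n` lie in the cone; `low`, `tight` -/
theorem Flat.coc (hG : Law G) (hf : Flat G e) : ∃ h, Coc G e h := by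
  have := hG.isP
  have hC : 0 < e.C := by linarith [hf.ok.C1]
  obtain ⟨u, hu1, hu2⟩ := hf.ok.den (5 * e.C) (5 * e.C)
  rw [abs_le] at hu1 hu2
  obtain ⟨h, h1, h2, h3, h4, h5⟩ := hG.coc (e.p + e.q) u fun η hη => by
    obtain ⟨B, hB⟩ := hf.tight (η / (36 * e.C)) (by positivity)
    refine ⟨⌈2 * B / η⌉₊, fun n hn y hy => ?_⟩
    have hn1 : 2 * B / η ≤ n := (Nat.le_ceil _).trans (by exact_mod_cast hn)
    rw [div_le_iff₀ hη] at hn1
    have hn0 : (0 : ℝ) ≤ n := n.cast_nonneg
    obtain ⟨b1, b2⟩ := hf.ok.up (y - n • u)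
    have b3 := mul_le_mul_of_nonneg_left hy hC.le
    rw [map_sub, map_nsmul, nsmul_eq_mul, abs_le] at b1 b2
    have c1 := mul_le_mul_of_nonneg_left hu1.1 hn0
    have c2 := mul_le_mul_of_nonneg_left hu1.2 hn0
    have c3 := mul_le_mul_of_nonneg_left hu2.1 hn0
    have c4 := mul_le_mul_of_nonneg_left hu2.2 hn0
    have c5 := mul_nonneg hn0 hC.le
    have d1 := hB y (by nlinarith) (by nlinarith)
    have d2 := hf.low y
    have d3 : η / (36 * e.C) * (e.p y + e.q y) ≤ η / 2 * n := by
      refine (mul_le_mul_of_nonneg_left (show e.p y + e.q y ≤ 18 * e.C * n by nlinarith)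
        (by positivity)).trans_eq ?_
      field_simp
      ring
    rw [AddMonoidHom.add_apply, abs_of_nonneg (by linarith)]
    linarith
  exact ⟨h, h1, fun x => (h2 x).integrable one_le_two, h3, h4, h5⟩

end

end Crest.Agent.R151.B
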