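import Crest.Agent.R151.D3b

set_option autoImplicit false

open MeasureTheory ProbabilityTheory Set Filter Topology
open scoped ENNReal
open Crest.ProbabilityR.FirstPassage

namespace Crest.Agent.R151.B

noncomputable section

/-! lower bound for the rate and the two sided record -/

variable {G : Measure ℝ} {e : Fr} {h : Env → Z2 → ℝ}

/-- `Ex.cross` four times: `A` = left ∩ bottom, `B` = rest of left ∩ top, `C` = rest of bottom ∩ right,
`D` = rest of top ∩ rest of right. `A → B → D` has `t`-excess `≤ 2 δ` and is cheaper by `θ w` in `t'`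
(`Rch.slab` with levels `2 w, 5 w`, `Rch.scl`, `Rch.le_env`); `A → C → D` has `t'`-excess `≤ 2 δ` and the
same cost in `t` (`Rch.congr`). -/
theorem gain_det (he : e.OK) {w θ δ : ℝ} (hw : e.κ ≤ w) (h0 : 0 ≤ θ) (h1 : θ ≤ 1) {t : Env}
    (ht : NN t) {F : Finset (Sym2 Z2)}
    (hF : ∀ u ∈ e.Bx (2 * w) (5 * w) (6 * w) (7 * w), ∀ v, squareLattice.Adj u v → s(u, v) ∈ F)
    (hF' : ∀ u v, s(u, v) ∈ F → u ∈ e.Bx (2 * w) (5 * w) (6 * w) (7 * w) ∨
      v ∈ e.Bx (2 * w) (5 * w) (6 * w) (7 * w))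
    (hM : ∀ x y c, Rch (e.Bx (2 * w) (5 * w) (6 * w) (7 * w)) t x y c → e.P x ≤ 2 * w + e.κ →
      5 * w - e.κ ≤ e.P y → w ≤ c) {φ φ' : Z2 → ℝ} (p : Pot φ univ t)
    (p' : Pot φ' univ (scl F (1 - θ) t)) (le : e.Ch φ t (e.ver 0 (7 * w) 0 w) δ)
    (top : e.Ch φ t (e.hor 0 (7 * w) (6 * w) w) δ)
    (bo : e.Ch φ' (scl F (1 - θ) t) (e.hor 0 (7 * w) 0 w) δ)
    (ri : e.Ch φ' (scl F (1 - θ) t) (e.ver 0 (7 * w) (6 * w) w) δ) : θ * w ≤ 4 * δ := by
  have hκ := he.κ3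
  have hw0 : 0 < w := by linarith
  have hD := he.ind.1
  obtain ⟨xl, zl, dl, hdl, hxl, hzl, El⟩ := le
  obtain ⟨xt, zt, dt, hdt, hxt, hzt, Et⟩ := top
  obtain ⟨xb, zb, db, hdb, hxb, hzb, Eb⟩ := bo
  obtain ⟨xr, zr, dr, hdr, hxr, hzr, Er⟩ := ri
  change e.Y xl ≤ 0 at hxl
  change 0 + 7 * w ≤ e.Y zl at hzl
  change e.P xt ≤ 0 at hxt
  change 0 + 7 * w ≤ e.P zt at hzt
  change e.P xb ≤ 0 at hxb
  change 0 + 7 * w ≤ e.P zb at hzb
  change e.Y xr ≤ 0 at hxr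
  change 0 + 7 * w ≤ e.Y zr at hzr
  have Sl : ∀ z ∈ (e.ver 0 (7 * w) 0 w).S e.κ, 0 ≤ e.P z ∧ e.P z ≤ w := fun z hz =>
    ⟨hz.2.2.1, by have h : e.P z ≤ 0 + w := hz.2.2.2; linarith⟩
  have Sb : ∀ z ∈ (e.hor 0 (7 * w) 0 w).S e.κ, 0 ≤ e.Y z ∧ e.Y z ≤ w := fun z hz =>
    ⟨hz.2.2.1, by have h : e.Y z ≤ 0 + w := hz.2.2.2; linarith⟩
  have St : ∀ z ∈ (e.hor 0 (7 * w) (6 * w) w).S e.κ, 6 * w ≤ e.Y z ∧ e.Y z ≤ 7 * w := fun z hz =>
    ⟨hz.2.2.1, by have h : e.Y z ≤ 6 * w + w := hz.2.2.2; linarith⟩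
  have Sr : ∀ z ∈ (e.ver 0 (7 * w) (6 * w) w).S e.κ, 6 * w ≤ e.P z ∧ e.P z ≤ 7 * w := fun z hz =>
    ⟨hz.2.2.1, by have h : e.P z ≤ 6 * w + w := hz.2.2.2; linarith⟩
  have n : ∀ {S : Set Z2} {x y : Z2} {d : ℝ}, Ex φ S t x y d → 0 ≤ d := fun h =>
    h.nonneg (p.mono (subset_univ _))
  have n' : ∀ {S : Set Z2} {x y : Z2} {d : ℝ}, Ex φ' S (scl F (1 - θ) t) x y d → 0 ≤ d := fun h =>
    h.nonneg (p'.mono (subset_univ _))
  obtain ⟨A, b1, b2, l1, l2, Eb1, Eb2, hb, El1, El2, hl⟩ :=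
    Ex.cross hD Eb El Sb hxb (by linarith) Sl hxl (by linarith)
  have hAP := (Sl A El2.mem.1).2
  have hAY := (Sb A Eb2.mem.1).2
  obtain ⟨B, t1, t2, l3, l4, Et1, Et2, ht12, El3, El4, hl34⟩ :=
    Ex.cross hD Et El2 St hxt (by linarith) Sl (by linarith) (by linarith)
  have hBP := (Sl B El4.mem.1).2
  obtain ⟨C, b3, b4, r1, r2, Eb3, Eb4, hb34, Er1, Er2, hr12⟩ :=
    Ex.cross hD Eb2 Er Sb (by linarith) (by linarith) Sr hxr (by linarith)
  have hCY := (Sb C Eb4.mem.1).2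
  obtain ⟨D, t3, t4, r3, r4, Et3, Et4, ht34, Er3, Er4, hr34⟩ :=
    Ex.cross hD Et2 Er2 St (by linarith) (by linarith) Sr (by linarith) (by linarith)
  have hDP := (Sr D Er4.mem.1).1
  have hle : ∀ a, scl F (1 - θ) t a ≤ t a := fun a => by
    have h := ht a
    have h' := mul_nonneg h0 h
    show (if a ∈ F then (1 - θ) * t a else t a) ≤ t a
    split_ifs <;> linarith
  have hout : ∀ S : Set Z2, (∀ u ∈ S, u ∉ e.Bx (2 * w) (5 * w) (6 * w) (7 * w)) →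
      ∀ u ∈ S, ∀ v ∈ S, t s(u, v) = scl F (1 - θ) t s(u, v) := fun S hS u hu v hv => by
    have h : s(u, v) ∉ F := fun h => (hF' u v h).elim (hS u hu) (hS v hv)
    exact (if_neg h).symm
  have RAC := Rch.congr (t' := t) Eb3 (hout _ fun u hu h => by
    have h2 := (Sb u hu).2
    have h3 : 6 * w ≤ e.Y u := h.2.2.1
    linarith)
  have RCD := Rch.congr (t' := t) Er3 (hout _ fun u hu h => by
    have h2 := (Sr u hu).1
    have h3 : e.P u ≤ 5 * w := h.2.1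
    linarith)
  have i1 := (p.mono (subset_univ _)).le RAC
  have i2 := (p.mono (subset_univ _)).le RCD
  obtain ⟨x', y', c₁, c₂, c₃, R1, R2, R3, hc, hx', hy'⟩ :=
    Rch.slab (φ := fun u => e.P u) (C := e.κ) (α := 2 * w) (β := 5 * w)
      (fun u v a => (he.step a).1) Et3 (by linarith) (by linarith) (by linarith) (by linarith)
  have R2' : Rch (e.Bx (2 * w) (5 * w) (6 * w) (7 * w)) t x' y' c₂ :=
    R2.mono fun u hu => ⟨hu.2.1.le, hu.2.2.le, (St u hu.1).1, (St u hu.1).2⟩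
  have hc2 := hM x' y' c₂ R2' hx' hy'
  have i3 := (p'.mono (subset_univ _)).le (R2'.scl (1 - θ) hF)
  obtain ⟨a1, ha1, Q1⟩ := R1.le_env hle
  obtain ⟨a3, ha3, Q3⟩ := R3.le_env hle
  obtain ⟨a0, ha0, Q0⟩ := Rch.le_env El3 hle
  have i4 := (p'.mono (subset_univ _)).le Q1
  have i5 := (p'.mono (subset_univ _)).le Q3
  have i6 := (p'.mono (subset_univ _)).le Q0
  have i7 := mul_le_mul_of_nonneg_left hc2 h0
  have := n El1
  have := n El4
  have := n Et1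
  have := n Et4
  have := n' Eb1
  have := n' Eb4
  have := n' Er1
  have := n' Er4
  linarith
theorem Rate.low_scal (hG : Law G) (hS : Scal G) : ∃ K : ℝ, 0 ≤ K ∧
    ∀ (F : Finset (Sym2 Z2)) (θ : ℝ) (A : Set Env), 0 ≤ θ → θ ≤ 1 / 2 →
      Pr G (scl F (1 - θ) ⁻¹' A) ^ 2 ≤ Real.exp (K * θ ^ 2 * F.card) * Pr G A := by
  obtain ⟨K, hK, h⟩ := hS
  refine ⟨K, hK, fun F θ A h0 h1 => ?_⟩
  have h2 := h F θ (toMeasurable (iidLaw G) A) h0 h1 (measurableSet_toMeasurable _ _)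
  have h3 : Pr G (toMeasurable (iidLaw G) A) = Pr G A := by
    simp only [Pr, Measure.real, measure_toMeasurable]
  rw [h3] at h2
  exact (pow_le_pow_left₀ (Pr_nonneg _ _)
    (hG.mono (preimage_mono (subset_toMeasurable _ _))) 2).trans h2
theorem Rate.low_edges (he : e.OK) : ∃ D : ℝ, 0 ≤ D ∧ ∀ w : ℝ, 1 ≤ w → ∃ F : Finset (Sym2 Z2),
    (∀ u ∈ e.Bx (2 * w) (5 * w) (6 * w) (7 * w), ∀ v, squareLattice.Adj u v → s(u, v) ∈ F) ∧
    (∀ u v, s(u, v) ∈ F → u ∈ e.Bx (2 * w) (5 * w) (6 * w) (7 * w) ∨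
      v ∈ e.Bx (2 * w) (5 * w) (6 * w) (7 * w)) ∧ (F.card : ℝ) ≤ D * w ^ 2 := by
  classical
  obtain ⟨D, hD, hb⟩ := he.box
  refine ⟨196 * D, by linarith, fun w hw => ?_⟩
  obtain ⟨F, hF, hc⟩ := hb 0 0 (7 * w) (7 * w) (by linarith) (by linarith)
  obtain ⟨E, hE, hEc⟩ := edges_fin F
  refine ⟨E.filter fun a => ∃ z ∈ e.Bx (2 * w) (5 * w) (6 * w) (7 * w), z ∈ a,
    fun u hu v huv => Finset.mem_filter.2 ⟨hE u (hF u ?_ ?_) v huv, u, hu, Sym2.mem_mk_left _ _⟩,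
    fun u v huv => ?_, ?_⟩
  · obtain ⟨a1, a2, a3, a4⟩ := hu
    rw [Fr.P_apply] at a1 a2
    rw [Fr.Y_apply] at a3 a4
    rw [sub_zero, abs_le]
    constructor <;> linarith
  · obtain ⟨a1, a2, a3, a4⟩ := hu
    rw [Fr.P_apply] at a1 a2
    rw [Fr.Y_apply] at a3 a4
    rw [sub_zero, abs_le]
    constructor <;> linarith
  · obtain ⟨-, z, hz, hz'⟩ := Finset.mem_filter.1 huv
    rcases Sym2.mem_iff.1 hz' with rfl | rfl
    · exact Or.inl hz
    · exact Or.inr hz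
  · have h1 : ((E.filter fun a => ∃ z ∈ e.Bx (2 * w) (5 * w) (6 * w) (7 * w), z ∈ a).card : ℝ) ≤
        (4 * F.card : ℕ) := Nat.cast_le.2 ((Finset.card_filter_le _ _).trans hEc)
    push_cast at h1
    nlinarith
theorem Rate.low_uc (hG : Law G) (hf : Flat G e) : ∃ w₀ : ℝ, ∀ w : ℝ, w₀ ≤ w → ∃ A : Set Env,
    Pr G A ≤ 1 / 8 ∧ ∀ t, NN t → t ∉ A → ∀ x y c,
      Rch (e.Bx (2 * w) (5 * w) (6 * w) (7 * w)) t x y c → e.P x ≤ 2 * w + e.κ →
      5 * w - e.κ ≤ e.P y → w ≤ c := by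
  obtain ⟨C, hC, hU⟩ := hG.UC
  have hκ := hf.ok.κ3
  have hB : 0 < 512 * C * (7 * e.κ) ^ 5 := by positivity
  refine ⟨4 * e.κ + 512 * C * (7 * e.κ) ^ 5, fun w hw => ?_⟩
  have w0 : 0 < w := by linarith
  refine ⟨_, (hU 0 (7 * e.κ * w) (w / 2) (by linarith) (by nlinarith)).trans ?_, ?_⟩
  · rw [div_le_iff₀ (by positivity)]
    have e1 : C * (7 * e.κ * w) ^ 5 = C * (7 * e.κ) ^ 5 * w ^ 5 := by ring
    have e2 : 1 / 8 * (w / 2) ^ 6 = w / 512 * w ^ 5 := by ring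
    rw [e1, e2]
    exact mul_le_mul_of_nonneg_right (by linarith) (by positivity)
  · intro t ht hA x y c r hx hy
    have hn : ∀ u ∈ e.Bx (2 * w) (5 * w) (6 * w) (7 * w), n1 (u - 0) ≤ 7 * e.κ * w := by
      rintro u ⟨a1, a2, a3, a4⟩
      have b1 : e.ds u ≤ 7 * w :=
        max_le (abs_le.2 ⟨by linarith, by linarith⟩) (abs_le.2 ⟨by linarith, by linarith⟩)
      rw [sub_zero]
      refine (hf.ok.n1_ds u).1.trans ?_
      nlinarith
    have h1 : |T t x y - mE G (y - x)| ≤ w / 2 :=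
      not_lt.1 fun h => hA ⟨x, y, hn x r.mem.1, hn y r.mem.2, h⟩
    have h2 := hf.low (y - x)
    have h3 := T_le ht r
    have h4 := r.mem.1.2.2.2
    have h5 := r.mem.2.2.2.1
    rw [Fr.P_apply] at hx hy
    rw [Fr.Y_apply] at h4 h5
    rw [map_sub, map_sub] at h2
    linarith [(abs_le.1 h1).1]
/-- `θ = 1 / w`, `F.card ≤ D w²` (`OK.box`, `edges_fin`, filter), `δ = 7 M w ε` (Markov; if `ε` is too
small raise it to `c / (2 w)` by `Rate.mono`), `Scal` for the complement of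
`{t' | Pot (h t') univ t' ∧ bottom ∧ right}`; `hM` holds on the good event of `UC` because
`mE ≥ p + q = P + Y ≥ 2 w - 2 κ` -/
theorem Rate.low (hG : Law G) (hS : Scal G) (hf : Flat G e) (a : Coc G e h) : ∃ c : ℝ, 0 < c ∧
    ∃ w₀ : ℝ, ∀ w ε : ℝ, w₀ ≤ w → Rate G e h w ε → c ≤ ε * w := by
  obtain ⟨K, hK, hs⟩ := Rate.low_scal hG hS
  obtain ⟨D, hD, hE⟩ := Rate.low_edges hf.ok
  obtain ⟨w₁, hU⟩ := Rate.low_uc hG hf
  have hκ := hf.ok.κ3
  obtain ⟨X, hX⟩ : ∃ X, X = Real.exp (K * D) := ⟨_, rfl⟩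
  have X1 : 1 ≤ X := hX ▸ Real.one_le_exp (mul_nonneg hK hD)
  obtain ⟨c, hc⟩ : ∃ c : ℝ, c = 1 / (1792 * X) := ⟨_, rfl⟩
  have c0 : 0 < c := by rw [hc]; positivity
  have cX : X * (112 * c) = 1 / 16 := by rw [hc]; field_simp; norm_num
  have c1 : 112 * c ≤ 1 / 16 := by nlinarith
  refine ⟨c, c0, max w₁ e.κ, fun w ε hw r => ?_⟩
  have hw1 : w₁ ≤ w := (le_max_left _ _).trans hw
  have hw2 : e.κ ≤ w := (le_max_right _ _).trans hw
  have w0 : 0 < w := by linarith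
  by_contra hcon
  have r' : Rate G e h w (c / w) :=
    r.mono hG hf.ok a w0.le le_rfl ((le_div_iff₀ w0).2 (not_le.1 hcon).le)
  have e7 : c / w * (7 * w) = 7 * c := by field_simp
  have mk : ∀ α β : ℝ, Pr G {t | ¬e.Ch (h t) t (e.hor α (7 * w) β w) (1 / 8)} ≤ 56 * c ∧
      Pr G {t | ¬e.Ch (h t) t (e.ver α (7 * w) β w) (1 / 8)} ≤ 56 * c := fun α β => by
    obtain ⟨r1, r2⟩ := r' α β (7 * w) (by linarith)
    rw [e7] at r1 r2
    exact ⟨(hG.chp_markov a.meas (by norm_num) (by positivity) r1).trans_eq (by ring),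
      (hG.chp_markov a.meas (by norm_num) (by positivity) r2).trans_eq (by ring)⟩
  obtain ⟨F, hF, hF', hFc⟩ := hE w (by linarith)
  obtain ⟨A, hA, hM⟩ := hU w hw1
  have θ0 : 0 ≤ 1 / w := by positivity
  have θ1 : 1 / w ≤ 1 / 2 := one_div_le_one_div_of_le (by norm_num) (by linarith)
  obtain ⟨B, hB⟩ : ∃ B : Set Env, B = {t | ¬(Pot (h t) univ t ∧
      e.Ch (h t) t (e.hor 0 (7 * w) 0 w) (1 / 8) ∧
      e.Ch (h t) t (e.ver 0 (7 * w) (6 * w) w) (1 / 8))} := ⟨_, rfl⟩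
  obtain ⟨B', hB'⟩ : ∃ B : Set Env, B = {t | ¬(Pot (h t) univ t ∧
      e.Ch (h t) t (e.hor 0 (7 * w) (6 * w) w) (1 / 8) ∧
      e.Ch (h t) t (e.ver 0 (7 * w) 0 w) (1 / 8))} := ⟨_, rfl⟩
  have pb : ∀ β β' : ℝ, Pr G {t | ¬(Pot (h t) univ t ∧
      e.Ch (h t) t (e.hor 0 (7 * w) β w) (1 / 8) ∧
      e.Ch (h t) t (e.ver 0 (7 * w) β' w) (1 / 8))} ≤ 112 * c := fun β β' => by
    refine le_trans (hG.mono_ae ?_) ((hG.union _ _).trans
      ((add_le_add (mk 0 β).1 (mk 0 β').2).trans_eq (by ring)))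
    filter_upwards [a.ae hG] with t ht hb
    by_contra hn
    simp only [mem_union, mem_ofPred_eq, not_or, not_not] at hn
    exact hb ⟨ht.2, hn.1, hn.2⟩
  have p1 : Pr G B ≤ 112 * c := hB ▸ pb 0 (6 * w)
  have p2 : Pr G B' ≤ 112 * c := hB' ▸ pb (6 * w) 0
  have p3 : Pr G (scl F (1 - 1 / w) ⁻¹' B) ≤ 1 / 4 := by
    have h1 := hs F (1 / w) B θ0 θ1
    have h2 : Real.exp (K * (1 / w) ^ 2 * F.card) ≤ X := by
      rw [hX]
      refine Real.exp_le_exp.2 ?_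
      have h3 : (1 / w) ^ 2 * (F.card : ℝ) ≤ D := by
        refine (mul_le_mul_of_nonneg_left hFc (by positivity)).trans_eq ?_
        field_simp
      rw [mul_assoc]
      exact mul_le_mul_of_nonneg_left h3 hK
    have h4 : Real.exp (K * (1 / w) ^ 2 * F.card) * Pr G B ≤ X * (112 * c) :=
      mul_le_mul h2 p1 (Pr_nonneg _ _) (by linarith)
    refine le_of_pow_le_pow_left₀ two_ne_zero (by norm_num) ?_
    linarith
  obtain ⟨t, ht, hn⟩ := hG.exists_not (A := (A ∪ B') ∪ scl F (1 - 1 / w) ⁻¹' B) (by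
    have h1 := hG.union (A ∪ B') (scl F (1 - 1 / w) ⁻¹' B)
    have h2 := hG.union A B'
    linarith)
  simp only [mem_union, mem_preimage, hB, hB', mem_ofPred_eq, not_or, not_not] at hn
  obtain ⟨⟨n1, n2, n3, n4⟩, n5, n6, n7⟩ := hn
  have := gain_det hf.ok hw2 θ0 (by linarith) ht hF hF' (hM t ht n1) n2 n5 n4 n3 n6 n7
  rw [one_div_mul_cancel w0.ne'] at this
  linarith
/-- `b k = a k * r ^ k → 0` attains its supremum on every tail. If `k` is a tail maximiser and the next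
one `k'` is not `k + 1` then `k' - 1` works. If from some point on nothing works, every index is a
tail maximiser and `a (k + 1) < a k / 64`, against the lower bound. -/
theorem rec_seq {a : ℕ → ℝ} {c r : ℝ} (hc : 0 < c) (hr : 1 ≤ r) (hr' : r ≤ 2) (ha : Antitone a)
    (h1 : ∀ k, c ≤ a k * 32 ^ k) (h2 : Tendsto (fun k => a k * r ^ k) atTop (𝓝 0)) :
    ∃ᶠ k in atTop, a k ≤ 64 * a (k + 1) ∧ ∀ j, k ≤ j → a j * r ^ j ≤ 2 * (a k * r ^ k) := by
  by_contra hcon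
  rw [not_frequently, eventually_atTop] at hcon
  obtain ⟨N, hN⟩ := hcon
  have r0 : 0 < r := by linarith
  have a0 : ∀ k, 0 < a k := fun k => (pos_iff_pos_of_mul_pos (hc.trans_le (h1 k))).2 (by positivity)
  have b0 : ∀ k, 0 < a k * r ^ k := fun k => mul_pos (a0 k) (pow_pos r0 k)
  have tm : ∀ k, N ≤ k → ∀ j, k ≤ j → a j * r ^ j ≤ a k * r ^ k := fun k hk => by
    obtain ⟨M, hM⟩ := eventually_atTop.1 (h2.eventually (gt_mem_nhds (b0 k)))
    obtain ⟨k', hk', hm⟩ := Finset.exists_max_image (Finset.Icc k (k + M)) (fun j => a j * r ^ j)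
      ⟨k, by simp⟩
    have hmax : ∀ j, k ≤ j → a j * r ^ j ≤ a k' * r ^ k' := fun j hj => by
      by_cases h : j ≤ k + M
      · exact hm j (Finset.mem_Icc.2 ⟨hj, h⟩)
      · exact (hM j (by omega)).le.trans (hm k (by simp))
    rcases (Finset.mem_Icc.1 hk').1.eq_or_lt with rfl | hlt
    · exact hmax
    obtain ⟨i, rfl⟩ : ∃ i, k' = i + 1 := ⟨k' - 1, by omega⟩
    have e1 : a (i + 1) * r ^ (i + 1) ≤ 2 * (a (i + 1) * r ^ i) := by
      rw [pow_succ, ← mul_assoc, mul_comm 2]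
      exact mul_le_mul_of_nonneg_left hr' (mul_pos (a0 _) (pow_pos r0 _)).le
    have e2 : a (i + 1) * r ^ i ≤ a i * r ^ i :=
      mul_le_mul_of_nonneg_right (ha (Nat.le_succ i)) (pow_pos r0 _).le
    refine absurd ⟨?_, fun j hj => ?_⟩ (hN i (by omega))
    · have e3 := (hmax i (by omega)).trans e1
      rw [← mul_assoc] at e3
      have := le_of_mul_le_mul_right e3 (pow_pos r0 i)
      linarith [a0 (i + 1)]
    · linarith [hmax j (by omega)]
  have dec : ∀ n, a (N + n) * 64 ^ n ≤ a N := fun n => by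
    induction n with
    | zero => simp
    | succ n ih =>
      have : 64 * a (N + n + 1) ≤ a (N + n) := by
        by_contra h
        exact hN (N + n) (by omega) ⟨(not_le.1 h).le, fun j hj => by
          linarith [tm (N + n) (by omega) j hj, b0 (N + n)]⟩
      have := mul_le_mul_of_nonneg_right this (show (0 : ℝ) ≤ 64 ^ n by positivity)
      rw [pow_succ, ← add_assoc]
      linarith
  obtain ⟨n, hn⟩ := pow_unbounded_of_one_lt (a N * 32 ^ N / c) (one_lt_two (α := ℝ))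
  rw [div_lt_iff₀ hc] at hn
  have e1 := mul_le_mul_of_nonneg_left (h1 (N + n)) (show (0 : ℝ) ≤ 2 ^ n by positivity)
  have e2 := mul_le_mul_of_nonneg_right (dec n) (show (0 : ℝ) ≤ 32 ^ N by positivity)
  have e3 : 2 ^ n * (a (N + n) * 32 ^ (N + n)) = a (N + n) * 64 ^ n * 32 ^ N := by
    rw [show (64 : ℝ) = 2 * 32 by norm_num, mul_pow, pow_add]
    ring
  linarith
/-- the set of rates is closed and bounded below -/
theorem Rate.least {w c : ℝ} (hw : 0 < w) (h1 : ∃ ε, Rate G e h w ε)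
    (h2 : ∀ ε, Rate G e h w ε → c ≤ ε) : ∃ ε, Rate G e h w ε ∧ ∀ ε', Rate G e h w ε' → ε ≤ ε' := by
  have _ := hw
  have cl : IsClosed {ε | Rate G e h w ε} := by
    simp only [Rate, ofPred_forall]
    refine isClosed_iInter fun α => isClosed_iInter fun β => isClosed_iInter fun m =>
      isClosed_iInter fun _ => IsClosed.inter ?_ ?_ <;>
    exact isClosed_le continuous_const (ENNReal.continuous_ofReal.comp (continuous_mul_const m))
  have bd : BddBelow {ε | Rate G e h w ε} := ⟨c, h2⟩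
  exact ⟨_, cl.csInf_mem h1 bd, fun ε' h' => csInf_le bd h'⟩
/-- `a k` = least rate at width `w₀ * 32 ^ k`, `r = 32 ^ (1/64)`; `rate_up`, `low`, `Rate.mono` -/
theorem Coc.record (hG : Law G) (hS : Scal G) (hf : Flat G e) (a : Coc G e h) :
    ∃ D : ℝ, 0 < D ∧ ∀ w₁ : ℝ, ∃ w ε : ℝ, w₁ ≤ w ∧ 0 < ε ∧ Rate G e h w ε ∧ URec G e h 4 w ε ∧
      (∀ ε', Rate G e h (32 * w) ε' → 1 / 64 * ε ≤ ε') ∧ ε ≤ D * w ^ (-(1 / 32) : ℝ) := by
  obtain ⟨D, hD, hup⟩ := a.rate_up hG hf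
  obtain ⟨c, hc, w₀, hlow⟩ := Rate.low hG hS hf a
  obtain ⟨W, W1, W2⟩ : ∃ W : ℝ, D ≤ W ∧ w₀ ≤ W := ⟨_, le_max_left _ _, le_max_right _ _⟩
  have W0 : 0 < W := by linarith
  have wp : ∀ k : ℕ, 0 < W * 32 ^ k := fun k => by positivity
  have wl : ∀ k : ℕ, W ≤ W * 32 ^ k := fun k =>
    le_mul_of_one_le_right W0.le (one_le_pow₀ (by norm_num))
  choose s hs hs' using fun k : ℕ => Rate.least (G := G) (e := e) (h := h) (c := c / (W * 32 ^ k))
    (wp k) ⟨_, hup _ (W1.trans (wl k))⟩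
    fun ε hε => (div_le_iff₀ (wp k)).2 (hlow _ ε (W2.trans (wl k)) hε)
  have su : ∀ k, s k ≤ D * (W * 32 ^ k) ^ (-(1 / 32) : ℝ) := fun k =>
    hs' k _ (hup _ (W1.trans (wl k)))
  have sl : ∀ k, c / W ≤ s k * 32 ^ k := fun k => by
    rw [div_le_iff₀ W0]
    linarith [hlow _ _ (W2.trans (wl k)) (hs k)]
  have s0 : ∀ k, 0 < s k := fun k =>
    (pos_iff_pos_of_mul_pos ((div_pos hc W0).trans_le (sl k))).2 (by positivity)
  have an : Antitone s := fun i j hij => hs' j _ ((hs i).mono hG hf.ok a (wp i).le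
    (mul_le_mul_of_nonneg_left (pow_le_pow_right₀ (by norm_num) hij) W0.le) le_rfl)
  have r1 : (1 : ℝ) ≤ 32 ^ (1 / 64 : ℝ) := Real.one_le_rpow (by norm_num) (by norm_num)
  have r2 : (32 : ℝ) ^ (1 / 64 : ℝ) ≤ 2 := by
    rw [show (32 : ℝ) = 2 ^ (5 : ℝ) by norm_num, ← Real.rpow_mul (by norm_num)]
    exact (Real.rpow_le_rpow_of_exponent_le (by norm_num) (by norm_num)).trans_eq (Real.rpow_one 2)
  have lim : Tendsto (fun k => s k * ((32 : ℝ) ^ (1 / 64 : ℝ)) ^ k) atTop (𝓝 0) := by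
    have q0 : (0 : ℝ) ≤ 32 ^ (-(1 / 64) : ℝ) := by positivity
    have q1 : (32 : ℝ) ^ (-(1 / 64) : ℝ) < 1 :=
      Real.rpow_lt_one_of_one_lt_of_neg (by norm_num) (by norm_num)
    have l := (tendsto_pow_atTop_nhds_zero_of_lt_one q0 q1).const_mul (D * W ^ (-(1 / 32) : ℝ))
    rw [mul_zero] at l
    refine squeeze_zero (fun k => by have := s0 k; positivity) (fun k => ?_) l
    refine (mul_le_mul_of_nonneg_right (su k) (by positivity)).trans (le_of_eq ?_)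
    rw [Real.mul_rpow W0.le (by positivity), ← Real.rpow_pow_comm (by norm_num), mul_assoc,
      mul_assoc, ← mul_pow, ← Real.rpow_add (by norm_num), ← mul_assoc]
    norm_num
  refine ⟨D, by linarith, fun w₁ => ?_⟩
  have big : ∀ᶠ k : ℕ in atTop, w₁ ≤ W * 32 ^ k :=
    ((tendsto_pow_atTop_atTop_of_one_lt (by norm_num : (1 : ℝ) < 32)).const_mul_atTop
      W0).eventually_ge_atTop w₁
  obtain ⟨k, ⟨k1, k2⟩, k3⟩ := ((rec_seq (div_pos hc W0) r1 r2 an sl lim).and_eventually big).exists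
  refine ⟨W * 32 ^ k, s k, k3, s0 k, hs k, fun L hL => ?_, fun ε' h' => ?_, su k⟩
  · have L0 : 0 < L := (wp k).trans_le hL
    obtain ⟨n, n1, n2⟩ := exists_nat_pow_near ((one_le_div (wp k)).2 hL) (by norm_num : (1 : ℝ) < 32)
    refine (hs (k + n)).mono hG hf.ok a (wp _).le ?_ ?_
    · rw [le_div_iff₀ (wp k)] at n1
      rw [pow_add]
      linarith
    have b1 := k2 (k + n) (Nat.le_add_right _ _)
    have b2 : (L / (W * 32 ^ k)) ^ (1 / 64 : ℝ) ≤ ((32 : ℝ) ^ (1 / 64 : ℝ)) ^ (n + 1) := by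
      rw [Real.rpow_pow_comm (by norm_num)]
      exact Real.rpow_le_rpow (by have := wp k; positivity) n2.le (by norm_num)
    have b3 : 0 < (L / (W * 32 ^ k)) ^ (1 / 64 : ℝ) := by have := wp k; positivity
    rw [← inv_div, Real.inv_rpow (by have := wp k; positivity), ← div_eq_mul_inv, le_div_iff₀ b3]
    generalize (32 : ℝ) ^ (1 / 64 : ℝ) = r at r1 r2 b1 b2
    have r0 : 0 < r := by linarith
    rw [pow_add, mul_comm (r ^ k), ← mul_assoc, ← mul_assoc] at b1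
    have b4 := le_of_mul_le_mul_right b1 (pow_pos r0 k)
    have b5 := mul_le_mul_of_nonneg_left b2 (s0 (k + n)).le
    have b6 := mul_le_mul_of_nonneg_left r2 (mul_pos (s0 (k + n)) (pow_pos r0 n)).le
    rw [pow_succ, ← mul_assoc] at b5
    linarith
  · have := hs' (k + 1) ε' (by rwa [pow_succ, ← mul_assoc, mul_comm])
    linarith

end

end Crest.Agent.R151.B
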