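import Crest.Agent.R151.D7

set_option autoImplicit false

open MeasureTheory ProbabilityTheory Set Filter Topology
open scoped ENNReal
open Crest.ProbabilityR.FirstPassage

namespace Crest.Agent.R151.B

noncomputable section

/-! an edge direction is expensive -/

variable {G : Measure ℝ} {e : Fr} {h : Env → Z2 → ℝ}

theorem Coc.asym_wide {c : ℝ} {φ : Z2 → ℝ} {t : Env} {g k : Z2 →+ ℝ} {α m β w w' : ℝ}
    (hw : w ≤ w') : WL c φ t ⟨g, k, α, m, β, w'⟩ ≤ WL c φ t ⟨g, k, α, m, β, w⟩ := by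
  refine WL_mono fun d ⟨x, z, d', h1, h2, h3, h4⟩ => ⟨x, z, d', h1, h2, h3, h4.mono ?_⟩
  rintro u ⟨a1, a2, a3, a4⟩
  exact ⟨a1, a2, a3, a4.trans (by dsimp only; linarith)⟩

theorem Coc.asym_lim {I : ℝ≥0∞} {r D : ℝ} (hr : 0 ≤ r)
    (H : ∀ n : ℕ, n * I ≤ ENNReal.ofReal (r * n + D)) : I ≤ ENNReal.ofReal r := by
  have h1 := H 1
  rw [Nat.cast_one, one_mul] at h1
  have hI : I ≠ ∞ := ne_top_of_le_ne_top ENNReal.ofReal_ne_top h1
  rw [← ENNReal.ofReal_toReal hI]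
  refine ENNReal.ofReal_le_ofReal (le_of_not_gt fun hlt => ?_)
  obtain ⟨n, hn⟩ := exists_nat_gt (|D| / (I.toReal - r))
  rw [div_lt_iff₀ (sub_pos.2 hlt)] at hn
  have h2 : n * I ≤ ENNReal.ofReal (r * n + |D|) :=
    (H n).trans (ENNReal.ofReal_le_ofReal (by linarith [le_abs_self D]))
  rw [← ENNReal.ofReal_toReal hI, ← ENNReal.ofReal_natCast,
    ← ENNReal.ofReal_mul (Nat.cast_nonneg n),
    ENNReal.ofReal_le_ofReal_iff (by positivity)] at h2
  linarith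

/-- `n` pieces of length `m + 2 κ` (`WL_split`, `J = ⌈n (m + 3 κ) / ℓ⌉`), `W_recentre`, `n → ∞` -/
theorem Coc.asym (hG : Law G) (he : e.OK) (a : Coc G e h) {ℓ γ B w α μ : ℝ} (hl : 0 < ℓ)
    (hγ : 0 ≤ γ) (hw : 2 * e.κ ≤ w) (H : ∀ J : ℕ,
      ∫⁻ t, e.W (h t) t (e.hor α (J * ℓ) μ w) ∂iidLaw G ≤ ENNReal.ofReal (γ * (J * ℓ) + B))
    {m : ℝ} (hm : 3 * e.κ ≤ m) (α' β' : ℝ) :
    ∫⁻ t, e.W (h t) t (e.hor α' m β' (2 * w)) ∂iidLaw G ≤ ENNReal.ofReal (2 * γ * m) := by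
  have hκ := he.κ3
  have hc : 0 ≤ e.κ := by linarith
  have hg : ∀ u v, squareLattice.Adj u v → |e.P v - e.P u| ≤ e.κ := fun u v huv => (he.step huv).1
  refine Coc.asym_lim (D := γ * ℓ + B) (mul_nonneg (by linarith) (by linarith)) fun n => ?_
  have hJ1 : n * (m + 2 * e.κ + e.κ) ≤ (⌈n * (m + 2 * e.κ + e.κ) / ℓ⌉₊ : ℝ) * ℓ := by
    rw [← div_le_iff₀ hl]; exact Nat.le_ceil _
  have hJ2 : (⌈n * (m + 2 * e.κ + e.κ) / ℓ⌉₊ : ℝ) * ℓ ≤ n * (m + 2 * e.κ + e.κ) + ℓ := by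
    have h0 : 0 ≤ n * (m + 2 * e.κ + e.κ) / ℓ :=
      div_nonneg (mul_nonneg (Nat.cast_nonneg n) (by linarith)) hl.le
    have := mul_le_mul_of_nonneg_right (Nat.ceil_lt_add_one h0).le hl.le
    rwa [add_mul, div_mul_cancel₀ _ hl.ne', one_mul] at this
  generalize ⌈n * (m + 2 * e.κ + e.κ) / ℓ⌉₊ = J at hJ1 hJ2
  have hp : ∀ i : ℕ, ∫⁻ t, e.W (h t) t (e.hor α' m β' (2 * w)) ∂iidLaw G ≤
      ∫⁻ t, WL e.κ (h t) t ⟨e.P, e.Y, α + i * (m + 2 * e.κ + e.κ), m + 2 * e.κ, μ, w⟩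
        ∂iidLaw G := fun i =>
    (lintegral_mono fun t => Coc.asym_wide (by linarith)).trans
      (a.W_recentre hG monotone_id hc hg he.denP (by linarith) _ μ α' β' w)
  calc (n : ℝ≥0∞) * ∫⁻ t, e.W (h t) t (e.hor α' m β' (2 * w)) ∂iidLaw G
      = ∑ _i ∈ Finset.range n, ∫⁻ t, e.W (h t) t (e.hor α' m β' (2 * w)) ∂iidLaw G := by
        rw [Finset.sum_const, Finset.card_range, nsmul_eq_mul]
    _ ≤ ∑ i ∈ Finset.range n, ∫⁻ t, WL e.κ (h t) t
          ⟨e.P, e.Y, α + i * (m + 2 * e.κ + e.κ), m + 2 * e.κ, μ, w⟩ ∂iidLaw G :=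
        Finset.sum_le_sum fun i _ => hp i
    _ = ∫⁻ t, ∑ i ∈ Finset.range n, WL e.κ (h t) t
          ⟨e.P, e.Y, α + i * (m + 2 * e.κ + e.κ), m + 2 * e.κ, μ, w⟩ ∂iidLaw G :=
        (lintegral_finsetSum _ fun i _ => WL_meas a.meas _ _).symm
    _ ≤ ∫⁻ t, e.W (h t) t (e.hor α (J * ℓ) μ w) ∂iidLaw G := by
        refine lintegral_mono_ae ((a.ae hG).mono fun t ht => ?_)
        exact WL_split (L := e.hor α (J * ℓ) μ w) ht.2 hc hg (by linarith) hJ1
    _ ≤ ENNReal.ofReal (γ * (J * ℓ) + B) := H J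
    _ ≤ ENNReal.ofReal (2 * γ * m * n + (γ * ℓ + B)) := by
        refine ENNReal.ofReal_le_ofReal ?_
        have h1 : (n : ℝ) * (m + 2 * e.κ + e.κ) ≤ n * (2 * m) :=
          mul_le_mul_of_nonneg_left (by linarith) (Nat.cast_nonneg n)
        have h2 := mul_le_mul_of_nonneg_left (hJ2.trans (add_le_add_left h1 ℓ)) hγ
        linarith
/-- `run` with `δ = c₀ / 8` for `e` and `e.swap`, `asym`; `A = 16 K`, `c₁ = c₀ / 48` -/
theorem Law.posit (hG : Law G) {c₀ C : ℝ} (hc : 0 < c₀) (hC : 0 < C) : ∃ A q c₁ : ℝ, 1 ≤ A ∧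
    0 < q ∧ q ≤ 1 ∧ 0 < c₁ ∧ ∀ (e : Fr) (h : Env → Z2 → ℝ), e.OK → Coc G e h → ∀ u ε : ℝ,
      e.κ ≤ u → 0 < ε → Rate G e h (8 * u) ε → URec G e h C (8 * u) ε →
      (∀ ε', Rate G e h (256 * u) ε' → c₀ * ε ≤ ε') → ¬EQ G e h u A (c₁ * ε * u) q := by
  obtain ⟨K, hK, q, hq, H⟩ := hG.run hC (show 0 < c₀ / 8 by positivity)
  have hK' : (17 : ℝ) ≤ K := by exact_mod_cast hK
  refine ⟨16 * K, min q 1, c₀ / 48, by linarith, lt_min hq one_pos, min_le_right _ _,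
    by positivity, fun e h he a u ε hu hε r U hmin hE => ?_⟩
  have hκ := he.κ3
  have hu0 : 0 < u := by linarith
  have hy : 0 < c₀ / 48 * ε * u := by positivity
  have hE' : EQ G e h u (16 * K) (c₀ / 48 * ε * u) q := fun α β =>
    ⟨(hE α β).1.trans (min_le_left _ _), (hE α β).2.trans (min_le_left _ _)⟩
  have hγ : 2 * (c₀ / 8 * ε + 6 * (c₀ / 48 * ε * u) / u) = c₀ / 2 * ε := by
    field_simp
    ring
  have key : ∀ e' : Fr, e'.OK → Coc G e' h → e'.κ ≤ u → Rate G e' h (8 * u) ε →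
      URec G e' h C (8 * u) ε → EQ G e' h u (16 * K) (c₀ / 48 * ε * u) q →
      ∀ α β m : ℝ, 256 * u ≤ m → ∫⁻ t, e'.W (h t) t (e'.hor α m β (256 * u)) ∂iidLaw G ≤
        ENNReal.ofReal (c₀ / 2 * ε * m) := by
    intro e' he' a' hu' r' U' E' α β m hm
    have := a'.asym hG he' (ℓ := 8 * K * u) (by positivity) (by positivity) (w := 128 * u)
      (by linarith) (H e' h he' a' u ε _ hu' hε.le hy r' U' E' 0 0) (m := m) (by linarith) α β
    rwa [hγ, show 2 * (128 * u) = 256 * u by ring] at this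
  have := hmin (c₀ / 2 * ε) fun α β m hm =>
    ⟨key e he a hu r U hE' α β m hm, key e.swap he.swap a.swap hu r.swap U.swap hE'.swap α β m hm⟩
  nlinarith [mul_pos hc hε]
/-- `R` pieces of length `A u + 2 κ`, each has `ofReal y ≤ W` with probability `> q` (`W_recentre` with
`F = 1_{ofReal y ≤ ·}`); the number `X ≤ R` of such pieces has mean `≥ q R`, so
`P (q R / 2 ≤ X) ≥ q / 2`; `WL_split` gives `W ≥ q R y / 2` -/
theorem Coc.signal (hG : Law G) (he : e.OK) (a : Coc G e h) {u A y q α β : ℝ} (hu : 4 * e.κ ≤ u)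
    (hA : 1 ≤ A) (hy : 0 < y) (hq : 0 < q) (H : q < Pr G {t | ¬e.Ch (h t) t (e.up α (A * u) β u) y})
    {R : ℕ} (hR : 1 ≤ R) (α' β' : ℝ) :
    q / 2 ≤ Pr G {t | ¬e.Ch (h t) t (e.up α' (2 * R * A * u) β' (u / 2)) (q * R * y / 4)} := by
  have := hG.isP
  have hκ := he.κ3
  have hu0 : 0 < u := by linarith
  have hAu : u ≤ A * u := by nlinarith
  have hR0 : (0 : ℝ) < R := by exact_mod_cast hR
  obtain ⟨F, hF1, hF0⟩ : ∃ F : ℝ≥0∞ → ℝ≥0∞, (∀ x, ENNReal.ofReal y ≤ x → F x = 1) ∧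
      ∀ x, ¬ENNReal.ofReal y ≤ x → F x = 0 :=
    ⟨fun x => if ENNReal.ofReal y ≤ x then 1 else 0, fun x hx => if_pos hx, fun x hx => if_neg hx⟩
  have hF2 : ∀ x, F x ≤ 1 ∧ ENNReal.ofReal y * F x ≤ x := fun x => by
    by_cases hx : ENNReal.ofReal y ≤ x
    · rw [hF1 x hx, mul_one]
      exact ⟨le_rfl, hx⟩
    · rw [hF0 x hx, mul_zero]
      exact ⟨zero_le, zero_le⟩
  have hF : Monotone F := fun x x' hx => by
    by_cases h1 : ENNReal.ofReal y ≤ x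
    · rw [hF1 x h1, hF1 x' (h1.trans hx)]
    · rw [hF0 x h1]
      exact zero_le
  have hg : ∀ u v, squareLattice.Adj u v → |e.p v - e.p u| ≤ e.κ := fun u v h => (he.step h).2.2.1
  have h1 : ∀ α₁ : ℝ, ENNReal.ofReal q ≤
      ∫⁻ t, F (WL e.κ (h t) t ⟨e.p, e.q, α₁, A * u + 2 * e.κ, β', u / 2⟩) ∂iidLaw G := by
    intro α₁
    refine le_trans ?_ (a.W_recentre hG hF (by linarith) hg he.denp (by linarith) α₁ β' α β (u / 2))
    refine (ENNReal.ofReal_le_of_le_toReal H.le).trans ?_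
    have hm : MeasurableSet {t | ¬e.Ch (h t) t (e.up α (A * u) β u) y} :=
      (Chp_meas a.meas e.κ _ y).compl
    rw [← lintegral_indicator_one hm]
    refine lintegral_mono fun t => ?_
    by_cases ht : t ∈ {t | ¬e.Ch (h t) t (e.up α (A * u) β u) y}
    · rw [indicator_of_mem ht, hF1 _ (not_lt.1 fun hlt => ht ?_)]
      · exact le_rfl
      · obtain ⟨x, x', d', h1, h2, h3, h4⟩ := Chp.of_lt hlt
        refine ⟨x, x', d', h1, h2, h3, h4.mono ?_⟩
        rintro z ⟨u1, u2, u3, u4⟩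
        exact ⟨u1, u2, u3, u4.trans (show β + (u / 2 + 2 * e.κ) ≤ β + u by linarith)⟩
    · rw [indicator_of_notMem ht]
      exact zero_le
  obtain ⟨E, hE⟩ : ∃ E : Set Env,
      E = {t | ¬e.Ch (h t) t (e.up α' (2 * R * A * u) β' (u / 2)) (q * R * y / 4)} := ⟨_, rfl⟩
  have hm : MeasurableSet E := hE ▸ (Chp_meas a.meas e.κ _ _).compl
  rw [← hE]
  have h2 : ∀ᵐ t ∂iidLaw G, ∑ i ∈ Finset.range R, F (WL e.κ (h t) t
      ⟨e.p, e.q, α' + i * (A * u + 2 * e.κ + e.κ), A * u + 2 * e.κ, β', u / 2⟩) ≤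
        ENNReal.ofReal (q * R / 4) + R * E.indicator 1 t := by
    filter_upwards [a.ae hG] with t ht
    by_cases hx : t ∈ E
    · rw [indicator_of_mem hx]
      refine le_trans ?_ le_add_self
      refine (Finset.sum_le_card_nsmul _ _ 1 fun i _ => (hF2 _).1).trans ?_
      simp
    · refine le_trans ?_ le_self_add
      rw [hE] at hx
      have h3 := WL_le (not_not.1 hx)
      have h4 := WL_split (L := e.up α' (2 * R * A * u) β' (u / 2)) ht.2 (by linarith) hg (n := R)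
        (m := A * u + 2 * e.κ) (by linarith) (show _ ≤ 2 * R * A * u by nlinarith)
      have hy0 : ENNReal.ofReal y ≠ 0 := (ENNReal.ofReal_pos.2 hy).ne'
      refine (ENNReal.mul_le_mul_iff_right hy0 ENNReal.ofReal_ne_top).1 ?_
      rw [Finset.mul_sum, ← ENNReal.ofReal_mul hy.le, show y * (q * R / 4) = q * R * y / 4 by ring]
      exact (Finset.sum_le_sum fun i _ => (hF2 _).2).trans (h4.trans h3)
  have h3 := lintegral_mono_ae h2
  have hme : ∀ L : Lane, Measurable fun t => F (WL e.κ (h t) t L) := fun L =>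
    hF.measurable.comp (WL_meas a.meas e.κ L)
  rw [lintegral_finsetSum _ fun i _ => hme _,
    lintegral_add_left measurable_const, lintegral_const_mul _ (measurable_one.indicator hm),
    lintegral_indicator_one hm, lintegral_const, measure_univ, mul_one] at h3
  have h4 := (Finset.card_nsmul_le_sum _ _ _ fun i _ => h1 _).trans h3
  rw [Finset.card_range, nsmul_eq_mul, ← ofReal_measureReal (measure_ne_top _ E),
    ← ENNReal.ofReal_natCast, ← ENNReal.ofReal_mul hR0.le, ← ENNReal.ofReal_mul hR0.le,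
    ← ENNReal.ofReal_add (by positivity) (by positivity),
    ENNReal.ofReal_le_ofReal_iff (by positivity)] at h4
  show q / 2 ≤ (iidLaw G).real E
  nlinarith

end

end Crest.Agent.R151.B
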