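import Crest.Agent.R151.D0
import Crest.Agent.R151.D2
import Crest.Agent.R151.D4
import Crest.Agent.R151.D8
import Crest.Agent.R151.D11
import Crest.Agent.R151.D12
import Crest.Agent.R151.B15

set_option autoImplicit false

open MeasureTheory ProbabilityTheory Set Filter Topology
open scoped ENNReal
open Crest.ProbabilityR.FirstPassage

namespace Crest.Agent.R151.B

noncomputable section

/-! no flat edge -/

variable {G : Measure ℝ} {e : Fr} {h : Env → Z2 → ℝ}

theorem URec.at {C w ε L : ℝ} (u : URec G e h C w ε) (hw : 0 < w) (hL : 1 ≤ L) :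
    Rate G e h (L * w) (C * (1 / L) ^ (1 / 64 : ℝ) * ε) := by
  have h1 := u (L * w) (by nlinarith)
  have h2 : w / (L * w) = 1 / L := by field_simp
  rw [h2] at h1
  convert h1 using 1
  ring

/-- all levels are good with high probability -/
theorem levels (hG : Law G) (he : e.OK) {A q c C w ε : ℝ} {N g : ℕ} (hA : 1 ≤ A) (hq : 0 < q)
    (hq1 : q ≤ 1) (hc : 0 < c) (hC : 0 < C) (hN : 5 ≤ N) (hw : e.κ ≤ w) (hε : 0 < ε)
    (b1 : (g + 2) * 10 ^ 4 ≤ nN N 0 * nN N 1)
    (b2 : (192 * nL A N 2 + 1) * ((nN N 0 : ℝ) * nN N 1 + 1) * (1 - q / 4) ^ g ≤ nP N 0 / 2)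
    (t1 : ∀ k, 10 * (48 * (q * (N ^ 640 : ℕ) * c / 64) *
      (nD A N k + 6 * (nT A N k + nS A N / 800) * nL A N (k + 1)) + 6 * nY A C N (k + 1)) ≤
        48 * (q * (N ^ 640 : ℕ) * c / 64) * (nT A N k - nT A N (k + 1)) * nL A N (k + 2))
    (hs : ∀ a b, q / 4 ≤ Pr G (e.Sig (nL A N 0 * w) (nY A C N 0 * (ε * w))
      (q * (N ^ 640 : ℕ) * c / 64 * (ε * w)) (w / 16) a b))
    (hcl : ∀ (k : ℕ) (i j : ℤ), Pr G {t | ¬∃ φ, e.Cls (nS A N / 800)
      (48 * (q * (N ^ 640 : ℕ) * c / 64) * ε) (nL A N k * w) (nY A C N k * (ε * w)) (nN N k)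
      (nN N (k + 1)) i j φ t} ≤ nP N k / 2) (k : ℕ) : ∀ i j : ℤ,
    Pr G (e.Good (nS A N / 800) (48 * (q * (N ^ 640 : ℕ) * c / 64) * ε) (nL A N k * w)
      (nY A C N k * (ε * w)) (nN N k) (nN N (k + 1)) (nT A N k) (nD A N k * w) i j)ᶜ ≤ nP N k := by
  have hN2 : 2 ≤ N := by omega
  have hκ := he.κ3
  have hw0 : 0 < w := by linarith
  have hn : ∀ k, 5 ≤ nN N k := fun k => hN.trans (Nat.le_mul_of_pos_right _ (by positivity))
  have hl : ∀ k, e.κ ≤ nL A N k * w := fun k => by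
    have := (nL_ge hA hN2 k).2
    nlinarith
  have hR : (0 : ℝ) < (N ^ 640 : ℕ) := by exact_mod_cast pow_pos (by omega) _
  generalize ((N ^ 640 : ℕ) : ℝ) = R at *
  have hθ : 0 < q * R * c / 64 := by positivity
  generalize q * R * c / 64 = θ at *
  have e1 : ∀ k, nL A N (k + 1) * w = nN N k * (nL A N k * w) := fun k => by
    rw [nL]; ring
  have e2 : ∀ k, (nN N (k + 1) : ℝ) * (nN N k * (nL A N k * w)) = nL A N (k + 2) * w := fun k => by
    rw [← e1, ← e1]
  have hS := (nT_facts hA hN2 0).1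
  have hS1 := (nT_facts hA hN2 0).2.1
  induction k with
  | zero =>
    intro i j
    have hT := (nT_facts hA hN2 0).2.2.1
    have hL2 := (nL_ge hA hN2 2).2
    have hL0 := (nL_ge hA hN2 0).2
    have hSL : nS A N * nL A N 2 = 1 / 384 := by rw [nS]; field_simp
    have := base_prob hG he (α := nS A N / 800) (Λ := 48 * θ * ε) (s := nS A N) (g := g) (hl 0)
      (by have := hn 0; omega) (by have := hn 1; omega) (by positivity) le_rfl hS1
      (by positivity) (by nlinarith) (by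
        rw [e2 0]
        have : 24 * nS A N * (nL A N 2 * w) = 24 * (nS A N * nL A N 2) * w := by ring
        rw [this, hSL]; linarith) b1 (by
        rw [e2 0]
        have : 8 * (48 * θ * ε) * nS A N * (nL A N 2 * w) =
          384 * (nS A N * nL A N 2) * (θ * (ε * w)) := by ring
        rw [this, hSL]; linarith) hs i j
    have e3 : nS A N * ((nN N 1 : ℝ) * (nN N 0 * (nL A N 0 * w))) / 100 = nD A N 0 * w := by
      rw [e2 0, nD]; ring
    have e4 : 12 * ((nN N 1 : ℝ) * (nN N 0 * (nL A N 0 * w))) / (w / 16) = 192 * nL A N 2 := by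
      rw [e2 0]; field_simp; ring
    rw [e3, e4] at this
    rw [hT]
    have := hcl 0 i j
    simp only [zero_add] at *
    linarith
  | succ k ih =>
    intro i j
    obtain ⟨-, -, -, f1, f2, f3, f4⟩ := nT_facts hA hN2 k
    have f5 := (nT_facts hA hN2 (k + 1)).2.2.2.1
    have hεw : 0 < ε * w := by positivity
    have := step_prob hG he (α := nS A N / 800) (Λ := 48 * θ * ε) (s := nT A N k)
      (s' := nT A N (k + 1)) (y := nY A C N k * (ε * w)) (y' := nY A C N (k + 1) * (ε * w))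
      (D := nD A N k * w) (D' := nD A N (k + 1) * w) (n'' := nN N (k + 2)) (hl k)
      (by have := hn k; omega) (hn (k + 1)) (hn (k + 2)) (by positivity) (by linarith)
      (by positivity) (by linarith) f2 (by linarith)
      (mul_le_mul_of_nonneg_right (nY_mono hA hC hN2 k).2.1 hεw.le) (by
        rw [e2 k, ← e1 k]
        have := mul_le_mul_of_nonneg_right (t1 k) hεw.le
        linarith) (by
        rw [e2 k]
        have := mul_le_mul_of_nonneg_right f4 hw0.le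
        linarith) ih i j
    rw [← e1 k] at this
    have h3 := hcl (k + 1) i j
    have h4 := (nP_pos (by omega : 1 ≤ N) k).2.2
    linarith

theorem no_up (hG : Law G) (hf : Flat G e) (a : Coc G e h) {A q c C D₀ : ℝ} (hA : 1 ≤ A)
    (hq : 0 < q) (hq1 : q ≤ 1) (hc : 0 < c) (hC : 0 < C) : ∀ᶠ w : ℝ in atTop, ∀ ε : ℝ, 0 < ε →
      ε ≤ D₀ * w ^ (-(1 / 32) : ℝ) → URec G e h C w ε → ∀ α β : ℝ,
        Pr G {t | ¬e.Ch (h t) t (e.up α (A * (w / 8)) β (w / 8)) (c * ε * (w / 8))} ≤ q := by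
  have he := hf.ok
  have hκ := he.κ3
  obtain ⟨N, ⟨s1, s2⟩, ⟨g, b1, b2⟩, t1, hN⟩ := ((num_sig hA hq hc hC).and ((num_base hA hq hq1).and
    ((num_step hA hq hc hC).and (eventually_ge_atTop (2 ^ 576))))).exists
  have hN5 : 5 ≤ N := le_trans (le_trans (by norm_num : 5 ≤ 2 ^ 3)
    (Nat.pow_le_pow_right two_pos (by norm_num : 3 ≤ 576))) hN
  have hN2 : 2 ≤ N := by omega
  have hS := (nT_facts hA hN2 0).1
  have hS1 := (nT_facts hA hN2 0).2.1
  obtain ⟨Λ₀, E, hΛ₀, hE, cls⟩ := cls_prob hG hf a (α := nS A N / 800) (by positivity) (by linarith)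
  obtain ⟨ζ, hζ, cheap⟩ := a.cheap hG hf
  have hR1 : 1 ≤ N ^ 640 := Nat.one_le_pow _ _ (by omega)
  have hR : (0 : ℝ) < (N ^ 640 : ℕ) := by exact_mod_cast hR1
  have hl0 : nL A N 0 = (N ^ 640 : ℕ) * A / 4 := by rw [nL]
  have hθ : 0 < q * (N ^ 640 : ℕ) * c / 64 := by positivity
  have lim : Tendsto (fun w : ℝ => 48 * (q * (N ^ 640 : ℕ) * c / 64) * (D₀ * w ^ (-(1 / 32) : ℝ)))
      atTop (𝓝 (48 * (q * (N ^ 640 : ℕ) * c / 64) * (D₀ * 0))) :=
    ((tendsto_rpow_neg_atTop (by norm_num : (0 : ℝ) < 1 / 32)).const_mul _).const_mul _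
  rw [mul_zero, mul_zero] at lim
  filter_upwards [num_cls hA hN hE, lim.eventually (eventually_le_nhds hΛ₀),
    eventually_ge_atTop (32 * e.κ)] with w c2 hΛw hw ε hε hεw ur α β
  by_contra H
  rw [not_le] at H
  have hw0 : 0 < w := by linarith
  have hεw' : 0 < ε * w := by positivity
  have hn : ∀ k, 5 ≤ nN N k := fun k => hN5.trans (Nat.le_mul_of_pos_right _ (by positivity))
  have hl : ∀ k, e.κ ≤ nL A N k * w := fun k => by
    have := (nL_ge hA hN2 k).2
    nlinarith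
  have hr := fun k => ur.at hw0 (nL_ge hA hN2 k).2
  have hε' : ∀ k, 0 ≤ C * (1 / nL A N k) ^ (1 / 64 : ℝ) * ε := fun k => by
    have := (nL_ge hA hN2 k).2
    positivity
  have hy := fun k => mul_pos (nY_mono hA hC hN2 k).1 hεw'
  have hs : ∀ a b, q / 4 ≤ Pr G (e.Sig (nL A N 0 * w) (nY A C N 0 * (ε * w))
      (q * (N ^ 640 : ℕ) * c / 64 * (ε * w)) (w / 16) a b) := by
    intro a' b'
    have h1 := a.signal hG he (by linarith) hA (by positivity) hq H hR1 (a' + 3 * (nL A N 0 * w)) b'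
    have e1 : 2 * ((N ^ 640 : ℕ) : ℝ) * A * (w / 8) = nL A N 0 * w := by rw [hl0]; ring
    have e2 : w / 8 / 2 = w / 16 := by ring
    rw [e1, e2] at h1
    have := sig_prob hG he a (θ := q * (N ^ 640 : ℕ) * c / 64 * (ε * w)) (hl 0) (by positivity)
      (by have := (nL_ge hA hN2 0).2; nlinarith) (hε' 0) (hy 0) (hr 0) h1 (by
        have := mul_le_mul_of_nonneg_right s2 hεw'.le
        linarith) (by
        have := mul_le_mul_of_nonneg_right s1 hεw'.le
        linarith)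
    linarith
  have hcl : ∀ (k : ℕ) (i j : ℤ), Pr G {t | ¬∃ φ, e.Cls (nS A N / 800)
      (48 * (q * (N ^ 640 : ℕ) * c / 64) * ε) (nL A N k * w) (nY A C N k * (ε * w)) (nN N k)
      (nN N (k + 1)) i j φ t ∧ ∀ x ∈ e.Sq (i * (nN N (k + 1) * (nN N k * (nL A N k * w))))
        (j * (nN N (k + 1) * (nN N k * (nL A N k * w))))
        (4 * (nN N (k + 1) * (nN N k * (nL A N k * w)))), |φ x - h t x| ≤ 1} ≤ nP N k / 2 := by
    intro k i j
    have h1 := cls _ _ _ _ (nN N k) (nN N (k + 1)) i j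
      ((mul_le_mul_of_nonneg_left hεw (by positivity)).trans hΛw) (hl k) (hε' k) (hy k)
      (by have := hn k; omega) (by have := hn (k + 1); omega) (hr k)
    have h2 := (nY_mono hA hC hN2 k).2.2
    have h3 := c2 k
    have h4 := (nY_mono hA hC hN2 k).1
    have e1 : 288 * ((nN N k : ℝ) * nN N (k + 1)) ^ 2 * (nL A N k * w) *
        (C * (1 / nL A N k) ^ (1 / 64 : ℝ) * ε) / (nY A C N k * (ε * w)) =
        288 * ((nN N k : ℝ) * nN N (k + 1)) ^ 2 * nL A N k * (C * (1 / nL A N k) ^ (1 / 64 : ℝ)) /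
          nY A C N k := by
      field_simp
    rw [e1] at h1
    linarith
  have lev := levels hG he hA hq hq1 hc hC hN5 (by linarith) hε b1 b2 t1 hs
    (fun k i j => by
      refine le_trans (hG.mono ?_) (hcl k i j)
      intro t ht hx
      exact ht (hx.imp fun φ hφ => hφ.1))
  generalize q * ((N ^ 640 : ℕ) : ℝ) * c / 64 = θ at *
  have hΛ : 0 < 48 * θ * ε := by positivity
  generalize 48 * θ * ε = Λ at *
  obtain ⟨lim1, lim2⟩ := nD_lim hA hN2
  have lim3 : Tendsto (fun k => nL A N (k + 2) * w) atTop atTop :=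
    (lim2.comp (tendsto_add_atTop_nat 2)).atTop_mul_const hw0
  have hη : 0 < Λ * nS A N * ζ / 8 := by positivity
  obtain ⟨k, k1, k2, k3⟩ := ((lim3.eventually (cheap _ hη)).and
    ((lim1.eventually (eventually_le_nhds (show 0 < nS A N * ζ / 8 by positivity))).and
      (lim3.eventually (eventually_gt_atTop ((2 + 2 * e.C * Λ) / (Λ * nS A N * ζ / 4)))))).exists
  have e1 : ∀ k, nL A N (k + 1) * w = nN N k * (nL A N k * w) := fun k => by
    rw [nL]; ring
  have e2 : (nN N (k + 1) : ℝ) * (nN N k * (nL A N k * w)) = nL A N (k + 2) * w := by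
    rw [← e1, ← e1]
  have p1 := lev k 0 0
  have p2 := hcl k 0 0
  have p3 := (nP_pos (by omega : 1 ≤ N) k).2.1
  obtain ⟨t, -, ht⟩ := hG.exists_not (lt_of_le_of_lt ((hG.union _ _).trans (add_le_add
    ((hG.union _ _).trans (add_le_add p1 p2)) k1)) (by linarith))
  simp only [mem_union, mem_compl_iff, mem_setOf_eq, not_or, not_not] at ht
  obtain ⟨⟨g1, φ, g2, g3⟩, z, d, z1, z2, z3, z4⟩ := ht
  have g4 := g1.2 φ g2
  rw [e2] at g3 g4
  simp only [Int.cast_zero, zero_mul] at g3 g4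
  have hL := (nL_ge hA hN2 (k + 2)).2
  rw [div_le_iff₀ (by linarith)] at k2
  rw [div_lt_iff₀ (by positivity)] at k3
  have hL0 : 0 < nL A N (k + 2) * w := by positivity
  have hD : nD A N k * w ≤ nS A N * ζ / 8 * (nL A N (k + 2) * w) := by
    have := mul_le_mul_of_nonneg_right k2 hw0.le
    linarith
  generalize nL A N (k + 2) * w = L at *
  have sub : e.Sq 0 0 (2 * L) ⊆ e.Sq 0 0 (4 * L) := fun x hx =>
    ⟨hx.1.trans (by linarith), hx.2.trans (by linarith)⟩
  have g5 := g4 0 z _ (z4.change φ)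
  have m0 := abs_le.1 (g3 0 (sub z4.mem.1))
  have mz := abs_le.1 (g3 z (sub z4.mem.2))
  rw [sub_zero] at g5
  have f1 := (nT_facts hA hN2 k).2.2.2.1
  have f2 : nS A N / 2 * (ζ * L) ≤ nT A N k * e.p z :=
    mul_le_mul f1 z1 (by positivity) (by linarith)
  have f3 : Λ * (nS A N / 2 * (ζ * L) - 2 * e.C - nS A N * ζ / 8 * L) ≤
      Λ * (nT A N k * e.p z - e.q z - nD A N k * w) :=
    mul_le_mul_of_nonneg_left (by linarith) hΛ.le
  nlinarith

theorem no_flat (hG : Law G) (hS : Scal G) (e : Fr) : ¬Flat G e := by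
  intro hf
  obtain ⟨h, a⟩ := hf.coc hG
  obtain ⟨D, hD, rec⟩ := a.record hG hS hf
  obtain ⟨A, q, c, hA, hq, hq1, hc, pos⟩ := hG.posit (c₀ := 1 / 64) (C := 4) (by norm_num)
    (by norm_num)
  obtain ⟨w₁, hw₁⟩ := eventually_atTop.1 ((no_up (D₀ := D) hG hf a hA hq hq1 hc four_pos).and
    ((no_up (D₀ := D) hG hf.swap a.swap hA hq hq1 hc four_pos).and (eventually_ge_atTop (8 * e.κ))))
  obtain ⟨w, ε, h1, h2, h3, h4, h5, h6⟩ := rec w₁
  obtain ⟨u1, u2, u3⟩ := hw₁ w h1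
  have e1 : 8 * (w / 8) = w := by ring
  have e2 : 256 * (w / 8) = 32 * w := by ring
  refine pos e h hf.ok a (w / 8) ε (by linarith) h2 (by rwa [e1]) (by rwa [e1]) (by rwa [e2])
    fun α β => ⟨u1 ε h2 h6 h4 α β, u2 ε h2 h6 h4.swap α β⟩

theorem strict {κ r : ℝ} (hκ : 0 < κ) (hr : 0 < r) {μ : ℝ × ℝ → ℝ}
    (hμ : ∀ v : ℝ × ℝ, ∀ᵐ t ∂iidLaw (gammaMeasure κ r),
      Tendsto (fun s : ℝ => passageTime t (0, 0) (⌊s * v.1⌋, ⌊s * v.2⌋) / s) atTop (𝓝 (μ v))) :
    StrictConvex ℝ {v : ℝ × ℝ | μ v ≤ 1} := by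
  by_contra H
  obtain ⟨h1, h2, h3⟩ := (gamma_Law hκ hr).mu hμ
  obtain ⟨e, he⟩ := flat_of h1 h2 h3 H
  exact no_flat (gamma_Law hκ hr) (gamma_Scal hκ hr) e he

end

end Crest.Agent.R151.B
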