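import Crest.Agent.R151.DDefs
import Crest.Agent.R151.Cross
import Crest.Agent.R151.B8b

set_option autoImplicit false

open MeasureTheory ProbabilityTheory Set Filter Topology
open scoped ENNReal
open Crest.ProbabilityR.FirstPassage

namespace Crest.Agent.R151.B

noncomputable section

/-! the central coordinates -/

variable {e : Fr} {G : Measure ℝ} {h : Env → Z2 → ℝ}

theorem Fr.P_apply (e : Fr) (x : Z2) : e.P x = 2 * e.q x - e.p x := by
  simp [Fr.P, two_mul]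
theorem Fr.Y_apply (e : Fr) (x : Z2) : e.Y x = 2 * e.p x - e.q x := by
  simp [Fr.Y, two_mul]
theorem Fr.swap_P (e : Fr) : e.swap.P = e.Y := rfl
theorem Fr.swap_Y (e : Fr) : e.swap.Y = e.P := rfl
theorem Fr.swap_hor (e : Fr) : e.swap.hor = e.ver := rfl
theorem Fr.swap_ver (e : Fr) : e.swap.ver = e.hor := rfl
theorem Fr.swap_up (e : Fr) : e.swap.up = e.dn := rfl
theorem Fr.swap_dn (e : Fr) : e.swap.dn = e.up := rfl
theorem Fr.swap_κ (e : Fr) : e.swap.κ = e.κ := rfl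
theorem Fr.swap_ds (e : Fr) (x : Z2) : e.swap.ds x = e.ds x := max_comm _ _
theorem Fr.ds_nonneg (e : Fr) (x : Z2) : 0 ≤ e.ds x := le_max_of_le_left (abs_nonneg _)
theorem Fr.ds_zero (e : Fr) : e.ds 0 = 0 := by
  show max |e.P 0| |e.Y 0| = 0
  rw [map_zero, map_zero, abs_zero, max_self]
theorem Fr.ds_neg (e : Fr) (x : Z2) : e.ds (-x) = e.ds x := by
  show max |e.P (-x)| |e.Y (-x)| = max |e.P x| |e.Y x|
  rw [map_neg, map_neg, abs_neg, abs_neg]
theorem Fr.ds_add (e : Fr) (x y : Z2) : e.ds (x + y) ≤ e.ds x + e.ds y := by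
  show max |e.P (x + y)| |e.Y (x + y)| ≤ max |e.P x| |e.Y x| + max |e.P y| |e.Y y|
  rw [map_add, map_add]
  exact max_le ((abs_add_le _ _).trans (add_le_add (le_max_left _ _) (le_max_left _ _)))
    ((abs_add_le _ _).trans (add_le_add (le_max_right _ _) (le_max_right _ _)))
theorem Fr.ds_pq (e : Fr) (x : Z2) :
    |e.p x| ≤ e.ds x ∧ |e.q x| ≤ e.ds x ∧ e.ds x ≤ 3 * max |e.p x| |e.q x| := by
  have h1 : |e.P x| ≤ e.ds x := le_max_left _ _
  have h2 : |e.Y x| ≤ e.ds x := le_max_right _ _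
  have h3 := abs_le.1 (le_max_left |e.p x| |e.q x|)
  have h4 := abs_le.1 (le_max_right |e.p x| |e.q x|)
  have e1 := e.P_apply x
  have e2 := e.Y_apply x
  rw [abs_le] at h1 h2
  refine ⟨abs_le.2 ⟨by linarith [h1.1, h2.1], by linarith [h1.2, h2.2]⟩,
    abs_le.2 ⟨by linarith [h1.1, h2.1], by linarith [h1.2, h2.2]⟩, max_le ?_ ?_⟩
  · exact abs_le.2 ⟨by linarith [h3.2, h4.1], by linarith [h3.1, h4.2]⟩
  · exact abs_le.2 ⟨by linarith [h3.1, h4.2], by linarith [h3.2, h4.1]⟩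
theorem Fr.OK.κ3 (he : e.OK) : 3 ≤ e.κ := by
  show 3 ≤ 3 * e.C
  linarith [he.C1]
theorem Fr.OK.step_ds (he : e.OK) (x : Z2) : e.ds x ≤ e.κ * n1 x := by
  have h1 := (e.ds_pq x).2.2
  have h2 := max_le (he.up x).1 (he.up x).2
  show e.ds x ≤ 3 * e.C * n1 x
  linarith
theorem Fr.OK.step (he : e.OK) {u v : Z2} (a : squareLattice.Adj u v) :
    |e.P v - e.P u| ≤ e.κ ∧ |e.Y v - e.Y u| ≤ e.κ ∧ |e.p v - e.p u| ≤ e.κ ∧ |e.q v - e.q u| ≤ e.κ ∧
      ∀ x, |e.ds (v - x) - e.ds (u - x)| ≤ e.κ := by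
  have h1 := he.step_ds (v - u)
  rw [adj_iff.1 a, mul_one] at h1
  rw [← map_sub, ← map_sub, ← map_sub, ← map_sub]
  refine ⟨(le_max_left _ _).trans h1, (le_max_right _ _).trans h1, (e.ds_pq _).1.trans h1,
    (e.ds_pq _).2.1.trans h1, fun x => abs_le.2 ⟨?_, ?_⟩⟩
  · have h2 := e.ds_add (v - x) (-(v - u))
    rw [e.ds_neg, show v - x + -(v - u) = u - x by abel] at h2
    linarith
  · have h2 := e.ds_add (u - x) (v - u)
    rw [show u - x + (v - u) = v - x by abel] at h2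
    linarith
theorem Fr.OK.n1_ds (he : e.OK) (x : Z2) : n1 x ≤ e.κ * e.ds x ∧ e.ds x ≤ e.κ * n1 x := by
  refine ⟨(he.dn x).trans ?_, he.step_ds x⟩
  obtain ⟨h1, h2, -⟩ := e.ds_pq x
  have h3 := e.ds_nonneg x
  have h4 : 0 ≤ e.C := by linarith [he.C1]
  have h5 := mul_le_mul_of_nonneg_left (show |e.p x| + |e.q x| ≤ 3 * e.ds x by linarith) h4
  show _ ≤ 3 * e.C * e.ds x
  linarith
theorem Fr.OK.denP (he : e.OK) (α β : ℝ) : ∃ x, |e.P x - α| ≤ e.κ ∧ |e.Y x - β| ≤ e.κ := by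
  obtain ⟨x, h1, h2⟩ := he.den ((α + 2 * β) / 3) ((2 * α + β) / 3)
  rw [abs_le] at h1 h2
  have e1 := e.P_apply x
  have e2 := e.Y_apply x
  have e3 : e.κ = 3 * e.C := rfl
  exact ⟨x, abs_le.2 ⟨by linarith [h1.2, h2.1], by linarith [h1.1, h2.2]⟩,
    abs_le.2 ⟨by linarith [h1.1, h2.2], by linarith [h1.2, h2.1]⟩⟩
theorem Fr.OK.denp (he : e.OK) (α β : ℝ) : ∃ x, |e.p x - α| ≤ e.κ ∧ |e.q x - β| ≤ e.κ := by
  obtain ⟨x, h1, h2⟩ := he.den α β
  have e3 : e.κ = 3 * e.C := rfl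
  have := he.C1
  exact ⟨x, by linarith, by linarith⟩
theorem crD_symm {g k : Z2 →+ ℝ} (a : crD g k ≠ 0) : crD k g ≠ 0 := by
  have e1 : crD k g = -crD g k := by
    simp only [crD]
    ring
  rw [e1]
  exact neg_ne_zero.2 a
theorem crD_neg {g k : Z2 →+ ℝ} (a : crD g k ≠ 0) : crD (-g) (-k) ≠ 0 ∧ crD g (-k) ≠ 0 ∧
    crD (-g) k ≠ 0 := by
  have e1 : crD (-g) (-k) = crD g k := by
    simp only [crD, AddMonoidHom.neg_apply]
    ring
  have e2 : crD g (-k) = -crD g k := by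
    simp only [crD, AddMonoidHom.neg_apply]
    ring
  have e3 : crD (-g) k = -crD g k := by
    simp only [crD, AddMonoidHom.neg_apply]
    ring
  rw [e1, e2, e3]
  exact ⟨a, neg_ne_zero.2 a, neg_ne_zero.2 a⟩
theorem Fr.OK.ind_lin (g : Z2 →+ ℝ) (x : Z2) : g x = x.1 * g (1, 0) + x.2 * g (0, 1) := by
  have e1 : x = x.1 • ((1, 0) : Z2) + x.2 • ((0, 1) : Z2) := by
    ext <;> simp
  conv_lhs => rw [e1]
  rw [map_add, map_zsmul, map_zsmul, zsmul_eq_mul, zsmul_eq_mul]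
theorem Fr.OK.ind_pq (he : e.OK) : crD e.p e.q ≠ 0 := by
  intro h0
  have h1 : ∀ x, e.q (1, 0) * e.p x - e.p (1, 0) * e.q x = 0 := fun x => by
    have h2 : e.p (1, 0) * e.q (0, 1) - e.p (0, 1) * e.q (1, 0) = 0 := h0
    rw [Fr.OK.ind_lin e.p x, Fr.OK.ind_lin e.q x]
    linear_combination (-x.2 : ℝ) * h2
  have h2 := he.dn (1, 0)
  have h3 : n1 (1, 0) = 1 := by simp [n1]
  rw [h3] at h2
  set a := e.p (1, 0)
  set b := e.q (1, 0)
  have h4 : 0 < a ^ 2 + b ^ 2 := by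
    by_contra hn
    have ha : a = 0 := by nlinarith [sq_nonneg a, sq_nonneg b]
    have hb : b = 0 := by nlinarith [sq_nonneg a, sq_nonneg b]
    rw [ha, hb, abs_zero, add_zero, mul_zero] at h2
    linarith
  set l := (e.C * (|a| + |b|) + 1) / (a ^ 2 + b ^ 2) with hl
  have h5 : l * (a ^ 2 + b ^ 2) = e.C * (|a| + |b|) + 1 := div_mul_cancel₀ _ h4.ne'
  obtain ⟨x, h6, h7⟩ := he.den (l * b) (-(l * a))
  have h8 := (neg_abs_le _).trans' (neg_le_neg ((abs_mul b (e.p x - l * b)).trans_le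
    (mul_le_mul_of_nonneg_left h6 (abs_nonneg b))))
  have h9 := (le_abs_self _).trans ((abs_mul a (e.q x - -(l * a))).trans_le
    (mul_le_mul_of_nonneg_left h7 (abs_nonneg a)))
  have h10 := h1 x
  linarith
theorem Fr.OK.ind (he : e.OK) :
    crD e.P e.Y ≠ 0 ∧ crD e.p e.q ≠ 0 ∧ crD e.p e.Y ≠ 0 ∧ crD e.q e.Y ≠ 0 := by
  have h0 := he.ind_pq
  have e1 : crD e.P e.Y = -3 * crD e.p e.q := by
    simp only [crD, Fr.P_apply, Fr.Y_apply]
    ring
  have e2 : crD e.p e.Y = -crD e.p e.q := by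
    simp only [crD, Fr.Y_apply]
    ring
  have e3 : crD e.q e.Y = -2 * crD e.p e.q := by
    simp only [crD, Fr.Y_apply]
    ring
  rw [e1, e2, e3]
  exact ⟨mul_ne_zero (by norm_num) h0, h0, neg_ne_zero.2 h0, mul_ne_zero (by norm_num) h0⟩
theorem Fr.OK.swap (he : e.OK) : e.swap.OK := by
  refine ⟨he.C1, fun x => (he.up x).symm, fun x => ?_, fun a b => ?_⟩
  · exact (he.dn x).trans_eq (congrArg (e.C * ·) (add_comm _ _))
  · obtain ⟨x, h⟩ := he.den b a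
    exact ⟨x, h.symm⟩
theorem Fr.OK.Bx_fin (he : e.OK) (p₁ p₂ q₁ q₂ : ℝ) : (e.Bx p₁ p₂ q₁ q₂).Finite := by
  have hκ : 0 ≤ e.κ := by linarith [he.κ3]
  obtain ⟨F, hF, -⟩ := ball_fin 0 (ρ := e.κ * (|p₁| + |p₂| + |q₁| + |q₂|)) (by positivity)
  refine F.finite_toSet.subset fun x ⟨h1, h2, h3, h4⟩ => (hF x).2 ?_
  rw [sub_zero]
  refine (he.n1_ds x).1.trans (mul_le_mul_of_nonneg_left (max_le (abs_le.2 ⟨?_, ?_⟩)
    (abs_le.2 ⟨?_, ?_⟩)) hκ)
  · linarith [neg_abs_le p₁, abs_nonneg p₂, abs_nonneg q₁, abs_nonneg q₂]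
  · linarith [le_abs_self p₂, abs_nonneg p₁, abs_nonneg q₁, abs_nonneg q₂]
  · linarith [neg_abs_le q₁, abs_nonneg p₁, abs_nonneg p₂, abs_nonneg q₂]
  · linarith [le_abs_self q₂, abs_nonneg p₁, abs_nonneg p₂, abs_nonneg q₁]
theorem Fr.OK.Sq_fin (he : e.OK) (α β r : ℝ) : (e.Sq α β r).Finite := by
  refine (he.Bx_fin (α - r) (α + r) (β - r) (β + r)).subset fun x ⟨h1, h2⟩ => ?_
  rw [abs_le] at h1 h2
  exact ⟨by linarith [h1.1], by linarith [h1.2], by linarith [h2.1], by linarith [h2.2]⟩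
theorem Flat.swap (a : Flat G e) : Flat G e.swap := by
  refine ⟨a.ok.swap, fun x => (add_comm _ _).trans_le (a.low x), fun η hη => ?_, fun α hα => ?_⟩
  · obtain ⟨B, hB⟩ := a.tight η hη
    refine ⟨B, fun x h1 h2 => (hB x h2 h1).trans_eq ?_⟩
    rw [add_comm (e.p x)]
    rfl
  · obtain ⟨ω, hω, h⟩ := a.out α hα
    refine ⟨ω, hω, fun x hx => ?_⟩
    rw [e.swap_ds, min_comm] at hx
    rw [e.swap_ds, add_comm (e.swap.p x)]
    exact h x hx
theorem Coc.swap (a : Coc G e h) : Coc G e.swap h := by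
  exact ⟨a.meas, a.int, a.pot, a.sh, fun x => (a.mean x).trans (add_comm _ _)⟩
theorem Rate.swap {w ε : ℝ} (a : Rate G e h w ε) : Rate G e.swap h w ε :=
  fun α β m hm => (a α β m hm).symm
theorem URec.swap {C w ε : ℝ} (a : URec G e h C w ε) : URec G e.swap h C w ε :=
  fun L hL => (a L hL).swap
theorem EQ.swap {u A y q : ℝ} (a : EQ G e h u A y q) : EQ G e.swap h u A y q :=
  fun α β => (a α β).symm

end

end Crest.Agent.R151.B
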