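import Crest.Agent.R151.D1a

set_option autoImplicit false

open MeasureTheory ProbabilityTheory Set Filter Topology
open scoped ENNReal
open Crest.ProbabilityR.FirstPassage

namespace Crest.Agent.R151.B

noncomputable section

/-! excess of walks, crossings of lanes -/

variable {φ ψ : Z2 → ℝ} {S S' : Set Z2} {t t' : Env} {x y z : Z2} {c c' d d' : ℝ} {L L' : Lane}

theorem PS.nn (h : PS t) : NN t := fun e => (h e).le
theorem Pot.mono (h : Pot φ S t) (hS : S' ⊆ S) : Pot φ S' t :=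
  fun u hu v hv a => h u (hS hu) v (hS hv) a
theorem Pot.le (h : Pot φ S t) (r : Rch S t x y c) : φ y - φ x ≤ c := by
  obtain ⟨w, hw, rfl⟩ := r
  induction w with
  | nil => simp [walkCost]
  | @cons u v y' a w ih =>
    have h1 := ih fun z hz => hw z (by simp [hz])
    have h2 := h u (hw u (by simp)) v (hw v (by simp)) a
    simp only [walkCost, SimpleGraph.Walk.edges_cons, List.map_cons, List.sum_cons] at h1 ⊢
    linarith
theorem Pot.neg (h : Pot φ S t) : Pot (fun x => -φ x) S t := by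
  intro u hu v hv a
  have := h v hv u hu a.symm
  rw [Sym2.eq_swap] at this
  linarith
theorem Rch.ex (φ : Z2 → ℝ) (r : Rch S t x y c) : Ex φ S t x y (c - (φ y - φ x)) := by
  unfold Ex
  rwa [add_sub_cancel]
theorem Ex.mono (h : Ex φ S t x y d) (hS : S ⊆ S') : Ex φ S' t x y d := Rch.mono h hS
theorem Ex.mem (h : Ex φ S t x y d) : x ∈ S ∧ y ∈ S := Rch.mem h
theorem Ex.refl (φ : Z2 → ℝ) (t : Env) (h : x ∈ S) : Ex φ S t x x 0 := by
  unfold Ex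
  rw [sub_self, add_zero]
  exact Rch.refl t h
theorem Ex.trans (h : Ex φ S t x y d) (h' : Ex φ S t y z d') : Ex φ S t x z (d + d') := by
  unfold Ex
  rw [show φ z - φ x + (d + d') = φ y - φ x + d + (φ z - φ y + d') by ring]
  exact Rch.trans h h'
theorem Ex.nonneg (h : Ex φ S t x y d) (p : Pot φ S t) : 0 ≤ d := by
  have := p.le h
  linarith
theorem Ex.change (ψ : Z2 → ℝ) (h : Ex φ S t x y d) :
    Ex ψ S t x y (d + (φ y - φ x) - (ψ y - ψ x)) := by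
  exact Rch.ex ψ (by rw [add_comm]; exact h)
/-- another potential grows by at most `d` more -/
theorem Ex.le (h : Ex φ S t x y d) (p : Pot ψ S t) : ψ y - ψ x ≤ φ y - φ x + d := p.le h
theorem Ex.rev (h : Ex φ S t x y d) : Ex (fun x => -φ x) S t y x d := by
  unfold Ex
  rw [show -φ x - -φ y + d = φ y - φ x + d by ring]
  exact Rch.symm h
theorem Ex.confine (h : Ex φ S t x y d)
    (hz : ∀ z d₁ d₂, Ex φ S t x z d₁ → Ex φ S t z y d₂ → d₁ + d₂ = d → z ∈ S') :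
    Ex φ (S ∩ S') t x y d := by
  exact Rch.confine h fun z c₁ c₂ h1 h2 e => hz z _ _ (h1.ex φ) (h2.ex φ) (by linarith)
theorem Ex.ivt {f : Z2 → ℝ} {C α : ℝ} (hC : 0 ≤ C)
    (hf : ∀ u v, squareLattice.Adj u v → |f v - f u| ≤ C) (h : Ex φ S t x y d) (hx : f x ≤ α)
    (hy : α ≤ f y) : ∃ z d₁ d₂, Ex φ (S ∩ {u | f u ≤ α + C}) t x z d₁ ∧ Ex φ S t z y d₂ ∧
      d₁ + d₂ = d ∧ α ≤ f z ∧ f z ≤ α + C := by
  obtain ⟨z, c₁, c₂, h1, h2, e, h3⟩ := Rch.ivt hC hf h hx hy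
  exact ⟨z, _, _, h1.ex φ, h2.ex φ, by linarith, h3⟩
/-- the same from the end of the walk -/
theorem Ex.ivt' {f : Z2 → ℝ} {C α : ℝ} (hC : 0 ≤ C)
    (hf : ∀ u v, squareLattice.Adj u v → |f v - f u| ≤ C) (h : Ex φ S t x y d) (hx : α ≤ f x)
    (hy : f y ≤ α) : ∃ z d₁ d₂, Ex φ S t x z d₁ ∧ Ex φ (S ∩ {u | f u ≤ α + C}) t z y d₂ ∧
      d₁ + d₂ = d ∧ α ≤ f z ∧ f z ≤ α + C := by
  obtain ⟨z, c₁, c₂, h1, h2, e, h3⟩ := Rch.ivt hC hf (Rch.symm h) hy hx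
  exact ⟨z, _, _, h2.symm.ex φ, h1.symm.ex φ, by linarith, h3⟩
/-- `Rch.cross` -/
theorem Ex.cross {g k : Z2 →+ ℝ} (hD : crD g k ≠ 0) {x' y' : Z2} {a₀ a₁ b₀ b₁ : ℝ}
    (h : Ex φ S t x y d) (h' : Ex ψ S' t' x' y' d') (hS : ∀ z ∈ S, b₀ ≤ k z ∧ k z ≤ b₁)
    (hx : g x ≤ a₀) (hy : a₁ ≤ g y) (hS' : ∀ z ∈ S', a₀ ≤ g z ∧ g z ≤ a₁) (hx' : k x' ≤ b₀)
    (hy' : b₁ ≤ k y') : ∃ z d₁ d₂ d₁' d₂', Ex φ S t x z d₁ ∧ Ex φ S t z y d₂ ∧ d₁ + d₂ = d ∧
      Ex ψ S' t' x' z d₁' ∧ Ex ψ S' t' z y' d₂' ∧ d₁' + d₂' = d' := by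
  obtain ⟨z, c₁, c₂, c₁', c₂', k1, k2, k3, l1, l2, l3⟩ := Rch.cross hD h h'
    (fun z hz => ⟨hx'.trans (hS z hz).1, (hS z hz).2.trans hy'⟩)
    fun z hz => ⟨hx.trans (hS' z hz).1, (hS' z hz).2.trans hy⟩
  exact ⟨z, _, _, _, _, k1.ex φ, k2.ex φ, by linarith, l1.ex ψ, l2.ex ψ, by linarith⟩
theorem Rch.ge_of_ne {δ : ℝ} (hδ : 0 ≤ δ)
    (h : ∀ u ∈ S, ∀ v ∈ S, squareLattice.Adj u v → δ ≤ t s(u, v)) (hne : x ≠ y)
    (r : Rch S t x y c) : δ ≤ c := by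
  obtain ⟨w, hw, rfl⟩ := r
  have key : 0 ≤ walkCost t w ∧ (x ≠ y → δ ≤ walkCost t w) := by
    clear hne
    induction w with
    | nil => simp [walkCost]
    | @cons u v y' a w ih =>
      have h1 := (ih fun z hz => hw z (by simp [hz])).1
      have h2 := h u (hw u (by simp)) v (hw v (by simp)) a
      simp only [walkCost, SimpleGraph.Walk.edges_cons, List.map_cons, List.sum_cons] at h1 ⊢
      exact ⟨by linarith, fun _ => by linarith⟩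
  exact key.2 hne
theorem PS.lower (h : PS t) (hS : S.Finite) :
    ∃ δ : ℝ, 0 < δ ∧ ∀ u ∈ S, ∀ v ∈ S, δ ≤ t s(u, v) := by
  rcases S.eq_empty_or_nonempty with rfl | ⟨a, ha⟩
  · exact ⟨1, one_pos, fun u hu => hu.elim⟩
  · obtain ⟨p, -, hp⟩ := Set.exists_min_image (S ×ˢ S) (fun p : Z2 × Z2 => t s(p.1, p.2))
      (hS.prod hS) ⟨(a, a), ha, ha⟩
    exact ⟨_, h s(p.1, p.2), fun u hu v hv => hp (u, v) ⟨hu, hv⟩⟩
theorem Rch.le_env (r : Rch S t x y c) (h : ∀ e, t' e ≤ t e) : ∃ c', c' ≤ c ∧ Rch S t' x y c' := by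
  obtain ⟨w, hw, rfl⟩ := r
  exact ⟨walkCost t' w, List.sum_le_sum fun e _ => h e, w, hw, rfl⟩
theorem Chp.mono (h : Chp c φ t L d) (hd : d ≤ d') : Chp c φ t L d' := by
  obtain ⟨x, z, e, h1, h2⟩ := h
  exact ⟨x, z, e, h1.trans hd, h2⟩
/-- trimming: `Ex.ivt` at level `α + m`, then `Ex.ivt'` for `-g` at level `-α` -/
theorem Ex.trim (h : Ex φ S t x y d) (p : Pot φ S t) (hc : 0 ≤ c)
    (hg : ∀ u v, squareLattice.Adj u v → |L.g v - L.g u| ≤ c) (hm : 0 ≤ L.m)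
    (hS : ∀ u ∈ S, L.β ≤ L.k u ∧ L.k u ≤ L.β + L.w) (hx : L.g x ≤ L.α) (hy : L.α + L.m ≤ L.g y) :
    Chp c φ t L d := by
  obtain ⟨z, d₁, d₂, e₁, e₂, hd, hz, -⟩ := h.ivt (f := L.g) (α := L.α + L.m) hc hg (by linarith) hy
  obtain ⟨z', d₃, d₄, e₃, e₄, hd', hz', -⟩ := e₁.ivt' (f := fun u => -L.g u) (α := -L.α) hc
    (fun u v a => by rw [neg_sub_neg, abs_sub_comm]; exact hg u v a) (neg_le_neg hx)
    (neg_le_neg (by linarith))
  have n₂ := e₂.nonneg p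
  have n₃ := e₃.nonneg (p.mono inter_subset_left)
  refine ⟨z', z, d₄, by linarith, neg_le_neg_iff.1 hz', hz, e₄.mono ?_⟩
  rintro u ⟨⟨hu, h1⟩, h2⟩
  have h1' : L.g u ≤ L.α + L.m + c := h1
  have h2' : -L.g u ≤ -L.α + c := h2
  exact ⟨by linarith, h1', hS u hu⟩
/-- shorter and wider lanes -/
theorem Chp.sub (h : Chp c φ t L d) (p : Pot φ (L.S c) t) (hc : 0 ≤ c)
    (hg : ∀ u v, squareLattice.Adj u v → |L.g v - L.g u| ≤ c) (e1 : L'.g = L.g) (e2 : L'.k = L.k)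
    (hm : 0 ≤ L'.m) (h1 : L.α ≤ L'.α) (h2 : L'.α + L'.m ≤ L.α + L.m) (h3 : L'.β ≤ L.β)
    (h4 : L.β + L.w ≤ L'.β + L'.w) : Chp c φ t L' d := by
  obtain ⟨x, z, e, hd, hx, hz, he⟩ := h
  refine (he.trim p hc (by rw [e1]; exact hg) hm (fun u hu => ?_) (by rw [e1]; linarith)
    (by rw [e1]; linarith)).mono hd
  rw [e2]
  exact ⟨h3.trans hu.2.2.1, hu.2.2.2.trans h4⟩
theorem Chp.split_aux (p : Pot φ S t) (hc : 0 ≤ c)
    (hg : ∀ u v, squareLattice.Adj u v → |L.g v - L.g u| ≤ c)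
    (hS : ∀ u ∈ S, L.β ≤ L.k u ∧ L.k u ≤ L.β + L.w) {m : ℝ} (hm : 0 ≤ m) (n : ℕ) :
    ∀ (a d : ℝ) (x : Z2), Ex φ S t x y d → L.g x ≤ a → a + n * (m + c) ≤ L.g y →
      ∃ f : ℕ → ℝ, (∀ i, 0 ≤ f i) ∧ ∑ i ∈ Finset.range n, f i ≤ d ∧
        ∀ i, i < n → Chp c φ t ⟨L.g, L.k, a + i * (m + c), m, L.β, L.w⟩ (f i) := by
  induction n with
  | zero =>
    intro a d x h _ _
    exact ⟨fun _ => 0, fun _ => le_rfl, by simpa using h.nonneg p, fun i hi => absurd hi (by omega)⟩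
  | succ n ih =>
    intro a d x h hx hy
    have hn : (0 : ℝ) ≤ n * (m + c) := by positivity
    push_cast at hy
    obtain ⟨z, d₁, d₂, e₁, e₂, hd, hz, hz'⟩ := h.ivt (f := L.g) (α := a + m) hc hg (by linarith)
      (by linarith)
    obtain ⟨f, f0, f1, f2⟩ := ih (a + (m + c)) d₂ z e₂ (by linarith) (by linarith)
    have e₁' : Ex φ S t x z d₁ := e₁.mono inter_subset_left
    refine ⟨fun i => Nat.rec d₁ (fun j _ => f j) i, fun i => ?_, ?_, fun i hi => ?_⟩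
    · cases i with
      | zero => exact e₁'.nonneg p
      | succ j => exact f0 j
    · rw [Finset.sum_range_succ']
      show ∑ i ∈ Finset.range n, f i + d₁ ≤ d
      linarith
    · cases i with
      | zero =>
        refine Ex.trim (L := ⟨L.g, L.k, a + (0 : ℕ) * (m + c), m, L.β, L.w⟩) e₁' p hc hg hm hS ?_ ?_
        · simpa using hx
        · simpa using hz
      | succ j =>
        have := f2 j (by omega)
        rw [show a + (m + c) + j * (m + c) = a + ((j + 1 : ℕ) : ℝ) * (m + c) by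
          push_cast; ring] at this
        exact this
/-- consecutive pieces (induction on `n`, `Ex.ivt`, `Ex.trim`) -/
theorem Chp.split (h : Chp c φ t L d) (p : Pot φ (L.S c) t) (hc : 0 ≤ c)
    (hg : ∀ u v, squareLattice.Adj u v → |L.g v - L.g u| ≤ c) {n : ℕ} {m : ℝ} (hm : 0 ≤ m)
    (hn : n * (m + c) ≤ L.m) : ∃ f : ℕ → ℝ, (∀ i, 0 ≤ f i) ∧ ∑ i ∈ Finset.range n, f i ≤ d ∧
      ∀ i, i < n → Chp c φ t ⟨L.g, L.k, L.α + i * (m + c), m, L.β, L.w⟩ (f i) := by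
  obtain ⟨x, z, e, hd, hx, hz, he⟩ := h
  obtain ⟨f, f0, f1, f2⟩ := Chp.split_aux p hc hg (fun u hu => hu.2.2) hm n L.α e x he hx
    (by linarith)
  exact ⟨f, f0, f1.trans hd, f2⟩
theorem Chp.approx {η : ℝ} (h : Chp c φ t L d) (a : ∀ x ∈ L.S c, |ψ x - φ x| ≤ η) :
    Chp c ψ t L (d + 2 * η) := by
  obtain ⟨x, z, e, hd, hx, hz, he⟩ := h
  have h1 := abs_le.1 (a x he.mem.1)
  have h2 := abs_le.1 (a z he.mem.2)
  exact ⟨x, z, _, by linarith, hx, hz, he.change ψ⟩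
/-- `(1 - τ) φ` has slack `τ δ` on every edge of `S` (if the increment of `φ` is negative the slack
is `δ`); round it to rationals on the finite set `S` -/
theorem rat_approx (hS : S.Finite) (ht : PS t) (p : Pot φ S t) {η : ℝ} (hη : 0 < η) :
    ∃ ψ, Rt ψ ∧ Pot ψ S t ∧ ∀ x ∈ S, |ψ x - φ x| ≤ η := by
  classical
  obtain ⟨δ, hδ, h1⟩ := ht.lower hS
  obtain ⟨M, hM⟩ := (hS.image fun x => |φ x|).bddAbove
  obtain ⟨τ, hτ, hτ1, hτ2⟩ : ∃ τ : ℝ, 0 < τ ∧ τ ≤ 1 ∧ τ * (|M| + 1) ≤ η / 2 :=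
    ⟨min 1 (η / 2 / (|M| + 1)), by positivity, min_le_left _ _,
      (le_div_iff₀ (by positivity)).1 (min_le_right _ _)⟩
  have hρ : 0 < min (η / 2) (τ * δ / 2) := by positivity
  choose q hq using fun x => exists_rat_near ((1 - τ) * φ x) hρ
  refine ⟨fun x => ((if x ∈ S then q x else 0 : ℚ) : ℝ),
    ⟨Finsupp.onFinset hS.toFinset (fun x => if x ∈ S then q x else 0) fun x hx => ?_,
      fun x => rfl⟩, fun u hu v hv a => ?_, fun x hx => ?_⟩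
  · exact hS.mem_toFinset.2 (by_contra fun h => hx (if_neg h))
  · have a1 := abs_lt.1 ((hq u).trans_le (min_le_right _ _))
    have a2 := abs_lt.1 ((hq v).trans_le (min_le_right _ _))
    have a3 := mul_le_mul_of_nonneg_left (p u hu v hv a) (sub_nonneg.2 hτ1)
    have a4 := mul_le_mul_of_nonneg_left (h1 u hu v hv) hτ.le
    simp only [if_pos hu, if_pos hv]
    linarith [a1.1, a1.2, a2.1, a2.2]
  · have a1 := abs_lt.1 ((hq x).trans_le (min_le_left _ _))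
    have a2 : |φ x| ≤ |M| + 1 :=
      (hM (mem_image_of_mem _ hx)).trans ((le_abs_self M).trans (by linarith))
    have a3 := mul_le_mul_of_nonneg_left (abs_le.1 a2).1 hτ.le
    have a4 := mul_le_mul_of_nonneg_left (abs_le.1 a2).2 hτ.le
    simp only [if_pos hx]
    exact abs_le.2 ⟨by linarith [a1.1, a1.2], by linarith [a1.1, a1.2]⟩
theorem WL_le (h : Chp c φ t L d) : WL c φ t L ≤ ENNReal.ofReal d := iInf₂_le d h
theorem Chp.of_lt (h : WL c φ t L < ENNReal.ofReal d) : Chp c φ t L d := by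
  obtain ⟨y, hy⟩ := iInf_lt_iff.1 h
  obtain ⟨h1, h2⟩ := iInf_lt_iff.1 hy
  exact h1.mono (not_lt.1 fun a => h2.not_ge (ENNReal.ofReal_le_ofReal a.le))
theorem WL_mono (h : ∀ d, Chp c φ t L d → Chp c' ψ t' L' d) : WL c' ψ t' L' ≤ WL c φ t L :=
  le_iInf₂ fun d hd => WL_le (h d hd)
/-- the tool for inequalities between finite sums of `WL` -/
theorem le_WL_add {X : ℝ≥0∞} {L₁ L₂ : Lane} {y : ℝ} (hy : 0 ≤ y)
    (h : ∀ d₁ d₂, 0 ≤ d₁ → 0 ≤ d₂ → Chp c φ t L₁ d₁ → Chp c ψ t L₂ d₂ →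
      X ≤ ENNReal.ofReal (d₁ + d₂ + y)) :
    X ≤ WL c φ t L₁ + WL c ψ t L₂ + ENNReal.ofReal y := by
  simp only [WL, ENNReal.iInf_add, ENNReal.add_iInf, le_iInf_iff]
  intro d₂ h₂ d₁ h₁
  refine (h (max d₁ 0) (max d₂ 0) (le_max_right _ _) (le_max_right _ _) (h₁.mono (le_max_left _ _))
    (h₂.mono (le_max_left _ _))).trans (le_of_eq ?_)
  rw [ENNReal.ofReal_add (add_nonneg (le_max_right _ _) (le_max_right _ _)) hy,
    ENNReal.ofReal_add (le_max_right _ _) (le_max_right _ _)]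
  simp [ENNReal.ofReal_max]
theorem WL_split (p : Pot φ univ t) (hc : 0 ≤ c)
    (hg : ∀ u v, squareLattice.Adj u v → |L.g v - L.g u| ≤ c) {n : ℕ} {m : ℝ} (hm : 0 ≤ m)
    (hn : n * (m + c) ≤ L.m) :
    ∑ i ∈ Finset.range n, WL c φ t ⟨L.g, L.k, L.α + i * (m + c), m, L.β, L.w⟩ ≤ WL c φ t L := by
  refine le_iInf₂ fun d hd => ?_
  obtain ⟨f, h0, h1, h2⟩ := hd.split (p.mono (subset_univ _)) hc hg hm hn
  refine (Finset.sum_le_sum fun i hi => WL_le (h2 i (Finset.mem_range.1 hi))).trans ?_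
  rw [← ENNReal.ofReal_sum_of_nonneg fun i _ => h0 i]
  exact ENNReal.ofReal_le_ofReal h1

end

end Crest.Agent.R151.B
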