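import Crest.Agent.R151.D1b
import Crest.Agent.R151.B4

set_option autoImplicit false

open MeasureTheory ProbabilityTheory Set Filter Topology
open scoped ENNReal
open Crest.ProbabilityR.FirstPassage

namespace Crest.Agent.R151.B

noncomputable section

/-! local events, measurability, translation of lanes -/

variable {G : Measure ℝ} {e : Fr} {h : Env → Z2 → ℝ} {S S' : Set Z2} {A B : Set Env} {φ : Z2 → ℝ}

theorem Loc.mono (a : Loc S A) (hS : S ⊆ S') : Loc S' A := by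
  exact ⟨a.1, fun t t' h => a.2 t t' fun u hu v hv => h u (hS hu) v (hS hv)⟩
theorem Loc.compl (a : Loc S A) : Loc S Aᶜ := by
  exact ⟨a.1.compl, fun t t' h ht ht' => ht (a.2 t' t (fun u hu v hv => (h u hu v hv).symm) ht')⟩
theorem Loc.inter (a : Loc S A) (b : Loc S B) : Loc S (A ∩ B) := by
  exact ⟨a.1.inter b.1, fun t t' h ht => ⟨a.2 t t' h ht.1, b.2 t t' h ht.2⟩⟩
theorem Loc.union (a : Loc S A) (b : Loc S B) : Loc S (A ∪ B) := by
  exact ⟨a.1.union b.1, fun t t' h ht => ht.imp (a.2 t t' h) (b.2 t t' h)⟩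
theorem Loc.const (S : Set Z2) (p : Prop) : Loc S {_t | p} := by
  exact ⟨MeasurableSet.const p, fun _ _ _ ht => ht⟩
theorem Loc.and {p q : Env → Prop} (a : Loc S {t | p t}) (b : Loc S {t | q t}) :
    Loc S {t | p t ∧ q t} := a.inter b
theorem Loc.not {p : Env → Prop} (a : Loc S {t | p t}) : Loc S {t | ¬p t} := a.compl
theorem Loc.imp {p q : Env → Prop} (a : Loc S {t | p t}) (b : Loc S {t | q t}) :
    Loc S {t | p t → q t} := by
  have := a.compl.union b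
  rwa [show {t | p t}ᶜ ∪ {t | q t} = {t | p t → q t} from Set.ext fun t => imp_iff_not_or.symm] at this
theorem Loc.all {ι : Sort*} [Countable ι] {p : ι → Env → Prop} (a : ∀ i, Loc S {t | p i t}) :
    Loc S {t | ∀ i, p i t} := by
  refine ⟨?_, fun t t' h ht i => (a i).2 t t' h (ht i)⟩
  rw [ofPred_forall]
  exact MeasurableSet.iInter fun i => (a i).1
theorem Loc.ex {ι : Sort*} [Countable ι] {p : ι → Env → Prop} (a : ∀ i, Loc S {t | p i t}) :
    Loc S {t | ∃ i, p i t} := by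
  refine ⟨?_, fun t t' h ht => ht.imp fun i hi => (a i).2 t t' h hi⟩
  rw [ofPred_exists]
  exact MeasurableSet.iUnion fun i => (a i).1
theorem Loc.all_rt {p : (Z2 → ℝ) → Env → Prop} (a : ∀ φ, Loc S {t | p φ t}) :
    Loc S {t | ∀ φ, Rt φ → p φ t} := by
  have := Loc.all (S := S) (p := fun (ψ : Z2 →₀ ℚ) t => p (fun x => (ψ x : ℝ)) t) fun ψ => a _
  convert this using 2 with t
  ext t
  refine ⟨fun h ψ => h _ ⟨ψ, fun _ => rfl⟩, fun h φ ⟨ψ, hψ⟩ => ?_⟩
  rw [show φ = fun x => (ψ x : ℝ) from funext hψ]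
  exact h ψ
theorem Loc.ex_rt {p : (Z2 → ℝ) → Env → Prop} (a : ∀ φ, Loc S {t | p φ t}) :
    Loc S {t | ∃ φ, Rt φ ∧ p φ t} := by
  have := Loc.ex (S := S) (p := fun (ψ : Z2 →₀ ℚ) t => p (fun x => (ψ x : ℝ)) t) fun ψ => a _
  convert this using 2 with t
  ext t
  refine ⟨fun ⟨φ, ⟨ψ, hψ⟩, h⟩ => ⟨ψ, ?_⟩, fun ⟨ψ, h⟩ => ⟨_, ⟨ψ, fun _ => rfl⟩, h⟩⟩
  rwa [show φ = fun x => (ψ x : ℝ) from funext hψ] at h
theorem loc_pot (φ : Z2 → ℝ) (S : Set Z2) : Loc S {t | Pot φ S t} := by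
  refine Loc.all fun u => Loc.all fun hu => Loc.all fun v => Loc.all fun hv => Loc.all fun _ => ?_
  refine ⟨measurableSet_le measurable_const (measurable_pi_apply _), fun t t' h ht => ?_⟩
  rw [mem_ofPred_eq, h u hu v hv]
  exact ht
theorem loc_chp_cost {x z : Z2} (w : Wk x z) (hw : ∀ u ∈ w.support, u ∈ S) {I : Set ℝ}
    (hI : MeasurableSet I) : Loc S {t | walkCost t w ∈ I} := by
  refine ⟨cost_meas w hI, fun t t' h ht => ?_⟩
  have : walkCost t' w = walkCost t w := by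
    unfold walkCost
    refine congrArg List.sum (List.map_congr_left fun e he => ?_)
    induction e using Sym2.ind with
    | _ u v =>
      exact h u (hw u (w.fst_mem_support_of_mem_edges he)) v
        (hw v (w.snd_mem_support_of_mem_edges he))
  rw [mem_ofPred_eq, this]
  exact ht
theorem loc_chp (c : ℝ) (φ : Z2 → ℝ) (L : Lane) (y : ℝ) : Loc (L.S c) {t | Chp c φ t L y} := by
  have hW := wk_countable
  have := Loc.ex (S := L.S c) fun x => Loc.ex fun z => Loc.ex fun w : Wk x z =>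
    Loc.ex fun hw : ∀ u ∈ w.support, u ∈ L.S c => (Loc.const _ (L.g x ≤ L.α ∧ L.α + L.m ≤ L.g z)).and
      (loc_chp_cost w hw (measurableSet_Iic (a := φ z - φ x + y)))
  convert this using 2 with t
  ext t
  constructor
  · rintro ⟨x, z, d, hd, h1, h2, w, hw, e⟩
    exact ⟨x, z, w, hw, ⟨h1, h2⟩, by rw [mem_Iic, e]; linarith⟩
  · rintro ⟨x, z, w, hw, ⟨h1, h2⟩, e⟩
    exact ⟨x, z, walkCost t w - (φ z - φ x), by rw [mem_Iic] at e; linarith, h1, h2, w, hw, by ring⟩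
theorem loc_all_ex (φ : Z2 → ℝ) (S : Set Z2) (p : Z2 → Z2 → Prop) (F : Z2 → Z2 → ℝ) :
    Loc S {t | ∀ x z c, Ex φ S t x z c → p x z → F x z ≤ c} := by
  have hW := wk_countable
  have := Loc.all (S := S) fun x => Loc.all fun z => Loc.all fun w : Wk x z =>
    Loc.all fun hw : ∀ u ∈ w.support, u ∈ S => Loc.all fun _ : p x z =>
      loc_chp_cost w hw (measurableSet_Ici (a := φ z - φ x + F x z))
  convert this using 2 with t
  ext t
  constructor
  · intro h x z w hw hp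
    have := h x z (walkCost t w - (φ z - φ x)) ⟨w, hw, by ring⟩ hp
    rw [mem_Ici]
    linarith
  · rintro h x z c ⟨w, hw, e⟩ hp
    have := h x z w hw hp
    rw [mem_Ici, e] at this
    linarith
theorem Law.loc_indep_dis (hd : Disjoint S S') :
    Disjoint {e : Sym2 Z2 | ∃ u ∈ S, ∃ v ∈ S, e = s(u, v)}
      {e : Sym2 Z2 | ∃ u ∈ S', ∃ v ∈ S', e = s(u, v)} := by
  rw [Set.disjoint_left]
  rintro e ⟨u, hu, v, hv, rfl⟩ ⟨u', hu', v', hv', h⟩
  have hd' := Set.disjoint_left.1 hd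
  rcases Sym2.eq_iff.1 h with ⟨h1, _⟩ | ⟨h1, _⟩
  · exact hd' hu (h1 ▸ hu')
  · exact hd' hu (h1 ▸ hv')
theorem Law.loc_indep_loc (a : Loc S A) (t t' : Env)
    (e : ∀ e ∈ {e : Sym2 Z2 | ∃ u ∈ S, ∃ v ∈ S, e = s(u, v)}, t' e = t e) (ht : t ∈ A) : t' ∈ A :=
  a.2 t t' (fun u hu v hv => e _ ⟨u, hu, v, hv, rfl⟩) ht
/-- `Law.indep` with the coordinate sets `{s(u, v) | u, v ∈ S i}` -/
theorem Law.loc_indep (hG : Law G) {ι : Type*} (I : Finset ι) (S : ι → Set Z2) (A : ι → Set Env)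
    (hd : ∀ i ∈ I, ∀ j ∈ I, i ≠ j → Disjoint (S i) (S j)) (hA : ∀ i ∈ I, Loc (S i) (A i)) :
    Pr G (⋂ i ∈ I, A i) = ∏ i ∈ I, Pr G (A i) := by
  exact hG.indep I (fun i => {e : Sym2 Z2 | ∃ u ∈ S i, ∃ v ∈ S i, e = s(u, v)}) A
    (fun i hi j hj hij => Law.loc_indep_dis (hd i hi j hj hij)) (fun i hi => (hA i hi).1)
    fun i hi => Law.loc_indep_loc (hA i hi)
theorem Law.loc_indep2 (hG : Law G) (hd : Disjoint S S') (a : Loc S A) (b : Loc S' B) :
    Pr G (A ∩ B) = Pr G A * Pr G B := by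
  exact hG.indep_aux2 (Law.loc_indep_dis hd) a.1 b.1 (Law.loc_indep_loc a) (Law.loc_indep_loc b)
/-- layer cake (`lintegral_eq_lintegral_meas_lt`-type formula in `ℝ≥0∞`, or simple functions), or
`IndepFun` from `loc_indep2` -/
theorem Law.loc_indep_fun (hG : Law G) (hd : Disjoint S S') {F : Env → ℝ≥0∞}
    (a : ∀ r : ℝ≥0∞, Loc S {t | r < F t}) (b : Loc S' B) :
    ∫⁻ t, B.indicator F t ∂iidLaw G = (∫⁻ t, F t ∂iidLaw G) * iidLaw G B := by
  have := hG.prob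
  have h1 : iIndepFun (fun (e : Sym2 Z2) (t : Env) => t e) (iidLaw G) :=
    iIndepFun_infinitePi (P := fun _ : Sym2 Z2 => G) (X := fun _ => id) fun _ => measurable_id
  have h2 := indep_iSup_of_disjoint (fun e => (measurable_pi_apply e).comap_le) h1.iIndep
    (Law.loc_indep_dis hd)
  have hle : ∀ E : Set (Sym2 Z2),
      (⨆ e ∈ E, MeasurableSpace.comap (fun t : Env => t e) inferInstance) ≤
        (inferInstance : MeasurableSpace Env) :=
    fun E => iSup₂_le fun e _ => (measurable_pi_apply e).comap_le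
  have hF : @Measurable Env ℝ≥0∞
      (⨆ e ∈ {e : Sym2 Z2 | ∃ u ∈ S, ∃ v ∈ S, e = s(u, v)},
        MeasurableSpace.comap (fun t : Env => t e) inferInstance) _ F :=
    measurable_of_Ioi fun r => Law.indep_aux1 (a r).1 (Law.loc_indep_loc (a r))
  have hB := Law.indep_aux1 b.1 (Law.loc_indep_loc b)
  have h3 := lintegral_mul_eq_lintegral_mul_lintegral_of_independent_measurableSpace
    (g := B.indicator 1) (hle _) (hle _) h2 hF (measurable_const.indicator hB)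
  rw [lintegral_indicator_one b.1] at h3
  rw [← h3]
  refine lintegral_congr fun t => ?_
  by_cases ht : t ∈ B
  · rw [indicator_of_mem ht, indicator_of_mem ht, Pi.one_apply, mul_one]
  · rw [indicator_of_notMem ht, indicator_of_notMem ht, mul_zero]
theorem Law.ps (hG : Law G) : ∀ᵐ t ∂iidLaw G, PS t := by
  have := hG.prob
  unfold PS
  rw [ae_all_iff]
  intro e
  have h1 : ∀ᵐ x ∂G, (0 : ℝ) < x := by
    rw [ae_iff]
    refine measure_mono_null (fun x hx => ?_) hG.pos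
    exact not_lt.1 hx
  exact (measurePreserving_eval_infinitePi (fun _ : Sym2 (ℤ × ℤ) => G) e).quasiMeasurePreserving.ae h1
theorem Coc.ae (hG : Law G) (a : Coc G e h) : ∀ᵐ t ∂iidLaw G, PS t ∧ Pot (h t) univ t := by
  filter_upwards [hG.ps, a.pot] with t h1 h2
  refine ⟨h1, fun u _ v _ huv => (h2 u v).trans ?_⟩
  have := T_le_walk h1.nn (SimpleGraph.Walk.cons huv SimpleGraph.Walk.nil)
  simpa only [walkCost, SimpleGraph.Walk.edges_cons, SimpleGraph.Walk.edges_nil, List.map_cons,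
    List.map_nil, List.sum_cons, List.sum_nil, add_zero] using this
theorem Law.mono_ae (hG : Law G) (a : ∀ᵐ t ∂iidLaw G, t ∈ A → t ∈ B) : Pr G A ≤ Pr G B := by
  have := hG.isP
  exact ENNReal.toReal_mono (measure_ne_top _ _) (measure_mono_ae a)
theorem WL_meas_iff {c y : ℝ} {t : Env} {L : Lane} : Chp c φ t L y ↔ ∃ x z, ∃ w : Wk x z,
    (L.g x ≤ L.α ∧ L.α + L.m ≤ L.g z ∧ ∀ u ∈ w.support, u ∈ L.S c) ∧
      walkCost t w - (φ z - φ x) ≤ y :=
  ⟨fun ⟨x, z, d, h1, h2, h3, w, h4, h5⟩ => ⟨x, z, w, ⟨h2, h3, h4⟩, by linarith⟩,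
    fun ⟨x, z, w, ⟨h2, h3, h4⟩, h1⟩ => ⟨x, z, _, h1, h2, h3, w, h4, by ring⟩⟩
/-- `WL = ⨅ x z (w : Wk x z), ⨅ (_ : condition), ofReal (walkCost t w - (h t z - h t x))` -/
theorem WL_meas (hm : ∀ x, Measurable fun t => h t x) (c : ℝ) (L : Lane) :
    Measurable fun t => WL c (h t) t L := by
  have e : (fun t => WL c (h t) t L) = fun t => ⨅ x, ⨅ z, ⨅ w : Wk x z,
      ⨅ _ : L.g x ≤ L.α ∧ L.α + L.m ≤ L.g z ∧ ∀ u ∈ w.support, u ∈ L.S c,
        ENNReal.ofReal (walkCost t w - (h t z - h t x)) := by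
    funext t
    refine le_antisymm (le_iInf fun x => le_iInf fun z => le_iInf fun w => le_iInf fun hw =>
      WL_le (WL_meas_iff.2 ⟨x, z, w, hw, le_rfl⟩)) (le_iInf₂ fun y hy => ?_)
    obtain ⟨x, z, w, hw, h1⟩ := WL_meas_iff.1 hy
    exact iInf_le_of_le x (iInf_le_of_le z (iInf_le_of_le w (iInf_le_of_le hw
      (ENNReal.ofReal_le_ofReal h1))))
  rw [e]
  refine .iInf fun x => .iInf fun z => ?_
  have := wk_countable x z
  exact .iInf fun w => .iInf fun _ =>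
    ((cost_meas w).sub ((hm z).sub (hm x))).ennreal_ofReal
theorem Chp_meas (hm : ∀ x, Measurable fun t => h t x) (c : ℝ) (L : Lane) (y : ℝ) :
    MeasurableSet {t | Chp c (h t) t L y} := by
  have e : {t | Chp c (h t) t L y} = ⋃ x, ⋃ z, ⋃ w : Wk x z,
      ⋃ _ : L.g x ≤ L.α ∧ L.α + L.m ≤ L.g z ∧ ∀ u ∈ w.support, u ∈ L.S c,
        {t | walkCost t w - (h t z - h t x) ≤ y} := by
    ext t
    simp only [mem_iUnion, exists_prop]
    exact WL_meas_iff
  rw [e]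
  refine .iUnion fun x => .iUnion fun z => ?_
  have := wk_countable x z
  exact .iUnion fun w => .iUnion fun _ =>
    measurableSet_le ((cost_meas w).sub ((hm z).sub (hm x))) measurable_const
/-- Markov -/
theorem Law.chp_markov (hG : Law G) (hm : ∀ x, Measurable fun t => h t x) {c y r : ℝ} {L : Lane}
    (hy : 0 < y) (hr : 0 ≤ r) (a : ∫⁻ t, WL c (h t) t L ∂iidLaw G ≤ ENNReal.ofReal r) :
    Pr G {t | ¬Chp c (h t) t L y} ≤ r / y := by
  have := hG.isP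
  have h1 := (mul_meas_ge_le_lintegral₀ (μ := iidLaw G) (WL_meas hm c L).aemeasurable
    (ENNReal.ofReal y)).trans a
  have h2 : {t | ¬Chp c (h t) t L y} ⊆ {t | ENNReal.ofReal y ≤ WL c (h t) t L} :=
    fun t ht => not_lt.1 fun h3 => ht (Chp.of_lt h3)
  refine (hG.mono h2).trans ?_
  have h3 := ENNReal.toReal_mono ENNReal.ofReal_ne_top h1
  rw [ENNReal.toReal_mul, ENNReal.toReal_ofReal hy.le, ENNReal.toReal_ofReal hr] at h3
  rw [le_div_iff₀' hy]
  exact h3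
/-- `mp_sh`, `Rch_sh`, `Coc.sh` -/
theorem Coc.W_shift (hG : Law G) (a : Coc G e h) {F : ℝ≥0∞ → ℝ≥0∞} (hF : Measurable F) (c : ℝ)
    (L : Lane) (z : Z2) :
    ∫⁻ t, F (WL c (h t) t ⟨L.g, L.k, L.α + L.g z, L.m, L.β + L.k z, L.w⟩) ∂iidLaw G =
      ∫⁻ t, F (WL c (h t) t L) ∂iidLaw G := by
  refine Eq.trans (lintegral_congr_ae ?_)
    ((hG.mp_sh z).lintegral_comp (f := fun t => F (WL c (h t) t L)) (hF.comp (WL_meas a.meas c L)))
  filter_upwards [a.sh] with t ht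
  have hS : {u | u - z ∈ L.S c} =
      Lane.S ⟨L.g, L.k, L.α + L.g z, L.m, L.β + L.k z, L.w⟩ c := by
    ext u
    simp only [Lane.S, mem_setOf_eq, map_sub]
    constructor <;> rintro ⟨h1, h2, h3, h4⟩ <;> refine ⟨?_, ?_, ?_, ?_⟩ <;> linarith
  have key : ∀ x x' d, Ex (h (B.sh z t)) (L.S c) (B.sh z t) x x' d ↔ Ex (h t)
      (Lane.S ⟨L.g, L.k, L.α + L.g z, L.m, L.β + L.k z, L.w⟩ c) t (x + z) (x' + z) d := by
    intro x x' d
    unfold Ex
    rw [Rch_sh, hS, ht, ht]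
    congr! 2
    ring
  congr 1
  refine le_antisymm (WL_mono ?_) (WL_mono ?_)
  · rintro d ⟨x, x', d', h1, h2, h3, h4⟩
    refine ⟨x + z, x' + z, d', h1, ?_, ?_, (key x x' d').1 h4⟩ <;> simp only [map_add] <;> linarith
  · rintro d ⟨x, x', d', h1, h2, h3, h4⟩
    refine ⟨x - z, x' - z, d', h1, ?_, ?_, (key (x - z) (x' - z) d').2 (by simpa using h4)⟩ <;>
      simp only [map_sub] at h2 h3 ⊢ <;> linarith
/-- move the longer and narrower lane by `z` near `(α' - c - α, β' + c - β)`; `Chp.sub` -/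
theorem Coc.W_recentre (hG : Law G) (a : Coc G e h) {F : ℝ≥0∞ → ℝ≥0∞} (hF : Monotone F) {c : ℝ}
    (hc : 0 ≤ c) {g k : Z2 →+ ℝ} (hg : ∀ u v, squareLattice.Adj u v → |g v - g u| ≤ c)
    (hd : ∀ α β : ℝ, ∃ z, |g z - α| ≤ c ∧ |k z - β| ≤ c) {m : ℝ} (hm : 0 ≤ m) (α β α' β' w : ℝ) :
    ∫⁻ t, F (WL c (h t) t ⟨g, k, α', m, β', w + 2 * c⟩) ∂iidLaw G ≤
      ∫⁻ t, F (WL c (h t) t ⟨g, k, α, m + 2 * c, β, w⟩) ∂iidLaw G := by
  obtain ⟨z, h1, h2⟩ := hd (α' - c - α) (β' + c - β)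
  rw [← a.W_shift hG hF.measurable c ⟨g, k, α, m + 2 * c, β, w⟩ z]
  refine lintegral_mono_ae ?_
  filter_upwards [a.ae hG] with t ht
  rw [abs_le] at h1 h2
  refine hF (WL_mono fun d hd => hd.sub (ht.2.mono (subset_univ _)) hc hg rfl rfl hm ?_ ?_ ?_ ?_) <;>
    simp only <;> linarith [h1.1, h1.2, h2.1, h2.2]
theorem Rate.mono (hG : Law G) (he : e.OK) (a : Coc G e h) {w w' ε ε' : ℝ} (r : Rate G e h w ε)
    (h0 : 0 ≤ w) (hw : w ≤ w') (hε : ε ≤ ε') : Rate G e h w' ε' := by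
  have key : ∀ (g k : Z2 →+ ℝ) (α β m : ℝ) (t : Env), e.W (h t) t ⟨g, k, α, m, β, w'⟩ ≤
      e.W (h t) t ⟨g, k, α, m, β, w⟩ := by
    intro g k α β m t
    refine WL_mono ?_
    rintro d ⟨x, x', d', h1, h2, h3, h4⟩
    refine ⟨x, x', d', h1, h2, h3, h4.mono ?_⟩
    rintro u ⟨u1, u2, u3, u4⟩
    exact ⟨u1, u2, u3, u4.trans (by simp only; linarith)⟩
  intro α β m hm
  obtain ⟨r1, r2⟩ := r α β m (hw.trans hm)
  have h1 : ENNReal.ofReal (ε * m) ≤ ENNReal.ofReal (ε' * m) :=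
    ENNReal.ofReal_le_ofReal (mul_le_mul_of_nonneg_right hε (h0.trans (hw.trans hm)))
  exact ⟨((lintegral_mono fun t => key _ _ _ _ _ t).trans r1).trans h1,
    ((lintegral_mono fun t => key _ _ _ _ _ t).trans r2).trans h1⟩

end

end Crest.Agent.R151.B
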