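import Crest.Agent.R151.D1c
import Crest.Agent.R151.B9

set_option autoImplicit false

open MeasureTheory ProbabilityTheory Set Filter Topology
open scoped ENNReal
open Crest.ProbabilityR.FirstPassage

namespace Crest.Agent.R151.B

noncomputable section

/-! a priori bounds: mean passage times -/

variable {G : Measure ℝ} {e : Fr} {h : Env → Z2 → ℝ}

theorem Law.support_nsmul (hG : Law G) (x : Z2) (k : ℕ) : mE G (k • x) ≤ k * mE G x := by
  induction k with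
  | zero => simp [hG.mE_zero]
  | succ k ih =>
    have := hG.mE_add (k • x) x
    rw [succ_nsmul]
    push_cast
    linarith
theorem Law.support_lin (ξ : Z2 →+ ℝ) (x : Z2) : ξ x ≤ (|ξ (1, 0)| + |ξ (0, 1)|) * n1 x := by
  rw [Fr.OK.ind_lin ξ x, n1]
  have h1 := le_abs_self ((x.1 : ℝ) * ξ (1, 0))
  have h2 := le_abs_self ((x.2 : ℝ) * ξ (0, 1))
  rw [abs_mul] at h1 h2
  have h3 := mul_nonneg (abs_nonneg (x.1 : ℝ)) (abs_nonneg (ξ (0, 1)))
  have h4 := mul_nonneg (abs_nonneg (x.2 : ℝ)) (abs_nonneg (ξ (1, 0)))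
  nlinarith
/-- `c = inf {mE x / ξ x | ξ x > 0}`, positive by `mE_ge`; multiples of an almost minimiser
(`mE (k • x) ≤ k * mE x`) -/
theorem Law.support (hG : Law G) {ξ : Z2 →+ ℝ} (hξ : ξ ≠ 0) : ∃ c : ℝ, 0 < c ∧
    (∀ x, c * ξ x ≤ mE G x) ∧ ∀ η : ℝ, 0 < η → ∀ᶠ s : ℝ in atTop,
      ∃ y, s ≤ c * ξ y ∧ mE G y ≤ (1 + η) * s := by
  obtain ⟨c₀, hc₀, hge⟩ := hG.mE_ge
  have hm0 : ∀ x, 0 ≤ mE G x := fun x => (mul_nonneg hc₀.le (n1_nonneg x)).trans (hge x)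
  obtain ⟨x₀, hx₀⟩ : ∃ x, 0 < ξ x := by
    obtain ⟨x, hx⟩ := DFunLike.ne_iff.1 hξ
    rcases lt_or_gt_of_ne (show ξ x ≠ 0 from hx) with h | h
    · exact ⟨-x, by rw [map_neg]; linarith⟩
    · exact ⟨x, h⟩
  obtain ⟨K, hK0, hK⟩ : ∃ K : ℝ, 0 < K ∧ ∀ x, ξ x ≤ K * n1 x :=
    ⟨|ξ (1, 0)| + |ξ (0, 1)| + 1, by positivity, fun x => (Law.support_lin ξ x).trans
      (mul_le_mul_of_nonneg_right (by linarith) (n1_nonneg x))⟩
  set S : Set ℝ := {r | ∃ x, 0 < ξ x ∧ r = mE G x / ξ x} with hS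
  have hne : S.Nonempty := ⟨_, x₀, hx₀, rfl⟩
  have hlb : ∀ r ∈ S, c₀ / K ≤ r := by
    rintro _ ⟨x, hx, rfl⟩
    rw [div_le_div_iff₀ hK0 hx]
    have h1 := mul_le_mul_of_nonneg_left (hK x) hc₀.le
    have h2 := mul_le_mul_of_nonneg_right (hge x) hK0.le
    linarith
  have hbd : BddBelow S := ⟨_, hlb⟩
  have hc : 0 < sInf S := (div_pos hc₀ hK0).trans_le (le_csInf hne hlb)
  refine ⟨sInf S, hc, fun x => ?_, fun η hη => ?_⟩
  · rcases le_or_gt (ξ x) 0 with h | h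
    · exact (mul_nonpos_of_nonneg_of_nonpos hc.le h).trans (hm0 x)
    · exact (le_div_iff₀ h).1 (csInf_le hbd ⟨x, h, rfl⟩)
  · obtain ⟨_, ⟨x, hx, rfl⟩, hlt⟩ := exists_lt_of_csInf_lt hne
      (show sInf S < sInf S * (1 + η / 2) by nlinarith)
    rw [div_lt_iff₀ hx] at hlt
    obtain ⟨a, ha⟩ : ∃ a, a = sInf S * ξ x := ⟨_, rfl⟩
    have ha0 : 0 < a := ha ▸ mul_pos hc hx
    have hlt' : mE G x ≤ a * (1 + η / 2) := by rw [ha]; linarith
    filter_upwards [eventually_ge_atTop (a * (1 + η / 2) * (2 / η))] with s hs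
    have hs1 : a * (1 + η / 2) ≤ s * (η / 2) := by
      have := mul_le_mul_of_nonneg_right hs (half_pos hη).le
      rwa [mul_assoc _ (2 / η), show 2 / η * (η / 2) = 1 by field_simp, mul_one] at this
    have hs0 : 0 ≤ s := le_trans (by positivity) hs
    have h1 : s ≤ ⌈s / a⌉₊ * a := (div_le_iff₀ ha0).1 (Nat.le_ceil _)
    have h2 : (⌈s / a⌉₊ : ℝ) * a ≤ s + a := by
      have := mul_le_mul_of_nonneg_right (Nat.ceil_lt_add_one (div_nonneg hs0 ha0.le)).le ha0.le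
      rwa [add_mul, div_mul_cancel₀ _ ha0.ne', one_mul] at this
    refine ⟨⌈s / a⌉₊ • x, ?_, (hG.support_nsmul x _).trans ?_⟩
    · rw [map_nsmul, nsmul_eq_mul, mul_left_comm, ← ha]
      exact h1
    · have h3 := mul_le_mul_of_nonneg_left hlt' (Nat.cast_nonneg (α := ℝ) ⌈s / a⌉₊)
      have h4 := mul_le_mul_of_nonneg_right h2 (show 0 ≤ 1 + η / 2 by positivity)
      nlinarith
theorem Flat.axis_le (hf : Flat G e) {c l : ℝ} (hl : l ≤ 1)
    (hc : ∀ x, c * (e.p x + (1 - l) * e.q x) ≤ mE G x) : c ≤ 1 := by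
  by_contra h
  rw [not_le] at h
  have hC := hf.ok.C1
  have hη : 0 < (c - 1) / 2 := by linarith
  obtain ⟨B, hB⟩ := hf.tight _ hη
  obtain ⟨a, ha⟩ : ∃ a, a = (c * e.C + 3 * (1 + (c - 1) / 2) * e.C + |B|) / ((c - 1) / 2) :=
    ⟨_, rfl⟩
  have ha0 : 0 ≤ a := by rw [ha]; positivity
  have ha1 : (c - 1) / 2 * a = c * e.C + 3 * (1 + (c - 1) / 2) * e.C + |B| := by
    rw [ha]; field_simp
  obtain ⟨x, h1, h2⟩ := hf.ok.den (a + e.C) e.C
  rw [abs_le] at h1 h2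
  have h3 := hB x (by linarith [h1.1]) (by linarith [h2.1])
  have h4 : 0 ≤ (1 - l) * e.q x := mul_nonneg (by linarith) (by linarith [h2.1])
  have h5 : c * a ≤ c * (e.p x + (1 - l) * e.q x) :=
    mul_le_mul_of_nonneg_left (by linarith [h1.1]) (by linarith)
  have h6 : (1 + (c - 1) / 2) * (e.p x + e.q x) ≤ (1 + (c - 1) / 2) * (a + 4 * e.C) :=
    mul_le_mul_of_nonneg_left (by linarith [h1.2, h2.2]) (by linarith)
  have h7 := hc x
  have h8 := le_abs_self B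
  have h9 : 0 < (c - 1) / 2 * e.C := mul_pos hη (by linarith)
  linarith
/-- `λ = s ^ (-1/16)`, `ξ = p + (1 - λ) q`, `c` from `support`; `c ≤ 1` by `tight` at points with
`0 ≤ q ≤ 2 C`, `p → ∞`. `p2l` for `c • ξ` gives `y` with `s ≤ c ξ y`, `mE y ≤ s + D s ^ (7/8)`, so
`p y + q y ≤ mE y ≤ p y + q y - λ q y + D s ^ (7/8)`. Hence `q y ≤ D s ^ (15/16)`, and
`mE y - p y - q y ≤ D' s ^ (15/16)` as `ds y ≤ D'' s` (`mE_ge`); `out` (with a small `α`, and
`s ≤ mE y ≤ C κ ds y`) excludes a macroscopically negative `q y`. -/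
theorem Flat.axis (hG : Law G) (hf : Flat G e) : ∃ D : ℝ, 1 ≤ D ∧ ∀ s : ℝ, D ≤ s → ∃ y,
    s / 2 ≤ e.p y ∧ e.p y ≤ 2 * s ∧ |e.q y| ≤ s / 16 ∧
      mE G y ≤ e.p y + e.q y + D * s ^ (15 / 16 : ℝ) := by
  obtain ⟨P, hP1, hP⟩ := hG.p2l
  obtain ⟨c₀, hc₀, hge⟩ := hG.mE_ge
  obtain ⟨C, hC1, hC'⟩ := hG.T_mom
  have hC : ∀ x, mE G x ≤ C * n1 x := fun x => (hC' x x).2
  have hκ : 0 < e.κ := by linarith [hf.ok.κ3]
  obtain ⟨E, hE⟩ : ∃ E, E = e.κ * (1 + P) / c₀ := ⟨_, rfl⟩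
  have hE0 : 0 < E := by rw [hE]; positivity
  obtain ⟨ω, hω, hout⟩ := hf.out (1 / (16 * E)) (by positivity)
  obtain ⟨M, hM⟩ : ∃ M, M = 16 * P + (E + P) * (C * e.κ) / ω := ⟨_, rfl⟩
  have hM1 : 0 ≤ (E + P) * (C * e.κ) / ω := by positivity
  have hM0 : 0 ≤ M := by rw [hM]; positivity
  refine ⟨E + P + M ^ 16, by have := pow_nonneg hM0 16; linarith, fun s hs => ?_⟩
  have hs1 : 1 ≤ s := by have := pow_nonneg hM0 16; linarith
  have hs0 : 0 < s := by linarith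
  obtain ⟨a, ha, rfl⟩ : ∃ a : ℝ, 0 < a ∧ s = a ^ 16 :=
    ⟨s ^ ((16 : ℕ) : ℝ)⁻¹, Real.rpow_pos_of_pos hs0 _,
      (Real.rpow_inv_natCast_pow hs0.le (by norm_num)).symm⟩
  have e1 : (a ^ 16) ^ (7 / 8 : ℝ) = a ^ 14 := by
    rw [← Real.rpow_natCast, ← Real.rpow_mul ha.le, ← Real.rpow_natCast]
    norm_num
  have e2 : (a ^ 16) ^ (15 / 16 : ℝ) = a ^ 15 := by
    rw [← Real.rpow_natCast, ← Real.rpow_mul ha.le, ← Real.rpow_natCast]
    norm_num
  have hMa : M < a := lt_of_pow_lt_pow_left₀ 16 ha.le (by linarith)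
  have ha1 : 1 ≤ a := by linarith
  have hl0 : 0 < a⁻¹ := inv_pos.2 ha
  have hl1 : a⁻¹ ≤ 1 := inv_le_one_of_one_le₀ ha1
  have hξ : e.p + (1 - a⁻¹) • e.q ≠ 0 := by
    intro h0
    obtain ⟨x, h1, h2⟩ := hf.ok.den (3 * e.C) e.C
    rw [abs_le] at h1 h2
    have h3 : e.p x + (1 - a⁻¹) * e.q x = 0 := DFunLike.congr_fun h0 x
    have h4 : 0 ≤ (1 - a⁻¹) * e.q x := mul_nonneg (by linarith) (by linarith [h2.1])
    linarith [h1.1, hf.ok.C1]
  obtain ⟨c, hc0, hc1, hc2⟩ := hG.support hξ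
  have hc : c ≤ 1 := hf.axis_le hl1 hc1
  obtain ⟨y, y1, y2⟩ := hP (c • (e.p + (1 - a⁻¹) • e.q)) hc1 hc2 (a ^ 16) hs1
  change a ^ 16 ≤ c * (e.p y + (1 - a⁻¹) * e.q y) at y1
  rw [e1] at y2
  rw [e2]
  have p14 : 0 < a ^ 14 := by positivity
  have p15 : a ^ 14 ≤ a ^ 15 := pow_le_pow_right₀ ha1 (by norm_num)
  have p16 : a ^ 15 ≤ a ^ 16 := pow_le_pow_right₀ ha1 (by norm_num)
  have z0 : 0 < e.p y + (1 - a⁻¹) * e.q y := (mul_pos_iff_of_pos_left hc0).1 (hs0.trans_le y1)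
  have z1 : a ^ 16 ≤ e.p y + (1 - a⁻¹) * e.q y := y1.trans (mul_le_of_le_one_left z0.le hc)
  have z2 := hf.low y
  have z3 : a⁻¹ * e.q y ≤ P * a ^ 14 := by linarith
  have z4 : e.q y ≤ P * a ^ 15 := by
    have := mul_le_mul_of_nonneg_left z3 ha.le
    rw [← mul_assoc, mul_inv_cancel₀ ha.ne', one_mul] at this
    linarith [show a * (P * a ^ 14) = P * a ^ 15 by ring]
  have z5 : 16 * (P * a ^ 15) ≤ a ^ 16 := by
    have : 16 * P * a ^ 15 ≤ a * a ^ 15 :=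
      mul_le_mul_of_nonneg_right (by linarith) (by positivity)
    linarith [show a * a ^ 15 = a ^ 16 by ring]
  have z6 : P * a ^ 14 ≤ P * a ^ 15 := mul_le_mul_of_nonneg_left p15 (by linarith)
  have z7 : e.ds y ≤ E * a ^ 16 := by
    have h1 : P * a ^ 15 ≤ P * a ^ 16 := mul_le_mul_of_nonneg_left p16 (by linarith)
    have h2 : n1 y ≤ (1 + P) * a ^ 16 / c₀ := by
      rw [le_div_iff₀ hc₀]
      linarith [hge y]
    refine (hf.ok.step_ds y).trans ((mul_le_mul_of_nonneg_left h2 hκ.le).trans_eq ?_)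
    rw [hE]
    ring
  have z8 : -(a⁻¹ * e.q y) ≤ E * a ^ 15 := by
    have h1 : -e.q y ≤ E * a ^ 16 := (neg_le_abs _).trans ((e.ds_pq y).2.1.trans z7)
    have h2 := mul_le_mul_of_nonneg_left h1 hl0.le
    have h3 : a⁻¹ * (E * a ^ 16) = E * a ^ 15 := by field_simp
    linarith
  have z9 : mE G y ≤ e.p y + e.q y + (E + P) * a ^ 15 := by linarith
  have z10 : -(a ^ 16 / 16) ≤ e.q y := by
    by_contra hq
    rw [not_le] at hq
    have h1 : 1 / (16 * E) * e.ds y ≤ a ^ 16 / 16 := by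
      refine (mul_le_mul_of_nonneg_left z7 (by positivity)).trans_eq ?_
      field_simp
    have h2 := hout y ((min_le_right _ _).trans (by linarith))
    have h3 : ω * e.ds y ≤ (E + P) * a ^ 15 := by linarith
    have h4 : a ^ 16 ≤ C * (e.κ * e.ds y) :=
      (y1.trans (hc1 y)).trans ((hC y).trans
        (mul_le_mul_of_nonneg_left (hf.ok.n1_ds y).1 (by linarith)))
    have h5 : (E + P) * (C * e.κ) < a * ω := (div_lt_iff₀ hω).1 (by linarith)
    have h6 := mul_le_mul_of_nonneg_left h4 hω.le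
    have h7 := mul_le_mul_of_nonneg_left h3 (show 0 ≤ C * e.κ by positivity)
    have h8 := mul_lt_mul_of_pos_right h5 (show 0 < a ^ 15 by positivity)
    linarith [show a * ω * a ^ 15 = ω * a ^ 16 by ring]
  have z11 : |e.q y| ≤ a ^ 16 / 16 := abs_le.2 ⟨z10, by linarith⟩
  have z12 : (1 - a⁻¹) * e.q y ≤ a ^ 16 / 16 :=
    (mul_le_mul_of_nonneg_left ((le_abs_self _).trans z11) (by linarith)).trans
      (mul_le_of_le_one_left (by positivity) (by linarith))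
  refine ⟨y, by linarith, by linarith, z11, z9.trans ?_⟩
  have : (E + P) * a ^ 15 ≤ (E + P + M ^ 16) * a ^ 15 :=
    mul_le_mul_of_nonneg_right (le_add_of_nonneg_right (pow_nonneg hM0 16)) (by positivity)
  linarith
theorem Flat.poly_num {s a b A B Δ : ℝ} (hs : 0 < s) (ha : s ^ 2 ≤ 4 * a) (ha' : a ≤ s ^ 2)
    (hb : s ^ 2 ≤ 4 * b) (hb' : b ≤ s ^ 2) (hB : s / 2 ≤ B) (hB' : B ≤ 2 * s) (hA : |A| ≤ s / 16)
    (hΔ : 63 / 256 * s ^ 2 ≤ Δ) : 0 ≤ (a * B - b * A) / Δ ∧ (a * B - b * A) / Δ ≤ 9 * s := by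
  obtain ⟨h1, h2⟩ := abs_le.1 hA
  have hs2 : 0 < s ^ 2 := by positivity
  have hΔ0 : 0 < Δ := by linarith
  have a1 : s ^ 2 / 4 * (s / 2) ≤ a * B :=
    mul_le_mul (by linarith) hB (by linarith) (by linarith)
  have a2 : a * B ≤ s ^ 2 * (2 * s) := mul_le_mul ha' hB' (by linarith) hs2.le
  have a3 : b * A ≤ s ^ 2 * (s / 16) :=
    (mul_le_mul_of_nonneg_left h2 (by linarith)).trans
      (mul_le_mul_of_nonneg_right hb' (by linarith))
  have a4 : b * -A ≤ s ^ 2 * (s / 16) :=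
    (mul_le_mul_of_nonneg_left (by linarith : -A ≤ s / 16) (by linarith)).trans
      (mul_le_mul_of_nonneg_right hb' (by linarith))
  have a5 : 0 < s ^ 2 * s := by positivity
  have a6 : 9 * s * (63 / 256 * s ^ 2) ≤ 9 * s * Δ := mul_le_mul_of_nonneg_left hΔ (by linarith)
  exact ⟨div_nonneg (by linarith) hΔ0.le, (div_le_iff₀ hΔ0).2 (by linarith)⟩
theorem Flat.poly_cramer {s a b A B A' B' : ℝ} (hs : 0 < s) (ha : s ^ 2 ≤ 4 * a) (ha' : a ≤ s ^ 2)
    (hb : s ^ 2 ≤ 4 * b) (hb' : b ≤ s ^ 2) (h1 : s / 2 ≤ A) (h2 : A ≤ 2 * s) (h3 : |B| ≤ s / 16)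
    (h4 : s / 2 ≤ B') (h5 : B' ≤ 2 * s) (h6 : |A'| ≤ s / 16) :
    ∃ i j : ℝ, (0 ≤ i ∧ i ≤ 9 * s) ∧ (0 ≤ j ∧ j ≤ 9 * s) ∧ a = i * A + j * A' ∧
      b = i * B + j * B' := by
  have a1 : s / 2 * (s / 2) ≤ A * B' := mul_le_mul h1 h4 (by linarith) (by linarith)
  have a2 : A' * B ≤ s / 16 * (s / 16) :=
    (le_abs_self _).trans (by rw [abs_mul]; exact mul_le_mul h6 h3 (abs_nonneg _) (by linarith))
  have hΔ : 63 / 256 * s ^ 2 ≤ A * B' - A' * B := by linarith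
  have hΔ0 : A * B' - A' * B ≠ 0 := by
    have : 0 < s ^ 2 := by positivity
    exact ne_of_gt (by linarith)
  refine ⟨_, _, Flat.poly_num hs ha ha' hb hb' h4 h5 h6 hΔ,
    Flat.poly_num hs hb hb' ha ha' h1 h2 h3 hΔ, ?_, ?_⟩
  · rw [div_mul_eq_mul_div, div_mul_eq_mul_div, ← add_div, eq_div_iff hΔ0]
    ring
  · rw [div_mul_eq_mul_div, div_mul_eq_mul_div, ← add_div, eq_div_iff hΔ0]
    ring
theorem Flat.poly_nsmul (hG : Law G) (k : ℕ) (x : Z2) : mE G (k • x) ≤ k * mE G x := by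
  induction k with
  | zero => rw [zero_nsmul, hG.mE_zero, Nat.cast_zero, zero_mul]
  | succ k ih =>
    rw [succ_nsmul, Nat.cast_succ]
    linarith [hG.mE_add (k • x) x]
theorem Flat.poly_rem {s u v A A' : ℝ} (hs : 0 < s) (hu : 0 ≤ u) (hu' : u ≤ 1) (hv : 0 ≤ v)
    (hv' : v ≤ 1) (hA : |A| ≤ 2 * s) (hA' : |A'| ≤ s / 16) : |u * A + v * A'| ≤ 3 * s := by
  have a1 : |u * A| ≤ 1 * (2 * s) := by
    rw [abs_mul, abs_of_nonneg hu]
    exact mul_le_mul hu' hA (abs_nonneg _) zero_le_one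
  have a2 : |v * A'| ≤ 1 * (s / 16) := by
    rw [abs_mul, abs_of_nonneg hv]
    exact mul_le_mul hv' hA' (abs_nonneg _) zero_le_one
  linarith [abs_add_le (u * A) (v * A')]
/-- `n = ds x`, `s = √n`; `y`, `y'` from `axis` for `e` and `e.swap`; Cramer's rule gives reals
`0 ≤ i, j ≤ 11 n / s` with `p x = i p y + j p y'`, `q x = i q y + j q y'`; the remainder
`x - ⌊i⌋ • y - ⌊j⌋ • y'` has `|p|, |q| ≤ 3 s`. Bounded `n`: `mE x ≤ C n1 x`, `p x, q x ≥ 0`. -/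
theorem Flat.poly (hG : Law G) (hf : Flat G e) : ∃ D : ℝ, 1 ≤ D ∧ ∀ x, e.ds x ≤ 4 * e.p x →
    e.ds x ≤ 4 * e.q x → mE G x ≤ e.p x + e.q x + D * (1 + e.ds x) ^ (31 / 32 : ℝ) := by
  obtain ⟨D₁, hD₁, h₁⟩ := Flat.axis hG hf
  obtain ⟨D₂, hD₂, h₂⟩ := Flat.axis hG hf.swap
  obtain ⟨C, hC, hC'⟩ := hG.T_mom
  have hκ := hf.ok.κ3
  have hm : ∀ x, mE G x ≤ C * e.κ * e.ds x := fun x => by
    have := mul_le_mul_of_nonneg_left (hf.ok.n1_ds x).1 (by linarith : 0 ≤ C)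
    linarith [(hC' x x).2]
  obtain ⟨K, hK⟩ : ∃ K, K = C * e.κ := ⟨_, rfl⟩
  rw [← hK] at hm
  have hK0 : 0 ≤ K := by rw [hK]; exact mul_nonneg (by linarith) (by linarith)
  have hD0 : 0 ≤ K * (D₁ + D₂) ^ 2 := by positivity
  refine ⟨9 * (D₁ + D₂) + 6 + 9 * K + K * (D₁ + D₂) ^ 2, by linarith, fun x hp hq => ?_⟩
  have hn := e.ds_nonneg x
  have hR : 1 ≤ (1 + e.ds x) ^ (31 / 32 : ℝ) := Real.one_le_rpow (by linarith) (by norm_num)
  rcases le_total (e.ds x) ((D₁ + D₂) ^ 2) with hc | hc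
  · have a1 := mul_le_mul_of_nonneg_left hc hK0
    have a2 := mul_le_mul_of_nonneg_left hR
      (by linarith : 0 ≤ 9 * (D₁ + D₂) + 6 + 9 * K + K * (D₁ + D₂) ^ 2)
    linarith [hm x]
  · obtain ⟨s, hs0, hs⟩ : ∃ s : ℝ, 0 ≤ s ∧ s ^ 2 = e.ds x := ⟨_, Real.sqrt_nonneg _, Real.sq_sqrt hn⟩
    have hsD : D₁ + D₂ ≤ s := by
      refine (pow_le_pow_iff_left₀ (by linarith) hs0 two_ne_zero).1 ?_
      rw [hs]
      exact hc
    have hs1 : 0 < s := by linarith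
    obtain ⟨y, y1, y2, y3, y4⟩ := h₁ s (by linarith)
    obtain ⟨z, z1, z2, z3, z4⟩ := h₂ s (by linarith)
    change s / 2 ≤ e.q z at z1
    change e.q z ≤ 2 * s at z2
    change |e.p z| ≤ s / 16 at z3
    change mE G z ≤ e.q z + e.p z + _ at z4
    obtain ⟨b1, b2, -⟩ := e.ds_pq x
    obtain ⟨i, j, ⟨i0, i1⟩, ⟨j0, j1⟩, ea, eb⟩ := Flat.poly_cramer (a := e.p x) (b := e.q x) hs1
      (by rw [hs]; exact hp) (by rw [hs]; exact (le_abs_self _).trans b1) (by rw [hs]; exact hq)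
      (by rw [hs]; exact (le_abs_self _).trans b2) y1 y2 y3 z1 z2 z3
    have I1 := Nat.floor_le i0
    have I2 := Nat.lt_floor_add_one i
    have J1 := Nat.floor_le j0
    have J2 := Nat.lt_floor_add_one j
    generalize ⌊i⌋₊ = I at I1 I2
    generalize ⌊j⌋₊ = J at J1 J2
    obtain ⟨r, hr⟩ : ∃ r, x = I • y + J • z + r := ⟨x - (I • y + J • z), by abel⟩
    have ep : e.p x = I * e.p y + J * e.p z + e.p r := by
      rw [hr, map_add, map_add, map_nsmul, map_nsmul, nsmul_eq_mul, nsmul_eq_mul]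
    have eq : e.q x = I * e.q y + J * e.q z + e.q r := by
      rw [hr, map_add, map_add, map_nsmul, map_nsmul, nsmul_eq_mul, nsmul_eq_mul]
    have rp : |e.p r| ≤ 3 * s := by
      rw [show e.p r = (i - I) * e.p y + (j - J) * e.p z by linarith]
      exact Flat.poly_rem hs1 (by linarith) (by linarith) (by linarith) (by linarith)
        (abs_le.2 ⟨by linarith, y2⟩) z3
    have rq : |e.q r| ≤ 3 * s := by
      rw [show e.q r = (j - J) * e.q z + (i - I) * e.q y by linarith]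
      exact Flat.poly_rem hs1 (by linarith) (by linarith) (by linarith) (by linarith)
        (abs_le.2 ⟨by linarith, z2⟩) y3
    have rd : e.ds r ≤ 9 * s := by linarith [(e.ds_pq r).2.2, max_le rp rq]
    have rm : mE G r ≤ K * (9 * s) := (hm r).trans (mul_le_mul_of_nonneg_left rd hK0)
    have m1 : mE G x ≤ I * mE G y + J * mE G z + mE G r := by
      have := hG.mE_add (I • y + J • z) r
      rw [← hr] at this
      linarith [hG.mE_add (I • y) (J • z), Flat.poly_nsmul hG I y, Flat.poly_nsmul hG J z]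
    have hw1 : 1 ≤ s ^ (15 / 16 : ℝ) := Real.one_le_rpow (by linarith) (by norm_num)
    have hw : s * s ^ (15 / 16 : ℝ) ≤ (1 + e.ds x) ^ (31 / 32 : ℝ) := by
      have e1 : s * s ^ (15 / 16 : ℝ) = (s ^ 2) ^ (31 / 32 : ℝ) := by
        rw [← Real.rpow_natCast, ← Real.rpow_mul hs0, ← Real.rpow_one_add' hs0 (by norm_num)]
        norm_num
      rw [e1, hs]
      exact Real.rpow_le_rpow hn (by linarith) (by norm_num)
    generalize s ^ (15 / 16 : ℝ) = w at hw hw1 y4 z4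
    generalize (1 + e.ds x) ^ (31 / 32 : ℝ) = R at hw hR ⊢
    have hsR : s ≤ R := (le_mul_of_one_le_right hs0 hw1).trans hw
    have m2 := mul_le_mul_of_nonneg_left y4 (Nat.cast_nonneg (α := ℝ) I)
    have m3 := mul_le_mul_of_nonneg_left z4 (Nat.cast_nonneg (α := ℝ) J)
    have m4 : (I : ℝ) * (D₁ * w) ≤ 9 * s * (D₁ * w) :=
      mul_le_mul_of_nonneg_right (by linarith) (mul_nonneg (by linarith) (by linarith))
    have m5 : (J : ℝ) * (D₂ * w) ≤ 9 * s * (D₂ * w) :=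
      mul_le_mul_of_nonneg_right (by linarith) (mul_nonneg (by linarith) (by linarith))
    have m6 := mul_le_mul_of_nonneg_left hw (by linarith : 0 ≤ 9 * (D₁ + D₂))
    have m7 := mul_le_mul_of_nonneg_left hsR (by linarith : 0 ≤ 6 + 9 * K)
    have m8 : 0 ≤ K * (D₁ + D₂) ^ 2 * R := mul_nonneg hD0 (by linarith)
    linarith [(abs_le.1 rp).1, (abs_le.1 rq).1]
theorem Coc.dev_shift (hG : Law G) (a : Coc G e h) (x z : Z2) (m : ℝ) :
    ∫ t, |h t z - h t x - m| ∂iidLaw G = ∫ t, |h t (z - x) - m| ∂iidLaw G := by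
  have hm : Measurable fun t => |h t (z - x) - m| :=
    ((a.meas (z - x)).sub measurable_const).abs
  have e1 : ∫ t, |h t (z - x) - m| ∂iidLaw G = ∫ t, |h (B.sh x t) (z - x) - m| ∂iidLaw G := by
    conv_lhs => rw [← (hG.mp_sh x).map_eq]
    rw [integral_map (hG.mp_sh x).measurable.aemeasurable hm.aestronglyMeasurable]
  rw [e1]
  refine integral_congr_ae ?_
  filter_upwards [a.sh] with t ht
  rw [ht x (z - x), sub_add_cancel]
theorem Coc.dev_zero (a : Coc G e h) : ∀ᵐ t ∂iidLaw G, h t 0 = 0 := by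
  filter_upwards [a.sh] with t ht
  have h1 := ht 0 0
  have h2 : B.sh 0 t = t := by
    funext u
    unfold B.sh
    simp
  rw [h2, add_zero, sub_self] at h1
  exact h1
theorem Coc.dev_T (hG : Law G) {C : ℝ}
    (hC : ∀ x y : Z2, Var[fun t => T t x y; iidLaw G] ≤ C * n1 (y - x)) (d : Z2) {r : ℝ}
    (hr : 0 < r) : ∫ t, |T t 0 d - mE G d| ∂iidLaw G ≤ C * n1 d / (2 * r) + r / 2 := by
  have := hG.isP
  have hT := hG.T_mem 0 d
  have hv := hC 0 d
  rw [sub_zero, variance_eq_integral (T_meas 0 d).aemeasurable] at hv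
  have h2 : Integrable (fun t => (T t 0 d - mE G d) ^ 2) (iidLaw G) :=
    (hT.sub (memLp_const _)).integrable_sq
  have h1 : Integrable (fun t => |T t 0 d - mE G d|) (iidLaw G) :=
    ((hG.T_int 0 d).sub (integrable_const _)).abs
  have h3 : ∫ t, |T t 0 d - mE G d| ∂iidLaw G ≤
      ∫ t, ((T t 0 d - mE G d) ^ 2 / (2 * r) + r / 2) ∂iidLaw G := by
    refine integral_mono h1 ((h2.div_const _).add (integrable_const _)) fun t => ?_
    have h4 : (T t 0 d - mE G d) ^ 2 = |T t 0 d - mE G d| ^ 2 := (sq_abs _).symm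
    show |T t 0 d - mE G d| ≤ (T t 0 d - mE G d) ^ 2 / (2 * r) + r / 2
    rw [h4, div_add' _ _ _ (by positivity), le_div_iff₀ (by positivity)]
    nlinarith [sq_nonneg (|T t 0 d - mE G d| - r)]
  rw [integral_add (h2.div_const _) (integrable_const _), integral_div, integral_const] at h3
  simp only [probReal_univ, smul_eq_mul, one_mul] at h3
  refine h3.trans ?_
  gcongr
  exact hv
theorem Coc.dev_cone (hG : Law G) (hf : Flat G e) (a : Coc G e h) : ∃ D : ℝ, 1 ≤ D ∧ ∀ d,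
    e.ds d ≤ 4 * e.p d → e.ds d ≤ 4 * e.q d →
    ∫ t, |h t d - (e.p d + e.q d)| ∂iidLaw G ≤ D * (1 + e.ds d) ^ (31 / 32 : ℝ) := by
  have := hG.isP
  obtain ⟨D, hD, hp⟩ := hf.poly hG
  obtain ⟨C, hC, hv⟩ := hG.T_var
  have hκ := hf.ok.κ3
  refine ⟨2 * D + C * e.κ, by nlinarith, fun d h1 h2 => ?_⟩
  have hds := e.ds_nonneg d
  set r : ℝ := (1 + e.ds d) ^ (31 / 32 : ℝ) with hr
  have hr0 : 0 < r := Real.rpow_pos_of_pos (by linarith) _
  have hr2 : 1 + e.ds d ≤ r ^ 2 := by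
    rw [hr, ← Real.rpow_natCast, ← Real.rpow_mul (by linarith)]
    conv_lhs => rw [← Real.rpow_one (1 + e.ds d)]
    exact Real.rpow_le_rpow_of_exponent_le (by linarith) (by norm_num)
  have hT := Coc.dev_T hG hv d hr0
  have hlow := hf.low d
  have hup : mE G d ≤ e.p d + e.q d + D * r := hp d h1 h2
  have i1 := hG.T_int 0 d
  have i2 := a.int d
  have i3 : Integrable (fun t => |T t 0 d - mE G d|) (iidLaw G) :=
    (i1.sub (integrable_const _)).abs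
  have h3 : ∫ t, |h t d - (e.p d + e.q d)| ∂iidLaw G ≤
      ∫ t, ((T t 0 d - h t d) + |T t 0 d - mE G d| + (mE G d - (e.p d + e.q d))) ∂iidLaw G := by
    refine integral_mono_ae (i2.sub (integrable_const _)).abs
      (((i1.sub i2).add i3).add (integrable_const _)) ?_
    filter_upwards [a.pot, a.dev_zero] with t ht h0
    have h4 := ht 0 d
    rw [h0, sub_zero] at h4
    have h5 := le_abs_self (T t 0 d - mE G d)
    have h6 := neg_abs_le (T t 0 d - mE G d)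
    show |h t d - (e.p d + e.q d)| ≤ _
    rw [abs_le]
    constructor <;> linarith
  have i4 : Integrable (fun t => T t 0 d - h t d) (iidLaw G) := i1.sub i2
  have i5 : Integrable (fun t => T t 0 d - h t d + |T t 0 d - mE G d|) (iidLaw G) := i4.add i3
  rw [integral_add i5 (integrable_const _), integral_add i4 i3,
    integral_sub i1 i2, a.mean d, integral_const] at h3
  simp only [probReal_univ, smul_eq_mul, one_mul] at h3
  have h4 : ∫ t, T t 0 d ∂iidLaw G = mE G d := rfl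
  rw [h4] at h3
  have h5 : C * n1 d / (2 * r) ≤ C * e.κ * r / 2 := by
    rw [div_le_iff₀ (by positivity)]
    have h6 := (hf.ok.n1_ds d).1
    have h7 : n1 d ≤ e.κ * r ^ 2 := h6.trans (by gcongr; linarith)
    have h8 : C * n1 d ≤ C * (e.κ * r ^ 2) := by gcongr
    nlinarith
  have h6 : r ≤ C * e.κ * r := by
    have : 1 ≤ C * e.κ := by nlinarith
    nlinarith
  nlinarith
/-- `h t 0 = 0` a.e. (`sh` with `z = 0`). In the middle cone `0 ≤ T - h d` has mean `mE d - p d - q d`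
(`poly`) and `E |T - mE| ≤ √(C n1)` (`T_var`). General `d`: `d₂` with `p, q` within `C` of
`3 C + 2 ds d`; `d₂` and `d + d₂` lie in the middle cone, `h t d = h t (d₂ + d) - h (sh d t) d₂`. -/
theorem Coc.dev (hG : Law G) (hf : Flat G e) (a : Coc G e h) : ∃ D : ℝ, 1 ≤ D ∧ ∀ x z,
    ∫ t, |h t z - h t x - (e.p (z - x) + e.q (z - x))| ∂iidLaw G ≤
      D * (1 + e.ds (z - x)) ^ (31 / 32 : ℝ) := by
  have := hG.isP
  obtain ⟨D, hD, hc⟩ := a.dev_cone hG hf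
  have hC := hf.ok.C1
  refine ⟨2 * D * (7 * e.C), by nlinarith, fun x z => ?_⟩
  rw [a.dev_shift hG]
  generalize z - x = d
  have hds := e.ds_nonneg d
  obtain ⟨d₂, hp, hq⟩ := hf.ok.den (3 * e.C + 2 * e.ds d) (3 * e.C + 2 * e.ds d)
  rw [abs_le] at hp hq
  obtain ⟨hp1, hq1, -⟩ := e.ds_pq d
  rw [abs_le] at hp1 hq1
  have h2 : e.ds d₂ ≤ 6 * e.C + 2 * e.ds d := by
    refine max_le ?_ ?_
    · rw [e.P_apply, abs_le]; constructor <;> linarith
    · rw [e.Y_apply, abs_le]; constructor <;> linarith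
  have h3 : e.ds (d₂ + d) ≤ 6 * e.C + 3 * e.ds d := by linarith [e.ds_add d₂ d]
  have k1 := hc d₂ (by linarith) (by linarith)
  have k2 := hc (d₂ + d) (by rw [map_add]; linarith) (by rw [map_add]; linarith)
  have k3 := a.dev_shift hG d (d₂ + d) (e.p d₂ + e.q d₂)
  rw [add_sub_cancel_right] at k3
  have hb : ∀ u : ℝ, 0 ≤ u → u ≤ 6 * e.C + 3 * e.ds d →
      (1 + u) ^ (31 / 32 : ℝ) ≤ 7 * e.C * (1 + e.ds d) ^ (31 / 32 : ℝ) := by
    intro u hu hu'
    calc (1 + u) ^ (31 / 32 : ℝ) ≤ (7 * e.C * (1 + e.ds d)) ^ (31 / 32 : ℝ) :=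
          Real.rpow_le_rpow (by linarith) (by nlinarith) (by norm_num)
      _ = (7 * e.C) ^ (31 / 32 : ℝ) * (1 + e.ds d) ^ (31 / 32 : ℝ) :=
          Real.mul_rpow (by linarith) (by linarith)
      _ ≤ 7 * e.C * (1 + e.ds d) ^ (31 / 32 : ℝ) := by
          refine mul_le_mul_of_nonneg_right ?_ (Real.rpow_nonneg (by linarith) _)
          conv_rhs => rw [← Real.rpow_one (7 * e.C)]
          exact Real.rpow_le_rpow_of_exponent_le (by linarith) (by norm_num)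
  have b1 := hb _ (e.ds_nonneg d₂) (by linarith)
  have b2 := hb _ (e.ds_nonneg (d₂ + d)) h3
  have i1 : Integrable (fun t => |h t (d₂ + d) - (e.p (d₂ + d) + e.q (d₂ + d))|) (iidLaw G) :=
    ((a.int _).sub (integrable_const _)).abs
  have i2 : Integrable (fun t => |h t (d₂ + d) - h t d - (e.p d₂ + e.q d₂)|) (iidLaw G) :=
    (((a.int _).sub (a.int _)).sub (integrable_const _)).abs
  have k4 : ∫ t, |h t d - (e.p d + e.q d)| ∂iidLaw G ≤
      ∫ t, (|h t (d₂ + d) - (e.p (d₂ + d) + e.q (d₂ + d))| +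
        |h t (d₂ + d) - h t d - (e.p d₂ + e.q d₂)|) ∂iidLaw G := by
    refine integral_mono ((a.int _).sub (integrable_const _)).abs (i1.add i2) fun t => ?_
    have e1 : h t d - (e.p d + e.q d) = (h t (d₂ + d) - (e.p (d₂ + d) + e.q (d₂ + d))) -
        (h t (d₂ + d) - h t d - (e.p d₂ + e.q d₂)) := by
      rw [map_add, map_add]; ring
    show |h t d - (e.p d + e.q d)| ≤ _
    rw [e1]
    exact abs_sub _ _
  rw [integral_add i1 i2, k3] at k4
  have hD0 : 0 ≤ D := by linarith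
  have c1 := mul_le_mul_of_nonneg_left b1 hD0
  have c2 := mul_le_mul_of_nonneg_left b2 hD0
  nlinarith

end

end Crest.Agent.R151.B
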