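import Crest.Agent.R151.D1c

set_option autoImplicit false

open MeasureTheory ProbabilityTheory Set Filter Topology
open scoped ENNReal
open Crest.ProbabilityR.FirstPassage

namespace Crest.Agent.R151.B

noncomputable section

variable {G : Measure ℝ}

theorem d5a_loc {c : ℝ} {Ω : Set Z2} {L₁ L₂ : Lane} (h₁ : L₁.S c ⊆ Ω) (h₂ : L₂.S c ⊆ Ω)
    (r : ℝ≥0∞) : Loc Ω {t | r < ⨅ (φ : Z2 → ℝ) (_ : Rt φ) (_ : Pot φ Ω t),
      WL c φ t L₁ + WL c φ t L₂} := by
  classical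
  constructor
  · refine measurableSet_lt measurable_const (Measurable.biInf {φ | Rt φ} ?_ fun φ _ => ?_)
    · refine (countable_range fun (ψ : Z2 →₀ ℚ) (x : Z2) => (ψ x : ℝ)).mono ?_
      rintro φ ⟨ψ, hψ⟩
      exact ⟨ψ, (funext hψ).symm⟩
    · simp only [iInf_eq_if]
      exact Measurable.ite (loc_pot φ Ω).1
        ((WL_meas (h := fun _ => φ) (fun _ => measurable_const) c L₁).add
          (WL_meas (h := fun _ => φ) (fun _ => measurable_const) c L₂)) measurable_const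
  · intro t t' e ht
    have e' : ∀ u ∈ Ω, ∀ v ∈ Ω, t s(u, v) = t' s(u, v) := fun u hu v hv => (e u hu v hv).symm
    have ht' : r < ⨅ (φ : Z2 → ℝ) (_ : Rt φ) (_ : Pot φ Ω t), WL c φ t L₁ + WL c φ t L₂ := ht
    refine lt_of_lt_of_le ht' (le_iInf fun φ => le_iInf fun hφ => le_iInf fun p => ?_)
    refine (iInf_le_of_le φ (iInf₂_le hφ ((loc_pot φ Ω).2 t' t e' p))).trans (add_le_add ?_ ?_)
    · exact WL_mono fun d hd => ((loc_chp c φ L₁ d).mono h₁).2 t' t e' hd
    · exact WL_mono fun d hd => ((loc_chp c φ L₂ d).mono h₂).2 t' t e' hd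

theorem d5a_le {c : ℝ} {Ω : Set Z2} {L₁ L₂ : Lane} (h₁ : L₁.S c ⊆ Ω) (h₂ : L₂.S c ⊆ Ω)
    (hΩ : Ω.Finite) {t : Env} (ht : PS t) {φ : Z2 → ℝ} (p : Pot φ Ω t) :
    ⨅ (φ : Z2 → ℝ) (_ : Rt φ) (_ : Pot φ Ω t), WL c φ t L₁ + WL c φ t L₂ ≤
      WL c φ t L₁ + WL c φ t L₂ := by
  refine ENNReal.le_of_forall_pos_le_add fun ε hε _ => ?_
  have hε' : (0 : ℝ) < ε := hε
  rw [← ENNReal.ofReal_coe_nnreal]
  refine le_WL_add hε'.le fun d₁ d₂ k₁ k₂ a₁ a₂ => ?_
  obtain ⟨ψ, r, q, hq⟩ := rat_approx hΩ ht p (η := ε / 4) (by positivity)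
  refine (iInf_le_of_le ψ (iInf₂_le r q)).trans ((add_le_add
    (WL_le (a₁.approx fun x hx => hq x (h₁ hx))) (WL_le (a₂.approx fun x hx => hq x (h₂ hx)))).trans
    (le_of_eq ?_))
  rw [← ENNReal.ofReal_add (by positivity) (by positivity)]
  congr 1
  ring

theorem d5a_min (hG : Law G) {S S' : Set Z2} (hd : Disjoint S S') {F F' : Env → ℝ≥0∞}
    (a : ∀ r : ℝ≥0∞, Loc S {t | r < F t}) (b : ∀ r : ℝ≥0∞, Loc S' {t | r < F' t}) {τ : ℝ}
    (hτ : 0 ≤ τ) (h₁ : ∫⁻ t, F t ∂iidLaw G ≤ ENNReal.ofReal τ)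
    (h₂ : ∫⁻ t, F' t ∂iidLaw G ≤ ENNReal.ofReal τ) {E : Set Env} (hE : MeasurableSet E) :
    ∫⁻ t, E.indicator (fun t => min (F t) (F' t)) t ∂iidLaw G ≤
      ENNReal.ofReal (2 * τ * √(Pr G E)) := by
  have := hG.isP
  rcases hτ.eq_or_lt with rfl | hτ0
  · rw [ENNReal.ofReal_zero] at h₁
    refine le_trans (lintegral_mono fun t => ?_) (h₁.trans (zero_le))
    exact (indicator_le_self _ _ t).trans (min_le_left _ _)
  rcases (Pr_nonneg G E).eq_or_lt with h0 | hp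
  · rw [lintegral_indicator hE, setLIntegral_measure_zero _ _
      ((measureReal_eq_zero_iff (measure_ne_top _ _)).1 h0.symm)]
    exact zero_le
  obtain ⟨s, hs⟩ : ∃ s, s = √(Pr G E) := ⟨_, rfl⟩
  have s0 : 0 < s := hs ▸ Real.sqrt_pos.2 hp
  have s2 : s * s = Pr G E := hs ▸ Real.mul_self_sqrt hp.le
  rw [← hs]
  obtain ⟨σ, hσ⟩ : ∃ σ, σ = ENNReal.ofReal (τ / s) := ⟨_, rfl⟩
  have hF' : Measurable F' := measurable_of_Ioi fun r => (b r).1
  have k1 : ∀ t, E.indicator (fun t => min (F t) (F' t)) t ≤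
      E.indicator (fun _ => σ) t + {t | σ < F' t}.indicator F t := fun t => by
    by_cases h : t ∈ E
    · rw [indicator_of_mem h, indicator_of_mem h]
      by_cases h' : σ < F' t
      · rw [indicator_of_mem (show t ∈ {t | σ < F' t} from h')]
        exact (min_le_left _ _).trans le_add_self
      · exact ((min_le_right _ _).trans (not_lt.1 h')).trans le_self_add
    · rw [indicator_of_notMem h]
      exact zero_le
  have k2 : iidLaw G {t | σ < F' t} ≤ ENNReal.ofReal s := by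
    have m := (mul_meas_ge_le_lintegral₀ (μ := iidLaw G) hF'.aemeasurable σ).trans h₂
    have e : ENNReal.ofReal τ = σ * ENNReal.ofReal s := by
      rw [hσ, ← ENNReal.ofReal_mul (by positivity), div_mul_cancel₀ _ s0.ne']
    rw [e, ENNReal.mul_le_mul_iff_right (by rw [hσ]; simpa using div_pos hτ0 s0)
      (by rw [hσ]; exact ENNReal.ofReal_ne_top)] at m
    exact (measure_mono fun t (ht : σ < F' t) => (ht.le : σ ≤ F' t)).trans m
  refine (lintegral_mono k1).trans ?_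
  rw [lintegral_add_left (measurable_const.indicator hE), lintegral_indicator_const hE,
    hG.loc_indep_fun hd a (b σ), ← ofReal_measureReal (measure_ne_top _ E), hσ,
    ← ENNReal.ofReal_mul (by positivity)]
  rw [← hσ]
  refine (add_le_add le_rfl (mul_le_mul' h₁ k2)).trans (le_of_eq ?_)
  rw [← ENNReal.ofReal_mul hτ, ← ENNReal.ofReal_add (by positivity) (by positivity)]
  congr 1
  change τ / s * Pr G E + _ = _
  rw [← s2]
  field_simp
  ring

end

end Crest.Agent.R151.B
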