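import Crest.Agent.R151.D1c
import Crest.Agent.R151.D5Aux1

set_option autoImplicit false

open MeasureTheory ProbabilityTheory Set Filter Topology
open scoped ENNReal
open Crest.ProbabilityR.FirstPassage

namespace Crest.Agent.R151.B

noncomputable section

/-! the sandwich and the cost of a thin band on a rare event -/

variable {G : Measure ℝ} {e : Fr} {h : Env → Z2 → ℝ}

/-- `x` = walk 3 ∩ walk 1, `b` = rest of walk 3 ∩ walk 4, `y` = rest of walk 4 ∩ walk 2 (chart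
`(k', k)`). Along `x → b → y` the potential `φ` grows by at most `ψ y - ψ x + e₃ + e₄`. -/
theorem sand {g k k' : Z2 →+ ℝ} (hD : crD g k ≠ 0) (hD' : crD k' k ≠ 0) {φ ψ : Z2 → ℝ} {t : Env}
    {Ω S₁ S₂ S₃ S₄ : Set Z2} (pφ : Pot φ Ω t) (pψ : Pot ψ Ω t) (o₁ : S₁ ⊆ Ω) (o₂ : S₂ ⊆ Ω)
    (o₃ : S₃ ⊆ Ω) (o₄ : S₄ ⊆ Ω) {x₀ x₁ x₂ v₀ v₁ r₀ r₁ : Z2}
    {e₁ e₂ e₃ e₄ p₁ p₂ q₁ q₂ q₃ q₄ k₁ k₂ : ℝ} (w₁ : Ex φ S₁ t x₀ x₁ e₁) (w₂ : Ex φ S₂ t x₁ x₂ e₂)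
    (w₃ : Ex ψ S₃ t v₀ v₁ e₃) (w₄ : Ex ψ S₄ t r₀ r₁ e₄) (s₁ : ∀ z ∈ S₁, q₁ ≤ k z ∧ k z ≤ q₂)
    (a₀ : g x₀ ≤ p₁) (a₁ : p₂ ≤ g x₁) (s₂ : ∀ z ∈ S₂, k₁ ≤ k' z ∧ k' z ≤ k₂) (a₂ : q₄ ≤ k x₂)
    (s₃ : ∀ z ∈ S₃, p₁ ≤ g z ∧ g z ≤ p₂) (b₀ : k v₀ ≤ q₁) (b₁ : q₄ ≤ k v₁)
    (s₄ : ∀ z ∈ S₄, q₃ ≤ k z ∧ k z ≤ q₄) (c₀ : g r₀ ≤ p₁) (c₁ : p₂ ≤ g r₁) (c₂ : k₂ ≤ k' r₁)
    (c₃ : ∀ z ∈ S₄, g z ≤ p₂ → k' z ≤ k₁) (hq : q₂ ≤ q₃) :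
    ∃ x y d₁ d₂, p₁ ≤ g x ∧ g x ≤ p₂ ∧ q₃ ≤ k y ∧ Ex ψ S₁ t x x₁ d₁ ∧ Ex ψ S₂ t x₁ y d₂ ∧
      d₁ + d₂ ≤ e₁ + e₂ + e₃ + e₄ := by
  have h34 : q₃ ≤ q₄ := (s₄ _ w₄.mem.1).1.trans (s₄ _ w₄.mem.1).2
  obtain ⟨x, u₁, u₂, f₁, f₂, i₁, i₂, iu, j₁, j₂, jf⟩ :=
    w₁.cross hD w₃ s₁ a₀ a₁ s₃ b₀ (hq.trans (h34.trans b₁))
  have hx := s₃ x j₂.mem.1
  have hx' : k x ≤ q₃ := (s₁ x i₂.mem.1).2.trans hq
  obtain ⟨b, u₃, u₄, f₃, f₄, i₃, i₄, iu', j₃, j₄, jf'⟩ := w₄.cross hD j₂ s₄ c₀ c₁ s₃ hx' b₁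
  obtain ⟨y, u₅, u₆, f₅, f₆, i₅, i₆, iu'', j₅, j₆, jf''⟩ :=
    i₄.cross hD' w₂ s₄ (c₃ b i₄.mem.1 (s₃ b j₄.mem.1).2) c₂ s₂ ((s₁ x₁ i₂.mem.2).2.trans hq) a₂
  have n₁ := i₁.nonneg (pφ.mono o₁)
  have n₂ := j₁.nonneg (pψ.mono o₃)
  have n₃ := i₃.nonneg (pψ.mono o₄)
  have n₄ := j₄.nonneg (pψ.mono o₃)
  have n₅ := i₆.nonneg (pψ.mono o₄)
  have n₆ := j₆.nonneg (pφ.mono o₂)
  have l₁ := j₃.le (pφ.mono o₃)
  have l₂ := i₅.le (pφ.mono o₄)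
  exact ⟨x, y, _, _, hx.1, hx.2, (s₄ y i₆.mem.1).1, i₂.change ψ, j₅.change ψ, by linarith⟩
theorem Chp.rev {c d : ℝ} {φ : Z2 → ℝ} {t : Env} {g k : Z2 →+ ℝ} {α m β w : ℝ}
    (a : Chp c φ t ⟨g, k, α, m, β, w⟩ d) :
    Chp c (fun x => -φ x) t ⟨-g, -k, -α - m, m, -β - w, w⟩ d := by
  obtain ⟨x, z, d', hd, hx, hz, he⟩ := a
  refine ⟨z, x, d', hd, ?_, ?_, he.rev.mono ?_⟩
  · simp only [AddMonoidHom.neg_apply] at hz ⊢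
    linarith
  · simp only [AddMonoidHom.neg_apply] at hx ⊢
    linarith
  · rintro u ⟨u1, u2, u3, u4⟩
    simp only [Lane.S, mem_ofPred_eq, AddMonoidHom.neg_apply] at u1 u2 u3 u4 ⊢
    exact ⟨by linarith, by linarith, by linarith, by linarith⟩
/-- cross the two `φ`-lanes, `sand` with `k' = g`, `Ex.trim` -/
theorem run_det {g k : Z2 →+ ℝ} (hD : crD g k ≠ 0) {c : ℝ} (hc : 0 ≤ c)
    (hg : ∀ u v, squareLattice.Adj u v → |g v - g u| ≤ c) {φ ψ : Z2 → ℝ} {t : Env} {Ω : Set Z2}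
    {α b m w d₁ d₂ d₃ d₄ : ℝ} (hw : 0 ≤ w) (hm : w ≤ m) (pφ : Pot φ Ω t) (pψ : Pot ψ Ω t)
    (hΩ : ∀ x, α - m - c ≤ g x → g x ≤ α + 2 * m + c → b - c ≤ k x → k x ≤ b + 2 * m + c → x ∈ Ω)
    (l₁ : Chp c φ t ⟨g, k, α - m, 3 * m, b, w⟩ d₁) (l₂ : Chp c φ t ⟨k, g, b, 2 * m, α + m, m⟩ d₂)
    (l₃ : Chp c ψ t ⟨k, g, b, 2 * m, α - m, m⟩ d₃)
    (l₄ : Chp c ψ t ⟨g, k, α - m, 3 * m, b + m, m⟩ d₄) :
    Chp c ψ t ⟨g, k, α, m, b, w⟩ (d₁ + d₂ + d₃ + d₄) := by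
  obtain ⟨x₀, z₀, e₁, h₁, a₁, a₁', w₁⟩ := l₁
  obtain ⟨y₀, x₂, e₂, h₂, a₂, a₂', w₂⟩ := l₂
  obtain ⟨v₀, v₁, e₃, h₃, a₃, a₃', w₃⟩ := l₃
  obtain ⟨r₀, r₁, e₄, h₄, a₄, a₄', w₄⟩ := l₄
  simp only at a₁ a₁' a₂ a₂' a₃ a₃' a₄ a₄'
  have o₁ : Lane.S ⟨g, k, α - m, 3 * m, b, w⟩ c ⊆ Ω := by
    rintro u ⟨u1, u2, u3, u4⟩
    simp only at u1 u2 u3 u4
    exact hΩ u (by linarith) (by linarith) (by linarith) (by linarith)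
  have o₂ : Lane.S ⟨k, g, b, 2 * m, α + m, m⟩ c ⊆ Ω := by
    rintro u ⟨u1, u2, u3, u4⟩
    simp only at u1 u2 u3 u4
    exact hΩ u (by linarith) (by linarith) (by linarith) (by linarith)
  have o₃ : Lane.S ⟨k, g, b, 2 * m, α - m, m⟩ c ⊆ Ω := by
    rintro u ⟨u1, u2, u3, u4⟩
    simp only at u1 u2 u3 u4
    exact hΩ u (by linarith) (by linarith) (by linarith) (by linarith)
  have o₄ : Lane.S ⟨g, k, α - m, 3 * m, b + m, m⟩ c ⊆ Ω := by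
    rintro u ⟨u1, u2, u3, u4⟩
    simp only at u1 u2 u3 u4
    exact hΩ u (by linarith) (by linarith) (by linarith) (by linarith)
  obtain ⟨x₁, u₁, u₂, f₁, f₂, i₁, i₂, iu, j₁, j₂, jf⟩ :=
    w₁.cross (a₀ := α + m) (a₁ := α + m + m) (b₀ := b) (b₁ := b + w) hD w₂ (fun z hz => hz.2.2)
      (by linarith) (by linarith) (fun z hz => hz.2.2) a₂ (by linarith)
  have hx₁ : α + m ≤ g x₁ := j₂.mem.1.2.2.1
  obtain ⟨x, y, c₁, c₂, -, hx, -, k₁, k₂, hk⟩ :=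
    sand (p₁ := α - m) (p₂ := α - m + m) (q₁ := b) (q₂ := b + w) (q₃ := b + m) (q₄ := b + m + m)
      (k₁ := α + m) (k₂ := α + m + m) hD hD pφ pψ o₁ o₂ o₃ o₄ i₁ j₂ w₃ w₄ (fun z hz => hz.2.2) a₁
      (by linarith) (fun z hz => hz.2.2) (by linarith) (fun z hz => hz.2.2) a₃ (by linarith)
      (fun z hz => hz.2.2) a₄ (by linarith) (by linarith) (fun z _ hz => by linarith) (by linarith)
  have n₁ := i₂.nonneg (pφ.mono o₁)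
  have n₂ := j₁.nonneg (pφ.mono o₂)
  have n₃ := k₂.nonneg (pψ.mono o₂)
  exact (Ex.trim (L := ⟨g, k, α, m, b, w⟩) k₁ (pψ.mono o₁) hc hg (hw.trans hm) (fun z hz => hz.2.2)
    (show g x ≤ α by linarith) hx₁).mono (by linarith)
/-- the mirror image: `Chp.rev`, `Pot.neg`, `run_det` for `-g, -k`, `Chp.rev` again -/
theorem run_det' {g k : Z2 →+ ℝ} (hD : crD g k ≠ 0) {c : ℝ} (hc : 0 ≤ c)
    (hg : ∀ u v, squareLattice.Adj u v → |g v - g u| ≤ c) {φ ψ : Z2 → ℝ} {t : Env} {Ω : Set Z2}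
    {α b m w d₁ d₂ d₃ d₄ : ℝ} (hw : 0 ≤ w) (hm : w ≤ m) (pφ : Pot φ Ω t) (pψ : Pot ψ Ω t)
    (hΩ : ∀ x, α - m - c ≤ g x → g x ≤ α + 2 * m + c → b - 2 * m - c ≤ k x → k x ≤ b + c → x ∈ Ω)
    (l₁ : Chp c φ t ⟨g, k, α - m, 3 * m, b - w, w⟩ d₁)
    (l₂ : Chp c φ t ⟨k, g, b - 2 * m, 2 * m, α - m, m⟩ d₂)
    (l₃ : Chp c ψ t ⟨k, g, b - 2 * m, 2 * m, α + m, m⟩ d₃)
    (l₄ : Chp c ψ t ⟨g, k, α - m, 3 * m, b - 2 * m, m⟩ d₄) :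
    Chp c ψ t ⟨g, k, α, m, b - w, w⟩ (d₁ + d₂ + d₃ + d₄) := by
  have r₁ := l₁.rev
  have r₂ := l₂.rev
  have r₃ := l₃.rev
  have r₄ := l₄.rev
  rw [show -(α - m) - 3 * m = -α - m - m by ring, show -(b - w) - w = -b by ring] at r₁
  rw [show -(b - 2 * m) - 2 * m = -b by ring, show -(α - m) - m = -α - m + m by ring] at r₂
  rw [show -(b - 2 * m) - 2 * m = -b by ring, show -(α + m) - m = -α - m - m by ring] at r₃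
  rw [show -(α - m) - 3 * m = -α - m - m by ring, show -(b - 2 * m) - m = -b + m by ring] at r₄
  have r := (run_det (crD_neg hD).1 hc (fun u v a => by
    rw [AddMonoidHom.neg_apply, AddMonoidHom.neg_apply, neg_sub_neg, abs_sub_comm]
    exact hg u v a) hw hm pφ.neg pψ.neg (fun x h1 h2 h3 h4 => by
      rw [AddMonoidHom.neg_apply] at h1 h2 h3 h4
      exact hΩ x (by linarith) (by linarith) (by linarith) (by linarith)) r₁ r₂ r₃ r₄).rev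
  rw [show -(-α - m) - m = α by ring, neg_neg, neg_neg, neg_neg] at r
  simpa only [neg_neg] using r
/-- local version of the excess of two lanes -/
def TL (c : ℝ) (Ω : Set Z2) (L₁ L₂ : Lane) (t : Env) : ℝ≥0∞ :=
  ⨅ (φ : Z2 → ℝ) (_ : Rt φ) (_ : Pot φ Ω t), WL c φ t L₁ + WL c φ t L₂
theorem TL_loc {c : ℝ} {Ω : Set Z2} {L₁ L₂ : Lane} (h₁ : L₁.S c ⊆ Ω) (h₂ : L₂.S c ⊆ Ω)
    (r : ℝ≥0∞) : Loc Ω {t | r < TL c Ω L₁ L₂ t} :=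
  d5a_loc h₁ h₂ r
/-- `rat_approx`, `Chp.approx` -/
theorem TL_le {c : ℝ} {Ω : Set Z2} {L₁ L₂ : Lane} (h₁ : L₁.S c ⊆ Ω) (h₂ : L₂.S c ⊆ Ω)
    (hΩ : Ω.Finite) {t : Env} (ht : PS t) {φ : Z2 → ℝ} (p : Pot φ Ω t) :
    TL c Ω L₁ L₂ t ≤ WL c φ t L₁ + WL c φ t L₂ :=
  d5a_le h₁ h₂ hΩ ht p
/-- `1_E min F F' ≤ σ 1_E + F 1_{σ < F'}` with `σ = τ / √(P E)`; `loc_indep_fun`, Markov -/
theorem Law.min_trick (hG : Law G) {S S' : Set Z2} (hd : Disjoint S S') {F F' : Env → ℝ≥0∞}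
    (a : ∀ r : ℝ≥0∞, Loc S {t | r < F t}) (b : ∀ r : ℝ≥0∞, Loc S' {t | r < F' t}) {τ : ℝ}
    (hτ : 0 ≤ τ) (h₁ : ∫⁻ t, F t ∂iidLaw G ≤ ENNReal.ofReal τ)
    (h₂ : ∫⁻ t, F' t ∂iidLaw G ≤ ENNReal.ofReal τ) {E : Set Env} (hE : MeasurableSet E) :
    ∫⁻ t, E.indicator (fun t => min (F t) (F' t)) t ∂iidLaw G ≤
      ENNReal.ofReal (2 * τ * √(Pr G E)) :=
  d5a_min hG hd a b hτ h₁ h₂ hE
theorem run1_step {c : ℝ} {φ : Z2 → ℝ} {t : Env} {L : Lane} {X Y : ℝ≥0∞}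
    (a : ∀ d, Chp c φ t L d → X ≤ ENNReal.ofReal d + Y) : X ≤ WL c φ t L + Y := by
  unfold WL
  rw [ENNReal.iInf_add]
  refine le_iInf fun d => ?_
  rw [ENNReal.iInf_add]
  exact le_iInf fun hd => a d hd
theorem run1_four {c : ℝ} {φ ψ : Z2 → ℝ} {t : Env} {L₁ L₂ L₃ L₄ : Lane} {X : ℝ≥0∞}
    (a : ∀ d₁ d₂ d₃ d₄, Chp c φ t L₁ d₁ → Chp c φ t L₂ d₂ → Chp c ψ t L₃ d₃ → Chp c ψ t L₄ d₄ →
      X ≤ ENNReal.ofReal (d₁ + d₂ + d₃ + d₄)) :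
    X ≤ WL c φ t L₁ + WL c φ t L₂ + (WL c ψ t L₃ + WL c ψ t L₄) := by
  rw [add_assoc]
  refine run1_step fun d₁ h₁ => ?_
  rw [add_left_comm]
  refine run1_step fun d₂ h₂ => ?_
  rw [add_left_comm (ENNReal.ofReal d₁), add_left_comm (ENNReal.ofReal d₂)]
  refine run1_step fun d₃ h₃ => ?_
  rw [add_comm (ENNReal.ofReal d₁), add_left_comm (ENNReal.ofReal d₂),
    add_left_comm (ENNReal.ofReal d₃)]
  refine run1_step fun d₄ h₄ => (a _ _ _ _ h₁ h₂ h₃ h₄).trans ?_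
  calc ENNReal.ofReal (d₁ + d₂ + d₃ + d₄)
      ≤ ENNReal.ofReal d₁ + ENNReal.ofReal d₂ + ENNReal.ofReal d₃ + ENNReal.ofReal d₄ :=
        ENNReal.ofReal_add_le.trans (add_le_add_left (ENNReal.ofReal_add_le.trans
          (add_le_add_left ENNReal.ofReal_add_le _)) _)
    _ = _ := by ring
theorem run1_TL {c : ℝ} {Ω : Set Z2} {L₁ L₂ : Lane} {t : Env} {X Y : ℝ≥0∞}
    (a : ∀ φ, Pot φ Ω t → X ≤ WL c φ t L₁ + WL c φ t L₂ + Y) : X ≤ TL c Ω L₁ L₂ t + Y := by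
  unfold TL
  rw [ENNReal.iInf_add]
  refine le_iInf fun φ => ?_
  rw [ENNReal.iInf_add]
  refine le_iInf fun _ => ?_
  rw [ENNReal.iInf_add]
  exact le_iInf fun hp => a φ hp
theorem run1_two (a : Coc G e h) {L₁ L₂ : Lane} {x y : ℝ} (hx : 0 ≤ x) (hy : 0 ≤ y)
    (h₁ : ∫⁻ t, e.W (h t) t L₁ ∂iidLaw G ≤ ENNReal.ofReal x)
    (h₂ : ∫⁻ t, e.W (h t) t L₂ ∂iidLaw G ≤ ENNReal.ofReal y) :
    ∫⁻ t, (e.W (h t) t L₁ + e.W (h t) t L₂) ∂iidLaw G ≤ ENNReal.ofReal (x + y) := by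
  rw [lintegral_add_left (WL_meas a.meas _ _), ENNReal.ofReal_add hx hy]
  exact add_le_add h₁ h₂
theorem run1_int (hG : Law G) (a : Coc G e h) {Ω : Set Z2} {L₁ L₂ : Lane} (s₁ : L₁.S e.κ ⊆ Ω)
    (s₂ : L₂.S e.κ ⊆ Ω) (hΩ : Ω.Finite) {x y : ℝ} (hx : 0 ≤ x) (hy : 0 ≤ y)
    (h₁ : ∫⁻ t, e.W (h t) t L₁ ∂iidLaw G ≤ ENNReal.ofReal x)
    (h₂ : ∫⁻ t, e.W (h t) t L₂ ∂iidLaw G ≤ ENNReal.ofReal y) :
    ∫⁻ t, TL e.κ Ω L₁ L₂ t ∂iidLaw G ≤ ENNReal.ofReal (x + y) := by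
  refine (lintegral_mono_ae ?_).trans (run1_two a hx hy h₁ h₂)
  filter_upwards [a.ae hG] with t ht
  exact TL_le s₁ s₂ hΩ ht.1 (ht.2.mono (subset_univ _))
/-- `run_det` with `b = μ + 2 κ` in `Ω₁ = Bx (α - m - κ) (α + 2 m + κ) (μ + κ) (μ + 3 κ + 2 m)`, `run_det'`
with `b = μ - 2 κ` in the mirror box, `Chp.sub`: `W ≤ min TL₁ TL₂ + (four lanes of width m)`.
`E TL ≤ 3 m ε + 2 m ε` (`TL_le`, `Rate.mono`), `min_trick`. -/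
theorem Coc.run1 (hG : Law G) (he : e.OK) (a : Coc G e h) {w m ε ε' : ℝ} (hw : 2 * e.κ ≤ w)
    (hm : w ≤ m) (hε : 0 ≤ ε) (hε' : 0 ≤ ε') (r : Rate G e h w ε) (r' : Rate G e h m ε') (α μ : ℝ)
    {E : Set Env} (hE : MeasurableSet E) :
    ∫⁻ t, E.indicator (fun t => e.W (h t) t (e.hor α m (μ - 2 * w) (4 * w))) t ∂iidLaw G ≤
      ENNReal.ofReal (10 * m * ε' + 10 * m * ε * √(Pr G E)) := by
  have hκ := he.κ3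
  have hc : 0 ≤ e.κ := by linarith
  have hw0 : 0 ≤ w := by linarith
  have hm0 : 0 ≤ m := by linarith
  have hg : ∀ u v, squareLattice.Adj u v → |e.P v - e.P u| ≤ e.κ := fun u v b => (he.step b).1
  have rm : Rate G e h m ε := r.mono hG he a hw0 hm le_rfl
  set Ω₁ := e.Bx (α - m - e.κ) (α + 2 * m + e.κ) (μ + e.κ) (μ + 3 * e.κ + 2 * m) with hΩ₁
  set Ω₂ := e.Bx (α - m - e.κ) (α + 2 * m + e.κ) (μ - 3 * e.κ - 2 * m) (μ - e.κ) with hΩ₂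
  have s₁ : (e.hor (α - m) (3 * m) (μ + 2 * e.κ) w).S e.κ ⊆ Ω₁ := by
    rintro x ⟨b₁, b₂, b₃, b₄⟩
    simp only [Fr.hor] at b₁ b₂ b₃ b₄
    exact ⟨by linarith, by linarith, by linarith, by linarith⟩
  have s₂ : (e.ver (μ + 2 * e.κ) (2 * m) (α + m) m).S e.κ ⊆ Ω₁ := by
    rintro x ⟨b₁, b₂, b₃, b₄⟩
    simp only [Fr.ver] at b₁ b₂ b₃ b₄
    exact ⟨by linarith, by linarith, by linarith, by linarith⟩
  have s₃ : (e.hor (α - m) (3 * m) (μ - 2 * e.κ - w) w).S e.κ ⊆ Ω₂ := by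
    rintro x ⟨b₁, b₂, b₃, b₄⟩
    simp only [Fr.hor] at b₁ b₂ b₃ b₄
    exact ⟨by linarith, by linarith, by linarith, by linarith⟩
  have s₄ : (e.ver (μ - 2 * e.κ - 2 * m) (2 * m) (α - m) m).S e.κ ⊆ Ω₂ := by
    rintro x ⟨b₁, b₂, b₃, b₄⟩
    simp only [Fr.ver] at b₁ b₂ b₃ b₄
    exact ⟨by linarith, by linarith, by linarith, by linarith⟩
  have hd : Disjoint Ω₁ Ω₂ := by
    rw [Set.disjoint_left]
    rintro x ⟨-, -, b₁, -⟩ ⟨-, -, -, b₂⟩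
    linarith
  have p3 : 0 ≤ ε * (3 * m) := by positivity
  have p2 : 0 ≤ ε * (2 * m) := by positivity
  have q3 : 0 ≤ ε' * (3 * m) := by positivity
  have q2 : 0 ≤ ε' * (2 * m) := by positivity
  have i₁ := run1_int hG a s₁ s₂ (he.Bx_fin _ _ _ _) p3 p2 (r _ _ _ (by linarith)).1
    (rm _ _ _ (by linarith)).2
  have i₂ := run1_int hG a s₃ s₄ (he.Bx_fin _ _ _ _) p3 p2 (r _ _ _ (by linarith)).1
    (rm _ _ _ (by linarith)).2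
  have mt := hG.min_trick hd (TL_loc s₁ s₂) (TL_loc s₃ s₄) (add_nonneg p3 p2) i₁ i₂ hE
  have j₁ := run1_two a q2 q3 (r' (μ + 2 * e.κ) (α - m) (2 * m) (by linarith)).2
    (r' (α - m) (μ + 2 * e.κ + m) (3 * m) (by linarith)).1
  have j₂ := run1_two a q2 q3 (r' (μ - 2 * e.κ - 2 * m) (α + m) (2 * m) (by linarith)).2
    (r' (α - m) (μ - 2 * e.κ - 2 * m) (3 * m) (by linarith)).1
  have m₁ : Measurable fun t => e.W (h t) t (e.ver (μ + 2 * e.κ) (2 * m) (α - m) m) +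
      e.W (h t) t (e.hor (α - m) (3 * m) (μ + 2 * e.κ + m) m) :=
    (WL_meas a.meas _ _).add (WL_meas a.meas _ _)
  have m₂ : Measurable fun t => e.W (h t) t (e.ver (μ - 2 * e.κ - 2 * m) (2 * m) (α + m) m) +
      e.W (h t) t (e.hor (α - m) (3 * m) (μ - 2 * e.κ - 2 * m) m) :=
    (WL_meas a.meas _ _).add (WL_meas a.meas _ _)
  have fin := add_le_add (add_le_add mt j₁) j₂
  rw [← lintegral_add_right _ m₁, ← lintegral_add_right _ m₂,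
    ← ENNReal.ofReal_add (by positivity) (by positivity),
    ← ENNReal.ofReal_add (by positivity) (by positivity)] at fin
  refine (lintegral_mono_ae ?_).trans (fin.trans (ENNReal.ofReal_le_ofReal (le_of_eq (by ring))))
  filter_upwards [a.ae hG] with t ht
  by_cases hEt : t ∈ E
  swap
  · rw [indicator_of_notMem hEt]
    exact zero_le
  rw [indicator_of_mem hEt, indicator_of_mem hEt]
  have k₁ : e.W (h t) t (e.hor α m (μ - 2 * w) (4 * w)) ≤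
      TL e.κ Ω₁ (e.hor (α - m) (3 * m) (μ + 2 * e.κ) w) (e.ver (μ + 2 * e.κ) (2 * m) (α + m) m) t +
        (e.W (h t) t (e.ver (μ + 2 * e.κ) (2 * m) (α - m) m) +
          e.W (h t) t (e.hor (α - m) (3 * m) (μ + 2 * e.κ + m) m)) := by
    refine run1_TL fun φ pφ => run1_four fun d₁ d₂ d₃ d₄ l₁ l₂ l₃ l₄ => WL_le ?_
    have := run_det (Ω := Ω₁) he.ind.1 hc hg hw0 hm pφ (ht.2.mono (subset_univ _))
      (fun x b₁ b₂ b₃ b₄ => ⟨b₁, b₂, by linarith, by linarith⟩) l₁ l₂ l₃ l₄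
    refine this.sub (ht.2.mono (subset_univ _)) hc hg rfl rfl hm0 le_rfl le_rfl ?_ ?_ <;>
      simp only [Fr.hor] <;> linarith
  have k₂ : e.W (h t) t (e.hor α m (μ - 2 * w) (4 * w)) ≤
      TL e.κ Ω₂ (e.hor (α - m) (3 * m) (μ - 2 * e.κ - w) w)
          (e.ver (μ - 2 * e.κ - 2 * m) (2 * m) (α - m) m) t +
        (e.W (h t) t (e.ver (μ - 2 * e.κ - 2 * m) (2 * m) (α + m) m) +
          e.W (h t) t (e.hor (α - m) (3 * m) (μ - 2 * e.κ - 2 * m) m)) := by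
    refine run1_TL fun φ pφ => run1_four fun d₁ d₂ d₃ d₄ l₁ l₂ l₃ l₄ => WL_le ?_
    have := run_det' (Ω := Ω₂) he.ind.1 hc hg hw0 hm pφ (ht.2.mono (subset_univ _))
      (fun x b₁ b₂ b₃ b₄ => ⟨b₁, b₂, by linarith, by linarith⟩) l₁ l₂ l₃ l₄
    refine this.sub (ht.2.mono (subset_univ _)) hc hg rfl rfl hm0 le_rfl le_rfl ?_ ?_ <;>
      simp only [Fr.hor] <;> linarith
  rcases min_choice (TL e.κ Ω₁ (e.hor (α - m) (3 * m) (μ + 2 * e.κ) w)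
      (e.ver (μ + 2 * e.κ) (2 * m) (α + m) m) t) (TL e.κ Ω₂ (e.hor (α - m) (3 * m)
        (μ - 2 * e.κ - w) w) (e.ver (μ - 2 * e.κ - 2 * m) (2 * m) (α - m) m) t) with b | b
  · rw [b]
    exact k₁.trans le_self_add
  · rw [b, add_right_comm]
    exact k₂.trans le_self_add

end

end Crest.Agent.R151.B
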