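import Crest.Agent.R151.D5

set_option autoImplicit false

open MeasureTheory ProbabilityTheory Set Filter Topology
open scoped ENNReal
open Crest.ProbabilityR.FirstPassage

namespace Crest.Agent.R151.B

noncomputable section

/-! good blocks: zigzag, link, chaining -/

variable {G : Measure ℝ} {e : Fr} {h : Env → Z2 → ℝ} {φ : Z2 → ℝ} {t : Env}

theorem stairs_U {c μ u m κ : ℝ} {j : ℕ} {x : Z2} : x ∈ (e.sU c μ u j m).S κ ↔
    (c + 2 * (μ - u)) / 3 + j * u - κ ≤ e.p x ∧ e.p x ≤ (c + 2 * (μ - u)) / 3 + j * u + m + κ ∧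
      (2 * c + (μ - u)) / 3 + 2 * j * u ≤ e.q x ∧ e.q x ≤ (2 * c + (μ - u)) / 3 + 2 * j * u + u :=
  Iff.rfl
theorem stairs_D {c μ u κ : ℝ} {j : ℕ} {x : Z2} : x ∈ (e.sD c μ u j).S κ ↔
    (2 * c + (μ - u)) / 3 + 2 * j * u - κ ≤ e.q x ∧
      e.q x ≤ (2 * c + (μ - u)) / 3 + 2 * j * u + 3 * u + κ ∧
      (c + 2 * (μ - u)) / 3 + (j + 1) * u ≤ e.p x ∧ e.p x ≤ (c + 2 * (μ - u)) / 3 + (j + 1) * u + u :=
  Iff.rfl
theorem stairs_aux (he : e.OK) {c μ u y : ℝ} (hu : e.κ ≤ u) {Ω : Set Z2} (p : Pot φ Ω t)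
    (n : ℕ) : ∀ m, u ≤ m → (∀ j, j < n → e.Ch φ t (e.sU c μ u j (2 * u)) y ∧
      e.Ch φ t (e.sD c μ u j) y ∧ (e.sU c μ u j (2 * u)).S e.κ ⊆ Ω ∧ (e.sD c μ u j).S e.κ ⊆ Ω) →
    e.Ch φ t (e.sU c μ u n m) y → (e.sU c μ u n m).S e.κ ⊆ Ω →
    ∃ x₀ x₁ x₂ e₁ e₂, Ex φ (Ω ∩ {x | μ - 5 * u ≤ e.Y x ∧ e.Y x ≤ μ + 5 * u}) t x₀ x₁ e₁ ∧
      Ex φ ((e.sU c μ u n m).S e.κ) t x₁ x₂ e₂ ∧ e₁ + e₂ ≤ (2 * n + 1) * y ∧ e.P x₀ ≤ c + 3 * u ∧
      e.p x₁ ≤ (c + 2 * (μ - u)) / 3 + (n + 1) * u ∧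
      (c + 2 * (μ - u)) / 3 + n * u + m ≤ e.p x₂ := by
  have hκ := he.κ3
  have hD := he.ind.2.1
  induction n with
  | zero =>
    rintro m hm - ⟨x, z, d, h1, h2, h3, h4⟩ ho
    obtain ⟨a1, -, a3, a4⟩ := stairs_U.1 h4.mem.1
    change e.p x ≤ (c + 2 * (μ - u)) / 3 + (0 : ℕ) * u at h2
    simp only [Nat.cast_zero] at a1 a3 a4 h2 ⊢
    refine ⟨x, x, z, 0, d, Ex.refl φ t ⟨ho h4.mem.1, ?_, ?_⟩, h4, by linarith, ?_, by linarith,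
      by simpa [Fr.sU, Fr.up] using h3⟩
    · rw [e.Y_apply]; linarith
    · rw [e.Y_apply]; linarith
    · rw [e.P_apply]; linarith
  | succ n ih =>
    rintro m hm hU ⟨w, w', d', g1, g2, g3, g4⟩ ho
    obtain ⟨u1, ⟨z, z', d, k1, k2, k3, k4⟩, u3, u4⟩ := hU n n.lt_succ_self
    obtain ⟨x₀, x₁, x₂, e₁, e₂, h1, h2, h3, h4, h5, h6⟩ :=
      ih (2 * u) (by linarith) (fun j hj => hU j (hj.trans n.lt_succ_self)) u1 u3
    change e.q z ≤ (2 * c + (μ - u)) / 3 + 2 * n * u at k2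
    change (2 * c + (μ - u)) / 3 + 2 * n * u + 3 * u ≤ e.q z' at k3
    change e.p w ≤ (c + 2 * (μ - u)) / 3 + (n + 1 : ℕ) * u at g2
    change (c + 2 * (μ - u)) / 3 + (n + 1 : ℕ) * u + m ≤ e.p w' at g3
    obtain ⟨A, d₁, d₂, d₁', d₂', a1, a2, a3, a4, a5, a6⟩ := Ex.cross hD h2 k4
      (fun x hx => (stairs_U.1 hx).2.2) h5 (by linarith) (fun x hx => (stairs_D.1 hx).2.2) k2
      (by linarith)
    have hA := (stairs_U.1 a1.mem.2).2.2.2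
    obtain ⟨B, f₁, f₂, f₁', f₂', b1, b2, b3, b4, b5, b6⟩ := Ex.cross hD g4 a5
      (fun x hx => (stairs_U.1 hx).2.2) (g2.trans_eq (by push_cast; rfl))
      (by push_cast at g3; linarith) (fun x hx => (stairs_D.1 hx).2.2)
      (by push_cast; linarith) (by push_cast; linarith)
    have hB := (stairs_D.1 b4.mem.2).2.2.2
    have n1 := a2.nonneg (p.mono u3)
    have n2 := a4.nonneg (p.mono u4)
    have n3 := b1.nonneg (p.mono ho)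
    have n4 := b5.nonneg (p.mono u4)
    refine ⟨x₀, B, w', e₁ + d₁ + f₁', f₂, (h1.trans (a1.mono fun x hx => ⟨u3 hx, ?_⟩)).trans
      (b4.mono fun x hx => ⟨u4 hx, ?_⟩), b2, by push_cast; linarith, h4, by push_cast; linarith, g3⟩
    · obtain ⟨c1, c2, c3, c4⟩ := stairs_U.1 hx
      constructor <;> rw [e.Y_apply] <;> linarith
    · obtain ⟨c1, c2, c3, c4⟩ := stairs_D.1 hx
      constructor <;> rw [e.Y_apply] <;> linarith
/-- `a₀ = (c + 2 (μ - u)) / 3`, `b₀ = (2 c + (μ - u)) / 3`, so `2 a₀ - b₀ = μ - u`, `2 b₀ - a₀ = c`.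
Induction on `j < n`: a walk in the band from `x₀` to a point `A` with `q A ≤ b₀ + (2 j + 1) u`,
continued inside `sD j` to `q ≥ b₀ + (2 j + 3) u`, total excess `≤ (2 j + 2) y`. Step: the continuation
crosses the walk of `sU (j + 1)`, whose rest crosses the walk of `sD (j + 1)` (`Ex.cross`, charts
`(p, q)`). All short lanes lie in the band. -/
theorem stairs (he : e.OK) {c μ u y m : ℝ} (hu : e.κ ≤ u) (hm : u ≤ m) {Ω : Set Z2} (p : Pot φ Ω t)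
    (n : ℕ) (hU : ∀ j, j < n → e.Ch φ t (e.sU c μ u j (2 * u)) y ∧ e.Ch φ t (e.sD c μ u j) y ∧
      (e.sU c μ u j (2 * u)).S e.κ ⊆ Ω ∧ (e.sD c μ u j).S e.κ ⊆ Ω)
    (hl : e.Ch φ t (e.sU c μ u n m) y) (ho : (e.sU c μ u n m).S e.κ ⊆ Ω) :
    ∃ x₀ x₁ x₂ e₁ e₂, Ex φ (Ω ∩ {x | μ - 5 * u ≤ e.Y x ∧ e.Y x ≤ μ + 5 * u}) t x₀ x₁ e₁ ∧
      Ex φ ((e.sU c μ u n m).S e.κ) t x₁ x₂ e₂ ∧ e₁ + e₂ ≤ (2 * n + 1) * y ∧ e.P x₀ ≤ c + 3 * u ∧
      c + 3 * n * u - u ≤ e.P x₁ ∧ (c + 2 * (μ - u)) / 3 + n * u + m ≤ e.p x₂ := by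
  obtain ⟨x₀, x₁, x₂, e₁, e₂, h1, h2, h3, h4, h5, h6⟩ := stairs_aux he hu p n m hm hU hl ho
  refine ⟨x₀, x₁, x₂, e₁, e₂, h1, h2, h3, h4, ?_, h6⟩
  obtain ⟨-, -, a3, -⟩ := stairs_U.1 h2.mem.1
  rw [e.P_apply]
  linarith
/-- `stairs` with `n = 8 K + 2` for the potential of the block, `sand` with `g = P`, `k = Y`, `k' = q`,
`p₁ = a - 8 K u`, `p₂ = a`, `q₁, q₂ = μ ∓ 5 u`, `q₃ = μ + 8 K u`, `q₄ = μ + 16 K u`,
`k₁ = b₀ + 2 n u`, `k₂ = k₁ + u`; `Ex.trim` -/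
theorem blk_run (he : e.OK) {a μ u y d₁ d₂ : ℝ} {K : ℕ} (hu : e.κ ≤ u) (hK : 17 ≤ K)
    (p : Pot φ univ t) (b : t ∈ e.Blk a μ u y K)
    (c₁ : e.Ch φ t (e.ver (μ - 5 * u) (16 * K * u + 5 * u) (a - 8 * K * u) (8 * K * u)) d₁)
    (c₂ : e.Ch φ t (e.hor (a - 8 * K * u) (32 * K * u) (μ + 8 * K * u) (8 * K * u)) d₂) :
    e.Ch φ t (e.hor a (16 * K * u) (μ - 16 * u) (32 * u)) (d₁ + d₂ + (16 * K + 5) * y) := by
  obtain ⟨ψ, -, pψ, -, -, hs, hl⟩ := b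
  have hκ : 3 ≤ e.κ := he.κ3
  have hu0 : 0 ≤ u := by linarith
  have hKr : (17 : ℝ) ≤ K := by exact_mod_cast hK
  have hKu : 17 * u ≤ K * u := mul_le_mul_of_nonneg_right hKr hu0
  have hn : ((8 * K + 2 : ℕ) : ℝ) = 8 * K + 2 := by push_cast; ring
  have ho : (e.sU (a - 8 * K * u - 3 * u) μ u (8 * K + 2) (8 * K * u + u)).S e.κ ⊆
      e.Bx (a - 16 * K * u) (a + 32 * K * u) (μ - 8 * K * u) (μ + 24 * K * u) := by
    rintro x ⟨h1, h2, h3, h4⟩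
    simp only [Fr.sU, Fr.up, hn] at h1 h2 h3 h4
    simp only [Fr.Bx, mem_setOf_eq, e.P_apply, e.Y_apply]
    refine ⟨?_, ?_, ?_, ?_⟩ <;> nlinarith
  obtain ⟨x₀, x₁, x₂, e₁, e₂, w₁, w₂, hsum, hx₀, hx₁, hx₂⟩ :=
    stairs (c := a - 8 * K * u - 3 * u) (μ := μ) (y := y) (m := 8 * K * u + u) he hu
      (by nlinarith) pψ (8 * K + 2) (fun j hj => by
        have hj0 : (0 : ℝ) ≤ j * u := mul_nonneg (Nat.cast_nonneg j) hu0
        have hj1 : (j : ℝ) ≤ 8 * K + 2 := by exact_mod_cast hj.le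
        have hj2 : j * u ≤ (8 * K + 2) * u := mul_le_mul_of_nonneg_right hj1 hu0
        refine ⟨(hs j hj).1, (hs j hj).2, ?_, ?_⟩
        · rintro x ⟨h1, h2, h3, h4⟩
          simp only [Fr.sU, Fr.up] at h1 h2 h3 h4
          simp only [Fr.Bx, mem_setOf_eq, e.P_apply, e.Y_apply]
          refine ⟨?_, ?_, ?_, ?_⟩ <;> nlinarith
        · rintro x ⟨h1, h2, h3, h4⟩
          simp only [Fr.sD, Fr.dn] at h1 h2 h3 h4
          simp only [Fr.Bx, mem_setOf_eq, e.P_apply, e.Y_apply]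
          refine ⟨?_, ?_, ?_, ?_⟩ <;> nlinarith) hl ho
  obtain ⟨v₀, v₁, e₃, he₃, hv₀, hv₁, w₃⟩ := c₁
  obtain ⟨r₀, r₁, e₄, he₄, hr₀, hr₁, w₄⟩ := c₂
  have m₂ := w₂.mem.2
  have m₄ := w₄.mem.2
  obtain ⟨-, -, -, m₂⟩ := m₂
  obtain ⟨-, -, m₄, -⟩ := m₄
  simp only [Fr.sU, Fr.up, Fr.ver, Fr.hor, hn] at m₂ m₄ hv₀ hv₁ hr₀ hr₁
  rw [hn] at hsum hx₁ hx₂
  obtain ⟨x, z, f₁, f₂, -, hx, -, u₁, u₂, hf⟩ :=
    sand (g := e.P) (k := e.Y) (k' := e.q) (p₁ := a - 8 * K * u) (p₂ := a) (q₁ := μ - 5 * u)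
      (q₂ := μ + 5 * u) (q₃ := μ + 8 * K * u) (q₄ := μ + 16 * K * u)
      (k₁ := (2 * (a - 8 * K * u - 3 * u) + (μ - u)) / 3 + 2 * (8 * K + 2) * u)
      (k₂ := (2 * (a - 8 * K * u - 3 * u) + (μ - u)) / 3 + 2 * (8 * K + 2) * u + u)
      he.ind.1 he.ind.2.2.2 pψ (p.mono (subset_univ _)) inter_subset_left ho
      (by
        rintro x ⟨h1, h2, h3, h4⟩
        simp only [Fr.ver] at h1 h2 h3 h4
        refine ⟨?_, ?_, ?_, ?_⟩ <;> nlinarith)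
      (by
        rintro x ⟨h1, h2, h3, h4⟩
        simp only [Fr.hor] at h1 h2 h3 h4
        refine ⟨?_, ?_, ?_, ?_⟩ <;> nlinarith)
      w₁ w₂ w₃ w₄ (fun z hz => hz.2) (by linarith) (by nlinarith)
      (by
        rintro x ⟨-, -, h3, h4⟩
        simp only [Fr.sU, Fr.up, hn] at h3 h4
        exact ⟨h3, h4⟩)
      (by rw [e.Y_apply]; nlinarith)
      (by
        rintro x ⟨-, -, h3, h4⟩
        simp only [Fr.ver] at h3 h4
        exact ⟨h3, by linarith⟩)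
      hv₀ (by linarith)
      (by
        rintro x ⟨-, -, h3, h4⟩
        simp only [Fr.hor] at h3 h4
        exact ⟨h3, by linarith⟩)
      hr₀ (by nlinarith)
      (by rw [e.P_apply] at hr₁; rw [e.Y_apply] at m₄; nlinarith)
      (by
        rintro x ⟨-, -, -, h4⟩ hx
        simp only [Fr.hor] at h4
        rw [e.P_apply] at hx
        rw [e.Y_apply] at h4
        nlinarith)
      (by nlinarith)
  have hf₂ : 0 ≤ f₂ := u₂.nonneg (p.mono (subset_univ _))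
  refine (u₁.trim (L := e.hor a (16 * K * u) (μ - 16 * u) (32 * u)) (p.mono (subset_univ _))
    (by linarith) (fun u v h => (he.step h).1) ?_ ?_ hx ?_).mono (by linarith)
  · simp only [Fr.hor]; nlinarith
  · rintro z ⟨-, h1, h2⟩
    simp only [Fr.hor]
    constructor <;> linarith
  · simp only [Fr.hor]; nlinarith
/-- `c = a + 4 K u`; cross `zD` and `zU` at `z₂` (`Y z₂ ≤ μ - 16 u`, `c - u ≤ P z₂`); `sand` with
`k' = q`, `p₁ = c - 76 u`, `p₂ = c - 68 u`, `q₁ = μ - 20 u`, `q₂ = q₃ = μ + 23 u`, `q₄ = μ + 31 u`; on `zD`,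
`Y = (3 p - P) / 2` -/
theorem blk_link (he : e.OK) {a μ u y d₁ d₂ : ℝ} {K : ℕ} (hu : e.κ ≤ u) (hK : 17 ≤ K)
    (p : Pot φ univ t) (b : t ∈ e.Blk a μ u y K)
    (c₁ : e.Ch φ t (e.ver (μ - 20 * u) (51 * u) (a + 4 * K * u - 76 * u) (8 * u)) d₁)
    (c₂ : e.Ch φ t (e.hor (a + 4 * K * u - 76 * u) (64 * u) (μ + 23 * u) (8 * u)) d₂) :
    e.Lk φ t (a + 4 * K * u) μ u (d₁ + d₂ + 2 * y) := by
  obtain ⟨ψ, -, pψ, ⟨xD, yD, dD, hdD, hxD, hyD, wD⟩, ⟨xU, yU, dU, hdU, hxU, hyU, wU⟩, -⟩ := b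
  obtain ⟨v₀, v₁, e₃, he₃, hv₀, hv₁, w₃⟩ := c₁
  obtain ⟨r₀, r₁, e₄, he₄, hr₀, hr₁, w₄⟩ := c₂
  have hκ := he.κ3
  have hK' : (17 : ℝ) * u ≤ K * u :=
    mul_le_mul_of_nonneg_right (by exact_mod_cast hK) (by linarith)
  simp only [Fr.zD, Fr.zU, Fr.dn, Fr.up, Fr.ver, Fr.hor] at hxD hyD hxU hyU hv₀ hv₁ hr₀ hr₁
  have mD : ∀ z ∈ (e.zD (a + 4 * K * u) μ u).S e.κ,
      (μ - 18 * u + 2 * (a + 4 * K * u)) / 3 - 38 * u - e.κ ≤ e.q z ∧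
      e.q z ≤ (μ - 18 * u + 2 * (a + 4 * K * u)) / 3 - 38 * u + 39 * u + e.κ ∧
      (2 * μ - 36 * u + (a + 4 * K * u)) / 3 ≤ e.p z ∧
      e.p z ≤ (2 * μ - 36 * u + (a + 4 * K * u)) / 3 + u := fun z hz => hz
  have mU : ∀ z ∈ (e.zU (a + 4 * K * u) μ u).S e.κ,
      (2 * μ - 36 * u + (a + 4 * K * u)) / 3 - e.κ ≤ e.p z ∧
      e.p z ≤ (2 * μ - 36 * u + (a + 4 * K * u)) / 3 + 25 * u + e.κ ∧
      (μ - 18 * u + 2 * (a + 4 * K * u)) / 3 ≤ e.q z ∧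
      e.q z ≤ (μ - 18 * u + 2 * (a + 4 * K * u)) / 3 + u := fun z hz => hz
  have m₃ : ∀ z ∈ (e.ver (μ - 20 * u) (51 * u) (a + 4 * K * u - 76 * u) (8 * u)).S e.κ,
      μ - 20 * u - e.κ ≤ e.Y z ∧ e.Y z ≤ μ - 20 * u + 51 * u + e.κ ∧
      a + 4 * K * u - 76 * u ≤ e.P z ∧ e.P z ≤ a + 4 * K * u - 76 * u + 8 * u := fun z hz => hz
  have m₄ : ∀ z ∈ (e.hor (a + 4 * K * u - 76 * u) (64 * u) (μ + 23 * u) (8 * u)).S e.κ,
      a + 4 * K * u - 76 * u - e.κ ≤ e.P z ∧ e.P z ≤ a + 4 * K * u - 76 * u + 64 * u + e.κ ∧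
      μ + 23 * u ≤ e.Y z ∧ e.Y z ≤ μ + 23 * u + 8 * u := fun z hz => hz
  have oD : (e.zD (a + 4 * K * u) μ u).S e.κ ⊆
      e.Bx (a - 16 * K * u) (a + 32 * K * u) (μ - 8 * K * u) (μ + 24 * K * u) := fun z hz => by
    obtain ⟨h1, h2, h3, h4⟩ := mD z hz
    have eP := e.P_apply z
    have eY := e.Y_apply z
    exact ⟨by linarith, by linarith, by linarith, by linarith⟩
  have oU : (e.zU (a + 4 * K * u) μ u).S e.κ ⊆
      e.Bx (a - 16 * K * u) (a + 32 * K * u) (μ - 8 * K * u) (μ + 24 * K * u) := fun z hz => by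
    obtain ⟨h1, h2, h3, h4⟩ := mU z hz
    have eP := e.P_apply z
    have eY := e.Y_apply z
    exact ⟨by linarith, by linarith, by linarith, by linarith⟩
  have o₃ : (e.ver (μ - 20 * u) (51 * u) (a + 4 * K * u - 76 * u) (8 * u)).S e.κ ⊆
      e.Bx (a - 16 * K * u) (a + 32 * K * u) (μ - 8 * K * u) (μ + 24 * K * u) := fun z hz => by
    obtain ⟨h1, h2, h3, h4⟩ := m₃ z hz
    exact ⟨by linarith, by linarith, by linarith, by linarith⟩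
  have o₄ : (e.hor (a + 4 * K * u - 76 * u) (64 * u) (μ + 23 * u) (8 * u)).S e.κ ⊆
      e.Bx (a - 16 * K * u) (a + 32 * K * u) (μ - 8 * K * u) (μ + 24 * K * u) := fun z hz => by
    obtain ⟨h1, h2, h3, h4⟩ := m₄ z hz
    exact ⟨by linarith, by linarith, by linarith, by linarith⟩
  obtain ⟨z, u₁, u₂, k₁, k₂, wU₁, wU₂, hU, wD₁, wD₂, hD⟩ := Ex.cross (g := e.p) (k := e.q)
    (a₀ := (2 * μ - 36 * u + (a + 4 * K * u)) / 3)
    (a₁ := (2 * μ - 36 * u + (a + 4 * K * u)) / 3 + u)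
    (b₀ := (μ - 18 * u + 2 * (a + 4 * K * u)) / 3)
    (b₁ := (μ - 18 * u + 2 * (a + 4 * K * u)) / 3 + u) he.ind_pq wU wD
    (fun z hz => (mU z hz).2.2) hxU (by linarith) (fun z hz => (mD z hz).2.2) (by linarith)
    (by linarith)
  have n₁ := wU₁.nonneg (pψ.mono oU)
  have n₂ := wD₂.nonneg (pψ.mono oD)
  obtain ⟨-, -, z1, z2⟩ := mD z wD₁.mem.2
  obtain ⟨-, -, z3, z4⟩ := mU z wU₂.mem.1
  obtain ⟨-, -, x1, -⟩ := mD xD wD₁.mem.1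
  obtain ⟨-, -, -, y1⟩ := mU yU wU₂.mem.2
  obtain ⟨-, -, r1, -⟩ := m₄ r₁ w₄.mem.2
  have zP := e.P_apply z
  have zY := e.Y_apply z
  have xP := e.P_apply xD
  have yY := e.Y_apply yU
  have rP := e.P_apply r₁
  have rY := e.Y_apply r₁
  obtain ⟨x', y', f₁, f₂, -, hx', hy', wx, wy, hf⟩ := sand (g := e.P) (k := e.Y) (k' := e.q)
    (p₁ := a + 4 * K * u - 76 * u) (p₂ := a + 4 * K * u - 68 * u) (q₁ := μ - 20 * u)
    (q₂ := μ + 23 * u) (q₃ := μ + 23 * u) (q₄ := μ + 31 * u)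
    (k₁ := (μ - 18 * u + 2 * (a + 4 * K * u)) / 3)
    (k₂ := (μ - 18 * u + 2 * (a + 4 * K * u)) / 3 + u) he.ind.1 he.ind.2.2.2 pψ
    (p.mono (subset_univ _)) oD oU o₃ o₄ wD₁ wU₂ w₃ w₄
    (fun z hz => by
      obtain ⟨h1, h2, h3, h4⟩ := mD z hz
      have eY := e.Y_apply z
      exact ⟨by linarith, by linarith⟩)
    (by linarith) (by linarith) (fun z hz => (mU z hz).2.2) (by linarith)
    (fun z hz => ⟨(m₃ z hz).2.2.1, by linarith [(m₃ z hz).2.2.2]⟩) hv₀ (by linarith)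
    (fun z hz => ⟨(m₄ z hz).2.2.1, by linarith [(m₄ z hz).2.2.2]⟩) hr₀ (by linarith)
    (by linarith)
    (fun z hz hP => by
      obtain ⟨h1, h2, h3, h4⟩ := m₄ z hz
      have eP := e.P_apply z
      have eY := e.Y_apply z
      linarith)
    le_rfl
  obtain ⟨-, -, x2, -⟩ := mD x' wx.mem.1
  have eP := e.P_apply x'
  have eY := e.Y_apply x'
  exact ⟨x', z, y', f₁, f₂, by linarith, wx, wy, by linarith, by linarith, by linarith⟩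
theorem blk_loc_z (he : e.OK) {u : ℝ} {K : ℕ} (hu : e.κ ≤ u) (hK : 17 ≤ K) (a μ : ℝ) :
    (e.zD (a + 4 * K * u) μ u).S e.κ ⊆
        e.Bx (a - 16 * K * u) (a + 32 * K * u) (μ - 8 * K * u) (μ + 24 * K * u) ∧
      (e.zU (a + 4 * K * u) μ u).S e.κ ⊆
        e.Bx (a - 16 * K * u) (a + 32 * K * u) (μ - 8 * K * u) (μ + 24 * K * u) := by
  have h3 := he.κ3
  have hK' : (17 : ℝ) ≤ K := by exact_mod_cast hK
  have hKu : 17 * u ≤ K * u := mul_le_mul_of_nonneg_right hK' (by linarith)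
  constructor <;> rintro x ⟨h1, h2, h3, h4⟩ <;>
    simp only [Fr.zD, Fr.zU, Fr.dn, Fr.up] at h1 h2 h3 h4 <;>
    refine ⟨?_, ?_, ?_, ?_⟩ <;> simp only [Fr.P_apply, Fr.Y_apply] <;> linarith
theorem blk_loc_s (he : e.OK) {u m : ℝ} {K j : ℕ} (hu : e.κ ≤ u) (hK : 17 ≤ K) (a μ : ℝ)
    (hj : j ≤ 8 * K + 2) (hm : m ≤ 8 * K * u + u) (hm' : m ≤ 2 * u + j * u) :
    (e.sU (a - 8 * K * u - 3 * u) μ u j m).S e.κ ⊆
        e.Bx (a - 16 * K * u) (a + 32 * K * u) (μ - 8 * K * u) (μ + 24 * K * u) ∧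
      (e.sD (a - 8 * K * u - 3 * u) μ u j).S e.κ ⊆
        e.Bx (a - 16 * K * u) (a + 32 * K * u) (μ - 8 * K * u) (μ + 24 * K * u) := by
  have h3 := he.κ3
  have hu0 : 0 ≤ u := by linarith
  have hK' : (17 : ℝ) ≤ K := by exact_mod_cast hK
  have hKu : 17 * u ≤ K * u := mul_le_mul_of_nonneg_right hK' hu0
  have hj' : (j : ℝ) ≤ 8 * K + 2 := by exact_mod_cast hj
  have hju : j * u ≤ (8 * K + 2) * u := mul_le_mul_of_nonneg_right hj' hu0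
  have hj0 : 0 ≤ j * u := mul_nonneg (Nat.cast_nonneg j) hu0
  constructor <;> rintro x ⟨h1, h2, h3, h4⟩ <;>
    simp only [Fr.sD, Fr.sU, Fr.dn, Fr.up] at h1 h2 h3 h4 <;>
    refine ⟨?_, ?_, ?_, ?_⟩ <;> simp only [Fr.P_apply, Fr.Y_apply] <;> linarith
theorem blk_loc_s1 (he : e.OK) {u : ℝ} {K j : ℕ} (hu : e.κ ≤ u) (hK : 17 ≤ K) (a μ : ℝ)
    (hj : j < 8 * K + 2) :
    (e.sU (a - 8 * K * u - 3 * u) μ u j (2 * u)).S e.κ ⊆
        e.Bx (a - 16 * K * u) (a + 32 * K * u) (μ - 8 * K * u) (μ + 24 * K * u) ∧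
      (e.sD (a - 8 * K * u - 3 * u) μ u j).S e.κ ⊆
        e.Bx (a - 16 * K * u) (a + 32 * K * u) (μ - 8 * K * u) (μ + 24 * K * u) := by
  have hu0 : 0 ≤ u := by linarith [he.κ3]
  have hK' : (17 : ℝ) ≤ K := by exact_mod_cast hK
  have hKu : 17 * u ≤ K * u := mul_le_mul_of_nonneg_right hK' hu0
  have hj0 : 0 ≤ j * u := mul_nonneg (Nat.cast_nonneg j) hu0
  exact blk_loc_s he hu hK a μ hj.le (by linarith) (by linarith)
theorem blk_loc_s2 (he : e.OK) {u : ℝ} {K : ℕ} (hu : e.κ ≤ u) (hK : 17 ≤ K) (a μ : ℝ) :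
    (e.sU (a - 8 * K * u - 3 * u) μ u (8 * K + 2) (8 * K * u + u)).S e.κ ⊆
      e.Bx (a - 16 * K * u) (a + 32 * K * u) (μ - 8 * K * u) (μ + 24 * K * u) := by
  have hu0 : 0 ≤ u := by linarith [he.κ3]
  exact (blk_loc_s he hu hK a μ le_rfl le_rfl (by push_cast; linarith)).1
theorem blk_loc (he : e.OK) {u : ℝ} {K : ℕ} (hu : e.κ ≤ u) (hK : 17 ≤ K) (a μ y : ℝ) :
    Loc (e.Bx (a - 16 * K * u) (a + 32 * K * u) (μ - 8 * K * u) (μ + 24 * K * u))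
      (e.Blk a μ u y K) :=
  Loc.ex_rt fun _ => (loc_pot _ _).and <| ((loc_chp _ _ _ _).mono (blk_loc_z he hu hK a μ).1).and <|
    ((loc_chp _ _ _ _).mono (blk_loc_z he hu hK a μ).2).and <|
      (Loc.all fun _ => Loc.all fun hj =>
        ((loc_chp _ _ _ _).mono (blk_loc_s1 he hu hK a μ hj).1).and
          ((loc_chp _ _ _ _).mono (blk_loc_s1 he hu hK a μ hj).2)).and
        ((loc_chp _ _ _ _).mono (blk_loc_s2 he hu hK a μ))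
theorem blk_prob_lane {ψ : Z2 → ℝ} {g k : Z2 →+ ℝ} {c α m M β w y : ℝ} {Ω : Set Z2} (hc : 0 ≤ c)
    (hg : ∀ u v, squareLattice.Adj u v → |g v - g u| ≤ c) (p : Pot φ univ t) (hm : 0 ≤ m)
    (hM : m ≤ M) (hψ : ∀ x ∈ Ω, |ψ x - φ x| ≤ y / 2) (hS : (⟨g, k, α, m, β, w⟩ : Lane).S c ⊆ Ω)
    (b : Chp c φ t ⟨g, k, α, M, β, w⟩ y) : Chp c ψ t ⟨g, k, α, m, β, w⟩ (2 * y) :=
  ((b.sub (L' := ⟨g, k, α, m, β, w⟩) (p.mono (subset_univ _)) hc hg rfl rfl hm le_rfl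
    (add_le_add le_rfl hM) le_rfl le_rfl).approx fun x hx => hψ x (hS hx)).mono (by linarith)
/-- `16 K + 7` lanes, each an initial piece of a lane of length `16 K u` (`Chp.sub`); `rat_approx` with
`η = y / 2`, `Chp.approx` -/
theorem blk_prob (hG : Law G) (he : e.OK) (a : Coc G e h) {u y q : ℝ} {K : ℕ} (hu : e.κ ≤ u)
    (hK : 17 ≤ K) (hy : 0 < y) (r : EQ G e h u (16 * K) y q) (α μ : ℝ) :
    Pr G (e.Blk α μ u (2 * y) K)ᶜ ≤ (16 * K + 7) * q := by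
  have hc : 0 ≤ e.κ := by linarith [he.κ3]
  have hu0 : 0 ≤ u := hc.trans hu
  have hK' : (17 : ℝ) ≤ K := by exact_mod_cast hK
  have hKu : 17 * u ≤ K * u := mul_le_mul_of_nonneg_right hK' hu0
  have gp : ∀ u v, squareLattice.Adj u v → |e.p v - e.p u| ≤ e.κ := fun _ _ b => (he.step b).2.2.1
  have gq : ∀ u v, squareLattice.Adj u v → |e.q v - e.q u| ≤ e.κ := fun _ _ b =>
    (he.step b).2.2.2.1
  let U : Lane → Set Env := fun L => {t | ¬e.Ch (h t) t (e.up L.α (16 * K * u) L.β u) y}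
  let D : Lane → Set Env := fun L => {t | ¬e.Ch (h t) t (e.dn L.α (16 * K * u) L.β u) y}
  have hU : ∀ L, Pr G (U L) ≤ q := fun L => (r L.α L.β).1
  have hD : ∀ L, Pr G (D L) ≤ q := fun L => (r L.α L.β).2
  have key : Pr G (e.Blk α μ u (2 * y) K)ᶜ ≤
      Pr G ((D (e.zD (α + 4 * K * u) μ u) ∪ U (e.zU (α + 4 * K * u) μ u)) ∪
        ((⋃ j ∈ Finset.range (8 * K + 3), U (e.sU (α - 8 * K * u - 3 * u) μ u j 0)) ∪
          ⋃ j ∈ Finset.range (8 * K + 2), D (e.sD (α - 8 * K * u - 3 * u) μ u j))) := by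
    refine hG.mono_ae ?_
    filter_upwards [a.ae hG] with t ⟨ht, p⟩ hb
    by_contra hn
    simp only [mem_union, mem_iUnion, Finset.mem_range, not_or, not_exists, U, D, mem_ofPred_eq,
      not_not] at hn
    obtain ⟨⟨n1, n2⟩, n3, n4⟩ := hn
    obtain ⟨ψ, rt, pψ, hψ⟩ := rat_approx (he.Bx_fin (α - 16 * K * u) (α + 32 * K * u)
      (μ - 8 * K * u) (μ + 24 * K * u)) ht (p.mono (subset_univ _)) (half_pos hy)
    refine hb ⟨ψ, rt, pψ, ?_, ?_, fun j hj => ⟨?_, ?_⟩, ?_⟩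
    · exact blk_prob_lane hc gq p (by linarith) (by linarith) hψ (blk_loc_z he hu hK α μ).1 n1
    · exact blk_prob_lane hc gp p (by linarith) (by linarith) hψ (blk_loc_z he hu hK α μ).2 n2
    · exact blk_prob_lane hc gp p (by linarith) (by linarith) hψ (blk_loc_s1 he hu hK α μ hj).1
        (n3 j (by omega))
    · exact blk_prob_lane hc gq p (by linarith) (by linarith) hψ (blk_loc_s1 he hu hK α μ hj).2
        (n4 j hj)
    · exact blk_prob_lane hc gp p (by linarith) (by linarith) hψ (blk_loc_s2 he hu hK α μ)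
        (n3 _ (by omega))
  have s1 := (hG.biUnion _ _).trans (Finset.sum_le_card_nsmul (Finset.range (8 * K + 3))
    (fun j => Pr G (U (e.sU (α - 8 * K * u - 3 * u) μ u j 0))) q fun j _ => hU _)
  have s2 := (hG.biUnion _ _).trans (Finset.sum_le_card_nsmul (Finset.range (8 * K + 2))
    (fun j => Pr G (D (e.sD (α - 8 * K * u - 3 * u) μ u j))) q fun j _ => hD _)
  rw [Finset.card_range, nsmul_eq_mul] at s1 s2
  push_cast at s1 s2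
  refine key.trans ((hG.union _ _).trans ((add_le_add ((hG.union _ _).trans
    (add_le_add (hD _) (hU _))) ((hG.union _ _).trans (add_le_add s1 s2))).trans_eq ?_))
  ring

/-- a walk in the wide band whose last part crosses block `i` inside the thin band -/
def Fr.Stt (e : Fr) (φ : Z2 → ℝ) (t : Env) (α μ u ℓ : ℝ) (i : ℕ) (d : ℝ) : Prop :=
  ∃ x₀ x x' d₁ d₂, d₁ + d₂ ≤ d ∧ e.P x₀ ≤ α ∧
    Ex φ {z | μ - 64 * u ≤ e.Y z ∧ e.Y z ≤ μ + 64 * u} t x₀ x d₁ ∧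
    Ex φ {z | μ - 16 * u ≤ e.Y z ∧ e.Y z ≤ μ + 16 * u} t x x' d₂ ∧ e.P x ≤ α + i * ℓ ∧
    α + (i + 1) * ℓ ≤ e.P x'
/-- the thin part crosses the down part of the link (chart `(p, -Y)`), the new thin walk crosses
the up part (chart `(q, Y)`) -/
theorem chain_step (he : e.OK) {α μ u d z v : ℝ} {K i i' : ℕ} (hu : e.κ ≤ u) (hK : 17 ≤ K)
    (p : Pot φ univ t) (hi : i < i') (s : e.Stt φ t α μ u (8 * K * u) i d)
    (l : e.Lk φ t (α + i * (8 * K * u) + 4 * K * u) μ u z)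
    (c : e.Ch φ t (e.thin α μ u (8 * K * u) i i') v) :
    e.Stt φ t α μ u (8 * K * u) i' (d + z + v) := by
  obtain ⟨x₀, x, x', d₁, d₂, hd, h0, w₁, w₂, hx, hx'⟩ := s
  obtain ⟨z₁, z₂, z₃, f₁, f₂, hf, l₁, l₂, y₁, y₂, y₃⟩ := l
  obtain ⟨r, r', v', hv, hr, hr', w₃⟩ := c
  have k3 := he.κ3
  have u0 : 0 ≤ u := by linarith
  have hK' : 17 * u ≤ K * u := mul_le_mul_of_nonneg_right (by exact_mod_cast hK) u0
  have hi' : ((i : ℝ) + 1) * (K * u) ≤ i' * (K * u) :=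
    mul_le_mul_of_nonneg_right (by exact_mod_cast hi) (by linarith)
  have q : ∀ S : Set Z2, Pot φ S t := fun S => p.mono (subset_univ S)
  simp only [Fr.thin, Fr.hor] at hr hr'
  obtain ⟨w, a₁, a₂, b₁, b₂, m₁, m₂, ea, n₁, n₂, eb⟩ := Ex.cross (g := e.p) (k := -e.Y)
    (crD_neg he.ind.2.2.1).2.1 w₂ l₁ (b₀ := -(μ + 16 * u)) (b₁ := -(μ - 16 * u))
    (a₀ := (2 * μ - 36 * u + (α + i * (8 * K * u) + 4 * K * u)) / 3)
    (a₁ := (2 * μ - 36 * u + (α + i * (8 * K * u) + 4 * K * u)) / 3 + u)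
    (fun y hy => ⟨neg_le_neg hy.2, neg_le_neg hy.1⟩)
    (by linarith [e.P_apply x, e.Y_apply x, w₂.mem.1.2])
    (by linarith [e.P_apply x', e.Y_apply x', w₂.mem.2.1])
    (fun y hy => hy.2.2) (neg_le_neg y₁) (neg_le_neg y₂)
  obtain ⟨w', a₃, a₄, b₃, b₄, m₃, m₄, ea', n₃, n₄, eb'⟩ := Ex.cross (g := e.q) (k := e.Y)
    he.ind.2.2.2 w₃ l₂ (b₀ := μ - 16 * u) (b₁ := μ + 16 * u)
    (a₀ := (μ - 18 * u + 2 * (α + i * (8 * K * u) + 4 * K * u)) / 3)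
    (a₁ := (μ - 18 * u + 2 * (α + i * (8 * K * u) + 4 * K * u)) / 3 + u)
    (fun y hy => ⟨hy.2.2.1, hy.2.2.2.trans_eq (show μ - 16 * u + 32 * u = _ by ring)⟩)
    (by
      have : e.Y r ≤ μ - 16 * u + 32 * u := w₃.mem.1.2.2.2
      linarith [e.P_apply r, e.Y_apply r])
    (by
      have : μ - 16 * u ≤ e.Y r' := w₃.mem.2.2.2.1
      linarith [e.P_apply r', e.Y_apply r'])
    (fun y hy => hy.2.2) y₂ y₃
  refine ⟨x₀, w', r', d₁ + a₁ + b₂ + b₃, a₄, ?_, h0,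
    ((w₁.trans (m₁.mono fun y hy => ?_)).trans (n₂.mono fun y hy => ?_)).trans
      (n₃.mono fun y hy => ?_), m₄.mono fun y hy => ?_, ?_, by linarith⟩
  · linarith [m₂.nonneg (q _), n₁.nonneg (q _), m₃.nonneg (q _), n₄.nonneg (q _)]
  · exact ⟨by linarith [hy.1], by linarith [hy.2]⟩
  · simp only [Lane.S, Fr.zD, Fr.dn, mem_ofPred_eq] at hy
    obtain ⟨j₁, j₂, j₃, j₄⟩ := hy
    exact ⟨by linarith [e.Y_apply y], by linarith [e.Y_apply y]⟩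
  · simp only [Lane.S, Fr.zU, Fr.up, mem_ofPred_eq] at hy
    obtain ⟨j₁, j₂, j₃, j₄⟩ := hy
    exact ⟨by linarith [e.Y_apply y], by linarith [e.Y_apply y]⟩
  · exact ⟨hy.2.2.1, hy.2.2.2.trans_eq (show μ - 16 * u + 32 * u = _ by ring)⟩
  · have j₁ : μ - 16 * u ≤ e.Y w' := m₄.mem.1.2.2.1
    have j₂ : e.q w' ≤ (μ - 18 * u + 2 * (α + i * (8 * K * u) + 4 * K * u)) / 3 + u :=
      n₄.mem.1.2.2.2
    linarith [e.P_apply w', e.Y_apply w']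
theorem chain_init {α μ u ℓ v : ℝ} (hu : 0 ≤ u) (hl : 0 ≤ ℓ) {i : ℕ}
    (c : e.Ch φ t (e.thin α μ u ℓ 0 i) v) : e.Stt φ t α μ u ℓ i v := by
  obtain ⟨r, r', v', hv, hr, hr', w⟩ := c
  simp only [Fr.thin, Fr.hor, Nat.cast_zero, zero_mul, add_zero, sub_zero] at hr hr'
  have j₁ : μ - 16 * u ≤ e.Y r := w.mem.1.2.2.1
  have j₂ : e.Y r ≤ μ - 16 * u + 32 * u := w.mem.1.2.2.2
  have j₃ : 0 ≤ i * ℓ := by positivity
  exact ⟨r, r, r', 0, v', by linarith, hr, Ex.refl φ t ⟨by linarith, by linarith⟩,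
    w.mono fun y hy => ⟨hy.2.2.1, hy.2.2.2.trans_eq (show μ - 16 * u + 32 * u = _ by ring)⟩,
    by linarith, hr'⟩
theorem chain_fin (he : e.OK) {α μ u ℓ d : ℝ} (hu : 0 ≤ u) (hl : 0 ≤ ℓ) (p : Pot φ univ t) {J : ℕ}
    (s : e.Stt φ t α μ u ℓ J d) : e.Ch φ t (e.hor α (J * ℓ) (μ - 64 * u) (128 * u)) d := by
  obtain ⟨x₀, x, x', d₁, d₂, hd, h0, w₁, w₂, hx, hx'⟩ := s
  refine Chp.mono (Ex.trim (L := e.hor α (J * ℓ) (μ - 64 * u) (128 * u))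
    (w₁.trans (w₂.mono fun y hy => ⟨by linarith [hy.1], by linarith [hy.2]⟩))
    (p.mono (subset_univ _)) (by linarith [he.κ3]) (fun a b h => (he.step h).1)
    (show 0 ≤ J * ℓ by positivity)
    (fun y hy => ⟨hy.1, hy.2.trans_eq (show _ = μ - 64 * u + 128 * u by ring)⟩) h0
    (show α + J * ℓ ≤ e.P x' by linarith)) hd

end

end Crest.Agent.R151.B
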