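import Mathlib

set_option autoImplicit false

open scoped ENNReal

namespace Crest.Agent.R151.B

theorem d7a_sub {i J : ℕ} (h : i ≤ J) :
    ((Finset.range i).sigma fun j => Finset.Icc 1 (i / 2 ^ j)) ⊆
      (Finset.range J).sigma fun j => Finset.Icc 1 (J / 2 ^ j) := by
  intro p hp
  simp only [Finset.mem_sigma, Finset.mem_range, Finset.mem_Icc] at hp ⊢
  exact ⟨hp.1.trans_le h, hp.2.1, hp.2.2.trans (Nat.div_le_div_right h)⟩

theorem d7a_mono (f : ℕ → ℕ → ℝ≥0∞) {i J : ℕ} (h : i ≤ J) :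
    ∑ j ∈ Finset.range i, ∑ a ∈ Finset.Icc 1 (i / 2 ^ j), f j a ≤
      ∑ j ∈ Finset.range J, ∑ a ∈ Finset.Icc 1 (J / 2 ^ j), f j a := by
  rw [Finset.sum_sigma', Finset.sum_sigma']
  exact Finset.sum_le_sum_of_subset (d7a_sub h)

theorem d7a_new (f : ℕ → ℕ → ℝ≥0∞) {i J j a : ℕ} (h : i ≤ J) (h1 : i < a * 2 ^ j)
    (h2 : a * 2 ^ j < J) :
    f j a + ∑ j ∈ Finset.range i, ∑ a ∈ Finset.Icc 1 (i / 2 ^ j), f j a ≤
      ∑ j ∈ Finset.range J, ∑ a ∈ Finset.Icc 1 (J / 2 ^ j), f j a := by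
  have p0 : 0 < 2 ^ j := Nat.two_pow_pos j
  have a0 : 1 ≤ a := Nat.pos_of_ne_zero fun e => by simp [e] at h1
  have hn : (⟨j, a⟩ : Σ _ : ℕ, ℕ) ∉ (Finset.range i).sigma fun j => Finset.Icc 1 (i / 2 ^ j) := by
    simp only [Finset.mem_sigma, Finset.mem_range, Finset.mem_Icc, Nat.le_div_iff_mul_le p0]
    omega
  rw [Finset.sum_sigma', Finset.sum_sigma',
    ← Finset.sum_insert (f := fun p : Σ _ : ℕ, ℕ => f p.1 p.2) hn]
  refine Finset.sum_le_sum_of_subset (Finset.insert_subset ?_ (d7a_sub h))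
  simp only [Finset.mem_sigma, Finset.mem_range, Finset.mem_Icc, Nat.le_div_iff_mul_le p0]
  have := j.lt_two_pow_self
  have := Nat.le_mul_of_pos_left (2 ^ j) a0
  omega

open Classical in
theorem d7a_step {g : ℕ → Prop} {V : ℕ → ℕ → ℝ≥0∞}
    (hV : ∀ i₁ i i' i₂, i₁ ≤ i → i ≤ i' → i' ≤ i₂ → V i i' ≤ V i₁ i₂) {i J : ℕ} (h : i + 1 < J)
    (hb : ∀ k, i < k → k < J → ¬g k) : ∃ j a, i < a * 2 ^ j ∧ a * 2 ^ j < J ∧ V i J ≤
      if (∀ r, r < (2 ^ j + 1) / 2 → ¬g (a * 2 ^ j + r)) ∨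
        ∀ r, r < (2 ^ j + 1) / 2 → ¬g (a * 2 ^ j - r) then V ((a - 1) * 2 ^ j) ((a + 2) * 2 ^ j)
      else 0 := by
  obtain ⟨j, j1, j2⟩ : ∃ j, 2 ^ j ≤ J - i - 1 ∧ J - i - 1 < 2 ^ (j + 1) :=
    ⟨_, Nat.pow_log_le_self 2 (by omega), Nat.lt_pow_succ_log_self one_lt_two _⟩
  have p0 : 0 < 2 ^ j := Nat.two_pow_pos j
  have d1 := Nat.div_mul_le_self i (2 ^ j)
  have d2 := Nat.lt_div_mul_add (a := i) p0
  rw [pow_succ] at j2
  refine ⟨j, i / 2 ^ j + 1, ?_⟩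
  rw [Nat.add_sub_cancel, add_mul, add_mul, add_mul, one_mul]
  generalize i / 2 ^ j * 2 ^ j = c at d1 d2 ⊢
  generalize 2 ^ j = n at *
  refine ⟨d2, by omega, ?_⟩
  rw [if_pos]
  · exact hV _ _ _ _ d1 (by omega) (by omega)
  · by_cases hc : (n + 1) / 2 ≤ J - (c + n)
    · exact Or.inl fun r hr => hb _ (by omega) (by omega)
    · exact Or.inr fun r hr => hb _ (by omega) (by omega)

open Classical in
theorem d7a_runsum {g : ℕ → Prop} {S Z : ℕ → ℝ≥0∞} {V : ℕ → ℕ → ℝ≥0∞} (h0 : ∀ i, S i ≤ V 0 i)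
    (h1 : ∀ i i', i < i' → g i → S i' ≤ S i + Z i + V i i')
    (hV : ∀ i₁ i i' i₂, i₁ ≤ i → i ≤ i' → i' ≤ i₂ → V i i' ≤ V i₁ i₂) (J : ℕ) :
    S J ≤ V 0 1 + ∑ i ∈ Finset.Ico 1 J, (if g i then Z i + V i (i + 1) else 0) +
      ∑ j ∈ Finset.range J, ∑ a ∈ Finset.Icc 1 (J / 2 ^ j),
        if (∀ r, r < (2 ^ j + 1) / 2 → ¬g (a * 2 ^ j + r)) ∨
          ∀ r, r < (2 ^ j + 1) / 2 → ¬g (a * 2 ^ j - r) then V ((a - 1) * 2 ^ j) ((a + 2) * 2 ^ j)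
        else 0 := by
  obtain ⟨f, hf⟩ : ∃ f : ℕ → ℕ → ℝ≥0∞, ∀ j a, (if (∀ r, r < (2 ^ j + 1) / 2 → ¬g (a * 2 ^ j + r)) ∨
      ∀ r, r < (2 ^ j + 1) / 2 → ¬g (a * 2 ^ j - r) then V ((a - 1) * 2 ^ j) ((a + 2) * 2 ^ j)
      else 0) = f j a := ⟨_, fun _ _ => rfl⟩
  have st := fun i J => d7a_step hV (g := g) (i := i) (J := J)
  simp only [hf] at st ⊢
  induction J using Nat.strong_induction_on with
  | _ J ih =>
  by_cases hg : ∃ i, i < J ∧ 1 ≤ i ∧ g i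
  · obtain ⟨i, ⟨hi, i1, gi⟩, hm⟩ : ∃ i, (i < J ∧ 1 ≤ i ∧ g i) ∧ ∀ k, i < k → k < J → ¬g k := by
      obtain ⟨i₀, k0, k1⟩ := hg
      refine ⟨Nat.findGreatest (fun i => i < J ∧ 1 ≤ i ∧ g i) J,
        Nat.findGreatest_spec (P := fun i => i < J ∧ 1 ≤ i ∧ g i) k0.le ⟨k0, k1⟩,
        fun k a b c => Nat.findGreatest_is_greatest a b.le ⟨b, by omega, c⟩⟩
    have e1 : ∑ k ∈ Finset.Ico 1 i, (if g k then Z k + V k (k + 1) else 0) + (Z i + V i (i + 1)) ≤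
        ∑ k ∈ Finset.Ico 1 J, (if g k then Z k + V k (k + 1) else 0) := by
      have := Finset.sum_Ico_succ_top i1 fun k => if g k then Z k + V k (k + 1) else 0
      rw [if_pos gi] at this
      rw [← this]
      exact Finset.sum_le_sum_of_subset (Finset.Ico_subset_Ico_right hi)
    refine (h1 i J hi gi).trans ((add_le_add (add_le_add (ih i hi) le_rfl) le_rfl).trans ?_)
    rcases (show i + 1 ≤ J from hi).eq_or_lt with rfl | hJ
    · refine le_trans (le_of_eq ?_) (add_le_add (add_le_add le_rfl e1) (d7a_mono f hi.le))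
      ring
    · obtain ⟨j, a, a1, a2, a3⟩ := st i J hJ hm
      refine le_trans ?_ (add_le_add (add_le_add le_rfl ((add_le_add le_rfl le_self_add).trans e1))
        ((add_le_add a3 le_rfl).trans (d7a_new f hi.le a1 a2)))
      exact le_of_eq (by ring)
  · refine (h0 J).trans ?_
    rcases le_or_gt J 1 with hJ | hJ
    · exact ((hV 0 0 J 1 le_rfl J.zero_le hJ).trans le_self_add).trans le_self_add
    · obtain ⟨j, a, a1, a2, a3⟩ := st 0 J hJ fun k a b c => hg ⟨k, b, a, c⟩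
      exact ((a3.trans le_self_add).trans (d7a_new f J.zero_le a1 a2)).trans le_add_self

end Crest.Agent.R151.B
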