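import Mathlib

/-! Row 151 (C): numeric series of D7 -/

set_option autoImplicit false

namespace Crest.Agent.R151.B

theorem d7n_exp (j : ℕ) : j + 1 ≤ 4 * (((2 ^ j + 1) / 2 + 6) / 7) := by
  rcases lt_or_ge j 4 with h | h
  · interval_cases j <;> norm_num
  · have h4 : 4 * j ≤ 2 ^ j := by
      induction j, h using Nat.le_induction with
      | base => norm_num
      | succ k hk ih => rw [pow_succ]; omega
    generalize 2 ^ j = m at h4
    omega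

theorem d7n_geom {r : ℝ} (h0 : 0 ≤ r) (h1 : r < 1) (J : ℕ) :
    ∑ j ∈ Finset.range J, r ^ j ≤ (1 - r)⁻¹ :=
  (summable_geometric_of_lt_one h0 h1).sum_le_tsum _ (fun _ _ => pow_nonneg h0 _) |>.trans_eq
    (tsum_geometric_of_lt_one h0 h1)

theorem d7n_num {δ : ℝ} (hδ : 0 < δ) : ∃ p : ℝ, 0 < p ∧ ∀ J : ℕ,
    ∑ j ∈ Finset.range J, √(2 * p ^ (((2 ^ j + 1) / 2 + 6) / 7)) ≤ δ := by
  set r := min (1 / 2 : ℝ) (δ / 4) with hr
  have r0 : 0 < r := lt_min (by norm_num) (by positivity)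
  have r1 : r ≤ 1 / 2 := min_le_left _ _
  have r2 : r ≤ δ / 4 := min_le_right _ _
  refine ⟨r ^ 8, by positivity, fun J => ?_⟩
  have h : ∀ j : ℕ, √(2 * (r ^ 8) ^ (((2 ^ j + 1) / 2 + 6) / 7)) ≤ 2 * r * (1 / 2) ^ j := by
    intro j
    rw [Real.sqrt_le_left (by positivity), ← pow_mul]
    have e1 : r ^ (8 * (((2 ^ j + 1) / 2 + 6) / 7)) ≤ r ^ (2 * (j + 1)) :=
      pow_le_pow_of_le_one r0.le (by linarith) (by have := d7n_exp j; omega)
    have e2 : r ^ j ≤ (1 / 2) ^ j := pow_le_pow_left₀ r0.le r1 j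
    have e3 : r ^ (2 * (j + 1)) = (r * r ^ j) ^ 2 := by ring
    have e4 : (r * r ^ j) ^ 2 ≤ (r * (1 / 2) ^ j) ^ 2 := by gcongr
    have e5 : 0 ≤ (r * (1 / 2) ^ j) ^ 2 := sq_nonneg _
    calc 2 * r ^ (8 * (((2 ^ j + 1) / 2 + 6) / 7)) ≤ 4 * (r * (1 / 2) ^ j) ^ 2 := by linarith
      _ = _ := by ring
  refine (Finset.sum_le_sum fun j _ => h j).trans ?_
  rw [← Finset.mul_sum]
  have := d7n_geom (r := 1 / 2) (by norm_num) (by norm_num) J
  calc 2 * r * ∑ j ∈ Finset.range J, (1 / 2 : ℝ) ^ j ≤ 2 * r * (1 - 1 / 2)⁻¹ := by gcongr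
    _ = 4 * r := by ring
    _ ≤ δ := by linarith

theorem d7n_num2 (J : ℕ) : ∑ j ∈ Finset.range J, (1 / (2 : ℝ) ^ j) ^ (1 / 64 : ℝ) ≤ 100 := by
  have h : ∀ j : ℕ, (1 / (2 : ℝ) ^ j) ^ (1 / 64 : ℝ) ≤ (99 / 100) ^ j := by
    intro j
    have e1 : (1 / (2 : ℝ) ^ j) ≤ ((99 / 100 : ℝ) ^ j) ^ 64 := by
      rw [← pow_mul, mul_comm, pow_mul, ← one_div_pow]
      exact pow_le_pow_left₀ (by norm_num) (by norm_num) j
    refine (Real.rpow_le_rpow (by positivity) e1 (by norm_num)).trans_eq ?_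
    rw [show (1 / 64 : ℝ) = ((64 : ℕ) : ℝ)⁻¹ by norm_num,
      Real.pow_rpow_inv_natCast (by positivity) (by norm_num)]
  refine (Finset.sum_le_sum fun j _ => h j).trans ?_
  refine (d7n_geom (r := 99 / 100) (by norm_num) (by norm_num) J).trans (by norm_num)

end Crest.Agent.R151.B
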