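import Crest.Agent.R151.D6
import Crest.Agent.R151.D7Aux16
import Crest.Agent.R151.D7Aux1

set_option autoImplicit false

open MeasureTheory ProbabilityTheory Set Filter Topology
open scoped ENNReal
open Crest.ProbabilityR.FirstPassage

namespace Crest.Agent.R151.B

noncomputable section

/-! the rate of the wide band -/

variable {G : Measure ℝ} {e : Fr} {h : Env → Z2 → ℝ} {φ : Z2 → ℝ} {t : Env}

open Classical in
/-- Strong induction on `J` (the right side is monotone in `J`). Let `i` be the last good index in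
`[1, J)`, or `0`. If `i + 1 < J` take `2 ^ j ≤ J - i - 1 < 2 ^ (j + 1)` and the least `a` with
`i < a * 2 ^ j`: the term `(j, a)` is new (`¬a ≤ i / 2 ^ j`), its condition holds and it dominates `V i J`. -/
theorem runsum {g : ℕ → Prop} {S Z : ℕ → ℝ≥0∞} {V : ℕ → ℕ → ℝ≥0∞} (h0 : ∀ i, S i ≤ V 0 i)
    (h1 : ∀ i i', i < i' → g i → S i' ≤ S i + Z i + V i i')
    (hV : ∀ i₁ i i' i₂, i₁ ≤ i → i ≤ i' → i' ≤ i₂ → V i i' ≤ V i₁ i₂) (J : ℕ) :
    S J ≤ V 0 1 + ∑ i ∈ Finset.Ico 1 J, (if g i then Z i + V i (i + 1) else 0) +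
      ∑ j ∈ Finset.range J, ∑ a ∈ Finset.Icc 1 (J / 2 ^ j),
        if (∀ r, r < (2 ^ j + 1) / 2 → ¬g (a * 2 ^ j + r)) ∨
          ∀ r, r < (2 ^ j + 1) / 2 → ¬g (a * 2 ^ j - r) then V ((a - 1) * 2 ^ j) ((a + 2) * 2 ^ j)
        else 0 :=
  d7a_runsum h0 h1 hV J
/-- a long run of bad blocks -/
def Fr.RE (e : Fr) (α μ u y : ℝ) (K j a : ℕ) : Set Env :=
  {t | (∀ r, r < (2 ^ j + 1) / 2 → t ∉ e.Blk (α + (a * 2 ^ j + r : ℕ) * (8 * K * u)) μ u y K) ∨
    ∀ r, r < (2 ^ j + 1) / 2 → t ∉ e.Blk (α + (a * 2 ^ j - r : ℕ) * (8 * K * u)) μ u y K}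
/-- the four central lanes of a good block -/
def Fr.Z4 (e : Fr) (φ : Z2 → ℝ) (t : Env) (a μ u : ℝ) (K : ℕ) : ℝ≥0∞ :=
  e.W φ t (e.ver (μ - 20 * u) (51 * u) (a + 4 * K * u - 76 * u) (8 * u)) +
    e.W φ t (e.hor (a + 4 * K * u - 76 * u) (64 * u) (μ + 23 * u) (8 * u)) +
    e.W φ t (e.ver (μ - 5 * u) (16 * K * u + 5 * u) (a - 8 * K * u) (8 * K * u)) +
    e.W φ t (e.hor (a - 8 * K * u) (32 * K * u) (μ + 8 * K * u) (8 * K * u))
theorem run_pt_three {X : ℝ≥0∞} {p q r : ℝ → Prop}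
    (h : ∀ a b c, p a → q b → r c → X ≤ ENNReal.ofReal (a + b + c)) :
    X ≤ (⨅ (a : ℝ) (_ : p a), ENNReal.ofReal a) + (⨅ (b : ℝ) (_ : q b), ENNReal.ofReal b) +
      ⨅ (c : ℝ) (_ : r c), ENNReal.ofReal c := by
  have h1 : ⨅ (s : ℝ) (_ : ∃ a b, p a ∧ q b ∧ a + b = s), ENNReal.ofReal s ≤
      (⨅ (a : ℝ) (_ : p a), ENNReal.ofReal a) + ⨅ (b : ℝ) (_ : q b), ENNReal.ofReal b :=
    ENNReal.le_iInf₂_add_iInf₂ fun a ha b hb =>
      (iInf₂_le (a + b) ⟨a, b, ha, hb, rfl⟩).trans ENNReal.ofReal_add_le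
  refine le_trans (ENNReal.le_iInf₂_add_iInf₂ ?_) (add_le_add h1 le_rfl)
  rintro _ ⟨a, b, ha, hb, rfl⟩ c hc
  exact (h a b c ha hb hc).trans ENNReal.ofReal_add_le
/-- `runsum` with `S i = ⨅ d (_ : Stt … i d), ofReal d`, `V i i' = W (thin i i')` (`Chp.sub`),
`Z i = W + W + ofReal (2 y)`; `chain_*`, `blk_link`, `blk_run` (`ENNReal.ofReal_add_le`,
`ENNReal.le_iInf₂_add_iInf₂`, `le_WL_add`) -/
theorem run_pt (he : e.OK) {u y : ℝ} {K : ℕ} (hu : e.κ ≤ u) (hK : 17 ≤ K) (hy : 0 ≤ y)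
    (p : Pot φ univ t) (α μ : ℝ) (J : ℕ) :
    e.W φ t (e.hor α (J * (8 * K * u)) (μ - 64 * u) (128 * u)) ≤
      e.W φ t (e.thin α μ u (8 * K * u) 0 1) + ∑ i ∈ Finset.Ico 1 J,
        (e.Z4 φ t (α + i * (8 * K * u)) μ u K + ENNReal.ofReal ((16 * K + 7) * y)) +
      ∑ j ∈ Finset.range J, ∑ a ∈ Finset.Icc 1 (J / 2 ^ j), (e.RE α μ u y K j a).indicator
        (fun _ => e.W φ t (e.thin α μ u (8 * K * u) ((a - 1) * 2 ^ j) ((a + 2) * 2 ^ j))) t := by
  classical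
  have hκ := he.κ3
  have hu0 : 0 ≤ u := by linarith
  have hl : 0 ≤ 8 * K * u := by positivity
  have key := runsum (g := fun i : ℕ => t ∈ e.Blk (α + i * (8 * K * u)) μ u y K)
    (S := fun i => ⨅ (d : ℝ) (_ : e.Stt φ t α μ u (8 * K * u) i d), ENNReal.ofReal d)
    (Z := fun i : ℕ =>
      e.W φ t (e.ver (μ - 20 * u) (51 * u) (α + i * (8 * K * u) + 4 * K * u - 76 * u) (8 * u)) +
        e.W φ t (e.hor (α + i * (8 * K * u) + 4 * K * u - 76 * u) (64 * u) (μ + 23 * u) (8 * u)) +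
        ENNReal.ofReal (2 * y))
    (V := fun i i' => e.W φ t (e.thin α μ u (8 * K * u) i i'))
    (fun i => le_iInf₂ fun d c => iInf₂_le d (chain_init hu0 hl c))
    (fun i i' hi b => by
      have h1 : ⨅ (z : ℝ) (_ : e.Lk φ t (α + i * (8 * K * u) + 4 * K * u) μ u z),
          ENNReal.ofReal z ≤ _ :=
        le_WL_add (y := 2 * y) (by linarith) fun d₁ d₂ _ _ c₁ c₂ =>
          iInf₂_le _ (blk_link he hu hK p b c₁ c₂)
      refine (run_pt_three fun d z v s l c => iInf₂_le _ (chain_step he hu hK p hi s l c)).trans ?_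
      exact add_le_add (add_le_add le_rfl h1) le_rfl)
    (fun i₁ i i' i₂ h1 h2 h3 => WL_mono fun d c => by
      have a1 : (i₁ : ℝ) ≤ i := Nat.cast_le.2 h1
      have a2 : (i : ℝ) ≤ i' := Nat.cast_le.2 h2
      have a3 : (i' : ℝ) ≤ i₂ := Nat.cast_le.2 h3
      have b1 := mul_le_mul_of_nonneg_right a1 hl
      have b3 := mul_le_mul_of_nonneg_right a3 hl
      refine c.sub (p.mono (subset_univ _)) (by linarith) (fun u v a => (he.step a).1) rfl rfl
        (mul_nonneg (by linarith) hl) ?_ ?_ le_rfl le_rfl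
      · change α + i₁ * (8 * K * u) ≤ α + i * (8 * K * u)
        linarith
      · change α + i * (8 * K * u) + ((i' : ℝ) + 1 - i) * (8 * K * u) ≤
          α + i₁ * (8 * K * u) + ((i₂ : ℝ) + 1 - i₁) * (8 * K * u)
        linarith) J
  have h0 : e.W φ t (e.hor α (J * (8 * K * u)) (μ - 64 * u) (128 * u)) ≤
      ⨅ (d : ℝ) (_ : e.Stt φ t α μ u (8 * K * u) J d), ENNReal.ofReal d :=
    le_iInf₂ fun d s => WL_le (chain_fin he hu0 hl p s)
  refine h0.trans (key.trans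
    (add_le_add (add_le_add le_rfl (Finset.sum_le_sum fun i _ => ?_))
      (Finset.sum_le_sum fun j _ => Finset.sum_le_sum fun a _ => ?_)))
  · split_ifs with b
    · have e1 : e.thin α μ u (8 * K * u) i (i + 1) =
          e.hor (α + i * (8 * K * u)) (16 * K * u) (μ - 16 * u) (32 * u) := by
        unfold Fr.thin
        congr 1
        push_cast
        ring
      have h1 : e.W φ t (e.hor (α + i * (8 * K * u)) (16 * K * u) (μ - 16 * u) (32 * u)) ≤ _ :=
        le_WL_add (y := (16 * K + 5) * y) (by positivity) fun d₁ d₂ _ _ c₁ c₂ =>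
          WL_le (blk_run he hu hK p b c₁ c₂)
      have e2 : ENNReal.ofReal ((16 * K + 7) * y) =
          ENNReal.ofReal (2 * y) + ENNReal.ofReal ((16 * K + 5) * y) := by
        rw [← ENNReal.ofReal_add (by positivity) (by positivity)]
        congr 1
        ring
      rw [e1, e2]
      refine (add_le_add le_rfl h1).trans_eq ?_
      unfold Fr.Z4
      ring
    · exact zero_le
  · split_ifs with b
    · rw [indicator_of_mem (show t ∈ e.RE α μ u y K j a from b)]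
    · exact zero_le
theorem Z4_mean (he : e.OK) (a : Coc G e h) {u ε ε' : ℝ} {K : ℕ} (hu : e.κ ≤ u) (hK : 17 ≤ K)
    (hε : 0 ≤ ε) (hε' : 0 ≤ ε') (r : Rate G e h (8 * u) ε) (r' : Rate G e h (8 * K * u) ε')
    (α μ : ℝ) : Measurable (fun t => e.Z4 (h t) t α μ u K) ∧
      ∫⁻ t, e.Z4 (h t) t α μ u K ∂iidLaw G ≤ ENNReal.ofReal (115 * u * ε + 49 * K * u * ε') := by
  have hu0 : 0 ≤ u := by linarith [he.κ3]
  have hK' : (17 : ℝ) ≤ K := by exact_mod_cast hK
  have hKu : 17 * u ≤ K * u := mul_le_mul_of_nonneg_right hK' hu0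
  have hm : ∀ L, Measurable fun t => e.W (h t) t L := fun L => WL_meas a.meas _ L
  refine ⟨(((hm _).add (hm _)).add (hm _)).add (hm _), ?_⟩
  unfold Fr.Z4
  rw [lintegral_add_right _ (hm _), lintegral_add_right _ (hm _), lintegral_add_right _ (hm _)]
  have h1 := (r (μ - 20 * u) (α + 4 * K * u - 76 * u) (51 * u) (by linarith)).2
  have h2 := (r (α + 4 * K * u - 76 * u) (μ + 23 * u) (64 * u) (by linarith)).1
  have h3 := (r' (μ - 5 * u) (α - 8 * K * u) (16 * K * u + 5 * u) (by linarith)).2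
  have h4 := (r' (α - 8 * K * u) (μ + 8 * K * u) (32 * K * u) (by linarith)).1
  refine (add_le_add (add_le_add (add_le_add h1 h2) h3) h4).trans ?_
  rw [← ENNReal.ofReal_add (by positivity) (by positivity),
    ← ENNReal.ofReal_add (by positivity) (by positivity),
    ← ENNReal.ofReal_add (by positivity) (by positivity)]
  refine ENNReal.ofReal_le_ofReal ?_
  nlinarith [mul_le_mul_of_nonneg_left hKu hε', mul_nonneg hε' hu0]
theorem RE_prob_aux (hG : Law G) (he : e.OK) {μ u y p : ℝ} {K : ℕ} (hu : e.κ ≤ u) (hK : 17 ≤ K)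
    (hp : ∀ a, Pr G (e.Blk a μ u y K)ᶜ ≤ p) (α : ℝ) (n : ℕ) (f : ℕ → ℕ)
    (hf : ∀ r r', r < n → r' < n → r + 7 ≤ r' → f r + 7 ≤ f r' ∨ f r' + 7 ≤ f r) :
    MeasurableSet {t | ∀ r, r < n → t ∉ e.Blk (α + (f r : ℕ) * (8 * K * u)) μ u y K} ∧
      Pr G {t | ∀ r, r < n → t ∉ e.Blk (α + (f r : ℕ) * (8 * K * u)) μ u y K} ≤
        p ^ ((n + 6) / 7) := by
  have hu0 : 0 < u := by linarith [he.κ3]
  have hK' : (17 : ℝ) ≤ K := by exact_mod_cast hK
  have hKu : 0 < K * u := by positivity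
  refine ⟨?_, ?_⟩
  · rw [ofPred_forall]
    refine MeasurableSet.iInter fun r => ?_
    rw [ofPred_forall]
    exact MeasurableSet.iInter fun _ => (blk_loc he hu hK _ μ y).1.compl
  have hd : ∀ i i' : ℕ, i + 7 ≤ i' →
      Disjoint (e.Bx (α + i * (8 * K * u) - 16 * K * u) (α + i * (8 * K * u) + 32 * K * u)
          (μ - 8 * K * u) (μ + 24 * K * u))
        (e.Bx (α + i' * (8 * K * u) - 16 * K * u) (α + i' * (8 * K * u) + 32 * K * u)
          (μ - 8 * K * u) (μ + 24 * K * u)) := by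
    intro i i' hi
    have hi' : (i : ℝ) + 7 ≤ i' := by exact_mod_cast hi
    refine Set.disjoint_left.2 fun x hx hx' => ?_
    have h1 := hx.2.1
    have h2 := hx'.1
    nlinarith [mul_le_mul_of_nonneg_right hi' hKu.le]
  have key := hG.loc_indep (Finset.range ((n + 6) / 7))
    (fun s => e.Bx (α + (f (7 * s) : ℕ) * (8 * K * u) - 16 * K * u)
      (α + (f (7 * s) : ℕ) * (8 * K * u) + 32 * K * u) (μ - 8 * K * u) (μ + 24 * K * u))
    (fun s => (e.Blk (α + (f (7 * s) : ℕ) * (8 * K * u)) μ u y K)ᶜ) (fun s hs s' hs' hne => by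
      rw [Finset.mem_range] at hs hs'
      rcases lt_or_gt_of_ne hne with hlt | hlt
      · rcases hf (7 * s) (7 * s') (by omega) (by omega) (by omega) with h' | h'
        · exact hd _ _ h'
        · exact (hd _ _ h').symm
      · rcases hf (7 * s') (7 * s) (by omega) (by omega) (by omega) with h' | h'
        · exact (hd _ _ h').symm
        · exact hd _ _ h')
    fun s _ => (blk_loc he hu hK _ μ y).compl
  calc _ ≤ Pr G (⋂ s ∈ Finset.range ((n + 6) / 7),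
        (e.Blk (α + (f (7 * s) : ℕ) * (8 * K * u)) μ u y K)ᶜ) := by
        refine hG.mono fun t ht => ?_
        refine mem_iInter₂.2 fun s hs => ht (7 * s) ?_
        rw [Finset.mem_range] at hs
        omega
    _ ≤ ∏ _s ∈ Finset.range ((n + 6) / 7), p := by
        rw [key]
        exact Finset.prod_le_prod (fun _ _ => Pr_nonneg _ _) fun _ _ => hp _
    _ = _ := by rw [Finset.prod_const, Finset.card_range]
/-- blocks at index distance `≥ 7` have disjoint boxes: keep `r = 7 s`; `blk_loc`, `loc_indep` -/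
theorem RE_prob (hG : Law G) (he : e.OK) {μ u y p : ℝ} {K : ℕ} (hu : e.κ ≤ u) (hK : 17 ≤ K)
    (hp : ∀ a, Pr G (e.Blk a μ u y K)ᶜ ≤ p) (α : ℝ) (j : ℕ) {a : ℕ} (ha : 1 ≤ a) :
    MeasurableSet (e.RE α μ u y K j a) ∧
      Pr G (e.RE α μ u y K j a) ≤ 2 * p ^ (((2 ^ j + 1) / 2 + 6) / 7) := by
  have h2 : 2 ^ j ≤ a * 2 ^ j := Nat.le_mul_of_pos_left _ ha
  have h₁ := RE_prob_aux hG he hu hK hp α ((2 ^ j + 1) / 2) (fun r => a * 2 ^ j + r)
    fun r r' _ _ _ => Or.inl (by omega)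
  have h₂ := RE_prob_aux hG he hu hK hp α ((2 ^ j + 1) / 2) (fun r => a * 2 ^ j - r)
    fun r r' _ _ _ => Or.inr (by omega)
  refine ⟨h₁.1.union h₂.1, ?_⟩
  exact (measureReal_union_le _ _).trans ((add_le_add h₁.2 h₂.2).trans (two_mul _).ge)
/-- the exponent is `≥ 1` and `≥ j / 14`-ish: `p ^ n ≤ √p * √p ^ n`, geometric series -/
theorem run_num {δ : ℝ} (hδ : 0 < δ) : ∃ p : ℝ, 0 < p ∧ ∀ J : ℕ,
    ∑ j ∈ Finset.range J, √(2 * p ^ (((2 ^ j + 1) / 2 + 6) / 7)) ≤ δ :=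
  d7n_num hδ
/-- `(1 - 1/100) ^ 64 ≥ 1/2` -/
theorem run_num2 (J : ℕ) : ∑ j ∈ Finset.range J, (1 / (2 : ℝ) ^ j) ^ (1 / 64 : ℝ) ≤ 100 :=
  d7n_num2 J
/-- integrate `run_pt` (tolerance `2 y`). `ℓ = 8 K u`; `thin ((a-1) 2^j) ((a+2) 2^j)` has length
`m = (3 * 2^j + 1) ℓ ≤ 4 * 2^j ℓ`; `run1` with `w = 8 u`, `ε' = C ε (8 u / m) ^ (1/64)`. Total
`≤ 2 ℓ ε + J ℓ ε (115 / (8 K) + 4007 C K ^ (-1/64) + 40 δ') + 48 J K y`; `q = p / (16 K + 7)`. -/
theorem Law.run (hG : Law G) {C δ : ℝ} (hC : 0 < C) (hδ : 0 < δ) : ∃ K : ℕ, 17 ≤ K ∧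
    ∃ q : ℝ, 0 < q ∧ ∀ (e : Fr) (h : Env → Z2 → ℝ), e.OK → Coc G e h → ∀ u ε y : ℝ, e.κ ≤ u →
      0 ≤ ε → 0 < y → Rate G e h (8 * u) ε → URec G e h C (8 * u) ε → EQ G e h u (16 * K) y q →
      ∀ (α μ : ℝ) (J : ℕ),
        ∫⁻ t, e.W (h t) t (e.hor α (J * (8 * K * u)) (μ - 64 * u) (128 * u)) ∂iidLaw G ≤
          ENNReal.ofReal ((δ * ε + 6 * y / u) * (J * (8 * K * u)) + 16 * K * u * ε) := by
  obtain ⟨p, hp, hnum⟩ := run_num (show 0 < δ / 120 by positivity)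
  have l0 : Tendsto (fun K : ℕ => 1 / (K : ℝ)) atTop (𝓝 0) := tendsto_one_div_atTop_nhds_zero_nat
  have l1 : Tendsto (fun K : ℕ => 4007 * C * (1 / (K : ℝ)) ^ (1 / 64 : ℝ)) atTop
      (𝓝 (4007 * C * (0 : ℝ) ^ (1 / 64 : ℝ))) :=
    (l0.rpow_const (Or.inr (by norm_num))).const_mul _
  rw [Real.zero_rpow (by norm_num), mul_zero] at l1
  have l2 : Tendsto (fun K : ℕ => 15 * (1 / (K : ℝ))) atTop (𝓝 (15 * 0)) := l0.const_mul _
  rw [mul_zero] at l2
  obtain ⟨K, k1, k2, hK⟩ := ((l1.eventually (eventually_le_nhds (show 0 < δ / 3 by positivity))).and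
    ((l2.eventually (eventually_le_nhds (show 0 < δ / 3 by positivity))).and
      (eventually_ge_atTop 17))).exists
  have hK' : (17 : ℝ) ≤ K := by exact_mod_cast hK
  refine ⟨K, hK, p / (16 * K + 7), by positivity, fun e h he a u ε y hu hε hy r ur eq α μ J => ?_⟩
  have := hG.isP
  have hκ := he.κ3
  have hu0 : 0 < u := by linarith
  have hb : ∀ a', Pr G (e.Blk a' μ u (2 * y) K)ᶜ ≤ p := fun a' => by
    have := blk_prob hG he a hu hK hy eq a' μ
    rwa [mul_div_cancel₀ _ (by positivity)] at this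
  set κK := (1 / (K : ℝ)) ^ (1 / 64 : ℝ) with hκK
  have hκ0 : 0 ≤ κK := by positivity
  have r1 : Rate G e h (8 * K * u) (C * ε * κK) := by
    have := ur (8 * K * u) (by nlinarith)
    rwa [show 8 * u / (8 * K * u) = 1 / K by field_simp] at this
  have mW := fun L => WL_meas a.meas e.κ L
  have z4 := fun α' => Z4_mean he a hu hK hε (by positivity) r r1 α' μ
  have v0 : ∫⁻ t, e.W (h t) t (e.thin α μ u (8 * K * u) 0 1) ∂iidLaw G ≤
      ENNReal.ofReal (16 * K * u * ε) := by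
    have := ((r.mono hG he a (by positivity) (show 8 * u ≤ 32 * u by linarith) le_rfl)
      (α + (0 : ℕ) * (8 * K * u)) (μ - 16 * u) ((((1 : ℕ) : ℝ) + 1 - (0 : ℕ)) * (8 * K * u))
      (by push_cast; nlinarith)).1
    refine this.trans (le_of_eq ?_)
    congr 1
    push_cast; ring
  have vj : ∀ j a', 1 ≤ a' → ∫⁻ t, (e.RE α μ u (2 * y) K j a').indicator (fun t => e.W (h t) t
      (e.thin α μ u (8 * K * u) ((a' - 1) * 2 ^ j) ((a' + 2) * 2 ^ j))) t ∂iidLaw G ≤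
      ENNReal.ofReal (2 ^ j * (40 * (8 * K * u) * ε * (C * κK * (1 / (2 : ℝ) ^ j) ^ (1 / 64 : ℝ) +
        √(2 * p ^ (((2 ^ j + 1) / 2 + 6) / 7))))) := by
    intro j a' ha
    obtain ⟨m1, m2⟩ := RE_prob hG he hu hK hb α j ha
    have e1 : ((((a' + 2) * 2 ^ j : ℕ) : ℝ) + 1 - ((a' - 1) * 2 ^ j : ℕ)) * (8 * K * u) =
        (3 * 2 ^ j + 1) * (8 * K * u) := by
      push_cast [Nat.cast_sub ha]; ring
    have h2 : (1 : ℝ) ≤ 2 ^ j := one_le_pow₀ (by norm_num)
    have hl : 8 * u ≤ 8 * K * u := by nlinarith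
    have hm : 8 * u ≤ (3 * 2 ^ j + 1) * (8 * K * u) := by nlinarith
    have := a.run1 hG he (show 2 * e.κ ≤ 8 * u by linarith) hm hε (by positivity) r (ur _ hm)
      (α + ((a' - 1) * 2 ^ j : ℕ) * (8 * K * u)) μ m1
    rw [show 2 * (8 * u) = 16 * u by ring, show 4 * (8 * u) = 32 * u by ring] at this
    unfold Fr.thin
    rw [e1]
    refine this.trans (ENNReal.ofReal_le_ofReal ?_)
    have b1 : (8 * u / ((3 * 2 ^ j + 1) * (8 * K * u))) ^ (1 / 64 : ℝ) ≤
        κK * (1 / (2 : ℝ) ^ j) ^ (1 / 64 : ℝ) := by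
      rw [hκK, ← Real.mul_rpow (by positivity) (by positivity)]
      refine Real.rpow_le_rpow (by positivity) ?_ (by norm_num)
      rw [div_mul_div_comm, div_le_div_iff₀ (by positivity) (by positivity)]
      have : 0 < (K : ℝ) * u := by positivity
      nlinarith
    have b2 := Real.sqrt_le_sqrt m2
    have b3 : (3 * 2 ^ j + 1) * (8 * K * u) ≤ 4 * 2 ^ j * (8 * K * u) := by
      have : 0 < 8 * (K : ℝ) * u := by positivity
      nlinarith
    calc _ = 10 * ((3 * 2 ^ j + 1) * (8 * K * u)) * ε * (C * (8 * u / ((3 * 2 ^ j + 1) *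
          (8 * K * u))) ^ (1 / 64 : ℝ) + √(Pr G (e.RE α μ u (2 * y) K j a'))) := by ring
      _ ≤ 10 * (4 * 2 ^ j * (8 * K * u)) * ε * (C * (κK * (1 / (2 : ℝ) ^ j) ^ (1 / 64 : ℝ)) +
          √(2 * p ^ (((2 ^ j + 1) / 2 + 6) / 7))) := by gcongr
      _ = _ := by ring
  refine (lintegral_mono_ae ((a.ae hG).mono fun t ht =>
    run_pt he hu hK (show 0 ≤ 2 * y by positivity) ht.2 α μ J)).trans ?_
  have mR := fun j a' (ha : 1 ≤ a') => (mW (e.thin α μ u (8 * K * u) ((a' - 1) * 2 ^ j)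
    ((a' + 2) * 2 ^ j))).indicator (RE_prob hG he hu hK hb α j ha).1
  have m0 : Measurable fun t => e.W (h t) t (e.thin α μ u (8 * K * u) 0 1) := mW _
  have m1 : Measurable fun t => e.W (h t) t (e.thin α μ u (8 * K * u) 0 1) +
      ∑ i ∈ Finset.Ico 1 J, (e.Z4 (h t) t (α + i * (8 * K * u)) μ u K +
        ENNReal.ofReal ((16 * K + 7) * (2 * y))) :=
    m0.add (Finset.measurable_sum _ fun i _ => (z4 _).1.add_const _)
  rw [lintegral_add_left m1, lintegral_add_left m0,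
    lintegral_finsetSum _ fun i _ => (z4 _).1.add_const _]
  have s1 : ∑ i ∈ Finset.Ico 1 J, ∫⁻ t, (e.Z4 (h t) t (α + i * (8 * K * u)) μ u K +
      ENNReal.ofReal ((16 * K + 7) * (2 * y))) ∂iidLaw G ≤
      ENNReal.ofReal (J * (115 * u * ε + 49 * K * u * (C * ε * κK) + (16 * K + 7) * (2 * y))) := by
    refine (Finset.sum_le_card_nsmul _ _ (ENNReal.ofReal (115 * u * ε + 49 * K * u * (C * ε * κK) +
      (16 * K + 7) * (2 * y))) fun i _ => ?_).trans ?_
    · rw [lintegral_add_right _ measurable_const, lintegral_const, measure_univ, mul_one,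
        ENNReal.ofReal_add (by positivity) (by positivity)]
      exact add_le_add (z4 _).2 le_rfl
    · rw [ENNReal.ofReal_mul (by positivity), ENNReal.ofReal_natCast, nsmul_eq_mul, Nat.card_Ico]
      gcongr
      omega
  have s2 : ∫⁻ t, ∑ j ∈ Finset.range J, ∑ a' ∈ Finset.Icc 1 (J / 2 ^ j),
      (e.RE α μ u (2 * y) K j a').indicator (fun _ => e.W (h t) t
        (e.thin α μ u (8 * K * u) ((a' - 1) * 2 ^ j) ((a' + 2) * 2 ^ j))) t ∂iidLaw G ≤
      ENNReal.ofReal (∑ j ∈ Finset.range J, J * (40 * (8 * K * u) * ε *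
        (C * κK * (1 / (2 : ℝ) ^ j) ^ (1 / 64 : ℝ) + √(2 * p ^ (((2 ^ j + 1) / 2 + 6) / 7))))) := by
    rw [ENNReal.ofReal_sum_of_nonneg fun j _ => by positivity]
    refine (lintegral_finsetSum (μ := iidLaw G) (Finset.range J) (f := fun j t =>
      ∑ a' ∈ Finset.Icc 1 (J / 2 ^ j), (e.RE α μ u (2 * y) K j a').indicator (fun t => e.W (h t) t
        (e.thin α μ u (8 * K * u) ((a' - 1) * 2 ^ j) ((a' + 2) * 2 ^ j))) t) fun j _ =>
      Finset.measurable_sum _ fun a' ha => mR j a' (Finset.mem_Icc.1 ha).1).le.trans ?_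
    refine Finset.sum_le_sum fun j _ => ?_
    rw [lintegral_finsetSum _ fun a' ha => mR j a' (Finset.mem_Icc.1 ha).1]
    refine (Finset.sum_le_card_nsmul _ _ _ fun a' ha => vj j a' (Finset.mem_Icc.1 ha).1).trans ?_
    rw [nsmul_eq_mul, ← ENNReal.ofReal_natCast, ← ENNReal.ofReal_mul (by positivity), Nat.card_Icc,
      ← mul_assoc]
    refine ENNReal.ofReal_le_ofReal (mul_le_mul_of_nonneg_right ?_ (by positivity))
    have := Nat.div_mul_le_self J (2 ^ j)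
    rw [Nat.add_sub_cancel]
    exact_mod_cast this
  refine (add_le_add (add_le_add v0 s1) s2).trans ?_
  rw [← ENNReal.ofReal_add (by positivity) (by positivity), ← ENNReal.ofReal_add (by positivity)
    (Finset.sum_nonneg fun j _ => by positivity)]
  refine ENNReal.ofReal_le_ofReal ?_
  rw [← Finset.mul_sum, ← Finset.mul_sum, Finset.sum_add_distrib, ← Finset.mul_sum]
  have n1 := hnum J
  have n2 := mul_le_mul_of_nonneg_left (run_num2 J) (show 0 ≤ C * κK by positivity)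
  have n3 : 115 * u ≤ δ / 3 * (8 * K * u) := by
    have : 15 ≤ δ / 3 * K := by
      rw [mul_one_div, div_le_iff₀ (by positivity)] at k2; exact k2
    nlinarith
  have n4 : 6 * y / u * (8 * K * u) = 48 * K * y := by field_simp; ring
  have hJ : (0 : ℝ) ≤ J := by positivity
  have hl : 0 < 8 * K * u := by positivity
  have n5 : 115 * u * ε + 49 * K * u * (C * ε * κK) + (16 * K + 7) * (2 * y) +
      40 * (8 * K * u) * ε * (C * κK * 100 + δ / 120) ≤ (δ * ε + 6 * y / u) * (8 * K * u) := by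
    rw [add_mul (δ * ε), n4]
    have c1 := mul_le_mul_of_nonneg_right n3 hε
    have c2 := mul_le_mul_of_nonneg_right k1 (show 0 ≤ 8 * K * u * ε by positivity)
    have c3 : 0 ≤ K * u * (C * ε * κK) := by positivity
    have c4 : 0 ≤ (K - 17) * y := mul_nonneg (by linarith) hy.le
    linarith
  have n6 := mul_le_mul_of_nonneg_left n5 hJ
  have n7 := mul_le_mul_of_nonneg_left (mul_le_mul_of_nonneg_left (add_le_add n2 n1)
    (show 0 ≤ 40 * (8 * K * u) * ε by positivity)) hJ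
  linarith

end

end Crest.Agent.R151.B
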