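import Crest.Agent.R151.D5

set_option autoImplicit false

open MeasureTheory ProbabilityTheory Set Filter Topology
open scoped ENNReal
open Crest.ProbabilityR.FirstPassage

namespace Crest.Agent.R151.B

noncomputable section

/-! nice potentials agree on the grid up to a constant -/

variable {e : Fr} {φ ψ : Z2 → ℝ} {t : Env} {l y : ℝ} {i j : ℤ} {n : ℕ}

/-- `x` lies on a cheap crossing of the lane -/
def OnL (c : ℝ) (φ : Z2 → ℝ) (t : Env) (L : Lane) (y : ℝ) (x : Z2) : Prop :=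
  ∃ a b d₁ d₂, d₁ + d₂ ≤ y ∧ L.g a ≤ L.α ∧ L.α + L.m ≤ L.g b ∧ Ex φ (L.S c) t a x d₁ ∧
    Ex φ (L.S c) t x b d₂
/-- `x` lies on a cheap crossing of an inner lane of the grid -/
def Fr.On (e : Fr) (φ : Z2 → ℝ) (t : Env) (l : ℝ) (i j : ℤ) (n : ℕ) (y : ℝ) (x : Z2) : Prop :=
  ∃ s : ℤ, -(n : ℤ) < s ∧ s + 1 < n ∧
    (OnL e.κ φ t (e.hor ((i - n) * l) (2 * n * l) ((j + s) * l) l) y x ∨
      OnL e.κ φ t (e.ver ((j - n) * l) (2 * n * l) ((i + s) * l) l) y x)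

theorem Fr.Nice.mono {y' : ℝ} (a : e.Nice φ t l i j n y) (hy : y ≤ y') : e.Nice φ t l i j n y' :=
  fun s h1 h2 => ⟨(a s h1 h2).1.mono hy, (a s h1 h2).2.mono hy⟩
theorem Fr.Nice.approx_sub (he : e.OK) (hl : e.κ ≤ l) {s : ℤ} (h1 : -(n : ℤ) ≤ s) (h2 : s < n) :
    (e.hor ((i - n) * l) (2 * n * l) ((j + s) * l) l).S e.κ ⊆ e.Sq (i * l) (j * l) ((n + 1) * l) ∧
    (e.ver ((j - n) * l) (2 * n * l) ((i + s) * l) l).S e.κ ⊆ e.Sq (i * l) (j * l) ((n + 1) * l) := by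
  have k3 := he.κ3
  have l0 : 0 ≤ l := by linarith
  have a1 : -(n : ℝ) ≤ (s : ℝ) := by exact_mod_cast h1
  have a2 : (s : ℝ) + 1 ≤ n := by exact_mod_cast (show s + 1 ≤ (n : ℤ) by omega)
  have b1 : -(n : ℝ) * l ≤ s * l := mul_le_mul_of_nonneg_right a1 l0
  have b2 : ((s : ℝ) + 1) * l ≤ n * l := mul_le_mul_of_nonneg_right a2 l0
  constructor
  · rintro x ⟨c1, c2, c3, c4⟩
    simp only [Fr.hor] at c1 c2 c3 c4
    exact ⟨abs_le.2 ⟨by nlinarith, by nlinarith⟩, abs_le.2 ⟨by nlinarith, by nlinarith⟩⟩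
  · rintro x ⟨c1, c2, c3, c4⟩
    simp only [Fr.ver] at c1 c2 c3 c4
    exact ⟨abs_le.2 ⟨by nlinarith, by nlinarith⟩, abs_le.2 ⟨by nlinarith, by nlinarith⟩⟩
theorem Fr.Nice.approx {η : ℝ} (hl : e.κ ≤ l) (he : e.OK) (a : e.Nice φ t l i j n y)
    (b : ∀ x ∈ e.Sq (i * l) (j * l) ((n + 1) * l), |ψ x - φ x| ≤ η) :
    e.Nice ψ t l i j n (y + 2 * η) := by
  intro s h1 h2
  have o := Fr.Nice.approx_sub (i := i) (j := j) he hl h1 h2
  exact ⟨(a s h1 h2).1.approx fun x hx => b x (o.1 hx), (a s h1 h2).2.approx fun x hx => b x (o.2 hx)⟩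
/-- `Chp.sub` -/
theorem Fr.Nice.restrict (he : e.OK) (hl : e.κ ≤ l) (a : e.Nice φ t l i j n y)
    (p : Pot φ (e.Sq (i * l) (j * l) ((n + 1) * l)) t) {i' j' : ℤ} {n' : ℕ}
    (hi : |i' - i| + n' ≤ n) (hj : |j' - j| + n' ≤ n) : e.Nice φ t l i' j' n' y := by
  intro s h1 h2
  have k3 := he.κ3
  have l0 : 0 ≤ l := by linarith
  have i1 := le_abs_self (i' - i)
  have i2 := neg_abs_le (i' - i)
  have j1 := le_abs_self (j' - j)
  have j2 := neg_abs_le (j' - j)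
  have n0 : (0 : ℝ) ≤ 2 * n' * l := by positivity
  constructor
  · have u1 : -(n : ℤ) ≤ j' - j + s := by omega
    have u2 : j' - j + s < n := by omega
    have o := Fr.Nice.approx_sub (i := i) (j := j) he hl u1 u2
    have v1 : (i : ℝ) - n ≤ i' - n' := by exact_mod_cast (show i - (n : ℤ) ≤ i' - n' by omega)
    have v2 : (i' : ℝ) + n' ≤ i + n := by exact_mod_cast (show i' + (n' : ℤ) ≤ i + n by omega)
    have w1 := mul_le_mul_of_nonneg_right v1 l0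
    have w2 := mul_le_mul_of_nonneg_right v2 l0
    refine (a _ u1 u2).1.sub (p.mono o.1) (by linarith) (fun u v h => (he.step h).1) rfl rfl n0 ?_ ?_ ?_ ?_
    all_goals simp only [Fr.hor]
    all_goals push_cast
    all_goals nlinarith
  · have u1 : -(n : ℤ) ≤ i' - i + s := by omega
    have u2 : i' - i + s < n := by omega
    have o := Fr.Nice.approx_sub (i := i) (j := j) he hl u1 u2
    have v1 : (j : ℝ) - n ≤ j' - n' := by exact_mod_cast (show j - (n : ℤ) ≤ j' - n' by omega)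
    have v2 : (j' : ℝ) + n' ≤ j + n := by exact_mod_cast (show j' + (n' : ℤ) ≤ j + n by omega)
    have w1 := mul_le_mul_of_nonneg_right v1 l0
    have w2 := mul_le_mul_of_nonneg_right v2 l0
    refine (a _ u1 u2).2.sub (p.mono o.2) (by linarith) (fun u v h => (he.step h).2.1) rfl rfl n0
      ?_ ?_ ?_ ?_
    all_goals simp only [Fr.ver]
    all_goals push_cast
    all_goals nlinarith
theorem nice_loc (he : e.OK) (hl : e.κ ≤ l) (φ : Z2 → ℝ) (i j : ℤ) (n : ℕ) (y : ℝ) :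
    Loc (e.Sq (i * l) (j * l) ((n + 1) * l)) {t | e.Nice φ t l i j n y} := by
  unfold Fr.Nice
  refine Loc.all fun s => Loc.all fun h1 => Loc.all fun h2 => ?_
  have o := Fr.Nice.approx_sub (i := i) (j := j) he hl h1 h2
  exact Loc.and ((loc_chp _ _ _ _).mono o.1) ((loc_chp _ _ _ _).mono o.2)
theorem nice_hit_sel (hl : 0 < l) (i : ℤ) (n : ℕ) {u v : ℝ} (h : u + 2 * l ≤ v)
    (hu : |u - i * l| ≤ (n - 3) * l) (hv : |v - i * l| ≤ (n - 3) * l) :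
    ∃ s : ℤ, -(n : ℤ) < s ∧ s + 1 < n ∧ u ≤ (i + s) * l ∧ (i + s) * l + l ≤ v := by
  have h1 : (⌊u / l⌋ : ℝ) * l ≤ u := (le_div_iff₀ hl).1 (Int.floor_le _)
  have h2 : u < (⌊u / l⌋ + 1) * l := (div_lt_iff₀ hl).1 (Int.lt_floor_add_one _)
  rw [abs_le] at hu hv
  refine ⟨⌊u / l⌋ + 1 - i, ?_, ?_, ?_, ?_⟩
  · have h3 : (-(n : ℝ)) * l < (⌊u / l⌋ + 1 - i) * l := by linarith [hu.1]
    have h4 := lt_of_mul_lt_mul_right h3 hl.le
    exact_mod_cast h4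
  · have h3 : ((⌊u / l⌋ : ℝ) + 1 - i + 1) * l < n * l := by linarith [hv.2]
    have h4 := lt_of_mul_lt_mul_right h3 hl.le
    exact_mod_cast h4
  · push_cast
    linarith
  · push_cast
    linarith
theorem nice_hit_cross {g k : Z2 →+ ℝ} (hD : crD g k ≠ 0) {c α m β d : ℝ} {S : Set Z2} {x z : Z2}
    (w : Ex φ S t x z d) (hS : ∀ u ∈ S, α ≤ k u ∧ k u ≤ α + m)
    (b : Chp c ψ t ⟨k, g, α, m, β, l⟩ y)
    (h : (g x ≤ β ∧ β + l ≤ g z) ∨ (g z ≤ β ∧ β + l ≤ g x)) :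
    ∃ x' c₁ c₂, Ex φ S t x x' c₁ ∧ Ex φ S t x' z c₂ ∧ c₁ + c₂ = d ∧
      OnL c ψ t ⟨k, g, α, m, β, l⟩ y x' := by
  obtain ⟨a, b, d', hd', ha, hb, w'⟩ := b
  rcases h with h | h
  · obtain ⟨x', c₁, c₂, d₁, d₂, w₁, w₂, hc, w₃, w₄, hd⟩ :=
      Ex.cross hD w w' hS h.1 h.2 (fun u hu => hu.2.2) ha hb
    exact ⟨x', c₁, c₂, w₁, w₂, hc, a, b, d₁, d₂, hd.trans_le hd', ha, hb, w₃, w₄⟩
  · obtain ⟨x', c₁, c₂, d₁, d₂, w₁, w₂, hc, w₃, w₄, hd⟩ :=
      Ex.cross hD w.rev w' hS h.1 h.2 (fun u hu => hu.2.2) ha hb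
    exact ⟨x', c₂, c₁, by simpa only [neg_neg] using w₂.rev, by simpa only [neg_neg] using w₁.rev,
      by linarith, a, b, d₁, d₂, hd.trans_le hd', ha, hb, w₃, w₄⟩
theorem nice_hit_dir (hl : 0 < l) {g k : Z2 →+ ℝ} (hD : crD g k ≠ 0) {c d : ℝ} {S : Set Z2}
    {x z : Z2} (w : Ex φ S t x z d)
    (hS : ∀ u ∈ S, |g u - i * l| ≤ (n - 3) * l ∧ |k u - j * l| ≤ (n - 3) * l)
    (b : ∀ s : ℤ, -(n : ℤ) ≤ s → s < n → Chp c ψ t ⟨k, g, (j - n) * l, 2 * n * l, (i + s) * l, l⟩ y)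
    (h : 2 * l ≤ |g z - g x|) :
    ∃ x' c₁ c₂, Ex φ S t x x' c₁ ∧ Ex φ S t x' z c₂ ∧ c₁ + c₂ = d ∧ ∃ s : ℤ, -(n : ℤ) < s ∧
      s + 1 < n ∧ OnL c ψ t ⟨k, g, (j - n) * l, 2 * n * l, (i + s) * l, l⟩ y x' := by
  have hx := (hS x w.mem.1).1
  have hz := (hS z w.mem.2).1
  obtain ⟨s, s1, s2, s3⟩ : ∃ s : ℤ, -(n : ℤ) < s ∧ s + 1 < n ∧
      ((g x ≤ (i + s) * l ∧ (i + s) * l + l ≤ g z) ∨ (g z ≤ (i + s) * l ∧ (i + s) * l + l ≤ g x)) := by
    rcases le_abs.1 h with h | h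
    · obtain ⟨s, s1, s2, s3⟩ := nice_hit_sel hl i n (by linarith : g x + 2 * l ≤ g z) hx hz
      exact ⟨s, s1, s2, Or.inl s3⟩
    · obtain ⟨s, s1, s2, s3⟩ := nice_hit_sel hl i n (by linarith : g z + 2 * l ≤ g x) hz hx
      exact ⟨s, s1, s2, Or.inr s3⟩
  obtain ⟨x', c₁, c₂, w₁, w₂, hc, o⟩ := nice_hit_cross hD w (fun u hu => by
    have h1 := abs_le.1 (hS u hu).2
    exact ⟨by linarith [h1.1], by linarith [h1.2]⟩) (b s s1.le (by omega)) s3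
  exact ⟨x', c₁, c₂, w₁, w₂, hc, s, s1, s2, o⟩
/-- cut at the first point with `2 l ≤ ds (· - x)` (`Ex.ivt`); there `|ΔP| ≥ 2 l` or `|ΔY| ≥ 2 l`, so the
initial piece crosses the `ψ`-walk of the column (row) next to the cell `⌊P x / l⌋`, `⌊Y x / l⌋` of `x`
(`Ex.cross`; use `Ex.rev` or the chart `(-P, Y)` for the negative directions) -/
theorem nice_hit (he : e.OK) (hl : e.κ ≤ l) (b : e.Nice ψ t l i j n y) {S : Set Z2}
    (hS : S ⊆ e.Sq (i * l) (j * l) ((n - 3) * l)) {x z : Z2} {c : ℝ} (w : Ex φ S t x z c)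
    (hd : 2 * l ≤ e.ds (z - x)) : ∃ x' c₁ c₂, Ex φ S t x x' c₁ ∧ Ex φ S t x' z c₂ ∧ c₁ + c₂ = c ∧
      e.ds (x' - x) ≤ 3 * l ∧ e.On ψ t l i j n y x' := by
  have hκ := he.κ3
  have hl0 : 0 < l := by linarith
  obtain ⟨z', d₁, d₂, w₁, w₂, hd', h1, -⟩ := w.ivt (f := fun u => e.ds (u - x)) (C := e.κ)
    (α := 2 * l) (by linarith) (fun u v a => (he.step a).2.2.2.2 x)
    (by simp only [sub_self, e.ds_zero]; linarith) hd
  have key : ∃ x' c₁ c₂, Ex φ (S ∩ {u | e.ds (u - x) ≤ 2 * l + e.κ}) t x x' c₁ ∧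
      Ex φ (S ∩ {u | e.ds (u - x) ≤ 2 * l + e.κ}) t x' z' c₂ ∧ c₁ + c₂ = d₁ ∧
      e.On ψ t l i j n y x' := by
    rcases le_max_iff.1 h1 with h2 | h2
    · rw [map_sub] at h2
      obtain ⟨x', c₁, c₂, v₁, v₂, hc, s, s1, s2, o⟩ := nice_hit_dir (i := i) (j := j) (n := n) hl0
        he.ind.1 w₁ (fun u hu => hS hu.1) (fun s s1 s2 => (b s s1 s2).2) h2
      exact ⟨x', c₁, c₂, v₁, v₂, hc, s, s1, s2, Or.inr o⟩
    · rw [map_sub] at h2
      obtain ⟨x', c₁, c₂, v₁, v₂, hc, s, s1, s2, o⟩ := nice_hit_dir (i := j) (j := i) (n := n) hl0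
        (crD_symm he.ind.1) w₁ (fun u hu => (hS hu.1).symm) (fun s s1 s2 => (b s s1 s2).1) h2
      exact ⟨x', c₁, c₂, v₁, v₂, hc, s, s1, s2, Or.inl o⟩
  obtain ⟨x', c₁, c₂, v₁, v₂, hc, o⟩ := key
  have h3 : e.ds (x' - x) ≤ 2 * l + e.κ := v₁.mem.2.2
  exact ⟨x', c₁, c₂ + d₂, v₁.mono inter_subset_left, (v₂.mono inter_subset_left).trans w₂,
    by linarith, by linarith, o⟩
theorem nice_loc6_s (hl : 0 ≤ l) {s : ℤ} (h1 : -(n : ℤ) < s) (h2 : s + 1 < n) :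
    l - n * l ≤ s * l ∧ s * l + 2 * l ≤ n * l := by
  have a1 : (1 - n : ℝ) ≤ s := by
    have : (1 - n : ℤ) ≤ s := by omega
    exact_mod_cast this
  have a2 : (s + 2 : ℝ) ≤ n := by
    have : (s + 2 : ℤ) ≤ n := by omega
    exact_mod_cast this
  have b1 := mul_le_mul_of_nonneg_right a1 hl
  have b2 := mul_le_mul_of_nonneg_right a2 hl
  constructor <;> linarith
theorem nice_loc6_h (hl : e.κ ≤ l) (hl0 : 0 ≤ l) {s : ℤ} (h1 : -(n : ℤ) ≤ s) (h2 : s < n) :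
    (e.hor ((i - n) * l) (2 * n * l) ((j + s) * l) l).S e.κ ⊆ e.Sq (i * l) (j * l) ((n + 1) * l) ∧
      ∀ u ∈ (e.hor ((i - n) * l) (2 * n * l) ((j + s) * l) l).S e.κ,
        (j + s) * l ≤ e.Y u ∧ e.Y u ≤ (j + s) * l + l := by
  refine ⟨fun u hu => ?_, fun u hu => hu.2.2⟩
  obtain ⟨r1, r2⟩ := nice_loc6_s (n := n + 1) hl0 (s := s) (by omega) (by omega)
  push_cast at r1 r2
  have u1 : (i - n) * l - e.κ ≤ e.P u := hu.1
  have u2 : e.P u ≤ (i - n) * l + 2 * n * l + e.κ := hu.2.1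
  have u3 : (j + s) * l ≤ e.Y u := hu.2.2.1
  have u4 : e.Y u ≤ (j + s) * l + l := hu.2.2.2
  exact ⟨abs_le.2 ⟨by linarith, by linarith⟩, abs_le.2 ⟨by linarith, by linarith⟩⟩
theorem nice_loc6_v (hl : e.κ ≤ l) (hl0 : 0 ≤ l) {s : ℤ} (h1 : -(n : ℤ) ≤ s) (h2 : s < n) :
    (e.ver ((j - n) * l) (2 * n * l) ((i + s) * l) l).S e.κ ⊆ e.Sq (i * l) (j * l) ((n + 1) * l) ∧
      ∀ u ∈ (e.ver ((j - n) * l) (2 * n * l) ((i + s) * l) l).S e.κ,
        (i + s) * l ≤ e.P u ∧ e.P u ≤ (i + s) * l + l := by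
  obtain ⟨a, b⟩ := nice_loc6_h (e := e.swap) (i := j) (j := i) hl hl0 h1 h2
  exact ⟨fun u hu => ⟨(a hu).2, (a hu).1⟩, b⟩
/-- `ψ - φ` almost increases along `ψ`-cheap walks and almost decreases along `φ`-cheap walks (`Ex.le`).
`c₂` = (`φ`-walk of the top row) ∩ (`φ`-walk of the left column). From `x` go forward along `ψ`-walks (own
lane, then the right column if the lane is horizontal) to the part of the top walk after `c₂`. Reach
`z` forward along `ψ`-walks (bottom row first if its lane is vertical) from the part of the left walk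
before `c₂`. Six walks at most. -/
theorem nice_loc6 (he : e.OK) (hl : e.κ ≤ l) (a : e.Nice φ t l i j n y) (b : e.Nice ψ t l i j n y)
    (p : Pot φ (e.Sq (i * l) (j * l) ((n + 1) * l)) t)
    (p' : Pot ψ (e.Sq (i * l) (j * l) ((n + 1) * l)) t) {x z : Z2}
    (hx : x ∈ e.Sq (i * l) (j * l) ((n - 1) * l)) (hz : z ∈ e.Sq (i * l) (j * l) ((n - 1) * l))
    (ox : e.On ψ t l i j n y x) (oz : e.On ψ t l i j n y z) : φ z - φ x ≤ ψ z - ψ x + 6 * y := by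
  have hκ := he.κ3
  have hl0 : 0 ≤ l := by linarith
  have hD := he.ind.1
  have hn : (1 : ℤ) ≤ n := by
    obtain ⟨s, s1, s2, -⟩ := ox
    omega
  have hnl : l ≤ n * l := le_mul_of_one_le_left hl0 (by exact_mod_cast hn)
  have H := fun (s : ℤ) (h1 : -(n : ℤ) ≤ s) (h2 : s < n) => nice_loc6_h (i := i) (j := j) hl hl0 h1 h2
  have V := fun (s : ℤ) (h1 : -(n : ℤ) ≤ s) (h2 : s < n) => nice_loc6_v (i := i) (j := j) hl hl0 h1 h2
  have c1 : (((n : ℤ) - 1 : ℤ) : ℝ) = n - 1 := by push_cast; rfl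
  have c2 : ((-(n : ℤ) : ℤ) : ℝ) = -n := by push_cast; rfl
  obtain ⟨St, Bt⟩ := H (n - 1) (by omega) (by omega)
  obtain ⟨Sb, Bb⟩ := H (-n) (by omega) (by omega)
  obtain ⟨Sr, Br⟩ := V (n - 1) (by omega) (by omega)
  obtain ⟨Sl, Bl⟩ := V (-n) (by omega) (by omega)
  obtain ⟨xt, zt, dt, hdt, hxt, hzt, Et⟩ := (a (n - 1) (by omega) (by omega)).1
  obtain ⟨xl, zl, dl, hdl, hxl, hzl, El⟩ := (a (-n) (by omega) (by omega)).2
  obtain ⟨xb, zb, db, hdb, hxb, hzb, Eb⟩ := (b (-n) (by omega) (by omega)).1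
  obtain ⟨xr, zr, dr, hdr, hxr, hzr, Er⟩ := (b (n - 1) (by omega) (by omega)).2
  rw [c1] at St Bt Sr Br Et Er
  rw [c2] at Sb Bb Sl Bl El Eb
  replace hxt : e.P xt ≤ (i - n) * l := hxt
  replace hzt : (i - n) * l + 2 * n * l ≤ e.P zt := hzt
  replace hxb : e.P xb ≤ (i - n) * l := hxb
  replace hzb : (i - n) * l + 2 * n * l ≤ e.P zb := hzb
  replace hxl : e.Y xl ≤ (j - n) * l := hxl
  replace hzl : (j - n) * l + 2 * n * l ≤ e.Y zl := hzl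
  replace hxr : e.Y xr ≤ (j - n) * l := hxr
  replace hzr : (j - n) * l + 2 * n * l ≤ e.Y zr := hzr
  have x1 := (abs_le.1 hx.1).2
  have x2 := (abs_le.1 hx.2).2
  have z1 := (abs_le.1 hz.1).1
  have z2 := (abs_le.1 hz.2).1
  obtain ⟨c, t1, t2, l1, l2, Et1, Et2, ht, El1, El2, hl12⟩ :=
    Ex.cross hD Et El Bt (by linarith) (by linarith) Bl (by linarith) (by linarith)
  have hcP := (Bl c El2.mem.1).2
  have hcY := (Bt c Et2.mem.1).1
  have n1 := Et1.nonneg (p.mono St)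
  have n2 := El2.nonneg (p.mono Sl)
  have n3 := Eb.nonneg (p'.mono Sb)
  have up : ∀ {S : Set Z2} {u v : Z2} {d a₀ : ℝ}, Ex ψ S t u v d →
      S ⊆ e.Sq (i * l) (j * l) ((n + 1) * l) → (∀ w ∈ S, a₀ ≤ e.P w ∧ e.P w ≤ a₀ + l) →
      (i - n) * l + l ≤ a₀ → a₀ + l ≤ (i + n) * l → e.Y u ≤ (j + n) * l - l →
      (j + n) * l ≤ e.Y v → φ c - φ u ≤ ψ c - ψ u + (d + y) := fun E hS hB h1 h2 h3 h4 => by
    obtain ⟨w, t3, t4, d1, d2, Et3, Et4, ht', E1, E2, hd⟩ :=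
      Ex.cross hD Et2 E Bt (by linarith) (by linarith) hB (by linarith) (by linarith)
    have k1 := Et3.le (p'.mono St)
    have k2 := E1.le (p.mono hS)
    have k3 := Et4.nonneg (p.mono St)
    have k4 := E2.nonneg (p'.mono hS)
    linarith
  have ri : ∀ {S : Set Z2} {u v : Z2} {d b₀ : ℝ}, Ex ψ S t u v d →
      S ⊆ e.Sq (i * l) (j * l) ((n + 1) * l) → (∀ w ∈ S, b₀ ≤ e.Y w ∧ e.Y w ≤ b₀ + l) →
      (j - n) * l ≤ b₀ → b₀ + l ≤ (j + n) * l - l → e.P u ≤ (i - n) * l →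
      (i - n) * l + l ≤ e.P v → φ v - φ c ≤ ψ v - ψ c + (d + y) := fun E hS hB h1 h2 h3 h4 => by
    obtain ⟨w, d1, d2, l3, l4, E1, E2, hd, El3, El4, hl'⟩ :=
      Ex.cross hD E El1 hB (by linarith) (by linarith) Bl (by linarith) (by linarith)
    have k1 := El4.le (p'.mono Sl)
    have k2 := E2.le (p.mono hS)
    have k3 := El3.nonneg (p.mono Sl)
    have k4 := E1.nonneg (p'.mono hS)
    linarith
  have A : φ c - φ x ≤ ψ c - ψ x + 3 * y := by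
    obtain ⟨s, s1, s2, o⟩ := ox
    obtain ⟨r1, r2⟩ := nice_loc6_s hl0 s1 s2
    rcases o with ⟨u, v, d₁, d₂, hd, -, hv, E₁, E₂⟩ | ⟨u, v, d₁, d₂, hd, -, hv, E₁, E₂⟩
    · obtain ⟨S, B⟩ := H s (by omega) (by omega)
      replace hv : (i - n) * l + 2 * n * l ≤ e.P v := hv
      obtain ⟨w, d1, d2, r3, r4, E1, E2, hd', Er1, Er2, hr⟩ :=
        Ex.cross hD E₂ Er B (by linarith) (by linarith) Br (by linarith) (by linarith)
      have k0 := (B w E2.mem.1).2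
      have k1 := up Er2 Sr Br (by linarith) (by linarith) (by linarith) (by linarith)
      have k2 := E1.le (p.mono S)
      have k3 := E₁.nonneg (p'.mono S)
      have k4 := E2.nonneg (p'.mono S)
      have k5 := Er1.nonneg (p'.mono Sr)
      linarith
    · obtain ⟨S, B⟩ := V s (by omega) (by omega)
      replace hv : (j - n) * l + 2 * n * l ≤ e.Y v := hv
      have k1 := up E₂ S B (by linarith) (by linarith) (by linarith) (by linarith)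
      have k3 := E₁.nonneg (p'.mono S)
      linarith
  have B : φ z - φ c ≤ ψ z - ψ c + 3 * y := by
    obtain ⟨s, s1, s2, o⟩ := oz
    obtain ⟨r1, r2⟩ := nice_loc6_s hl0 s1 s2
    rcases o with ⟨u, v, d₁, d₂, hd, hu, -, E₁, E₂⟩ | ⟨u, v, d₁, d₂, hd, hu, -, E₁, E₂⟩
    · obtain ⟨S, B⟩ := H s (by omega) (by omega)
      replace hu : e.P u ≤ (i - n) * l := hu
      have k1 := ri E₁ S B (by linarith) (by linarith) (by linarith) (by linarith)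
      have k3 := E₂.nonneg (p'.mono S)
      linarith
    · obtain ⟨S, B⟩ := V s (by omega) (by omega)
      replace hu : e.Y u ≤ (j - n) * l := hu
      obtain ⟨w, b1, b2, d1, d2, Eb1, Eb2, hb, E1, E2, hd'⟩ :=
        Ex.cross hD Eb E₁ Bb (by linarith) (by linarith) B (by linarith) (by linarith)
      have k0 := (B w E2.mem.1).1
      have hn2 : 2 * l ≤ n * l := mul_le_mul_of_nonneg_right (by
        have : (2 : ℤ) ≤ n := by omega
        exact_mod_cast this) hl0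
      have k1 := ri Eb1 Sb Bb (by linarith) (by linarith) (by linarith) (by linarith)
      have k2 := E2.le (p.mono S)
      have k3 := E₂.nonneg (p'.mono S)
      have k4 := E1.nonneg (p'.mono S)
      have k5 := Eb2.nonneg (p'.mono Sb)
      linarith
  linarith
/-- `nice_hit` at both ends (`Ex.rev` for the second), `nice_loc6`, `Ex.change` -/
theorem transfer (he : e.OK) (hl : e.κ ≤ l) (a : e.Nice φ t l i j n y) (b : e.Nice ψ t l i j n y)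
    (p : Pot φ (e.Sq (i * l) (j * l) ((n + 1) * l)) t)
    (p' : Pot ψ (e.Sq (i * l) (j * l) ((n + 1) * l)) t) {S : Set Z2}
    (hS : S ⊆ e.Sq (i * l) (j * l) ((n - 3) * l)) {x z : Z2} {c : ℝ} (w : Ex φ S t x z c)
    (hd : 5 * l ≤ e.ds (z - x)) : ∃ x' z' c₁ c₂ c₃ c', Ex φ S t x x' c₁ ∧ Ex φ S t z' z c₃ ∧
      c₁ + c₂ + c₃ = c ∧ e.ds (x' - x) ≤ 3 * l ∧ e.ds (z - z') ≤ 3 * l ∧ Ex ψ S t x' z' c' ∧
      c' ≤ c₂ + 6 * y := by
  have k3 := he.κ3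
  have l0 : 0 ≤ l := by linarith
  obtain ⟨x', c₁, d, w₁, w₂, e₁, f₁, o₁⟩ := nice_hit he hl b hS w (by linarith)
  have hd' : 2 * l ≤ e.ds (x' - z) := by
    have h1 := e.ds_add (z - x') (x' - x)
    have h2 := e.ds_neg (z - x')
    rw [sub_add_sub_cancel] at h1
    rw [neg_sub] at h2
    linarith
  obtain ⟨z', c₃, c₂, w₃, w₄, e₂, f₂, o₂⟩ := nice_hit he hl b hS w₂.rev hd'
  have w₃' : Ex φ S t z' z c₃ := by simpa using w₃.rev
  have w₄' : Ex φ S t x' z' c₂ := by simpa using w₄.rev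
  have hsq : ∀ u ∈ S, u ∈ e.Sq (i * l) (j * l) ((n - 1) * l) := fun u hu =>
    ⟨(hS hu).1.trans (by nlinarith), (hS hu).2.trans (by nlinarith)⟩
  have h6 := nice_loc6 he hl a b p p' (hsq _ w₄'.mem.1) (hsq _ w₄'.mem.2) o₁ o₂
  refine ⟨x', z', c₁, c₂, c₃, _, w₁, w₃', by linarith, f₁, ?_, w₄'.change ψ, by linarith⟩
  have h2 := e.ds_neg (z' - z)
  rw [neg_sub] at h2
  linarith

end

end Crest.Agent.R151.B
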