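import Crest.Agent.R151.BDefs

/-!
Row 151, part (C) (no flat edge), short route: definitions.
Edge coordinates `a = e.p`, `b = e.q`; central coordinates `P = 2 b - a`, `Q = 2 a - b`;
`a + b = P + Q` is the linear functional that equals the time constant on the cone `a, b ≥ 0`.
-/

set_option autoImplicit false

open MeasureTheory Set Filter Topology
open scoped ENNReal
open Crest.ProbabilityR.FirstPassage

namespace Crest.Agent.R151.B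

noncomputable section

/-- all weights are positive -/
def PS (t : Env) : Prop := ∀ e, 0 < t e
/-- a walk from `x` to `y` inside `S` whose cost exceeds the increment of `φ` by exactly `c` -/
def Ex (φ : Z2 → ℝ) (S : Set Z2) (t : Env) (x y : Z2) (c : ℝ) : Prop :=
  Rch S t x y (φ y - φ x + c)
/-- `φ` is a potential on `S` -/
def Pot (φ : Z2 → ℝ) (S : Set Z2) (t : Env) : Prop :=
  ∀ u ∈ S, ∀ v ∈ S, squareLattice.Adj u v → φ v - φ u ≤ t s(u, v)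
/-- the countable class of potentials -/
def Rt (φ : Z2 → ℝ) : Prop := ∃ ψ : Z2 →₀ ℚ, ∀ x, φ x = (ψ x : ℝ)
/-- a measurable event that only reads the weights of pairs of points of `S` -/
def Loc (S : Set Z2) (A : Set Env) : Prop :=
  MeasurableSet A ∧ ∀ t t' : Env, (∀ u ∈ S, ∀ v ∈ S, t' s(u, v) = t s(u, v)) → t ∈ A → t' ∈ A

/-- lane: `g` runs from `α` to `α + m`, `k` stays in `[β, β + w]` -/
structure Lane where
  g : Z2 →+ ℝ
  k : Z2 →+ ℝ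
  α : ℝ
  m : ℝ
  β : ℝ
  w : ℝ

def Lane.S (L : Lane) (c : ℝ) : Set Z2 :=
  {x | L.α - c ≤ L.g x ∧ L.g x ≤ L.α + L.m + c ∧ L.β ≤ L.k x ∧ L.k x ≤ L.β + L.w}
/-- the lane has a crossing of excess at most `y` -/
def Chp (c : ℝ) (φ : Z2 → ℝ) (t : Env) (L : Lane) (y : ℝ) : Prop :=
  ∃ x z d, d ≤ y ∧ L.g x ≤ L.α ∧ L.α + L.m ≤ L.g z ∧ Ex φ (L.S c) t x z d
/-- least excess of a crossing -/
def WL (c : ℝ) (φ : Z2 → ℝ) (t : Env) (L : Lane) : ℝ≥0∞ :=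
  ⨅ (y : ℝ) (_ : Chp c φ t L y), ENNReal.ofReal y

namespace Fr

def P (e : Fr) : Z2 →+ ℝ := (2 : ℕ) • e.q - e.p
def Y (e : Fr) : Z2 →+ ℝ := (2 : ℕ) • e.p - e.q
def swap (e : Fr) : Fr := ⟨e.q, e.p, e.C⟩
/-- sup norm in the central coordinates `(P, Y)` (`Y` is the `Q` of the notes) -/
def ds (e : Fr) (d : Z2) : ℝ := max |e.P d| |e.Y d|
/-- bound for the step of all four coordinates -/
def κ (e : Fr) : ℝ := 3 * e.C
def hor (e : Fr) (α m β w : ℝ) : Lane := ⟨e.P, e.Y, α, m, β, w⟩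
def ver (e : Fr) (α m β w : ℝ) : Lane := ⟨e.Y, e.P, α, m, β, w⟩
def up (e : Fr) (α m β w : ℝ) : Lane := ⟨e.p, e.q, α, m, β, w⟩
def dn (e : Fr) (α m β w : ℝ) : Lane := ⟨e.q, e.p, α, m, β, w⟩
abbrev Ch (e : Fr) (φ : Z2 → ℝ) (t : Env) (L : Lane) (y : ℝ) : Prop := Chp e.κ φ t L y
abbrev W (e : Fr) (φ : Z2 → ℝ) (t : Env) (L : Lane) : ℝ≥0∞ := WL e.κ φ t L
def Bx (e : Fr) (p₁ p₂ q₁ q₂ : ℝ) : Set Z2 :=
  {x | p₁ ≤ e.P x ∧ e.P x ≤ p₂ ∧ q₁ ≤ e.Y x ∧ e.Y x ≤ q₂}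
def Sq (e : Fr) (α β r : ℝ) : Set Z2 := {x | |e.P x - α| ≤ r ∧ |e.Y x - β| ≤ r}

/-- all grid lanes of width `l` across the square of radius `n l` centred at `(i l, j l)` are cheap -/
def Nice (e : Fr) (φ : Z2 → ℝ) (t : Env) (l : ℝ) (i j : ℤ) (n : ℕ) (y : ℝ) : Prop :=
  ∀ s : ℤ, -(n : ℤ) ≤ s → s < n →
    e.Ch φ t (e.hor ((i - n) * l) (2 * n * l) ((j + s) * l) l) y ∧
      e.Ch φ t (e.ver ((j - n) * l) (2 * n * l) ((i + s) * l) l) y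
/-- leaving the cone is macroscopically expensive -/
def XP (e : Fr) (φ : Z2 → ℝ) (S : Set Z2) (t : Env) (α Λ l : ℝ) : Prop :=
  ∀ x z c, Ex φ S t x z c → min (e.p (z - x)) (e.q (z - x)) ≤ -(α * max l (e.ds (z - x))) →
    2 * Λ * max l (e.ds (z - x)) ≤ c
/-- the tilted lower bound -/
def Tilt (e : Fr) (φ : Z2 → ℝ) (S : Set Z2) (t : Env) (Λ s D : ℝ) : Prop :=
  ∀ x z c, Ex φ S t x z c → Λ * (s * e.p (z - x) - e.q (z - x) - D) ≤ c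
/-- admissible potentials on the box of scale `n' n l` with index `(i, j)` -/
structure Cls (e : Fr) (α Λ l y : ℝ) (n n' : ℕ) (i j : ℤ) (φ : Z2 → ℝ) (t : Env) : Prop where
  rt : Rt φ
  pot : Pot φ (e.Sq (i * (n' * (n * l))) (j * (n' * (n * l))) (4 * (n' * (n * l)))) t
  fine : e.Nice φ t l (i * n' * n) (j * n' * n) (3 * n' * n) y
  mid : e.Nice φ t (n * l) (i * n') (j * n') (3 * n') y
  xp : e.XP φ (e.Sq (i * (n' * (n * l))) (j * (n' * (n * l))) (4 * (n' * (n * l)))) t α Λ l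
/-- good box -/
def Good (e : Fr) (α Λ l y : ℝ) (n n' : ℕ) (s D : ℝ) (i j : ℤ) : Set Env :=
  {t | (∃ φ, e.Cls α Λ l y n n' i j φ t) ∧ ∀ φ, e.Cls α Λ l y n n' i j φ t →
    e.Tilt φ (e.Sq (i * (n' * (n * l))) (j * (n' * (n * l))) (2 * (n' * (n * l)))) t Λ s D}
/-- local signal: the thin lane of the edge direction is expensive for every nice potential -/
def Sig (e : Fr) (l y θ v α β : ℝ) : Set Env :=
  {t | ∀ φ, Rt φ → Pot φ (e.Sq (⌊(2 * β - α) / l⌋ * l) (⌊(2 * α - β) / l⌋ * l) (21 * l)) t →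
    e.Nice φ t l ⌊(2 * β - α) / l⌋ ⌊(2 * α - β) / l⌋ 20 y → ¬e.Ch φ t (e.up α (7 * l) β v) θ}

/-- down lane of the link centred at `P = c`, midline `Y = μ` -/
def zD (e : Fr) (c μ u : ℝ) : Lane :=
  e.dn ((μ - 18 * u + 2 * c) / 3 - 38 * u) (39 * u) ((2 * μ - 36 * u + c) / 3) u
/-- up lane of the link -/
def zU (e : Fr) (c μ u : ℝ) : Lane :=
  e.up ((2 * μ - 36 * u + c) / 3) (25 * u) ((μ - 18 * u + 2 * c) / 3) u
/-- a link: down across the thin band `|Y - μ| ≤ 16 u`, then up across it -/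
def Lk (e : Fr) (φ : Z2 → ℝ) (t : Env) (c μ u y : ℝ) : Prop :=
  ∃ z₁ z₂ z₃ d₁ d₂, d₁ + d₂ ≤ y ∧ Ex φ ((e.zD c μ u).S e.κ) t z₁ z₂ d₁ ∧
    Ex φ ((e.zU c μ u).S e.κ) t z₂ z₃ d₂ ∧ μ + 16 * u ≤ e.Y z₁ ∧ e.Y z₂ ≤ μ - 16 * u ∧
      μ + 16 * u ≤ e.Y z₃
/-- up lanes of the zigzag that starts near `P = c`, `Y = μ - u` -/
def sU (e : Fr) (c μ u : ℝ) (j : ℕ) (m : ℝ) : Lane :=
  e.up ((c + 2 * (μ - u)) / 3 + j * u) m ((2 * c + (μ - u)) / 3 + 2 * j * u) u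
/-- down lanes of the zigzag -/
def sD (e : Fr) (c μ u : ℝ) (j : ℕ) : Lane :=
  e.dn ((2 * c + (μ - u)) / 3 + 2 * j * u) (3 * u) ((c + 2 * (μ - u)) / 3 + (j + 1) * u) u
/-- good block `[a, a + 8 K u]` of the band with midline `μ` -/
def Blk (e : Fr) (a μ u y : ℝ) (K : ℕ) : Set Env :=
  {t | ∃ φ, Rt φ ∧ Pot φ (e.Bx (a - 16 * K * u) (a + 32 * K * u) (μ - 8 * K * u) (μ + 24 * K * u)) t ∧
    e.Ch φ t (e.zD (a + 4 * K * u) μ u) y ∧ e.Ch φ t (e.zU (a + 4 * K * u) μ u) y ∧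
    (∀ j, j < 8 * K + 2 → e.Ch φ t (e.sU (a - 8 * K * u - 3 * u) μ u j (2 * u)) y ∧
      e.Ch φ t (e.sD (a - 8 * K * u - 3 * u) μ u j) y) ∧
    e.Ch φ t (e.sU (a - 8 * K * u - 3 * u) μ u (8 * K + 2) (8 * K * u + u)) y}
/-- thin band over the blocks `i, …, i'` of length `ℓ` -/
def thin (e : Fr) (α μ u ℓ : ℝ) (i i' : ℕ) : Lane :=
  e.hor (α + i * ℓ) (((i' : ℝ) + 1 - i) * ℓ) (μ - 16 * u) (32 * u)

end Fr

/-- the mean passage time is linear on the cone `p, q ≥ 0` and only there -/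
structure Flat (G : Measure ℝ) (e : Fr) : Prop where
  ok : e.OK
  low : ∀ x, e.p x + e.q x ≤ mE G x
  tight : ∀ η : ℝ, 0 < η → ∃ B : ℝ, ∀ x, 0 ≤ e.p x → 0 ≤ e.q x →
    mE G x ≤ (1 + η) * (e.p x + e.q x) + B
  out : ∀ α : ℝ, 0 < α → ∃ ω : ℝ, 0 < ω ∧ ∀ x, min (e.p x) (e.q x) ≤ -(α * e.ds x) →
    e.p x + e.q x + ω * e.ds x ≤ mE G x

/-- stationary potential with mean slope `p + q` -/
structure Coc (G : Measure ℝ) (e : Fr) (h : Env → Z2 → ℝ) : Prop where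
  meas : ∀ x, Measurable fun t => h t x
  int : ∀ x, Integrable (fun t => h t x) (iidLaw G)
  pot : ∀ᵐ t ∂iidLaw G, ∀ x y, h t y - h t x ≤ T t x y
  sh : ∀ᵐ t ∂iidLaw G, ∀ z x, h (sh z t) x = h t (x + z) - h t z
  mean : ∀ x, ∫ t, h t x ∂iidLaw G = e.p x + e.q x

/-- mean excess per unit length in central lanes of width `w` -/
def Rate (G : Measure ℝ) (e : Fr) (h : Env → Z2 → ℝ) (w ε : ℝ) : Prop :=
  ∀ α β m : ℝ, w ≤ m →
    ∫⁻ t, e.W (h t) t (e.hor α m β w) ∂iidLaw G ≤ ENNReal.ofReal (ε * m) ∧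
      ∫⁻ t, e.W (h t) t (e.ver α m β w) ∂iidLaw G ≤ ENNReal.ofReal (ε * m)
/-- power law decay of the rate above the scale `w` -/
def URec (G : Measure ℝ) (e : Fr) (h : Env → Z2 → ℝ) (C w ε : ℝ) : Prop :=
  ∀ L : ℝ, w ≤ L → Rate G e h L (C * ε * (w / L) ^ (1 / 64 : ℝ))
/-- short lanes of both edge directions are cheap with high probability -/
def EQ (G : Measure ℝ) (e : Fr) (h : Env → Z2 → ℝ) (u A y q : ℝ) : Prop :=
  ∀ α β : ℝ, Pr G {t | ¬e.Ch (h t) t (e.up α (A * u) β u) y} ≤ q ∧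
    Pr G {t | ¬e.Ch (h t) t (e.dn α (A * u) β u) y} ≤ q

end

end Crest.Agent.R151.B
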