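import Crest.Agent.R151.D1c

set_option autoImplicit false

open MeasureTheory ProbabilityTheory Set Filter Topology
open scoped ENNReal
open Crest.ProbabilityR.FirstPassage

namespace Crest.Agent.R151.B.F

noncomputable section

/-! final step of the short route: definitions -/

/-- a cheap walk leaves `x` along its row and reaches the right side of the square -/
def FwH (e : Fr) (φ : Z2 → ℝ) (t : Env) (l : ℝ) (i : ℤ) (n : ℕ) (y : ℝ) (x : Z2) : Prop :=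
  ∃ z d, d ≤ y ∧ (i + n) * l ≤ e.P z ∧
    Ex φ {u | |e.P u - i * l| ≤ (n + 1) * l ∧ |e.Y u - e.Y x| ≤ l} t x z d
/-- `x` lies on the network of cheap rows and columns -/
def Fw (e : Fr) (φ : Z2 → ℝ) (t : Env) (l : ℝ) (i j : ℤ) (n : ℕ) (y : ℝ) (x : Z2) : Prop :=
  FwH e φ t l i n y x ∨ FwH e.swap φ t l j n y x
/-- an admissible potential close to `φ` -/
def Near (e : Fr) (α Λ l y : ℝ) (n n' : ℕ) (i j : ℤ) (φ : Z2 → ℝ) (t : Env) : Prop :=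
  ∃ ψ, e.Cls α Λ l y n n' i j ψ t ∧
    ∀ x ∈ e.Sq (i * (n' * (n * l))) (j * (n' * (n * l))) (4 * (n' * (n * l))), |ψ x - φ x| ≤ 1

def nn (n₀ k : ℕ) : ℕ := n₀ * 2 ^ k
def ll (n₀ : ℕ) (l₀ : ℝ) : ℕ → ℝ
  | 0 => l₀
  | k + 1 => nn n₀ k * ll n₀ l₀ k
def ss (s₀ : ℝ) (k : ℕ) : ℝ := s₀ * (1 / 2 + 1 / 2 ^ (k + 1))
def DD (n₀ : ℕ) (l₀ s₀ : ℝ) (k : ℕ) : ℝ :=
  s₀ * (nn n₀ (k + 1) * (nn n₀ k * ll n₀ l₀ k)) / (36 * 2 ^ k)
def yy (n₀ : ℕ) (l₀ r₀ : ℝ) (k : ℕ) : ℝ :=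
  10 ^ 11 * (nn n₀ k : ℝ) ^ 8 * (r₀ / 2 ^ (9 * k) * ll n₀ l₀ k)
def pp (n₀ k : ℕ) : ℝ := 1 / (10 ^ 7 * (nn n₀ k : ℝ) ^ 4)

theorem df0_anchor : True := by
  have := @ll.eq_1
  have := @ll.eq_2
  have := @ll.eq_def
  have := @nn.eq_1
  have := @ss.eq_1
  have := @DD.eq_1
  have := @yy.eq_1
  have := @pp.eq_1
  have := @FwH.eq_1
  have := @Fw.eq_1
  have := @Near.eq_1
  have := @Fr.Nice.eq_1
  have := @Fr.XP.eq_1
  have := @Fr.Tilt.eq_1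
  have := @Fr.Good.eq_1
  have := @Fr.Sig.eq_1
  have := @Fr.Sq.eq_1
  trivial

end

end Crest.Agent.R151.B.F
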