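import Crest.Agent.R151.DF0

set_option autoImplicit false

open MeasureTheory ProbabilityTheory Set Filter Topology
open scoped ENNReal
open Crest.ProbabilityR.FirstPassage

namespace Crest.Agent.R151.B.F

noncomputable section

/-! the network of cheap lanes -/

variable {e : Fr} {φ ψ χ : Z2 → ℝ} {t : Env} {l y c : ℝ} {i j : ℤ} {n : ℕ} {S S' : Set Z2}
  {x z : Z2}

theorem nice_mono {y' : ℝ} (h : e.Nice φ t l i j n y) (hy : y ≤ y') : e.Nice φ t l i j n y' := by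
  exact fun s h1 h2 => ⟨(h s h1 h2).1.mono hy, (h s h1 h2).2.mono hy⟩
theorem nice_swap (h : e.Nice φ t l i j n y) : e.swap.Nice φ t l j i n y := by
  exact fun s h1 h2 => (h s h1 h2).symm
theorem sq_swap (e : Fr) (α β r : ℝ) : e.swap.Sq β α r = e.Sq α β r := by
  exact Set.ext fun _ => and_comm
theorem sq_sub {α β r α' β' r' : ℝ} (h1 : |α' - α| + r' ≤ r) (h2 : |β' - β| + r' ≤ r) :
    e.Sq α' β' r' ⊆ e.Sq α β r := by
  rintro u ⟨a, b⟩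
  exact ⟨by linarith [abs_sub_le (e.P u) α' α], by linarith [abs_sub_le (e.Y u) β' β]⟩
theorem fw_swap (h : Fw e φ t l i j n y x) : Fw e.swap φ t l j i n y x := by
  exact Or.symm h
theorem lane_sub (hl : e.κ ≤ l) (hl0 : 0 ≤ l) {s : ℤ} (h1 : -(n : ℤ) ≤ s) (h2 : s < n) :
    (e.hor ((i - n) * l) (2 * n * l) ((j + s) * l) l).S e.κ ⊆ e.Sq (i * l) (j * l) ((n + 1) * l) ∧
    (e.ver ((j - n) * l) (2 * n * l) ((i + s) * l) l).S e.κ ⊆
      e.Sq (i * l) (j * l) ((n + 1) * l) := by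
  have a1 : -(n : ℝ) * l ≤ s * l := mul_le_mul_of_nonneg_right (by exact_mod_cast h1) hl0
  have a2 : ((s : ℝ) + 1) * l ≤ n * l :=
    mul_le_mul_of_nonneg_right (by exact_mod_cast Int.add_one_le_iff.2 h2) hl0
  constructor
  · rintro u ⟨b1, b2, b3, b4⟩
    dsimp only [Fr.hor] at b1 b2 b3 b4
    exact ⟨abs_le.2 ⟨by linarith, by linarith⟩, abs_le.2 ⟨by linarith, by linarith⟩⟩
  · rintro u ⟨b1, b2, b3, b4⟩
    dsimp only [Fr.ver] at b1 b2 b3 b4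
    exact ⟨abs_le.2 ⟨by linarith, by linarith⟩, abs_le.2 ⟨by linarith, by linarith⟩⟩
theorem nice_sub_hor (he : e.OK) (hl : e.κ ≤ l) (h : e.Nice φ t l i j n y)
    (p : Pot φ (e.Sq (i * l) (j * l) ((n + 1) * l)) t) {i' j' : ℤ} {n' : ℕ}
    (hi : |i' - i| + n' ≤ n) (hj : |j' - j| + n' ≤ n) {s : ℤ} (h1 : -(n' : ℤ) ≤ s) (h2 : s < n') :
    e.Ch φ t (e.hor ((i' - n') * l) (2 * n' * l) ((j' + s) * l) l) y := by
  have hκ : 0 ≤ e.κ := by linarith [he.κ3]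
  have hl0 : 0 ≤ l := hκ.trans hl
  have a1 := le_abs_self (i' - i)
  have a2 := neg_le_abs (i' - i)
  have a3 := le_abs_self (j' - j)
  have a4 := neg_le_abs (j' - j)
  have b1 : -(n : ℤ) ≤ j' + s - j := by omega
  have b2 : j' + s - j < n := by omega
  have c1 : ((i : ℝ) - n) * l ≤ (i' - n') * l :=
    mul_le_mul_of_nonneg_right (by exact_mod_cast (by omega : i - n ≤ i' - n')) hl0
  have c2 : ((i' : ℝ) + n') * l ≤ (i + n) * l :=
    mul_le_mul_of_nonneg_right (by exact_mod_cast (by omega : i' + n' ≤ i + n)) hl0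
  refine Chp.sub (h _ b1 b2).1 (p.mono (lane_sub hl hl0 b1 b2).1) hκ (fun u v a => (he.step a).1)
    rfl rfl ?_ c1 ?_ ?_ ?_ <;> dsimp only [Fr.hor]
  · positivity
  · linarith
  · push_cast
    linarith
  · push_cast
    linarith
theorem nice_sub (he : e.OK) (hl : e.κ ≤ l) (h : e.Nice φ t l i j n y)
    (p : Pot φ (e.Sq (i * l) (j * l) ((n + 1) * l)) t) {i' j' : ℤ} {n' : ℕ}
    (hi : |i' - i| + n' ≤ n) (hj : |j' - j| + n' ≤ n) : e.Nice φ t l i' j' n' y := by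
  exact fun s h1 h2 => ⟨nice_sub_hor he hl h p hi hj h1 h2,
    nice_sub_hor he.swap hl (nice_swap h) (by rwa [sq_swap]) hj hi h1 h2⟩
theorem nice_approx {η : ℝ} (he : e.OK) (hl : e.κ ≤ l) (h : e.Nice φ t l i j n y)
    (a : ∀ x ∈ e.Sq (i * l) (j * l) ((n + 1) * l), |ψ x - φ x| ≤ η) :
    e.Nice ψ t l i j n (y + 2 * η) := by
  have hl0 : 0 ≤ l := by linarith [he.κ3]
  exact fun s h1 h2 => ⟨(h s h1 h2).1.approx fun x hx => a x ((lane_sub hl hl0 h1 h2).1 hx),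
    (h s h1 h2).2.approx fun x hx => a x ((lane_sub hl hl0 h1 h2).2 hx)⟩
theorem hit_int {A B : ℝ} (hl : 0 < l) (hA : |A - i * l| ≤ n * l) (hB : |B - i * l| ≤ n * l)
    (hAB : A + 2 * l ≤ B) : ∃ s : ℤ, -(n : ℤ) ≤ s ∧ s < n ∧ A ≤ (i + s) * l ∧
      (i + s) * l + l ≤ B := by
  rw [abs_le] at hA hB
  have h1 : A ≤ (⌈A / l⌉ : ℝ) * l := by
    have := Int.le_ceil (A / l)
    rwa [div_le_iff₀ hl] at this
  have h2 : (⌈A / l⌉ : ℝ) * l < A + l := by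
    have := Int.ceil_lt_add_one (A / l)
    have h3 := mul_lt_mul_of_pos_right this hl
    rwa [add_mul, div_mul_cancel₀ _ hl.ne', one_mul] at h3
  generalize ⌈A / l⌉ = m at h1 h2
  refine ⟨m - i, ?_, ?_, ?_, ?_⟩
  · have h3 : (-(n : ℝ)) * l ≤ ((m : ℝ) - i) * l := by nlinarith
    have h4 := le_of_mul_le_mul_right h3 hl
    exact_mod_cast h4
  · have h3 : ((m : ℝ) - i) * l < (n : ℝ) * l := by nlinarith
    have h4 := lt_of_mul_lt_mul_right h3 hl.le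
    exact_mod_cast h4
  · push_cast
    nlinarith
  · push_cast
    nlinarith
theorem hit_col (he : e.OK) (hl : e.κ ≤ l) (h : e.Nice φ t l i j n y)
    (p : Pot φ (e.Sq (i * l) (j * l) ((n + 1) * l)) t) (w : Ex χ S t x z c)
    (hS : S ⊆ e.Sq (i * l) (j * l) (n * l)) (hd : 2 * l ≤ |e.P z - e.P x|) :
    ∃ u c₁ c₂, c₁ + c₂ = c ∧ Ex χ S t x u c₁ ∧ Ex χ S t u z c₂ ∧ FwH e.swap φ t l j n y u := by
  have hl0 : 0 < l := by linarith [he.κ3]
  have hx := (hS w.mem.1).1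
  have hz := (hS w.mem.2).1
  have hY : ∀ u ∈ S, ((j : ℝ) - n) * l ≤ e.Y u ∧ e.Y u ≤ (j - n) * l + 2 * n * l := by
    intro u hu
    have := abs_le.1 (hS hu).2
    constructor <;> linarith [this.1, this.2]
  have key : ∀ s : ℤ, -(n : ℤ) ≤ s → s < n → ∀ (x' z' u : Z2) (d₁ d₂ : ℝ), d₁ + d₂ ≤ y →
      (j - n) * l + 2 * n * l ≤ e.Y z' →
      Ex φ ((e.ver ((j - n) * l) (2 * n * l) ((i + s) * l) l).S e.κ) t x' u d₁ →
      Ex φ ((e.ver ((j - n) * l) (2 * n * l) ((i + s) * l) l).S e.κ) t u z' d₂ →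
      FwH e.swap φ t l j n y u := by
    intro s h1 h2 x' z' u d₁ d₂ hy hz' w1 w2
    have hsub := (lane_sub (i := i) (j := j) hl hl0.le h1 h2).2
    have h0 := w1.nonneg (p.mono hsub)
    refine ⟨z', d₂, by linarith, ?_, w2.mono fun v hv => ⟨(hsub hv).2, ?_⟩⟩
    · rw [Fr.swap_P]; linarith
    · obtain ⟨-, -, a1, a2⟩ := hv
      obtain ⟨-, -, b1, b2⟩ := w2.mem.1
      change (i + s) * l ≤ e.P v at a1
      change e.P v ≤ (i + s) * l + l at a2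
      change (i + s) * l ≤ e.P u at b1
      change e.P u ≤ (i + s) * l + l at b2
      rw [Fr.swap_Y, abs_le]
      constructor <;> linarith
  rcases le_abs.1 hd with hd | hd
  · obtain ⟨s, h1, h2, h3, h4⟩ := hit_int hl0 hx hz (by linarith)
    obtain ⟨x', z', d, hy, a1, a2, w'⟩ := (h s h1 h2).2
    obtain ⟨u, c₁, c₂, d₁, d₂, w1, w2, hc, w3, w4, hdd⟩ :=
      Ex.cross (g := e.P) (k := e.Y) he.ind.1 w w' hY h3 h4 (fun v hv => ⟨hv.2.2.1, hv.2.2.2⟩) a1 a2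
    exact ⟨u, c₁, c₂, hc, w1, w2, key s h1 h2 x' z' u d₁ d₂ (by linarith) a2 w3 w4⟩
  · obtain ⟨s, h1, h2, h3, h4⟩ := hit_int hl0 hz hx (by linarith)
    obtain ⟨x', z', d, hy, a1, a2, w'⟩ := (h s h1 h2).2
    obtain ⟨u, c₁, c₂, d₁, d₂, w1, w2, hc, w3, w4, hdd⟩ :=
      Ex.cross (g := -e.P) (k := e.Y) (a₀ := -((i + s) * l + l)) (a₁ := -((i + s) * l))
        (crD_neg he.ind.1).2.2 w w' hY (neg_le_neg h4) (neg_le_neg h3)
        (fun v hv => ⟨neg_le_neg hv.2.2.2, neg_le_neg hv.2.2.1⟩) a1 a2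
    exact ⟨u, c₁, c₂, hc, w1, w2, key s h1 h2 x' z' u d₁ d₂ (by linarith) a2 w3 w4⟩
theorem hit (he : e.OK) (hl : e.κ ≤ l) (h : e.Nice φ t l i j n y)
    (p : Pot φ (e.Sq (i * l) (j * l) ((n + 1) * l)) t) (w : Ex χ S t x z c)
    (hS : S ⊆ e.Sq (i * l) (j * l) ((n - 3) * l)) (hd : 2 * l ≤ e.ds (z - x)) :
    ∃ u c₁ c₂, c₁ + c₂ = c ∧ Ex χ S t x u c₁ ∧ Ex χ S t u z c₂ ∧ e.ds (u - x) ≤ 3 * l ∧
      Fw e φ t l i j n y u := by
  have hκ := he.κ3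
  have hl0 : 0 < l := by linarith
  obtain ⟨z₁, d₁, d₂, w1, w2, hc, h1, -⟩ := Ex.ivt (f := fun u => e.ds (u - x)) (C := e.κ)
    (α := 2 * l) (by linarith) (fun u v a => (he.step a).2.2.2.2 x) w
    (by show e.ds (x - x) ≤ _; rw [sub_self, e.ds_zero]; linarith) hd
  have hS1 : S ∩ {u | e.ds (u - x) ≤ 2 * l + e.κ} ⊆ e.Sq (i * l) (j * l) (n * l) := by
    intro u hu
    obtain ⟨a1, a2⟩ := hS hu.1
    exact ⟨by linarith, by linarith⟩
  have key : ∃ u c₁ c₂, c₁ + c₂ = d₁ ∧ Ex χ (S ∩ {u | e.ds (u - x) ≤ 2 * l + e.κ}) t x u c₁ ∧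
      Ex χ (S ∩ {u | e.ds (u - x) ≤ 2 * l + e.κ}) t u z₁ c₂ ∧ Fw e φ t l i j n y u := by
    rcases le_max_iff.1 h1 with h2 | h2
    · rw [map_sub] at h2
      obtain ⟨u, c₁, c₂, a1, a2, a3, a4⟩ := hit_col he hl h p w1 hS1 h2
      exact ⟨u, c₁, c₂, a1, a2, a3, Or.inr a4⟩
    · rw [map_sub] at h2
      obtain ⟨u, c₁, c₂, a1, a2, a3, a4⟩ := hit_col he.swap hl (nice_swap h)
        (by rw [sq_swap]; exact p) w1 (by rw [sq_swap]; exact hS1) h2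
      exact ⟨u, c₁, c₂, a1, a2, a3, Or.inl a4⟩
  obtain ⟨u, c₁, c₂, a1, a2, a3, a4⟩ := key
  refine ⟨u, c₁, c₂ + d₂, by linarith, a2.mono inter_subset_left,
    (a3.mono inter_subset_left).trans w2, ?_, a4⟩
  have : e.ds (u - x) ≤ 2 * l + e.κ := a2.mem.2.2
  linarith

end

end Crest.Agent.R151.B.F
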