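import Crest.Agent.R151.DF9
import Crest.Agent.R151.D8
import Crest.Agent.R151.D4
import Crest.Agent.R151.D2
import Crest.Agent.R151.D0
import Crest.Agent.R151.B15

set_option autoImplicit false

open MeasureTheory ProbabilityTheory Set Filter Topology
open scoped ENNReal
open Crest.ProbabilityR.FirstPassage

namespace Crest.Agent.R151.B.F

noncomputable section

variable {G : Measure ℝ} {e : Fr} {h : Env → Z2 → ℝ} {α Λ s₀ l₀ r₀ : ℝ} {n₀ : ℕ}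

/-- the base level in plain parameters -/
theorem ns_base (hG : Law G) (he : e.OK) (a : Coc G e h) {θ v q : ℝ} (hn : 1584 ≤ n₀)
    (hl : e.κ ≤ l₀) (hv : 0 < v) (hvl : v ≤ l₀) (hΛ : 0 ≤ Λ) (hs : 0 ≤ s₀) (hα : α = s₀ / 288)
    (hr : 0 < r₀) (hq : 0 < q) (hqn : 1 / q ≤ n₀)
    (hw : 18 * s₀ * (n₀ : ℝ) ^ 2 * l₀ ≤ v) (hθ : Λ * s₀ * (22 * n₀ * l₀) ≤ θ)
    (hR : Rate G e h l₀ r₀)
    (hσ : ∀ a' b', Pr G {t | e.Ch (h t) t (e.up a' l₀ b' v)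
      (θ + 6 * (10 ^ 11 * (n₀ : ℝ) ^ 8 * (r₀ * l₀)))} ≤ 1 - q / 2)
    (hK : 10 ^ 10 * (l₀ / (2 * v)) * (n₀ : ℝ) ^ 8 * (1 - q / 4) ^ n₀ ≤ 1) (hlv : 2 * v ≤ l₀)
    (i j : ℤ) (hc : Pr G {t | ¬∃ φ, e.Cls α Λ (ll n₀ l₀ 0) (yy n₀ l₀ r₀ 0) (nn n₀ 0)
      (nn n₀ (0 + 1)) i j φ t} ≤ pp n₀ 0 / 2) :
    Pr G (e.Good α Λ (ll n₀ l₀ 0) (yy n₀ l₀ r₀ 0) (nn n₀ 0) (nn n₀ 1) (ss s₀ 0)
      (DD n₀ l₀ s₀ 0) i j)ᶜ ≤ pp n₀ 0 := by
  have hκ := he.κ3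
  have hl0 : 0 < l₀ := by linarith
  have hN : (1584 : ℝ) ≤ n₀ := by exact_mod_cast hn
  have e0 : nn n₀ 0 = n₀ := by simp [nn]
  have e1 : nn n₀ 1 = 2 * n₀ := by simp [nn, mul_comm]
  have e2 : ll n₀ l₀ 0 = l₀ := rfl
  have e3 : ss s₀ 0 = s₀ := by simp [ss]; ring
  have e4 : yy n₀ l₀ r₀ 0 = 10 ^ 11 * (n₀ : ℝ) ^ 8 * (r₀ * l₀) := by simp [yy, e0, e2]
  have e5 : DD n₀ l₀ s₀ 0 = s₀ * (2 * n₀ * (n₀ * l₀)) / 36 := by simp [DD, e0, e1, e2]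
  have e6 : pp n₀ 0 = 1 / (10 ^ 7 * (n₀ : ℝ) ^ 4) := by simp [pp, e0]
  rw [zero_add] at hc
  rw [e0, e1, e2, e4, e6] at hc ⊢
  rw [e3, e5]
  have hq1 : q / 2 ≤ 1 := by linarith [(Pr_nonneg G _).trans (hσ 0 0)]
  have hsig : ∀ a' b', Pr G (e.Sig l₀ (10 ^ 11 * (n₀ : ℝ) ^ 8 * (r₀ * l₀)) θ v a' b')ᶜ ≤
      1 - q / 4 := by
    intro a' b'
    refine (pr_sig hG he a hR hr.le hl hvl (by positivity) hσ a' b').trans ?_
    have h1 : 3200 * (r₀ * l₀) / (10 ^ 11 * (n₀ : ℝ) ^ 8 * (r₀ * l₀)) ≤ q / 4 := by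
      rw [div_le_iff₀ (by positivity)]
      rw [div_le_iff₀ hq] at hqn
      have h2 : (n₀ : ℝ) ≤ (n₀ : ℝ) ^ 8 := le_self_pow₀ (by linarith) (by norm_num)
      have h3 : 1 ≤ (n₀ : ℝ) ^ 8 * q := hqn.trans (mul_le_mul_of_nonneg_right h2 hq.le)
      have h4 : 0 < r₀ * l₀ := by positivity
      nlinarith only [h3, h4]
    linarith only [h1]
  have hnl : 0 ≤ s₀ * (n₀ * l₀) := by positivity
  have key := pr_base (α := α) (s := s₀) (D := s₀ * (2 * n₀ * (n₀ * l₀)) / 36) (m := n₀)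
    (n := n₀) (n' := 2 * n₀) (I := i) (J := j) hG he hl (by nlinarith only [hn]) (by omega) hv hvl hΛ
    (by rw [hα]; positivity) hs (by
      rw [hα]; push_cast
      have : 0 ≤ s₀ * (n₀ : ℝ) ^ 2 * l₀ := by positivity
      linarith only [this, hw]) hθ (by
      rw [hα]; push_cast
      linarith only [mul_le_mul_of_nonneg_left hN hnl]) hsig hc
  refine key.trans ?_
  have h5 : (4 * (((2 * n₀ : ℕ) : ℝ) * n₀) + 1) * (12 * (((2 * n₀ : ℕ) : ℝ) * (n₀ * l₀)) / v + 1) ≤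
      441 * (n₀ : ℝ) ^ 4 * (l₀ / (2 * v)) := by
    have h6 : 1 ≤ l₀ / (2 * v) := by rw [le_div_iff₀ (by positivity)]; linarith
    have h7 : (1 : ℝ) ≤ (n₀ : ℝ) ^ 2 := one_le_pow₀ (by linarith)
    have h8 : 12 * (((2 * n₀ : ℕ) : ℝ) * (n₀ * l₀)) / v = 48 * (n₀ : ℝ) ^ 2 * (l₀ / (2 * v)) := by
      push_cast; field_simp; ring
    rw [h8]
    have h9 : 4 * (((2 * n₀ : ℕ) : ℝ) * n₀) + 1 ≤ 9 * (n₀ : ℝ) ^ 2 := by push_cast; linarith only [h7]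
    have h10 : 48 * (n₀ : ℝ) ^ 2 * (l₀ / (2 * v)) + 1 ≤ 49 * (n₀ : ℝ) ^ 2 * (l₀ / (2 * v)) := by
      linarith only [one_le_mul_of_one_le_of_one_le h7 h6]
    refine (mul_le_mul h9 h10 (by positivity) (by positivity)).trans_eq (by ring)
  have h11 : 0 ≤ (1 - q / 4) ^ n₀ := pow_nonneg (by linarith) _
  have h12 : 441 * (n₀ : ℝ) ^ 4 * (l₀ / (2 * v)) * (1 - q / 4) ^ n₀ ≤
      1 / (10 ^ 7 * (n₀ : ℝ) ^ 4) / 2 := by
    rw [div_div, le_div_iff₀ (by positivity)]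
    have : 0 ≤ (l₀ / (2 * v)) * (n₀ : ℝ) ^ 8 * (1 - q / 4) ^ n₀ := by positivity
    linarith only [this, hK]
  linarith only [mul_le_mul_of_nonneg_right h5 h11, h12]

theorem ns_big (hn : 2 ^ 576 ≤ n₀) : 1584 ≤ n₀ :=
  le_trans (le_trans (by norm_num : 1584 ≤ 2 ^ 11) (Nat.pow_le_pow_right two_pos (by decide))) hn

theorem ns_par {C₀ Γ A c₀ q : ℝ} (hC₀ : 1 ≤ C₀) (hΓ : 1 ≤ Γ) (hA0 : 0 ≤ A) (hc₀ : 0 < c₀)
    (hc₁ : c₀ ≤ 1) (hq : 0 < q) (hq1 : q ≤ 1) : ∃ (n₀ : ℕ) (c₁ T R : ℝ), 2 ^ 576 ≤ n₀ ∧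
      1 / q ≤ n₀ ∧ 0 < c₁ ∧ c₁ * (176 * (A + 3)) = c₀ * q ∧ 1 ≤ T ∧ R = T ^ 64 * Γ ∧ A + 3 ≤ R ∧
      10 ^ 14 * (n₀ : ℝ) ^ 8 * (C₀ / T) * n₀ = c₁ ∧
      10 ^ 10 * R * (n₀ : ℝ) ^ 8 * (1 - q / 4) ^ n₀ ≤ 1 := by
  obtain ⟨c₁, hc₁'⟩ : ∃ c₁, c₁ = c₀ * q / (176 * (A + 3)) := ⟨_, rfl⟩
  have hc1 : 0 < c₁ := by rw [hc₁']; positivity
  have hc2 : c₁ * (176 * (A + 3)) = c₀ * q := by rw [hc₁']; field_simp
  have hc3 : c₁ * (A + 3) ≤ 1 := by nlinarith [mul_le_one₀ hc₁ hq.le hq1]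
  obtain ⟨K₁, hK₁⟩ : ∃ K₁, K₁ = 10 ^ 14 * C₀ / c₁ := ⟨_, rfl⟩
  have hK1 : K₁ * c₁ = 10 ^ 14 * C₀ := by rw [hK₁]; field_simp
  have hK2 : A + 3 ≤ K₁ := by
    by_contra hcon
    have := mul_lt_mul_of_pos_right (not_le.1 hcon) hc1
    nlinarith
  have hK0 : 0 < K₁ := by linarith
  obtain ⟨n₀, hn, hqn, hK⟩ := choose_n (K := 10 ^ 10 * K₁ ^ 64 * Γ) (by positivity) hq hq1
  have hN : (1584 : ℝ) ≤ n₀ := by exact_mod_cast ns_big hn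
  have hN1 : (1 : ℝ) ≤ n₀ := le_trans (by norm_num) hN
  have hT1 : A + 3 ≤ K₁ * (n₀ : ℝ) ^ 9 :=
    hK2.trans (le_mul_of_one_le_right hK0.le (one_le_pow₀ hN1))
  have hT2 : 1 ≤ K₁ * (n₀ : ℝ) ^ 9 := le_trans (le_add_of_nonneg_of_le hA0 (by norm_num)) hT1
  refine ⟨n₀, c₁, K₁ * (n₀ : ℝ) ^ 9, _, hn, hqn, hc1, hc2, hT2, rfl,
    hT1.trans ((le_self_pow₀ hT2 (by norm_num)).trans
      (le_mul_of_one_le_right (by positivity) hΓ)), ?_, le_of_eq_of_le ?_ hK⟩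
  · have hN0 : (n₀ : ℝ) ≠ 0 := by positivity
    field_simp
    exact hK1.symm
  · rw [mul_pow, ← pow_mul, show 584 = 9 * 64 + 8 from rfl, pow_add]
    generalize (n₀ : ℝ) ^ (9 * 64) = X
    ring

theorem ns_N {A u κ l₀ : ℝ} (hA : 0 ≤ A) (hκ : 0 < κ) (hu : κ ≤ u) (hl : (A + 3) * u ≤ l₀) :
    ∃ N : ℕ, 1 ≤ N ∧ N * (A * u + 3 * κ) ≤ l₀ ∧ l₀ ≤ 2 * N * ((A + 3) * u) := by
  have hAu : 0 ≤ A * u := mul_nonneg hA (by linarith)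
  have hd : 0 < A * u + 3 * κ := by linarith
  have hd1 : A * u + 3 * κ ≤ (A + 3) * u := by linarith
  have hN1 : 1 ≤ ⌊l₀ / (A * u + 3 * κ)⌋₊ :=
    Nat.le_floor (by rw [Nat.cast_one, le_div_iff₀ hd]; linarith)
  refine ⟨_, hN1, ?_, ?_⟩
  · rw [← le_div_iff₀ hd]
    exact Nat.floor_le (div_nonneg (by linarith) hd.le)
  · have h1 := Nat.lt_floor_add_one (l₀ / (A * u + 3 * κ))
    rw [div_lt_iff₀ hd] at h1
    have h2 : (1 : ℝ) ≤ ⌊l₀ / (A * u + 3 * κ)⌋₊ := by exact_mod_cast hN1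
    exact h1.le.trans (mul_le_mul (by linarith) hd1 hd.le (by positivity))

theorem ns_main (hG : Law G) (hf : Flat G e) (a : Coc G e h) {A c₀ c₁ q R u ε C α β : ℝ}
    (hA0 : 0 ≤ A) (hc₀ : 0 < c₀) (hq : 0 < q) (hq1 : q ≤ 1) (hn : 2 ^ 576 ≤ n₀) (hqn : 1 / q ≤ n₀)
    (hc1 : 0 < c₁) (hc2 : c₁ * (176 * (A + 3)) = c₀ * q) (hR1 : A + 3 ≤ R)
    (hK : 10 ^ 10 * R * (n₀ : ℝ) ^ 8 * (1 - q / 4) ^ n₀ ≤ 1) (hs0 : 0 < s₀)
    (hs1 : s₀ * (100 * (n₀ : ℝ) ^ 2 * R) = 1) (hu1 : 4 * e.κ ≤ u) (hε : 0 < ε) (hl₀ : l₀ = R * u)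
    (hΛ0 : 0 < Λ) (hΛ1 : Λ * s₀ * n₀ = ε * c₁) (hr0 : 0 < r₀)
    (hy : 10 ^ 14 * (n₀ : ℝ) ^ 8 * r₀ = Λ * s₀)
    (hRk : ∀ k, Rate G e h (ll n₀ l₀ k) (r₀ / 2 ^ (9 * k))) (hC : 0 ≤ C)
    (hx : ∀ l R α' β' : ℝ, 1 ≤ l → 1 ≤ R → Pr G {t | ¬e.XP (h t) (e.Sq α' β' (R * l)) t (s₀ / 288)
      (2 * Λ) l} ≤ C * R ^ 5 / l ^ (1 / 32 : ℝ))
    (hb : (10 ^ 13 * C * (n₀ : ℝ) ^ 14) ^ 32 ≤ l₀)
    (hcon : q ≤ Pr G {t | ¬e.Ch (h t) t (e.up α (A * u) β u) (c₀ * ε * u)}) : False := by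
  have he := hf.ok
  have hκ := he.κ3
  have hn1 := ns_big hn
  have hN : (1584 : ℝ) ≤ n₀ := by exact_mod_cast hn1
  have hu0 : 0 < u := by linarith only [hκ, hu1]
  have hR0 : 0 < R := by linarith only [hA0, hR1]
  have hl1 : (A + 3) * u ≤ l₀ := by rw [hl₀]; exact mul_le_mul_of_nonneg_right hR1 hu0.le
  have hAu : 0 ≤ A * u := by positivity
  have hl2 : 3 * u ≤ l₀ := by linarith only [hl1, hAu]
  have hlκ : e.κ ≤ l₀ := by linarith only [hl2, hu1, hκ]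
  have hs2 : s₀ ≤ 1 / 3 := by
    have h1 : (1 : ℝ) ≤ (n₀ : ℝ) ^ 2 := one_le_pow₀ (by linarith only [hN])
    have h2 : 3 ≤ 100 * (n₀ : ℝ) ^ 2 * R := by nlinarith only [h1, hR1, hA0]
    nlinarith only [h2, hs1, hs0]
  have hnear := near_all (α := s₀ / 288) hG he a hn hlκ hΛ0 hr0 hRk hC hx hb
  have hcls : ∀ k i j, Pr G {t | ¬∃ φ, e.Cls (s₀ / 288) Λ (ll n₀ l₀ k) (yy n₀ l₀ r₀ k)
      (nn n₀ k) (nn n₀ (k + 1)) i j φ t} ≤ pp n₀ k / 2 := fun k i j => by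
    refine le_trans (hG.mono ?_) (hnear k i j)
    rintro t ht ⟨ψ, hψ, -⟩
    exact ht ⟨ψ, hψ⟩
  obtain ⟨N, hN1, hN2, hN3⟩ := ns_N hA0 (κ := e.κ) (by linarith only [hκ])
    (by linarith only [hκ, hu1]) hl1
  have hθ : Λ * s₀ * (22 * n₀ * l₀) ≤ c₀ * ε * u * q * N / 4 := by
    have h1 : Λ * s₀ * (22 * n₀ * l₀) = 22 * (ε * c₁) * l₀ := by rw [← hΛ1]; ring
    have h2 : c₀ * ε * u * q * N / 4 = 22 * (ε * c₁) * (2 * N * ((A + 3) * u)) := by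
      have : c₀ * ε * u * q * N / 4 = c₀ * q * (ε * u * N / 4) := by ring
      rw [this, ← hc2]; ring
    rw [h1, h2]
    exact mul_le_mul_of_nonneg_left hN3 (by positivity)
  have hl0 : 0 < l₀ := by linarith only [hl2, hu0]
  have hθ' : 6 * (10 ^ 11 * (n₀ : ℝ) ^ 8 * (r₀ * l₀)) ≤ c₀ * ε * u * q * N / 4 := by
    refine le_trans ?_ hθ
    rw [← hy]
    have : 0 ≤ (n₀ : ℝ) ^ 8 * r₀ * l₀ := by positivity
    nlinarith only [this, hN]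
  have hR0' : Rate G e h l₀ r₀ := by simpa [ll] using hRk 0
  have hw : 18 * s₀ * (n₀ : ℝ) ^ 2 * l₀ ≤ u - 2 * e.κ := by
    have : 18 * s₀ * (n₀ : ℝ) ^ 2 * l₀ = 18 / 100 * u * (s₀ * (100 * (n₀ : ℝ) ^ 2 * R)) := by
      rw [hl₀]; ring
    rw [this, hs1]; linarith only [hu1, hu0]
  have hK' : 10 ^ 10 * (l₀ / (2 * (u - 2 * e.κ))) * (n₀ : ℝ) ^ 8 * (1 - q / 4) ^ n₀ ≤ 1 := by
    refine le_trans ?_ hK
    have h1 : l₀ / (2 * (u - 2 * e.κ)) ≤ R := by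
      rw [div_le_iff₀ (by linarith only [hu1, hκ]), hl₀]
      exact mul_le_mul_of_nonneg_left (by linarith only [hu1]) hR0.le
    have h3 : 0 ≤ (1 - q / 4) ^ n₀ := pow_nonneg (by linarith only [hq1]) _
    gcongr
  have h0 := fun i j => ns_base (α := s₀ / 288) (θ := c₀ * ε * u * q * N / 4)
    (v := u - 2 * e.κ) hG he a hn1 hlκ (by linarith only [hu1, hκ])
    (by linarith only [hl2, hκ, hu0]) hΛ0.le hs0.le rfl hr0 hq hqn hw hθ hR0'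
    (fun a' b' => avg hG he a hu0.le hA0 (by positivity) hcon hN1 hN2 (by linarith only [hθ'])
      a' b') hK' (by linarith only [hl2, hκ, hu0]) i j (hcls 0 i j)
  have hn2 : 720 ≤ n₀ := le_trans (by norm_num) hn1
  have hall := levels hG he hn2 hlκ hΛ0 (by positivity) (by linarith only [hs0])
    hs2 hr0.le hy.le hcls h0
  exact all_levels hG hf a hn2 (by linarith only [hlκ, hκ]) hΛ0 hs0 (fun k => hnear k 0 0)
    fun k => hall k 0 0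

theorem no_signal' (hG : Law G) (hf : Flat G e) (a : Coc G e h)
    {C₀ Γ A c₀ q : ℝ} (hC₀ : 1 ≤ C₀) (hΓ : 1 ≤ Γ) (hA0 : 0 ≤ A) (hc₀ : 0 < c₀) (hc₁ : c₀ ≤ 1)
    (hq : 0 < q) : ∃ W : ℝ, 1 ≤ W ∧ ∀ u ε : ℝ, W ≤ u → 0 < ε → ε ≤ 1 / W →
      URec G e h C₀ (Γ * u) ε → ∀ α β : ℝ,
        Pr G {t | ¬e.Ch (h t) t (e.up α (A * u) β u) (c₀ * ε * u)} ≤ q := by
  have he := hf.ok
  have hκ := he.κ3
  rcases le_or_gt 1 q with hq1 | hq1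
  · exact ⟨1, le_rfl, fun _ _ _ _ _ _ _ _ => (hG.le_one _).trans hq1⟩
  obtain ⟨n₀, c₁, T, R, hn, hqn, hc1, hc2, hT, hR, hR1, hy, hK⟩ :=
    ns_par hC₀ hΓ hA0 hc₀ hc₁ hq hq1.le
  have hN : (1584 : ℝ) ≤ n₀ := by exact_mod_cast ns_big hn
  have hN0 : (0 : ℝ) < n₀ := by linarith only [hN]
  have hR0 : 0 < R := by linarith only [hA0, hR1]
  obtain ⟨s₀, hs₀⟩ : ∃ s₀, s₀ = 1 / (100 * (n₀ : ℝ) ^ 2 * R) := ⟨_, rfl⟩
  have hs0 : 0 < s₀ := by rw [hs₀]; positivity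
  have hs1 : s₀ * (100 * (n₀ : ℝ) ^ 2 * R) = 1 := by rw [hs₀]; field_simp
  obtain ⟨Λ₀, C, hΛ₀, hC, hx⟩ := pr_xp (α := s₀ / 288) hG hf a (by positivity)
  refine ⟨max (max 1 (4 * e.κ)) (max ((10 ^ 13 * C * (n₀ : ℝ) ^ 14) ^ 32) (2 * c₁ / (n₀ * s₀ * Λ₀))),
    (le_max_left _ _).trans (le_max_left _ _), fun u ε hu hε hε' hU α β => ?_⟩
  have hu1 : 4 * e.κ ≤ u := ((le_max_right _ _).trans (le_max_left _ _)).trans hu
  have hu2 : (10 ^ 13 * C * (n₀ : ℝ) ^ 14) ^ 32 ≤ u :=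
    ((le_max_left _ _).trans (le_max_right _ _)).trans hu
  have hu0 : 0 < u := by linarith only [hu1, hκ]
  have hε2 : ε ≤ 1 / (2 * c₁ / (n₀ * s₀ * Λ₀)) := hε'.trans (one_div_le_one_div_of_le
    (by positivity) ((le_max_right _ _).trans (le_max_right _ _)))
  clear hu hε'
  refine le_of_not_gt fun hcon => ?_
  have hΛ1 : ε * c₁ / (n₀ * s₀) * s₀ * n₀ = ε * c₁ := by field_simp
  have hΛ2 : 2 * (ε * c₁ / (n₀ * s₀)) ≤ Λ₀ := by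
    rw [one_div_div, le_div_iff₀ (by positivity)] at hε2
    rw [← mul_div_assoc, div_le_iff₀ (by positivity)]
    linarith only [hε2]
  have hT0 : 0 < T := by linarith only [hT]
  have hC0 : 0 < C₀ := by linarith only [hC₀]
  have hΓ0 : 0 < Γ := by linarith only [hΓ]
  refine ns_main (Λ := ε * c₁ / (n₀ * s₀)) (r₀ := C₀ * ε / T) hG hf a hA0 hc₀ hq hq1.le hn hqn hc1
    hc2 hR1 hK hs0 hs1 hu1 hε rfl (by positivity) hΛ1 (by positivity) ?_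
    (rate_k hG he a hU (by positivity) (by positivity) hT hn (by rw [hR, mul_assoc])) hC
    (fun l R α' β' h1 h2 => le_trans (hG.mono ?_) (hx l R α' β' h1 h2))
    (hu2.trans (le_mul_of_one_le_left hu0.le (by linarith only [hA0, hR1]))) hcon.le
  · refine mul_right_cancel₀ hN0.ne' ?_
    rw [hΛ1, ← hy]
    ring
  · exact fun t ht ht' => ht (xp_le ht' hΛ2)

/-- short edge lanes are cheap at every record scale -/
theorem eq_of' (hG : Law G) (hf : Flat G e) (a : Coc G e h)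
    {C₀ Γ A c₀ q : ℝ} (hC₀ : 1 ≤ C₀) (hΓ : 1 ≤ Γ) (hA0 : 0 ≤ A) (hc₀ : 0 < c₀) (hc₁ : c₀ ≤ 1)
    (hq : 0 < q) : ∃ W : ℝ, 1 ≤ W ∧ ∀ u ε : ℝ, W ≤ u → 0 < ε → ε ≤ 1 / W →
      URec G e h C₀ (Γ * u) ε → EQ G e h u A (c₀ * ε * u) q := by
  obtain ⟨W₁, h1, H1⟩ := no_signal' hG hf a hC₀ hΓ hA0 hc₀ hc₁ hq
  obtain ⟨W₂, h2, H2⟩ := no_signal' hG hf.swap a.swap hC₀ hΓ hA0 hc₀ hc₁ hq
  refine ⟨max W₁ W₂, h1.trans (le_max_left _ _), fun u ε hu hε hε' hU α β => ⟨?_, ?_⟩⟩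
  · exact H1 u ε ((le_max_left _ _).trans hu) hε
      (hε'.trans (one_div_le_one_div_of_le (by linarith) (le_max_left _ _))) hU α β
  · exact H2 u ε ((le_max_right _ _).trans hu) hε
      (hε'.trans (one_div_le_one_div_of_le (by linarith) (le_max_right _ _))) hU.swap α β

theorem no_flat (hG : Law G) (hS : Scal G) (hf : Flat G e) : False := by
  obtain ⟨h, a⟩ := hf.coc hG
  have he := hf.ok
  have hκ := he.κ3
  obtain ⟨A, q, c₁, hA, hq, -, hc₁, H⟩ := hG.posit (c₀ := 1 / 64) (C := 4) (by norm_num) (by norm_num)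
  obtain ⟨W, hW, HW⟩ := eq_of' hG hf a (C₀ := 4) (Γ := 8) (A := A) (c₀ := min c₁ 1) (q := q)
    (by norm_num) (by norm_num) (by linarith) (lt_min hc₁ one_pos) (min_le_right _ _) hq
  obtain ⟨D, hD, HD⟩ := a.record hG hS hf
  obtain ⟨w, ε, hw, hε, r1, r2, r3, r4⟩ := HD (max (max (8 * W) (8 * e.κ)) ((D * W) ^ 32))
  have hw1 : 8 * W ≤ w := ((le_max_left _ _).trans (le_max_left _ _)).trans hw
  have hw2 : 8 * e.κ ≤ w := ((le_max_right _ _).trans (le_max_left _ _)).trans hw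
  have hw3 : (D * W) ^ 32 ≤ w := (le_max_right _ _).trans hw
  have hW0 : 0 < W := by linarith
  have e1 : 8 * (w / 8) = w := by ring
  have e2 : 256 * (w / 8) = 32 * w := by ring
  have hε' : ε ≤ 1 / W := by
    refine r4.trans ?_
    have h1 : D * W ≤ w ^ (1 / 32 : ℝ) := by
      have := Real.rpow_le_rpow (by positivity) hw3 (by norm_num : (0 : ℝ) ≤ 1 / 32)
      rwa [one_div, show (32 : ℝ) = ((32 : ℕ) : ℝ) by norm_num,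
        Real.pow_rpow_inv_natCast (by positivity) (by norm_num),
        show ((32 : ℕ) : ℝ)⁻¹ = 1 / 32 by norm_num] at this
    rw [Real.rpow_neg (by linarith), ← div_eq_mul_inv,
      div_le_div_iff₀ (Real.rpow_pos_of_pos (by linarith) _) hW0, one_mul]
    exact h1
  have q1 := HW (w / 8) ε (by linarith) hε hε' (by rwa [e1])
  have hy : min c₁ 1 * ε * (w / 8) ≤ c₁ * ε * (w / 8) :=
    mul_le_mul_of_nonneg_right (mul_le_mul_of_nonneg_right (min_le_left _ _) hε.le) (by linarith)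
  refine H e h he a (w / 8) ε (by linarith) hε (by rwa [e1]) (by rwa [e1]) (by rwa [e2])
    fun α β => ⟨le_trans (hG.mono ?_) (q1 α β).1, le_trans (hG.mono ?_) (q1 α β).2⟩
  · exact fun t ht ht' => ht (Chp.mono ht' hy)
  · exact fun t ht ht' => ht (Chp.mono ht' hy)

theorem strict {κ r : ℝ} (hκ : 0 < κ) (hr : 0 < r) {μ : ℝ × ℝ → ℝ}
    (hμ : ∀ v : ℝ × ℝ, ∀ᵐ t ∂iidLaw (gammaMeasure κ r),
      Tendsto (fun s : ℝ => passageTime t (0, 0) (⌊s * v.1⌋, ⌊s * v.2⌋) / s) atTop (𝓝 (μ v))) :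
    StrictConvex ℝ {v : ℝ × ℝ | μ v ≤ 1} := by
  by_contra h
  obtain ⟨h1, h2, h3⟩ := (gamma_Law hκ hr).mu hμ
  obtain ⟨e, he⟩ := flat_of h1 h2 h3 h
  exact no_flat (gamma_Law hκ hr) (gamma_Scal hκ hr) he

end

end Crest.Agent.R151.B.F
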