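import Crest.Agent.R151.DF1

set_option autoImplicit false

open MeasureTheory ProbabilityTheory Set Filter Topology
open scoped ENNReal
open Crest.ProbabilityR.FirstPassage

namespace Crest.Agent.R151.B.F

noncomputable section

/-! two nice potentials differ by a constant on the network -/

variable {e : Fr} {φ ψ χ : Z2 → ℝ} {t : Env} {l y c : ℝ} {i j : ℤ} {n : ℕ} {S S' : Set Z2}
  {x z : Z2}

theorem up_aux (he : e.OK) (hl : e.κ ≤ l) (h : e.Nice ψ t l i j n y)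
    (p : Pot ψ (e.Sq (i * l) (j * l) ((n + 1) * l)) t) (hn : 1 ≤ n) (w : Ex ψ S t x z c)
    (hS : S ⊆ e.Sq (i * l) (j * l) ((n + 1) * l))
    (hY : ∀ v ∈ S, (j - n) * l ≤ e.Y v ∧ e.Y v ≤ (j + n - 1) * l)
    (hx : e.P x ≤ (i + n - 1) * l) (hz : (i + n) * l ≤ e.P z) :
    ∃ u z' d₁ d₂, d₁ + d₂ ≤ c + y ∧ Ex ψ (e.Sq (i * l) (j * l) ((n + 1) * l)) t x u d₁ ∧
      Ex ψ (e.Sq (i * l) (j * l) ((n + 1) * l) ∩
        {v | (i + n - 1) * l ≤ e.P v ∧ e.P v ≤ (i + n) * l}) t u z' d₂ ∧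
      e.Y u ≤ (j + n - 1) * l ∧ (j + n) * l ≤ e.Y z' := by
  have hκ := he.κ3
  have hl0 : 0 ≤ l := by linarith
  have s1 : -(n : ℤ) ≤ (n : ℤ) - 1 := by omega
  have s2 : (n : ℤ) - 1 < n := by omega
  obtain ⟨x₀, z₀, d, hd, a₀, a₁, C⟩ := (h _ s1 s2).2
  have hC := (lane_sub (e := e) (i := i) (j := j) hl hl0 s1 s2).2
  have hC' : ∀ v ∈ (e.ver ((j - n) * l) (2 * n * l) ((i + ((n : ℤ) - 1 : ℤ)) * l) l).S e.κ,
      (i + n - 1) * l ≤ e.P v ∧ e.P v ≤ (i + n) * l := by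
    rintro v ⟨-, -, b₁, b₂⟩
    simp only [Fr.ver] at b₁ b₂
    push_cast at b₁ b₂
    constructor <;> linarith
  simp only [Fr.ver] at a₀ a₁
  obtain ⟨u, d₁, d₂, d₁', d₂', w₁, w₂, e₁, C₁, C₂, e₂⟩ :=
    Ex.cross he.ind.1 w C hY hx hz hC' a₀ (by linarith)
  have := w₂.nonneg (p.mono hS)
  have := C₁.nonneg (p.mono hC)
  exact ⟨u, z₀, d₁, d₂', by linarith, w₁.mono hS, C₂.mono fun v hv => ⟨hC hv, hC' v hv⟩,
    (hY u w₁.mem.2).2, by linarith⟩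
theorem up (he : e.OK) (hl : e.κ ≤ l) (h : e.Nice ψ t l i j n y)
    (p : Pot ψ (e.Sq (i * l) (j * l) ((n + 1) * l)) t)
    (hx : x ∈ e.Sq (i * l) (j * l) ((n - 3) * l)) (f : Fw e ψ t l i j n y x) :
    ∃ u z d₁ d₂, d₁ + d₂ ≤ 3 * y ∧ Ex ψ (e.Sq (i * l) (j * l) ((n + 1) * l)) t x u d₁ ∧
      Ex ψ (e.Sq (i * l) (j * l) ((n + 1) * l) ∩
        {v | (i + n - 1) * l ≤ e.P v ∧ e.P v ≤ (i + n) * l}) t u z d₂ ∧
      e.Y u ≤ (j + n - 1) * l ∧ (j + n) * l ≤ e.Y z := by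
  have hκ := he.κ3
  have hl0 : 0 < l := by linarith
  obtain ⟨hP, hY⟩ := hx
  have hn3 : (3 : ℝ) ≤ n := by
    have := nonneg_of_mul_nonneg_left ((abs_nonneg _).trans hP) hl0
    linarith
  have hn : 3 ≤ n := by exact_mod_cast hn3
  have hnl : 3 * l ≤ n * l := mul_le_mul_of_nonneg_right hn3 hl0.le
  rw [abs_le] at hP hY
  rcases f with ⟨z', d', hd, hz, w⟩ | ⟨z', d', hd, hz, w⟩
  · have hS : {u | |e.P u - i * l| ≤ (n + 1) * l ∧ |e.Y u - e.Y x| ≤ l} ⊆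
        e.Sq (i * l) (j * l) ((n + 1) * l) := by
      rintro v ⟨b₁, b₂⟩
      rw [abs_le] at b₂
      exact ⟨b₁, abs_le.2 ⟨by linarith, by linarith⟩⟩
    have := w.nonneg (p.mono hS)
    obtain ⟨u, z, d₁, d₂, k₁, k₂⟩ := up_aux he hl h p (by omega) w hS (by
      rintro v ⟨-, b₂⟩
      rw [abs_le] at b₂
      constructor <;> linarith) (by linarith) hz
    exact ⟨u, z, d₁, d₂, by linarith, k₂⟩
  · rw [Fr.swap_P, Fr.swap_Y] at w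
    rw [Fr.swap_P] at hz
    have hS : {u | |e.Y u - j * l| ≤ (n + 1) * l ∧ |e.P u - e.P x| ≤ l} ⊆
        e.Sq (i * l) (j * l) ((n + 1) * l) := by
      rintro v ⟨b₁, b₂⟩
      rw [abs_le] at b₂
      exact ⟨abs_le.2 ⟨by linarith, by linarith⟩, b₁⟩
    have s1 : -(n : ℤ) ≤ (n : ℤ) - 2 := by omega
    have s2 : (n : ℤ) - 2 < n := by omega
    obtain ⟨x₀, z₀, d, hd₀, a₀, a₁, R⟩ := (h _ s1 s2).1
    have hR := (lane_sub (e := e) (i := i) (j := j) hl hl0.le s1 s2).1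
    have hR' : ∀ v ∈ (e.hor ((i - n) * l) (2 * n * l) ((j + ((n : ℤ) - 2 : ℤ)) * l) l).S e.κ,
        (j + n - 2) * l ≤ e.Y v ∧ e.Y v ≤ (j + n - 1) * l := by
      rintro v ⟨-, -, b₁, b₂⟩
      simp only [Fr.hor] at b₁ b₂
      push_cast at b₁ b₂
      constructor <;> linarith
    have hS' : ∀ v ∈ {u | |e.Y u - j * l| ≤ (n + 1) * l ∧ |e.P u - e.P x| ≤ l},
        e.P x - l ≤ e.P v ∧ e.P v ≤ e.P x + l := by
      rintro v ⟨-, b₂⟩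
      rw [abs_le] at b₂
      constructor <;> linarith
    simp only [Fr.hor] at a₀ a₁
    obtain ⟨u₁, c₁, c₂, c₁', c₂', R₁, R₂, e₁, w₁, w₂, e₂⟩ :=
      Ex.cross he.ind.1 R w hR' (by linarith) (by linarith) hS' (by linarith) (by linarith)
    have := R₁.nonneg (p.mono hR)
    have := w₂.nonneg (p.mono hS)
    have := (hS' u₁ w₁.mem.2).2
    obtain ⟨u, z, d₁, d₂, k₁, k₂, k₃⟩ := up_aux he hl h p (by omega) R₂ hR
      (fun v hv => ⟨by linarith [(hR' v hv).1], (hR' v hv).2⟩) (by linarith) (by linarith)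
    exact ⟨u, z, c₁' + d₁, d₂, by linarith, (w₁.mono hS).trans k₂, k₃⟩
theorem loc (he : e.OK) (hl : e.κ ≤ l) (hφ : e.Nice φ t l i j n y)
    (pφ : Pot φ (e.Sq (i * l) (j * l) ((n + 1) * l)) t) (hψ : e.Nice ψ t l i j n y)
    (pψ : Pot ψ (e.Sq (i * l) (j * l) ((n + 1) * l)) t)
    (hx : x ∈ e.Sq (i * l) (j * l) ((n - 3) * l)) (hz : z ∈ e.Sq (i * l) (j * l) ((n - 3) * l))
    (fx : Fw e ψ t l i j n y x) (fz : Fw e φ t l i j n y z) :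
    φ z - φ x ≤ ψ z - ψ x + 6 * y := by
  obtain ⟨u, z₁, d₁, d₂, hd, w₁, w₂, a₁, a₂⟩ := up he hl hψ pψ hx fx
  obtain ⟨u', z₂, d₃, d₄, hd', w₃, w₄, a₃, a₄⟩ := up (e := e.swap) he.swap hl (nice_swap hφ)
    (by rw [sq_swap]; exact pφ) (by rw [sq_swap]; exact hz) (fw_swap fz)
  rw [sq_swap] at w₃ w₄
  obtain ⟨v, b₁, b₂, b₃, b₄, k₁, k₂, kb, k₃, k₄, kb'⟩ :=
    w₄.cross he.ind.1 w₂ (fun _ hv => hv.2) a₃ a₄ (fun _ hv => hv.2) a₁ a₂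
  have n₂ := k₂.nonneg (pφ.mono inter_subset_left)
  have n₄ := k₄.nonneg (pψ.mono inter_subset_left)
  have l₁ := w₁.le pφ
  have l₂ := k₃.le (pφ.mono inter_subset_left)
  have l₃ := w₃.le pψ
  have l₄ := k₁.le (pψ.mono inter_subset_left)
  linarith
theorem transfer (he : e.OK) (hl : e.κ ≤ l) (hφ : e.Nice φ t l i j n y)
    (pφ : Pot φ (e.Sq (i * l) (j * l) ((n + 1) * l)) t) (hψ : e.Nice ψ t l i j n y)
    (pψ : Pot ψ (e.Sq (i * l) (j * l) ((n + 1) * l)) t) (w : Ex φ S t x z c)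
    (hS : S ⊆ e.Sq (i * l) (j * l) ((n - 3) * l)) (hd : 5 * l ≤ e.ds (z - x)) :
    ∃ u v c₁ c₂ c₃ c', c₁ + c₂ + c₃ = c ∧ Ex φ S t x u c₁ ∧ Ex φ S t u v c₂ ∧ Ex φ S t v z c₃ ∧
      e.ds (u - x) ≤ 3 * l ∧ e.ds (z - v) ≤ 3 * l ∧ c' ≤ c₂ + 6 * y ∧ Ex ψ S t u v c' := by
  have hl0 : 0 ≤ l := by linarith [he.κ3]
  obtain ⟨u, c₁, c₂, hc, w₁, w₂, hu, fu⟩ := hit he hl hψ pψ w hS (by linarith)
  have h1 : e.ds (z - x) ≤ e.ds (u - x) + e.ds (u - z) := by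
    have := e.ds_add (u - x) (-(u - z))
    rwa [e.ds_neg, show u - x + -(u - z) = z - x by abel] at this
  obtain ⟨v, c₃, c₄, hc', w₃, w₄, hv, fv⟩ := hit he hl hφ pφ w₂.rev hS (by linarith)
  have w₅ : Ex φ S t v z c₃ := by simpa only [neg_neg] using w₃.rev
  have w₆ : Ex φ S t u v c₄ := by simpa only [neg_neg] using w₄.rev
  have h2 := loc he hl hφ pφ hψ pψ (hS w₆.mem.1) (hS w₆.mem.2) fu fv
  refine ⟨u, v, c₁, c₄, c₃, _, by linarith, w₁, w₆, w₅, hu, ?_, ?_, w₆.change ψ⟩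
  · rwa [← e.ds_neg, neg_sub] at hv
  · linarith

end

end Crest.Agent.R151.B.F
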