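import Crest.Agent.R151.DF0

set_option autoImplicit false

open MeasureTheory ProbabilityTheory Set Filter Topology
open scoped ENNReal
open Crest.ProbabilityR.FirstPassage

namespace Crest.Agent.R151.B.F

noncomputable section

/-! the tilted bound: elementary steps -/

variable {e : Fr} {φ ψ : Z2 → ℝ} {t : Env} {α Λ l y y₁ c s s₁ D D₁ : ℝ} {i j I J : ℤ}
  {n n' n'' : ℕ} {S S' : Set Z2} {x z : Z2}

theorem xp_mono (h : e.XP φ S t α Λ l) (hS : S' ⊆ S) : e.XP φ S' t α Λ l := by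
  exact fun x z c w hm => h x z c (w.mono hS) hm
theorem xp_le {Λ' : ℝ} (h : e.XP φ S t α Λ l) (hΛ : Λ' ≤ Λ) : e.XP φ S t α Λ' l := by
  intro x z c w hm
  have h1 := h x z c w hm
  have h2 : 0 ≤ max l (e.ds (z - x)) := le_max_of_le_right (e.ds_nonneg _)
  nlinarith
theorem xp_approx {η : ℝ} (h : e.XP φ S t α (2 * Λ) l) (a : ∀ x ∈ S, |ψ x - φ x| ≤ η)
    (hη : η ≤ Λ * l) (hΛ : 0 ≤ Λ) : e.XP ψ S t α Λ l := by
  intro x z c w hm
  have h1 := h x z _ (w.change φ) hm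
  have h2 : l ≤ max l (e.ds (z - x)) := le_max_left _ _
  have hx := abs_le.1 (a x w.mem.1)
  have hz := abs_le.1 (a z w.mem.2)
  have h3 : Λ * l ≤ Λ * max l (e.ds (z - x)) := mul_le_mul_of_nonneg_left h2 hΛ
  nlinarith [hx.1, hx.2, hz.1, hz.2]
theorem xp_big (h : e.XP φ S t α Λ l) (w : Ex φ S t x z c) (hΛ : 0 ≤ Λ) (hs : 0 ≤ s) (hs' : s ≤ 1)
    (hm : min (e.p (z - x)) (e.q (z - x)) ≤ -(α * max l (e.ds (z - x)))) :
    Λ * (s * e.p (z - x) - e.q (z - x)) ≤ c := by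
  have h1 := h x z c w hm
  obtain ⟨a1, a2, -⟩ := e.ds_pq (z - x)
  have h2 : e.ds (z - x) ≤ max l (e.ds (z - x)) := le_max_right _ _
  have b1 := abs_le.1 a1
  have b2 := abs_le.1 a2
  have h0 := e.ds_nonneg (z - x)
  have h3 : s * e.p (z - x) ≤ e.ds (z - x) := by nlinarith [b1.1, b1.2]
  have h4 : s * e.p (z - x) - e.q (z - x) ≤ 2 * max l (e.ds (z - x)) := by linarith [b2.1]
  have := mul_le_mul_of_nonneg_left h4 hΛ
  linarith
theorem xp_small {r : ℝ} (h : e.XP φ S t α Λ l) (p : Pot φ S t) (w : Ex φ S t x z c) (hΛ : 0 ≤ Λ)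
    (hα : 0 ≤ α) (hs : 0 ≤ s) (hs' : s ≤ 1) (hr : e.ds (z - x) ≤ r) (hl : l ≤ r) :
    Λ * (s * e.p (z - x) - e.q (z - x) - (s + α) * r) ≤ c := by
  have h0 := e.ds_nonneg (z - x)
  have hr0 : 0 ≤ r := h0.trans hr
  by_cases hm : min (e.p (z - x)) (e.q (z - x)) ≤ -(α * max l (e.ds (z - x)))
  · have h1 := xp_big h w hΛ hs hs' hm
    have h2 : 0 ≤ Λ * ((s + α) * r) := by positivity
    nlinarith
  · rw [not_le, lt_min_iff] at hm
    have h2 : max l (e.ds (z - x)) ≤ r := max_le hl hr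
    have h3 := mul_le_mul_of_nonneg_left h2 hα
    have b1 := abs_le.1 (e.ds_pq (z - x)).1
    have h4 : s * e.p (z - x) ≤ s * r := mul_le_mul_of_nonneg_left (b1.2.trans hr) hs
    have h5 : s * e.p (z - x) - e.q (z - x) - (s + α) * r ≤ 0 := by nlinarith [hm.2]
    exact (mul_nonpos_of_nonneg_of_nonpos hΛ h5).trans (w.nonneg p)
theorem xp_absorb {M : ℝ} (h : e.XP φ S t α Λ l) (p : Pot φ S t) (w : Ex φ S t x z c)
    (hΛ : 0 ≤ Λ) (hα' : α ≤ 1 / 3) (hs₁ : 0 ≤ s₁) (hs : s₁ ≤ s) (hs' : s ≤ 1)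
    (hM : M ≤ e.ds (z - x)) (hl : l ≤ M) (hM0 : 0 < M) (hD : 3 * D ≤ (s - s₁) * M)
    (hc : Λ * (s * e.p (z - x) - e.q (z - x) - D) ≤ c) :
    Λ * (s₁ * e.p (z - x) - e.q (z - x)) ≤ c := by
  by_cases hm : min (e.p (z - x)) (e.q (z - x)) ≤ -(α * max l (e.ds (z - x)))
  · exact xp_big h w hΛ hs₁ (hs.trans hs') hm
  rw [not_le, lt_min_iff, max_eq_right (hl.trans hM)] at hm
  by_cases h5 : s₁ * e.p (z - x) - e.q (z - x) ≤ 0
  · exact (mul_nonpos_of_nonneg_of_nonpos hΛ h5).trans (w.nonneg p)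
  rw [not_le] at h5
  have h0 := e.ds_nonneg (z - x)
  have h3 := (e.ds_pq (z - x)).2.2
  have h6 : α * e.ds (z - x) ≤ 1 / 3 * e.ds (z - x) := mul_le_mul_of_nonneg_right hα' h0
  obtain ⟨hp, hq⟩ := hm
  generalize e.p (z - x) = a at *
  generalize e.q (z - x) = b at *
  generalize e.ds (z - x) = d at *
  have hs1 : s₁ ≤ 1 := hs.trans hs'
  have key : d ≤ 3 * a := by
    rcases le_or_gt 0 a with ha | ha
    · have hba : b < a := by nlinarith
      rcases le_or_gt 0 b with hb | hb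
      · rw [abs_of_nonneg ha, abs_of_nonneg hb, max_eq_left hba.le] at h3
        exact h3
      · rw [abs_of_nonneg ha, abs_of_neg hb] at h3
        rcases le_total a (-b) with hab | hab
        · rw [max_eq_right hab] at h3
          linarith
        · rw [max_eq_left hab] at h3
          exact h3
    · have hb : b < 0 := by nlinarith
      rw [abs_of_neg ha, abs_of_neg hb] at h3
      rcases le_total (-a) (-b) with hab | hab
      · rw [max_eq_right hab] at h3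
        linarith
      · rw [max_eq_left hab] at h3
        linarith
  have h7 : (s - s₁) * M ≤ (s - s₁) * (3 * a) :=
    mul_le_mul_of_nonneg_left (hM.trans key) (sub_nonneg.2 hs)
  have h8 : s₁ * a - b ≤ s * a - b - D := by nlinarith
  exact (mul_le_mul_of_nonneg_left h8 hΛ).trans hc
theorem pieces_cut {f : Z2 → ℝ} {C a : ℝ}
    (hf : ∀ u v, squareLattice.Adj u v → |f v - f u| ≤ C) (w : Wk x z)
    (hw : ∀ u ∈ w.support, u ∈ S) (hx : f x ≤ a + C) (hy : a ≤ f z) :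
    ∃ (u : Z2) (c₁ : ℝ) (w₂ : Wk u z), Rch (S ∩ {u | f u ≤ a + C}) t x u c₁ ∧
      (∀ v ∈ w₂.support, v ∈ S) ∧ c₁ + walkCost t w₂ = walkCost t w ∧ a ≤ f u ∧
      w₂.length ≤ w.length ∧ (f x < a → w₂.length < w.length) := by
  induction w with
  | @nil u =>
    exact ⟨u, 0, .nil, Rch.ivt_nil t ⟨hw u (by simp), hx⟩, hw, zero_add _, hy, le_rfl,
      fun h => absurd hy (not_le.2 h)⟩
  | @cons u v y' h w ih =>
    have hu : u ∈ S := hw u (by simp)
    by_cases hα : a ≤ f u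
    · exact ⟨u, 0, _, Rch.ivt_nil t ⟨hu, hx⟩, hw, zero_add _, hα, le_rfl,
        fun h => absurd hα (not_le.2 h)⟩
    · have h1 := (abs_le.1 (hf u v h)).2
      obtain ⟨z, c₁, w₂, r1, r2, e, l1, l2, -⟩ := ih (fun z hz => hw z (by simp [hz]))
        (by linarith [not_le.1 hα]) hy
      have l3 : w₂.length < (SimpleGraph.Walk.cons h w).length := Nat.lt_succ_of_le l2
      refine ⟨z, _, w₂, Rch.ivt_cons ⟨hu, hx⟩ h r1, r2, ?_, l1, l3.le, fun _ => l3⟩
      have : walkCost t (SimpleGraph.Walk.cons h w) = t s(u, v) + walkCost t w := by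
        simp [walkCost]
      rw [this, ← e]; ring
theorem pieces (he : e.OK) {M E : ℝ} (hM : 0 < M) {F : Z2 → ℝ}
    (h1 : ∀ x z c, Ex φ (S ∩ {u | e.ds (u - x) ≤ M + e.κ}) t x z c → M ≤ e.ds (z - x) →
      F z - F x ≤ c)
    (h2 : ∀ x z c, Ex φ S t x z c → e.ds (z - x) ≤ M → F z - F x - E ≤ c)
    (w : Ex φ S t x z c) : F z - F x - E ≤ c := by
  have key : ∀ (k : ℕ) (x : Z2) (w : Wk x z), w.length < k → (∀ u ∈ w.support, u ∈ S) →
      F z - F x - E ≤ walkCost t w - (φ z - φ x) := by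
    intro k
    induction k with
    | zero => exact fun x w h => absurd h (Nat.not_lt_zero _)
    | succ k ih =>
      intro x w hk hw
      rcases le_total (e.ds (z - x)) M with h | h
      · exact h2 x z _ (Rch.ex φ ⟨w, hw, rfl⟩) h
      · have h0 : e.ds (x - x) = 0 := by rw [sub_self, e.ds_zero]
        obtain ⟨u, c₁, w₂, r1, r2, e1, l1, -, l2⟩ := pieces_cut (t := t) (f := fun u => e.ds (u - x))
          (fun u v huv => (he.step huv).2.2.2.2 x) w hw (by linarith [he.κ3]) h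
        have a := h1 x u _ (r1.ex φ) l1
        have b := ih u w₂ (by have := l2 (by linarith); omega) r2
        linarith
  obtain ⟨w, hw, e1⟩ := w
  have := key _ x w (Nat.lt_succ_self _) hw
  linarith
theorem many (he : e.OK) {a L θ : ℝ} (p : Pot φ S t) (hL : 0 ≤ L) (N : ℕ)
    (h : ∀ g : ℕ, g < N → ∀ u v d, Ex φ S t u v d → e.p u ≤ a + g * L + e.κ →
      a + (g + 1) * L ≤ e.p v → θ ≤ d)
    (w : Ex φ S t x z c) (hx : e.p x ≤ a) (hz : a + N * L ≤ e.p z) : N * θ ≤ c := by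
  induction N generalizing z c with
  | zero => simpa using w.nonneg p
  | succ N ih =>
    have h0 : 0 ≤ (N : ℝ) * L := mul_nonneg N.cast_nonneg hL
    push_cast at hz ⊢
    obtain ⟨u, d₁, d₂, r1, r2, e1, l1, l2⟩ := w.ivt (f := e.p) (α := a + N * L)
      (by linarith [he.κ3]) (fun u v huv => (he.step huv).2.2.1) (by linarith) (by linarith)
    have a1 := ih (fun g hg => h g (hg.trans N.lt_succ_self)) (r1.mono inter_subset_left) l1
    have a2 := h N N.lt_succ_self u z d₂ r2 l2 hz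
    linarith

end

end Crest.Agent.R151.B.F
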