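import Crest.Agent.R151.DF1b
import Crest.Agent.R151.DF2

set_option autoImplicit false

open MeasureTheory ProbabilityTheory Set Filter Topology
open scoped ENNReal
open Crest.ProbabilityR.FirstPassage

namespace Crest.Agent.R151.B.F

noncomputable section

/-! the renormalisation step -/

variable {e : Fr} {φ ψ : Z2 → ℝ} {t : Env} {α Λ l y y₁ c s s₁ D D₁ : ℝ} {i j I J : ℤ}
  {n n' n'' : ℕ} {S S' : Set Z2} {x z : Z2}

theorem piece (he : e.OK) (hl : e.κ ≤ l) (hn : 1 ≤ n) (hn' : 7 ≤ n') (hn'' : 4 ≤ n'')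
    (hΛ : 0 < Λ) (hα : 0 ≤ α) (hα' : α ≤ 1 / 3) (hy : 0 ≤ y) (hy₁ : 0 ≤ y₁) (hs₁ : 0 ≤ s₁)
    (hs : s₁ ≤ s) (hs' : s ≤ 1)
    (hD : 3 * (D + 6 * (y + y₁) / Λ + 6 * (s + α) * (n * l)) ≤ (s - s₁) * (n' * (n * l)))
    (hφ : e.Cls α Λ (n * l) y₁ n' n'' I J φ t) (hg : t ∈ e.Good α Λ l y n n' s D i j)
    (hi : |i - I * n''| ≤ 2 * n'' + 1) (hj : |j - J * n''| ≤ 2 * n'' + 1) (w : Ex φ S t x z c)
    (hS : S ⊆ e.Sq (i * (n' * (n * l))) (j * (n' * (n * l))) (2 * (n' * (n * l))))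
    (hd : n' * (n * l) ≤ e.ds (z - x)) : Λ * (s₁ * e.p (z - x) - e.q (z - x)) ≤ c := by
  obtain ⟨⟨ψ, hψ⟩, hT⟩ := hg
  have hT := hT ψ hψ
  have hκ := he.κ3
  have n1 : (1 : ℝ) ≤ n := by exact_mod_cast hn
  have n7 : (7 : ℝ) ≤ n' := by exact_mod_cast hn'
  have n4 : (4 : ℝ) ≤ n'' := by exact_mod_cast hn''
  have hl1 : e.κ ≤ n * l := hl.trans (le_mul_of_one_le_left (by linarith) n1)
  have mid := hψ.mid
  have potψ := hψ.pot
  generalize (n : ℝ) * l = L at *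
  have hL : 0 < L := by linarith
  have hM : 7 * L ≤ n' * L := by gcongr
  have hM' : 4 * (n' * L) ≤ n'' * (n' * L) := by gcongr
  have ctr : ∀ a A : ℤ, |a - A * n''| ≤ 2 * n'' + 1 →
      |(a : ℝ) * (n' * L) - A * (n'' * (n' * L))| ≤ (2 * n'' + 1) * (n' * L) := by
    intro a A h
    have h' : |(a : ℝ) - A * n''| ≤ 2 * n'' + 1 := by exact_mod_cast h
    rw [← mul_assoc (A : ℝ), ← sub_mul, abs_mul, abs_of_nonneg (by positivity : 0 ≤ n' * L)]
    gcongr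
  have big : ∀ r, r ≤ 4 * (n' * L) → e.Sq (i * (n' * L)) (j * (n' * L)) r ⊆
      e.Sq (I * (n'' * (n' * L))) (J * (n'' * (n' * L))) (4 * (n'' * (n' * L))) := fun r hr =>
    sq_sub (by linarith [ctr i I hi]) (by linarith [ctr j J hj])
  have cast : ∀ a : ℤ, ((a * n' : ℤ) : ℝ) * L = a * (n' * L) := fun a => by push_cast; ring
  have cast2 : ∀ a : ℤ, ((a * n'' * n' : ℤ) : ℝ) * L = a * (n'' * (n' * L)) := fun a => by
    push_cast; ring
  have sub : ∀ a A : ℤ, |a - A * n''| ≤ 2 * n'' + 1 →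
      |a * n' - A * n'' * n'| + ((3 * n' : ℕ) : ℤ) ≤ ((3 * n'' * n' : ℕ) : ℤ) := by
    intro a A h
    have h4 : (4 : ℤ) ≤ n'' := by exact_mod_cast hn''
    have h0 : (0 : ℤ) ≤ n' := Int.natCast_nonneg _
    rw [← sub_mul, abs_mul, abs_of_nonneg h0]
    push_cast
    nlinarith [mul_le_mul_of_nonneg_right h h0, mul_le_mul_of_nonneg_right h4 h0]
  have fφ : e.Nice φ t L (i * n') (j * n') (3 * n') y₁ := by
    refine nice_sub he hl1 hφ.fine (hφ.pot.mono ?_) (sub i I hi) (sub j J hj)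
    rw [cast2, cast2]
    refine sq_sub ?_ ?_ <;> (rw [sub_self, abs_zero]; push_cast; linarith)
  have r1 : (((3 * n' : ℕ) : ℝ) + 1) * L ≤ 4 * (n' * L) := by push_cast; linarith
  have pφ : Pot φ S t := hφ.pot.mono (hS.trans (big _ (by linarith)))
  have xφ : e.XP φ S t α Λ L := xp_mono hφ.xp (hS.trans (big _ (by linarith)))
  obtain ⟨u, v, c₁, c₂, c₃, c', hc, w₁, -, w₃, d₁, d₃, hc', w'⟩ := transfer he hl1
    (nice_mono fφ (le_add_of_nonneg_left hy))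
    (by rw [cast, cast]; exact hφ.pot.mono (big _ r1))
    (nice_mono mid (le_add_of_nonneg_right hy₁))
    (by
      rw [cast, cast]
      exact potψ.mono (sq_sub (by rw [sub_self, abs_zero]; linarith)
        (by rw [sub_self, abs_zero]; linarith))) w
    (by
      rw [cast, cast]
      refine hS.trans (sq_sub ?_ ?_) <;> (rw [sub_self, abs_zero]; push_cast; linarith))
    (by linarith)
  have hs0 : 0 ≤ s := hs₁.trans hs
  have b₁ := xp_small xφ pφ w₁ hΛ.le hα hs0 hs' d₁ (by linarith)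
  have b₃ := xp_small xφ pφ w₃ hΛ.le hα hs0 hs' d₃ (by linarith)
  have b₂ := hT u v c' (w'.mono hS)
  refine xp_absorb xφ pφ w hΛ.le hα' hs₁ hs hs' hd (by linarith) (by linarith) hD ?_
  have e1 : Λ * (6 * (y + y₁) / Λ) = 6 * (y + y₁) := by field_simp
  simp only [map_sub] at b₁ b₂ b₃ ⊢
  linarith
theorem step_round {M κ : ℝ} (hM : 0 < M) (a : ℝ) (I : ℤ) (N : ℕ) (i₀ : ℤ) (hκ : 7 * κ ≤ M)
    (h : |a - I * (N * M)| ≤ 2 * (N * M)) :
    ∃ i : ℤ, |a - i * M| ≤ M / 2 ∧ |i - I * N| ≤ 2 * N + 1 ∧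
      (9 * M - κ ≤ |a - i₀ * M| → 9 ≤ |i - i₀|) := by
  have h1 : |a - round (a / M) * M| ≤ M / 2 := by
    have h2 := abs_sub_round (a / M)
    have h3 : a - round (a / M) * M = (a / M - round (a / M)) * M := by field_simp
    rw [h3, abs_mul, abs_of_pos hM]
    nlinarith
  refine ⟨round (a / M), h1, ?_, fun h2 => ?_⟩
  · have h3 : |((round (a / M) : ℤ) : ℝ) - I * N| ≤ 2 * N + 1 := by
      refine le_of_mul_le_mul_right ?_ hM
      rw [← abs_of_pos hM, ← abs_mul, abs_of_pos hM]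
      rw [abs_le] at h h1 ⊢
      constructor <;> linarith [h.1, h.2, h1.1, h1.2]
    exact_mod_cast h3
  · have h3 : (8 : ℝ) < |((round (a / M) : ℤ) : ℝ) - i₀| := by
      refine lt_of_mul_lt_mul_right ?_ hM.le
      have h4 : |((round (a / M) : ℤ) : ℝ) - i₀| * M = |round (a / M) * M - i₀ * M| := by
        rw [← sub_mul, abs_mul, abs_of_pos hM]
      have h5 := abs_sub_le a (round (a / M) * M) (i₀ * M)
      rw [h4]
      linarith
    have h4 : (8 : ℤ) < |round (a / M) - i₀| := by exact_mod_cast h3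
    omega
theorem step (he : e.OK) (hl : e.κ ≤ l) (hn : 1 ≤ n) (hn' : 7 ≤ n') (hn'' : 4 ≤ n'')
    (hΛ : 0 < Λ) (hα : 0 ≤ α) (hα' : α ≤ 1 / 3) (hy : 0 ≤ y) (hy₁ : 0 ≤ y₁) (hs₁ : 0 ≤ s₁)
    (hs : s₁ ≤ s) (hs' : s ≤ 1)
    (hD : 3 * (D + 6 * (y + y₁) / Λ + 6 * (s + α) * (n * l)) ≤ (s - s₁) * (n' * (n * l)))
    (hD₁ : 20 * (s + α) * (n' * (n * l)) ≤ D₁)
    (hφ : e.Cls α Λ (n * l) y₁ n' n'' I J φ t) {i₀ j₀ : ℤ}
    (hg : ∀ i j : ℤ, |i - I * n''| ≤ 2 * n'' + 1 → |j - J * n''| ≤ 2 * n'' + 1 →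
      (9 ≤ |i - i₀| ∨ 9 ≤ |j - j₀|) → t ∈ e.Good α Λ l y n n' s D i j) :
    e.Tilt φ (e.Sq (I * (n'' * (n' * (n * l)))) (J * (n'' * (n' * (n * l))))
      (2 * (n'' * (n' * (n * l))))) t Λ s₁ D₁ := by
  have hκ := he.κ3
  have hn1 : (1 : ℝ) ≤ n := by exact_mod_cast hn
  have hn7 : (7 : ℝ) ≤ n' := by exact_mod_cast hn'
  have hn4 : (4 : ℝ) ≤ n'' := by exact_mod_cast hn''
  have hnl : l ≤ n * l := le_mul_of_one_le_left (by linarith) hn1
  have pot := hφ.pot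
  have xp := hφ.xp
  have hp := fun i j (hg : t ∈ e.Good α Λ l y n n' s D i j) hi hj S x z c w hS hd =>
    piece (S := S) (x := x) (z := z) (c := c) he hl hn hn' hn'' hΛ hα hα' hy hy₁ hs₁ hs hs' hD hφ hg
      hi hj w hS hd
  have hM7 : 7 * (n * l) ≤ n' * (n * l) := mul_le_mul_of_nonneg_right hn7 (by linarith)
  generalize (n' : ℝ) * (n * l) = M at *
  have hM : 0 < M := by linarith
  have hsub : e.Sq (I * (n'' * M)) (J * (n'' * M)) (2 * (n'' * M)) ⊆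
      e.Sq (I * (n'' * M)) (J * (n'' * M)) (4 * (n'' * M)) := by
    have : 0 ≤ n'' * M := by positivity
    exact sq_sub (by simp; linarith) (by simp; linarith)
  replace pot := pot.mono hsub
  replace xp := xp_mono xp hsub
  set S₁ := e.Sq (I * (n'' * M)) (J * (n'' * M)) (2 * (n'' * M)) with hS₁
  set g : Z2 → ℝ := fun u => max |e.P u - i₀ * M| |e.Y u - j₀ * M| with hgd
  have gs : ∀ u v, squareLattice.Adj u v → |-g v - -g u| ≤ e.κ := by
    intro u v a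
    obtain ⟨a1, a2, -⟩ := he.step a
    rw [neg_sub_neg, abs_sub_comm]
    refine (abs_max_sub_max_le_max _ _ _ _).trans (max_le ?_ ?_) <;>
      refine (abs_abs_sub_abs_le_abs_sub _ _).trans ?_ <;> rwa [sub_sub_sub_cancel_right]
  have small : ∀ (r : ℝ) x z c, M ≤ r → Ex φ S₁ t x z c → e.ds (z - x) ≤ r →
      Λ * (s₁ * e.p (z - x) - e.q (z - x) - (s + α) * r) ≤ c := by
    intro r x z c hr w hd
    refine le_trans (mul_le_mul_of_nonneg_left ?_ hΛ.le)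
      (xp_small xp pot w hΛ.le hα hs₁ (hs.trans hs') hd (by linarith))
    have := mul_le_mul_of_nonneg_right hs (hM.le.trans hr)
    linarith
  have run : ∀ x z c, Ex φ (S₁ ∩ {u | -g u ≤ -(9 * M) + e.κ}) t x z c →
      Λ * (s₁ * e.p (z - x) - e.q (z - x) - (s + α) * M) ≤ c := by
    intro x z c w
    have := pieces he (E := Λ * ((s + α) * M)) hM (F := fun u => Λ * (s₁ * e.p u - e.q u))
      (fun x z c w hd => ?_) (fun x z c w hd => ?_) w
    · simp only [map_sub]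
      linarith
    · obtain ⟨⟨⟨a1, a2⟩, a3⟩, -⟩ := w.mem.1
      obtain ⟨i, i1, i2, i3⟩ := step_round hM (e.P x) I n'' i₀ (κ := e.κ) (by linarith) a1
      obtain ⟨j, j1, j2, j3⟩ := step_round hM (e.Y x) J n'' j₀ (κ := e.κ) (by linarith) a2
      have a4 : 9 * M - e.κ ≤ g x := by
        have : -g x ≤ -(9 * M) + e.κ := a3
        linarith
      have := hp i j (hg i j i2 j2 ((le_max_iff.1 a4).imp i3 j3)) i2 j2 _ x z c w ?_ hd
      · simp only [map_sub] at this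
        linarith
      · rintro u ⟨-, hu⟩
        have hu : max |e.P (u - x)| |e.Y (u - x)| ≤ M + e.κ := hu
        rw [max_le_iff, map_sub, map_sub, abs_le, abs_le] at hu
        rw [abs_le] at i1 j1
        constructor <;> rw [abs_le] <;> constructor <;>
          linarith [hu.1.1, hu.1.2, hu.2.1, hu.2.2, i1.1, i1.2, j1.1, j1.2]
    · have := small M x z c le_rfl (w.mono inter_subset_left) hd
      simp only [map_sub] at this
      linarith
  have hE : 0 ≤ Λ * ((s + α) * M) := mul_nonneg hΛ.le (mul_nonneg (by linarith) hM.le)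
  have hD2 := mul_le_mul_of_nonneg_left hD₁ hΛ.le
  intro x z c w
  by_cases hc : ∃ z₀ d₁ d₂, Ex φ S₁ t x z₀ d₁ ∧ Ex φ S₁ t z₀ z d₂ ∧ d₁ + d₂ = c ∧ g z₀ ≤ 9 * M
  · obtain ⟨z₀, d₁, d₂, w₁, w₂, hd, h0⟩ := hc
    obtain ⟨u₁, a₁, a₂, v₁, ha, g₁, b₁⟩ : ∃ u₁ a₁ a₂, Ex φ S₁ t u₁ z₀ a₂ ∧ a₁ + a₂ = d₁ ∧
        g u₁ ≤ 9 * M ∧ Λ * (s₁ * e.p (u₁ - x) - e.q (u₁ - x) - (s + α) * M) ≤ a₁ := by
      rcases le_total (g x) (9 * M) with h1 | h1
      · exact ⟨x, 0, d₁, w₁, zero_add _, h1, by simp only [sub_self, map_zero]; linarith⟩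
      · obtain ⟨u, a₁, a₂, k1, k2, k3, k4, -⟩ := Ex.ivt (f := fun u => -g u) (α := -(9 * M))
          (by linarith) gs w₁ (by linarith) (by linarith)
        exact ⟨u, a₁, a₂, k2, k3, by linarith, run _ _ _ k1⟩
    obtain ⟨u₂, a₃, a₄, v₂, ha', g₂, b₂⟩ : ∃ u₂ a₃ a₄, Ex φ S₁ t z₀ u₂ a₃ ∧ a₃ + a₄ = d₂ ∧
        g u₂ ≤ 9 * M ∧ Λ * (s₁ * e.p (z - u₂) - e.q (z - u₂) - (s + α) * M) ≤ a₄ := by
      rcases le_total (g z) (9 * M) with h1 | h1
      · exact ⟨z, d₂, 0, w₂, add_zero _, h1, by simp only [sub_self, map_zero]; linarith⟩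
      · obtain ⟨u, a₃, a₄, k1, k2, k3, k4, -⟩ := Ex.ivt' (f := fun u => -g u) (α := -(9 * M))
          (by linarith) gs w₂ (by linarith) (by linarith)
        exact ⟨u, a₃, a₄, k1, k3, by linarith, run _ _ _ k2⟩
    have b₃ := small (18 * M) u₁ u₂ _ (by linarith) (v₁.trans v₂) (by
      simp only [hgd, max_le_iff, abs_le] at g₁ g₂
      simp only [Fr.ds, max_le_iff, abs_le, map_sub]
      refine ⟨⟨?_, ?_⟩, ?_, ?_⟩ <;>
        linarith [g₁.1.1, g₁.1.2, g₁.2.1, g₁.2.2, g₂.1.1, g₂.1.2, g₂.2.1, g₂.2.2])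
    simp only [map_sub] at b₁ b₂ b₃ ⊢
    linarith
  · have := run x z c (w.confine fun z₀ d₁ d₂ w₁ w₂ hd => ?_)
    · linarith
    · have : ¬g z₀ ≤ 9 * M := fun h0 => hc ⟨z₀, d₁, d₂, w₁, w₂, hd, h0⟩
      change -g z₀ ≤ -(9 * M) + e.κ
      linarith [not_le.1 this]

end

end Crest.Agent.R151.B.F
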