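import Crest.Agent.R151.DF1
import Crest.Agent.R151.DF2

set_option autoImplicit false

open MeasureTheory ProbabilityTheory Set Filter Topology
open scoped ENNReal
open Crest.ProbabilityR.FirstPassage

namespace Crest.Agent.R151.B.F

noncomputable section

/-! the base level -/

variable {e : Fr} {φ ψ : Z2 → ℝ} {t : Env} {α Λ l y y₁ c s s₁ D D₁ : ℝ} {i j I J : ℤ}
  {n n' n'' : ℕ} {S S' : Set Z2} {x z : Z2}

theorem use_sig_loc {l A u : ℝ} {I : ℤ} {n n' : ℕ} (l0 : 0 < l) (hn : 24 ≤ n' * n)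
    (h1 : |u - A| ≤ 2 * l) (h2 : |u - I * (n' * (n * l))| ≤ 2 * (n' * (n * l))) :
    |(⌊A / l⌋ : ℝ) * l - I * (n' * (n * l))| + 21 * l ≤ 4 * (n' * (n * l)) ∧
      |⌊A / l⌋ - I * n' * n| + ((20 : ℕ) : ℤ) ≤ ((3 * n' * n : ℕ) : ℤ) := by
  have a1 : (⌊A / l⌋ : ℝ) * l ≤ A := (le_div_iff₀ l0).1 (Int.floor_le _)
  have a2 : A < (⌊A / l⌋ + 1 : ℝ) * l := (div_lt_iff₀ l0).1 (Int.lt_floor_add_one _)
  have a3 : (24 : ℝ) ≤ n' * n := by exact_mod_cast hn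
  have a4 : 24 * l ≤ n' * (n * l) := by
    rw [← mul_assoc]
    exact mul_le_mul_of_nonneg_right a3 l0.le
  rw [abs_le] at h1 h2
  have a5 : |(⌊A / l⌋ : ℝ) * l - I * (n' * (n * l))| ≤ 2 * (n' * (n * l)) + 3 * l :=
    abs_le.2 ⟨by linarith [h1.1, h1.2, h2.1, h2.2], by linarith [h1.1, h1.2, h2.1, h2.2]⟩
  refine ⟨by linarith, ?_⟩
  have a6 : |(⌊A / l⌋ : ℝ) - I * n' * n| ≤ 2 * (n' * n) + 3 := by
    refine le_of_mul_le_mul_right ?_ l0
    rw [← abs_of_pos l0, ← abs_mul, abs_of_pos l0,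
      show ((⌊A / l⌋ : ℝ) - I * n' * n) * l = ⌊A / l⌋ * l - I * (n' * (n * l)) by ring]
    linarith
  have a7 : ((|⌊A / l⌋ - I * n' * n| + ((20 : ℕ) : ℤ) : ℤ) : ℝ) ≤ (((3 * n' * n : ℕ) : ℤ) : ℝ) := by
    push_cast
    linarith
  exact_mod_cast a7

theorem use_sig (he : e.OK) {θ v a b : ℝ} (hl : e.κ ≤ l) (hn : 24 ≤ n' * n) (hv : 0 < v)
    (hvl : v ≤ l) (hφ : e.Cls α Λ l y n n' I J φ t) (hs : t ∈ e.Sig l y θ v a b)
    (w : Ex φ S t x z c)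
    (hS : S ⊆ e.Sq (I * (n' * (n * l))) (J * (n' * (n * l))) (2 * (n' * (n * l))))
    (hq : ∀ u ∈ S, b ≤ e.q u ∧ e.q u ≤ b + v) (hx : e.p x ≤ a) (hz : a + 7 * l ≤ e.p z) :
    θ ≤ c := by
  have k3 := he.κ3
  have l0 : 0 < l := by linarith
  have a3 : (24 : ℝ) ≤ n' * n := by exact_mod_cast hn
  have a4 : 24 * l ≤ n' * (n * l) := by
    rw [← mul_assoc]
    exact mul_le_mul_of_nonneg_right a3 l0.le
  have st : ∀ u v, squareLattice.Adj u v → |e.p v - e.p u| ≤ e.κ := fun u v h => (he.step h).2.2.1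
  obtain ⟨u, d₁, d₂, -, w2, -, u1, u2⟩ := w.ivt (f := e.p) (α := a) (by linarith) st hx (by linarith)
  have uS := w2.mem.1
  obtain ⟨u3, u4⟩ := hq u uS
  obtain ⟨u5, u6⟩ := hS uS
  obtain ⟨i1, i2⟩ := use_sig_loc (A := 2 * b - a) l0 hn
    (by rw [e.P_apply]; exact abs_le.2 ⟨by linarith, by linarith⟩) u5
  obtain ⟨j1, j2⟩ := use_sig_loc (A := 2 * a - b) l0 hn
    (by rw [e.Y_apply]; exact abs_le.2 ⟨by linarith, by linarith⟩) u6
  have sub : ∀ K : ℤ, |((K * n' * n : ℤ) : ℝ) * l - K * (n' * (n * l))| +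
      (((3 * n' * n : ℕ) : ℝ) + 1) * l ≤ 4 * (n' * (n * l)) := fun K => by
    push_cast
    rw [show (K : ℝ) * n' * n * l - K * (n' * (n * l)) = 0 by ring, abs_zero]
    linarith
  by_contra hc
  refine hs φ hφ.rt (hφ.pot.mono (sq_sub i1 j1))
    (nice_sub he hl hφ.fine (hφ.pot.mono (sq_sub (sub I) (sub J))) i2 j2) ?_
  refine (w.trim (L := e.up a (7 * l) b v) (hφ.pot.mono (hS.trans (sq_sub ?_ ?_))) (by linarith) st
    (show 0 ≤ 7 * l by linarith) hq hx hz).mono (not_le.1 hc).le <;>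
  · rw [sub_self, abs_zero]
    linarith
theorem base_aux_sq {A B r : ℝ} {u : Z2} (hu : u ∈ e.Sq A B r) :
    |e.p u - (A + 2 * B) / 3| ≤ r ∧ |e.q u - (2 * A + B) / 3| ≤ r := by
  obtain ⟨h1, h2⟩ := hu
  rw [abs_le] at h1 h2
  have e1 := e.P_apply u
  have e2 := e.Y_apply u
  exact ⟨abs_le.2 ⟨by linarith [h1.1, h2.1], by linarith [h1.2, h2.2]⟩,
    abs_le.2 ⟨by linarith [h1.1, h2.1], by linarith [h1.2, h2.2]⟩⟩
theorem base_aux_ds {A B r : ℝ} {u u' : Z2} (hu : u ∈ e.Sq A B r) (hu' : u' ∈ e.Sq A B r) :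
    e.ds (u' - u) ≤ 2 * r := by
  obtain ⟨h1, h2⟩ := hu
  obtain ⟨h3, h4⟩ := hu'
  rw [abs_le] at h1 h2 h3 h4
  refine max_le ?_ ?_
  · rw [map_sub]
    exact abs_le.2 ⟨by linarith [h1.2, h3.1], by linarith [h1.1, h3.2]⟩
  · rw [map_sub]
    exact abs_le.2 ⟨by linarith [h2.2, h4.1], by linarith [h2.1, h4.2]⟩
theorem base_aux_drop {A B M : ℝ} (hΛ : 0 ≤ Λ) (hα : 0 ≤ α) (hlM : l ≤ M) (hl : 0 ≤ l)
    (h : e.XP φ (e.Sq A B (2 * M)) t α Λ l) (w : Ex φ (e.Sq A B (2 * M)) t x z c)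
    (hq : e.q z ≤ e.q x - 4 * α * M) : 2 * Λ * l ≤ c := by
  have h1 := base_aux_ds w.mem.1 w.mem.2
  have h2 : max l (e.ds (z - x)) ≤ 4 * M := max_le (by linarith) (by linarith)
  have h3 := mul_le_mul_of_nonneg_left h2 hα
  have h4 := h x z c w ((min_le_right _ _).trans (by rw [map_sub]; linarith))
  have h5 := mul_le_mul_of_nonneg_left (le_max_left l (e.ds (z - x))) hΛ
  linarith
theorem base (he : e.OK) {θ v : ℝ} {m : ℕ} (hl : e.κ ≤ l) (hn : 24 ≤ n' * n) (hm : 1 ≤ m)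
    (hv : 0 < v) (hvl : v ≤ l) (hΛ : 0 ≤ Λ) (hα : 0 ≤ α) (hs : 0 ≤ s)
    (hw : (8 * s + 16 * α) * (n' * (n * l)) ≤ v) (hθ : Λ * s * (22 * m * l) ≤ θ)
    (hD : 2 * s * (22 * m * l) + 4 * α * (n' * (n * l)) ≤ D)
    (hφ : e.Cls α Λ l y n n' I J φ t)
    (hS : ∀ g b : ℤ, |g * (22 * m * l) - (I + 2 * J) * (n' * (n * l)) / 3| ≤ 2 * (n' * (n * l)) →
      |b * (v / 2) - (2 * I + J) * (n' * (n * l)) / 3| ≤ 3 * (n' * (n * l)) →
        ∃ a : ℕ, a < m ∧ t ∈ e.Sig l y θ v ((22 * (g * m + a) + 1) * l) (b * (v / 2))) :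
    e.Tilt φ (e.Sq (I * (n' * (n * l))) (J * (n' * (n * l))) (2 * (n' * (n * l)))) t Λ s D := by
  have hsig : ∀ {a b : ℝ} {S : Set Z2} {x z : Z2} {c : ℝ}, t ∈ e.Sig l y θ v a b →
      Ex φ S t x z c →
      S ⊆ e.Sq (I * (n' * (n * l))) (J * (n' * (n * l))) (2 * (n' * (n * l))) →
      (∀ u ∈ S, b ≤ e.q u ∧ e.q u ≤ b + v) → e.p x ≤ a → a + 7 * l ≤ e.p z → θ ≤ c :=
    fun h1 h2 h3 h4 h5 h6 => use_sig he hl hn hv hvl hφ h1 h2 h3 h4 h5 h6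
  have hl0 : 0 < l := hv.trans_le hvl
  have hM : 24 * l ≤ (n' : ℝ) * (n * l) := by
    have h1 : (24 : ℝ) ≤ n' * n := by exact_mod_cast hn
    rw [← mul_assoc]
    exact mul_le_mul_of_nonneg_right h1 hl0.le
  have hpot := hφ.pot
  have hxp := hφ.xp
  have hm1 : (1 : ℝ) ≤ m := by exact_mod_cast hm
  have hL0 : (0 : ℝ) < 22 * m * l := by positivity
  generalize hLe : (22 : ℝ) * m * l = L at hθ hD hS hL0
  generalize (n' : ℝ) * (n * l) = M at hw hD hS hsig hM hpot hxp ⊢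
  clear hφ
  have hM0 : 0 < M := by linarith
  have hsub : e.Sq (I * M) (J * M) (2 * M) ⊆ e.Sq (I * M) (J * M) (4 * M) :=
    fun u hu => ⟨hu.1.trans (by linarith), hu.2.trans (by linarith)⟩
  replace hpot := hpot.mono hsub
  replace hxp := xp_mono hxp hsub
  have hsM : 0 ≤ s * M := mul_nonneg hs hM0.le
  have hαM : 0 ≤ α * M := mul_nonneg hα hM0.le
  have hsL : 0 ≤ s * L := mul_nonneg hs hL0.le
  have hw' : 8 * (s * M) + 16 * (α * M) ≤ v := by linarith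
  have hs1 : s ≤ 1 := by
    refine le_of_mul_le_mul_right ?_ hM0
    linarith
  have hD0 : 0 ≤ D := by linarith
  intro x z c w
  have hc : 0 ≤ c := w.nonneg hpot
  have hds := base_aux_ds w.mem.1 w.mem.2
  have hp := (abs_le.1 (e.ds_pq (z - x)).1).2
  by_cases h1 : min (e.p (z - x)) (e.q (z - x)) ≤ -(α * max l (e.ds (z - x)))
  · refine le_trans (mul_le_mul_of_nonneg_left (by linarith) hΛ) (xp_big hxp w hΛ hs hs1 h1)
  have hb : -(4 * (α * M)) ≤ e.q (z - x) := by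
    have h2 : max l (e.ds (z - x)) ≤ 4 * M := max_le (by linarith) (by linarith)
    have h3 := mul_le_mul_of_nonneg_left h2 hα
    have h4 := (not_le.1 h1).le.trans (min_le_right _ _)
    linarith
  have hsa : s * e.p (z - x) ≤ 4 * (s * M) := by
    have := mul_le_mul_of_nonneg_left (show e.p (z - x) ≤ 4 * M by linarith) hs
    linarith
  by_cases h2 : s * e.p (z - x) - e.q (z - x) - D ≤ 0
  · exact (mul_nonpos_of_nonneg_of_nonpos hΛ h2).trans hc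
  have hb' : e.q (z - x) ≤ 4 * (s * M) := by linarith [not_le.1 h2]
  have hleft : Λ * (s * e.p (z - x) - e.q (z - x) - D) ≤ 2 * Λ * l := by
    have := mul_le_mul_of_nonneg_left
      (show s * e.p (z - x) - e.q (z - x) - D ≤ 2 * l by linarith) hΛ
    linarith
  by_cases h3 : ∃ u c₁ c₂, Ex φ (e.Sq (I * M) (J * M) (2 * M)) t x u c₁ ∧
      Ex φ (e.Sq (I * M) (J * M) (2 * M)) t u z c₂ ∧ c₁ + c₂ = c ∧
        (e.q u ≤ e.q x - 4 * α * M ∨ e.q z ≤ e.q u - 4 * α * M)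
  · obtain ⟨u, c₁, c₂, w₁, w₂, hc', h4 | h4⟩ := h3
    · have := base_aux_drop hΛ hα (by linarith) hl0.le hxp w₁ h4
      linarith [w₂.nonneg hpot]
    · have := base_aux_drop hΛ hα (by linarith) hl0.le hxp w₂ h4
      linarith [w₁.nonneg hpot]
  have w' := w.confine (S' := {u | e.q x - 4 * α * M ≤ e.q u ∧ e.q u ≤ e.q z + 4 * α * M})
    fun u c₁ c₂ w₁ w₂ hc' => by
      constructor
      · by_contra h4
        exact h3 ⟨u, c₁, c₂, w₁, w₂, hc', Or.inl (not_le.1 h4).le⟩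
      · by_contra h4
        exact h3 ⟨u, c₁, c₂, w₁, w₂, hc', Or.inr (by linarith [not_le.1 h4])⟩
  have hv2 : 0 < v / 2 := by linarith
  obtain ⟨β, hβ1, hβ2⟩ : ∃ β : ℤ, β * (v / 2) ≤ e.q x - 4 * α * M ∧
      e.q x - 4 * α * M ≤ β * (v / 2) + v / 2 := by
    refine ⟨⌊(e.q x - 4 * α * M) / (v / 2)⌋, (le_div_iff₀ hv2).1 (Int.floor_le _), ?_⟩
    have := (div_lt_iff₀ hv2).1 (Int.lt_floor_add_one ((e.q x - 4 * α * M) / (v / 2)))
    linarith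
  obtain ⟨g₀, hg1, hg2⟩ : ∃ g : ℤ, e.p x ≤ g * L ∧ g * L ≤ e.p x + L := by
    refine ⟨⌈e.p x / L⌉, (div_le_iff₀ hL0).1 (Int.le_ceil _), ?_⟩
    have h4 : ((⌈e.p x / L⌉ : ℤ) : ℝ) - 1 < e.p x / L := by linarith [Int.ceil_lt_add_one (e.p x / L)]
    have := (lt_div_iff₀ hL0).1 h4
    linarith
  obtain ⟨g₁, hg3, hg4⟩ : ∃ g : ℤ, g * L ≤ e.p z ∧ e.p z ≤ g * L + L := by
    refine ⟨⌊e.p z / L⌋, (le_div_iff₀ hL0).1 (Int.floor_le _), ?_⟩
    have := (div_lt_iff₀ hL0).1 (Int.lt_floor_add_one (e.p z / L))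
    linarith
  rw [map_sub] at hb hb' hsa h2 ⊢
  rw [map_sub] at h2 ⊢
  rcases le_or_gt g₁ g₀ with hg | hg
  · exfalso
    have h4 : (g₁ : ℝ) * L ≤ g₀ * L := mul_le_mul_of_nonneg_right (by exact_mod_cast hg) hL0.le
    have h5 := mul_le_mul_of_nonneg_left (show e.p z - e.p x ≤ 2 * L by linarith) hs
    exact h2 (by linarith)
  obtain ⟨N, hN⟩ : ∃ N : ℕ, g₁ = g₀ + N := ⟨(g₁ - g₀).toNat, by omega⟩
  have hN' : (g₁ : ℝ) = g₀ + N := by exact_mod_cast hN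
  obtain ⟨hx1, hx2⟩ := base_aux_sq w.mem.1
  obtain ⟨hz1, -⟩ := base_aux_sq w.mem.2
  rw [abs_le] at hx1 hx2 hz1
  have key := many (a := g₀ * L) (L := L) (θ := θ) he (hpot.mono inter_subset_left) hL0.le N
    (fun g hgN u u' d wd hu hu' => by
      have hg0 : (0 : ℝ) ≤ g * L := by positivity
      have hgN' : (g : ℝ) * L ≤ N * L :=
        mul_le_mul_of_nonneg_right (by exact_mod_cast hgN.le) hL0.le
      obtain ⟨a, ha, hsg⟩ := hS (g₀ + g) β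
        (abs_le.2 ⟨by push_cast; linarith [hx1.1], by push_cast; rw [hN'] at hg3; linarith [hz1.2]⟩)
        (abs_le.2 ⟨by linarith [hx2.1], by linarith [hx2.2]⟩)
      have ha0 : (0 : ℝ) ≤ a * l := by positivity
      have ha1 : ((a : ℝ) + 1) * l ≤ m * l :=
        mul_le_mul_of_nonneg_right (by exact_mod_cast ha) hl0.le
      have e1 : (22 * (((g₀ + (g : ℤ) : ℤ) : ℝ) * m + a) + 1) * l =
          g₀ * L + g * L + 22 * (a * l) + l := by
        rw [← hLe]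
        push_cast
        ring
      rw [e1] at hsg
      refine hsig hsg wd inter_subset_left (fun u hu => ⟨hβ1.trans hu.2.1, ?_⟩) (by linarith)
        (by linarith)
      linarith [hu.2.2]) w' hg1 (by rw [hN'] at hg3; linarith)
  refine le_trans ?_ key
  have h4 := mul_le_mul_of_nonneg_left hθ (Nat.cast_nonneg (α := ℝ) N)
  have h5 := mul_le_mul_of_nonneg_left
    (show e.p z - e.p x - 2 * L ≤ N * L by rw [hN'] at hg4; linarith) hs
  have h6 := mul_le_mul_of_nonneg_left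
    (show s * (e.p z - e.p x) - (e.q z - e.q x) - D ≤ s * (N * L) by linarith) hΛ
  linarith

end

end Crest.Agent.R151.B.F
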