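import Crest.Agent.R151.DF1

set_option autoImplicit false

open MeasureTheory ProbabilityTheory Set Filter Topology
open scoped ENNReal
open Crest.ProbabilityR.FirstPassage

namespace Crest.Agent.R151.B.F

noncomputable section

/-! locality -/

variable {G : Measure ℝ} {e : Fr} {h : Env → Z2 → ℝ} {φ ψ : Z2 → ℝ} {t : Env}
  {α Λ l y y₁ s s₁ D D₁ : ℝ} {i j I J : ℤ} {n n' n'' : ℕ} {S : Set Z2}

theorem loc_nice (he : e.OK) (hl : e.κ ≤ l) (φ : Z2 → ℝ) (i j : ℤ) (n : ℕ) (y : ℝ) :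
    Loc (e.Sq (i * l) (j * l) ((n + 1) * l)) {t | e.Nice φ t l i j n y} := by
  have hl0 : 0 ≤ l := by linarith [he.κ3]
  exact Loc.all fun s => Loc.all fun h1 => Loc.all fun h2 =>
    Loc.and ((loc_chp _ φ _ y).mono (lane_sub hl hl0 h1 h2).1)
      ((loc_chp _ φ _ y).mono (lane_sub hl hl0 h1 h2).2)
theorem loc_xp (e : Fr) (φ : Z2 → ℝ) (S : Set Z2) (α Λ l : ℝ) : Loc S {t | e.XP φ S t α Λ l} := by
  exact loc_all_ex φ S
    (fun x z => min (e.p (z - x)) (e.q (z - x)) ≤ -(α * max l (e.ds (z - x))))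
    fun x z => 2 * Λ * max l (e.ds (z - x))
theorem loc_tilt (e : Fr) (φ : Z2 → ℝ) (S : Set Z2) (Λ s D : ℝ) :
    Loc S {t | e.Tilt φ S t Λ s D} := by
  have h := loc_all_ex φ S (fun _ _ => True) fun x z => Λ * (s * e.p (z - x) - e.q (z - x) - D)
  simp only [true_imp_iff] at h
  exact h
theorem loc_cls (he : e.OK) (hl : e.κ ≤ l) (hn : 1 ≤ n) (hn' : 1 ≤ n') (α Λ y : ℝ) (i j : ℤ)
    (φ : Z2 → ℝ) : Loc (e.Sq (i * (n' * (n * l))) (j * (n' * (n * l))) (4 * (n' * (n * l))))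
      {t | e.Cls α Λ l y n n' i j φ t} := by
  have hl0 : 0 ≤ l := by linarith [he.κ3]
  have h1 : (1 : ℝ) ≤ n := by exact_mod_cast hn
  have h2 : (1 : ℝ) ≤ n' := by exact_mod_cast hn'
  have h3 : l ≤ n * l := le_mul_of_one_le_left hl0 h1
  have h4 : n * l ≤ n' * (n * l) := le_mul_of_one_le_left (hl0.trans h3) h2
  have a1 := (loc_nice he hl φ (i * n' * n) (j * n' * n) (3 * n' * n) y).mono
    (sq_sub (α := i * (n' * (n * l))) (β := j * (n' * (n * l))) (r := 4 * (n' * (n * l)))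
      (by push_cast; rw [show (i : ℝ) * n' * n * l - i * (n' * (n * l)) = 0 by ring, abs_zero]; linarith)
      (by push_cast; rw [show (j : ℝ) * n' * n * l - j * (n' * (n * l)) = 0 by ring, abs_zero]; linarith))
  have a2 := (loc_nice he (hl.trans h3) φ (i * n') (j * n') (3 * n') y).mono
    (sq_sub (α := i * (n' * (n * l))) (β := j * (n' * (n * l))) (r := 4 * (n' * (n * l)))
      (by push_cast; rw [show (i : ℝ) * n' * (n * l) - i * (n' * (n * l)) = 0 by ring, abs_zero]; linarith)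
      (by push_cast; rw [show (j : ℝ) * n' * (n * l) - j * (n' * (n * l)) = 0 by ring, abs_zero]; linarith))
  have a := (Loc.const _ (Rt φ)).and ((loc_pot φ _).and (a1.and (a2.and (loc_xp e φ _ α Λ l))))
  convert a using 3
  exact ⟨fun h => ⟨h.rt, h.pot, h.fine, h.mid, h.xp⟩,
    fun h => ⟨h.1, h.2.1, h.2.2.1, h.2.2.2.1, h.2.2.2.2⟩⟩
theorem loc_good (he : e.OK) (hl : e.κ ≤ l) (hn : 1 ≤ n) (hn' : 1 ≤ n') (α Λ y s D : ℝ)
    (i j : ℤ) : Loc (e.Sq (i * (n' * (n * l))) (j * (n' * (n * l))) (4 * (n' * (n * l))))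
      (e.Good α Λ l y n n' s D i j) := by
  have hl0 : 0 ≤ l := by linarith [he.κ3]
  have h0 : 0 ≤ (n' : ℝ) * (n * l) := by positivity
  have a1 := Loc.ex_rt fun φ => loc_cls he hl hn hn' α Λ y i j φ
  have a2 := Loc.all_rt fun φ => (loc_cls he hl hn hn' α Λ y i j φ).imp
    ((loc_tilt e φ (e.Sq (i * (n' * (n * l))) (j * (n' * (n * l))) (2 * (n' * (n * l)))) Λ s D).mono
      (sq_sub (by rw [sub_self, abs_zero]; linarith) (by rw [sub_self, abs_zero]; linarith)))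
  convert a1.and a2 using 1
  ext t
  exact ⟨fun h => ⟨h.1.imp fun φ c => ⟨c.rt, c⟩, fun φ _ c => h.2 φ c⟩,
    fun h => ⟨h.1.imp fun φ c => c.2, fun φ c => h.2 φ c.rt c⟩⟩
theorem up_sub (he : e.OK) {v : ℝ} (hl : e.κ ≤ l) (hvl : v ≤ l) (a b : ℝ) :
    (e.up a (7 * l) b v).S e.κ ⊆
      e.Sq (⌊(2 * b - a) / l⌋ * l) (⌊(2 * a - b) / l⌋ * l) (17 * l) := by
  have hl0 : 0 < l := by linarith [he.κ3]
  have f : ∀ r : ℝ, ⌊r / l⌋ * l ≤ r ∧ r < ⌊r / l⌋ * l + l := fun r =>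
    ⟨(le_div_iff₀ hl0).1 (Int.floor_le _), by
      have := (div_lt_iff₀ hl0).1 (Int.lt_floor_add_one (r / l))
      linarith⟩
  rintro x ⟨h1, h2, h3, h4⟩
  simp only [Fr.up] at h1 h2 h3 h4
  obtain ⟨f1, f2⟩ := f (2 * b - a)
  obtain ⟨f3, f4⟩ := f (2 * a - b)
  refine ⟨?_, ?_⟩
  · rw [Fr.P_apply]; exact abs_le.2 ⟨by linarith, by linarith⟩
  · rw [Fr.Y_apply]; exact abs_le.2 ⟨by linarith, by linarith⟩
theorem loc_sig (he : e.OK) {v : ℝ} (hl : e.κ ≤ l) (hvl : v ≤ l) (y θ a b : ℝ) :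
    Loc (e.Sq (⌊(2 * b - a) / l⌋ * l) (⌊(2 * a - b) / l⌋ * l) (21 * l)) (e.Sig l y θ v a b) := by
  have hl0 : 0 ≤ l := by linarith [he.κ3]
  refine Loc.all_rt fun φ => (loc_pot φ _).imp (Loc.imp ?_ (Loc.not ?_))
  · refine (loc_nice he hl φ _ _ 20 y).mono (sq_sub ?_ ?_) <;>
    · rw [sub_self, abs_zero]; push_cast; linarith
  · refine (loc_chp _ φ _ θ).mono ((up_sub he hl hvl a b).trans (sq_sub ?_ ?_)) <;>
    · rw [sub_self, abs_zero]; linarith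

end

end Crest.Agent.R151.B.F
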