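import Crest.Agent.R151.DF2b
import Crest.Agent.R151.DF4

set_option autoImplicit false

open MeasureTheory ProbabilityTheory Set Filter Topology
open scoped ENNReal
open Crest.ProbabilityR.FirstPassage

namespace Crest.Agent.R151.B.F

noncomputable section

/-! probability of a bad box: the step -/

variable {G : Measure ℝ} {e : Fr} {h : Env → Z2 → ℝ} {φ ψ : Z2 → ℝ} {t : Env}
  {α Λ l y y₁ s s₁ D D₁ : ℝ} {i j I J : ℤ} {n n' n'' : ℕ} {S : Set Z2}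

theorem df4b_far {M u : ℝ} (hM : 0 < M) {a b : ℤ} (h : 9 ≤ |a - b|) (h1 : |u - a * M| ≤ 4 * M)
    (h2 : |u - b * M| ≤ 4 * M) : False := by
  have h3 : (9 : ℝ) ≤ |(a : ℝ) - b| := by exact_mod_cast h
  have h4 : |((a : ℝ) - b) * M| ≤ 8 * M := by
    rw [abs_le] at h1 h2 ⊢
    constructor <;> linarith [h1.1, h1.2, h2.1, h2.2]
  rw [abs_mul, abs_of_pos hM] at h4
  nlinarith

theorem df4b_dis (e : Fr) {M : ℝ} (hM : 0 < M) {a b : ℤ × ℤ}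
    (h : 9 ≤ |a.1 - b.1| ∨ 9 ≤ |a.2 - b.2|) :
    Disjoint (e.Sq (a.1 * M) (a.2 * M) (4 * M)) (e.Sq (b.1 * M) (b.2 * M) (4 * M)) := by
  rw [Set.disjoint_left]
  intro x hx hx'
  rcases h with h | h
  · exact df4b_far hM h hx.1 hx'.1
  · exact df4b_far hM h hx.2 hx'.2

theorem pr_step (hG : Law G) (he : e.OK) (hl : e.κ ≤ l) (hn : 1 ≤ n) (hn' : 7 ≤ n') (hn'' : 4 ≤ n'')
    (hΛ : 0 < Λ) (hα : 0 ≤ α) (hα' : α ≤ 1 / 3) (hy : 0 ≤ y) (hy₁ : 0 ≤ y₁) (hs₁ : 0 ≤ s₁)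
    (hs : s₁ ≤ s) (hs' : s ≤ 1)
    (hD : 3 * (D + 6 * (y + y₁) / Λ + 6 * (s + α) * (n * l)) ≤ (s - s₁) * (n' * (n * l)))
    (hD₁ : 20 * (s + α) * (n' * (n * l)) ≤ D₁) {π η : ℝ}
    (hπ : ∀ i j, Pr G (e.Good α Λ l y n n' s D i j)ᶜ ≤ π)
    (hη : Pr G {t | ¬∃ φ, e.Cls α Λ (n * l) y₁ n' n'' I J φ t} ≤ η) :
    Pr G (e.Good α Λ (n * l) y₁ n' n'' s₁ D₁ I J)ᶜ ≤ η + (5 * n'') ^ 4 * π ^ 2 := by
  classical
  have hl0 : 0 < l := by linarith [he.κ3]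
  have hM : (0 : ℝ) < n' * (n * l) := by
    have h1 : (0 : ℝ) < n := by exact_mod_cast hn
    have h2 : (0 : ℝ) < n' := by exact_mod_cast (show 0 < n' by omega)
    positivity
  have hπ0 : 0 ≤ π := (Pr_nonneg G _).trans (hπ 0 0)
  set K : Finset (ℤ × ℤ) := Finset.Icc (I * n'' - (2 * n'' + 1)) (I * n'' + (2 * n'' + 1)) ×ˢ
    Finset.Icc (J * n'' - (2 * n'' + 1)) (J * n'' + (2 * n'' + 1)) with hK
  have hKm : ∀ i j : ℤ, |i - I * n''| ≤ 2 * n'' + 1 → |j - J * n''| ≤ 2 * n'' + 1 → (i, j) ∈ K := by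
    intro i j h1 h2
    rw [abs_le] at h1 h2
    simp only [hK, Finset.mem_product, Finset.mem_Icc]
    exact ⟨⟨by linarith [h1.1], by linarith [h1.2]⟩, by linarith [h2.1], by linarith [h2.2]⟩
  have hKc : K.card ≤ (5 * n'') ^ 2 := by
    have e1 : ∀ c : ℤ, (Finset.Icc (c - (2 * n'' + 1)) (c + (2 * n'' + 1))).card = 4 * n'' + 3 := by
      intro c
      rw [Int.card_Icc]
      omega
    rw [hK, Finset.card_product, e1, e1, sq]
    exact Nat.mul_le_mul (by omega) (by omega)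
  set P : Finset ((ℤ × ℤ) × (ℤ × ℤ)) :=
    (K ×ˢ K).filter fun q => 9 ≤ |q.1.1 - q.2.1| ∨ 9 ≤ |q.1.2 - q.2.2| with hP
  have hPc : (P.card : ℝ) ≤ (5 * n'') ^ 4 := by
    have : P.card ≤ (5 * n'') ^ 4 := by
      refine (Finset.card_filter_le _ _).trans ?_
      rw [Finset.card_product, show (5 * n'') ^ 4 = (5 * n'') ^ 2 * (5 * n'') ^ 2 by ring]
      exact Nat.mul_le_mul hKc hKc
    exact_mod_cast this
  set B : (ℤ × ℤ) × (ℤ × ℤ) → Set Env := fun q =>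
    (e.Good α Λ l y n n' s D q.1.1 q.1.2)ᶜ ∩ (e.Good α Λ l y n n' s D q.2.1 q.2.2)ᶜ with hB
  have hsub : (e.Good α Λ (n * l) y₁ n' n'' s₁ D₁ I J)ᶜ ⊆
      {t | ¬∃ φ, e.Cls α Λ (n * l) y₁ n' n'' I J φ t} ∪ ⋃ q ∈ P, B q := by
    intro t ht
    by_contra hn0
    rw [mem_union, not_or] at hn0
    obtain ⟨h1, h2⟩ := hn0
    refine ht ⟨not_not.1 h1, fun φ hφ => ?_⟩
    by_cases hb : ∃ a ∈ K, t ∉ e.Good α Λ l y n n' s D a.1 a.2
    · obtain ⟨a, ha, hta⟩ := hb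
      refine step he hl hn hn' hn'' hΛ hα hα' hy hy₁ hs₁ hs hs' hD hD₁ hφ (i₀ := a.1) (j₀ := a.2)
        fun i j hi hj hf => ?_
      by_contra hc
      exact h2 (mem_iUnion₂.2 ⟨((i, j), a), Finset.mem_filter.2
        ⟨Finset.mem_product.2 ⟨hKm i j hi hj, ha⟩, hf⟩, hc, hta⟩)
    · refine step he hl hn hn' hn'' hΛ hα hα' hy hy₁ hs₁ hs hs' hD hD₁ hφ (i₀ := 0) (j₀ := 0)
        fun i j hi hj _ => ?_
      by_contra hc
      exact hb ⟨(i, j), hKm i j hi hj, hc⟩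
  have hq : ∀ q ∈ P, Pr G (B q) ≤ π ^ 2 := by
    intro q hq
    have hf := (Finset.mem_filter.1 hq).2
    rw [hB, hG.loc_indep2 (df4b_dis e hM hf)
      (loc_good he hl hn (by omega) α Λ y s D q.1.1 q.1.2).compl
      (loc_good he hl hn (by omega) α Λ y s D q.2.1 q.2.2).compl, sq]
    exact mul_le_mul (hπ _ _) (hπ _ _) (Pr_nonneg G _) hπ0
  have h1 := hG.mono hsub
  have h2 := hG.union {t | ¬∃ φ, e.Cls α Λ (n * l) y₁ n' n'' I J φ t} (⋃ q ∈ P, B q)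
  have h3 := hG.biUnion P B
  have h4 : ∑ q ∈ P, Pr G (B q) ≤ P.card * π ^ 2 := by
    have := Finset.sum_le_card_nsmul P (fun q => Pr G (B q)) (π ^ 2) hq
    rwa [nsmul_eq_mul] at this
  have h5 : (P.card : ℝ) * π ^ 2 ≤ (5 * n'') ^ 4 * π ^ 2 := by gcongr
  linarith

end

end Crest.Agent.R151.B.F
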