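import Crest.Agent.R151.DF3
import Crest.Agent.R151.DF4

set_option autoImplicit false

open MeasureTheory ProbabilityTheory Set Filter Topology
open scoped ENNReal
open Crest.ProbabilityR.FirstPassage

namespace Crest.Agent.R151.B.F

noncomputable section

/-! probability of a bad box: the base -/

variable {G : Measure ℝ} {e : Fr} {h : Env → Z2 → ℝ} {φ ψ : Z2 → ℝ} {t : Env}
  {α Λ l y y₁ s s₁ D D₁ : ℝ} {i j I J : ℤ} {n n' n'' : ℕ} {S : Set Z2}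

theorem pr_none (hG : Law G) (he : e.OK) {θ v σ : ℝ} (hl : e.κ ≤ l) (hvl : v ≤ l)
    (hσ : ∀ a b, Pr G (e.Sig l y θ v a b)ᶜ ≤ σ) (m : ℕ) (g : ℤ) (b : ℝ) :
    Pr G {t | ¬∃ a : ℕ, a < m ∧ t ∈ e.Sig l y θ v ((22 * (g * m + a) + 1) * l) b} ≤ σ ^ m := by
  have hl0 : 0 < l := by linarith [he.κ3]
  have e1 : {t | ¬∃ a : ℕ, a < m ∧ t ∈ e.Sig l y θ v ((22 * (g * m + a) + 1) * l) b} =
      ⋂ a ∈ Finset.range m, (e.Sig l y θ v ((22 * (g * m + (a : ℕ)) + 1) * l) b)ᶜ := by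
    ext t
    simp only [mem_ofPred_eq, not_exists, not_and, mem_iInter, Finset.mem_range, mem_compl_iff]
  have key : ∀ a a' : ℕ, a < a' → Disjoint
      (e.Sq (⌊(2 * b - (22 * (g * m + (a : ℕ)) + 1) * l) / l⌋ * l)
        (⌊(2 * ((22 * (g * m + (a : ℕ)) + 1) * l) - b) / l⌋ * l) (21 * l))
      (e.Sq (⌊(2 * b - (22 * (g * m + (a' : ℕ)) + 1) * l) / l⌋ * l)
        (⌊(2 * ((22 * (g * m + (a' : ℕ)) + 1) * l) - b) / l⌋ * l) (21 * l)) := by
    intro a a' haa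
    rw [Set.disjoint_left]
    rintro x ⟨-, h1⟩ ⟨-, h2⟩
    have h3 := Int.floor_le ((2 * ((22 * (g * m + (a : ℕ)) + 1) * l) - b) / l)
    have h4 := Int.lt_floor_add_one ((2 * ((22 * (g * m + (a' : ℕ)) + 1) * l) - b) / l)
    rw [le_div_iff₀ hl0] at h3
    rw [div_lt_iff₀ hl0] at h4
    have h5 : (a : ℝ) + 1 ≤ a' := by exact_mod_cast haa
    have h6 := mul_le_mul_of_nonneg_right h5 hl0.le
    have h7 := (abs_le.1 h1).2
    have h8 := (abs_le.1 h2).1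
    linarith
  rw [e1, hG.loc_indep (Finset.range m)
    (fun a : ℕ => e.Sq (⌊(2 * b - (22 * (g * m + (a : ℕ)) + 1) * l) / l⌋ * l)
        (⌊(2 * ((22 * (g * m + (a : ℕ)) + 1) * l) - b) / l⌋ * l) (21 * l))
    (fun a : ℕ => (e.Sig l y θ v ((22 * (g * m + (a : ℕ)) + 1) * l) b)ᶜ)
    (fun a _ a' _ hne => (lt_or_gt_of_ne hne).elim (key a a') fun h => (key a' a h).symm)
    fun a _ => (loc_sig he hl hvl y θ _ b).compl]
  refine (Finset.prod_le_prod (g := fun _ => σ) (fun a _ => Pr_nonneg G _)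
    fun a _ => hσ _ _).trans ?_
  rw [Finset.prod_const, Finset.card_range]
theorem int_fin {u r d : ℝ} (hd : 0 < d) (hr : 0 ≤ r) :
    ∃ A : Finset ℤ, (∀ g : ℤ, |g * d - u| ≤ r → g ∈ A) ∧ (A.card : ℝ) ≤ 2 * r / d + 1 := by
  refine ⟨Finset.Icc ⌈(u - r) / d⌉ ⌊(u + r) / d⌋, fun g hg => ?_, ?_⟩
  · rw [abs_le] at hg
    rw [Finset.mem_Icc, Int.ceil_le, Int.le_floor, div_le_iff₀ hd, le_div_iff₀ hd]
    exact ⟨by linarith [hg.1], by linarith [hg.2]⟩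
  · rw [Int.card_Icc]
    have h1 := Int.floor_le ((u + r) / d)
    have h2 := Int.le_ceil ((u - r) / d)
    have h3 : (u + r) / d - (u - r) / d = 2 * r / d := by ring
    have h4 : 0 ≤ 2 * r / d := by positivity
    rcases le_total 0 (⌊(u + r) / d⌋ + 1 - ⌈(u - r) / d⌉) with h | h
    · have h5 : (((⌊(u + r) / d⌋ + 1 - ⌈(u - r) / d⌉).toNat : ℤ) : ℝ) =
          ((⌊(u + r) / d⌋ + 1 - ⌈(u - r) / d⌉ : ℤ) : ℝ) := by rw [Int.toNat_of_nonneg h]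
      push_cast at h5
      rw [h5]
      linarith
    · rw [Int.toNat_eq_zero.2 h]
      push_cast
      linarith
theorem pr_base (hG : Law G) (he : e.OK) {θ v : ℝ} {m : ℕ} (hl : e.κ ≤ l) (hn : 24 ≤ n' * n) (hm : 1 ≤ m)
    (hv : 0 < v) (hvl : v ≤ l) (hΛ : 0 ≤ Λ) (hα : 0 ≤ α) (hs : 0 ≤ s)
    (hw : (8 * s + 16 * α) * (n' * (n * l)) ≤ v) (hθ : Λ * s * (22 * m * l) ≤ θ)
    (hD : 2 * s * (22 * m * l) + 4 * α * (n' * (n * l)) ≤ D) {σ η : ℝ}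
    (hσ : ∀ a b, Pr G (e.Sig l y θ v a b)ᶜ ≤ σ)
    (hη : Pr G {t | ¬∃ φ, e.Cls α Λ l y n n' I J φ t} ≤ η) :
    Pr G (e.Good α Λ l y n n' s D I J)ᶜ ≤
      η + (4 * (n' * n) + 1) * (12 * (n' * (n * l)) / v + 1) * σ ^ m := by
  have hl0 : 0 < l := by linarith [he.κ3]
  have hm' : (1 : ℝ) ≤ m := by exact_mod_cast hm
  have hM : 0 ≤ (n' : ℝ) * (n * l) := by positivity
  have hσ0 : 0 ≤ σ := (Pr_nonneg G _).trans (hσ 0 0)
  obtain ⟨A, hA, cA⟩ := int_fin (u := (I + 2 * J) * (n' * (n * l)) / 3) (r := 2 * (n' * (n * l)))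
    (d := 22 * m * l) (by positivity) (by positivity)
  obtain ⟨B, hB, cB⟩ := int_fin (u := (2 * I + J) * (n' * (n * l)) / 3) (r := 3 * (n' * (n * l)))
    (d := v / 2) (by positivity) (by positivity)
  have cA' : (A.card : ℝ) ≤ 4 * (n' * n) + 1 := by
    refine cA.trans (add_le_add ?_ le_rfl)
    rw [div_le_iff₀ (by positivity)]
    have h1 : (n' : ℝ) * (n * l) * 1 ≤ n' * (n * l) * m := mul_le_mul_of_nonneg_left hm' hM
    nlinarith
  have cB' : (B.card : ℝ) ≤ 12 * (n' * (n * l)) / v + 1 := by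
    refine cB.trans (le_of_eq ?_)
    field_simp
    ring
  have hsub : (e.Good α Λ l y n n' s D I J)ᶜ ⊆ {t | ¬∃ φ, e.Cls α Λ l y n n' I J φ t} ∪
      ⋃ p ∈ A ×ˢ B, {t | ¬∃ a : ℕ, a < m ∧
        t ∈ e.Sig l y θ v ((22 * ((p.1 : ℤ) * m + a) + 1) * l) ((p.2 : ℤ) * (v / 2))} := by
    intro t ht
    by_contra hc
    rw [mem_union, not_or] at hc
    obtain ⟨h1, h2⟩ := hc
    refine ht ⟨not_not.1 h1, fun φ hφ => base he hl hn hm hv hvl hΛ hα hs hw hθ hD hφ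
      fun g b hg hb => ?_⟩
    by_contra h3
    exact h2 (mem_iUnion₂.2 ⟨(g, b), Finset.mem_product.2 ⟨hA g hg, hB b hb⟩, h3⟩)
  refine (hG.mono hsub).trans ((hG.union _ _).trans (add_le_add hη ?_))
  refine (hG.biUnion _ _).trans ?_
  refine (Finset.sum_le_sum (g := fun _ => σ ^ m) fun p _ =>
    pr_none hG he hl hvl hσ m p.1 _).trans ?_
  rw [Finset.sum_const, Finset.card_product, nsmul_eq_mul, Nat.cast_mul]
  exact mul_le_mul_of_nonneg_right (mul_le_mul cA' cB' (Nat.cast_nonneg _) (by positivity))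
    (pow_nonneg hσ0 _)

end

end Crest.Agent.R151.B.F
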