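import Crest.Agent.R151.DF1
import Crest.Agent.R151.DF2

set_option autoImplicit false

open MeasureTheory ProbabilityTheory Set Filter Topology
open scoped ENNReal
open Crest.ProbabilityR.FirstPassage

namespace Crest.Agent.R151.B.F

noncomputable section

/-! the stationary potential is admissible -/

variable {G : Measure ℝ} {e : Fr} {h : Env → Z2 → ℝ} {φ ψ : Z2 → ℝ} {t : Env}
  {α Λ l y y₁ s s₁ D D₁ : ℝ} {i j I J : ℤ} {n n' n'' : ℕ} {S : Set Z2}

theorem pr_nice (hG : Law G) (a : Coc G e h) {r : ℝ} (hr : Rate G e h l r) (hl : 0 < l)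
    (hr0 : 0 ≤ r) (hy : 0 < y) (i j : ℤ) (n : ℕ) :
    Pr G {t | ¬e.Nice (h t) t l i j n y} ≤ 8 * n ^ 2 * (r * l) / y := by
  have e1 : {t | ¬e.Nice (h t) t l i j n y} ⊆ ⋃ s ∈ Finset.Ico (-(n : ℤ)) n,
      ({t | ¬e.Ch (h t) t (e.hor ((i - n) * l) (2 * n * l) ((j + s) * l) l) y} ∪
        {t | ¬e.Ch (h t) t (e.ver ((j - n) * l) (2 * n * l) ((i + s) * l) l) y}) := by
    intro t ht
    by_contra hc
    simp only [mem_iUnion, mem_union, mem_ofPred_eq, Finset.mem_Ico, exists_prop, not_exists,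
      not_and, not_or, not_not, and_imp] at hc
    exact ht hc
  refine (hG.mono e1).trans ((hG.biUnion _ _).trans ((Finset.sum_le_card_nsmul _ _
    (r * (2 * n * l) / y + r * (2 * n * l) / y) fun s hs => ?_).trans (le_of_eq ?_)))
  · have hn : (1 : ℝ) ≤ n := by
      have := Finset.mem_Ico.1 hs
      exact_mod_cast (show 1 ≤ n by omega)
    have hm : l ≤ 2 * n * l := by nlinarith
    exact (hG.union _ _).trans (add_le_add
      (hG.chp_markov a.meas hy (by positivity) (hr _ _ _ hm).1)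
      (hG.chp_markov a.meas hy (by positivity) (hr _ _ _ hm).2))
  · rw [Int.card_Ico, show ((n : ℤ) - -(n : ℤ)).toNat = 2 * n by omega, nsmul_eq_mul]
    push_cast
    ring
theorem near_of (he : e.OK) (ht : PS t) (p : Pot φ univ t) (hl : e.κ ≤ l) (hn : 1 ≤ n)
    (hn' : 1 ≤ n') (hy : 0 < y) (hΛ : 0 < Λ)
    (h1 : e.Nice φ t l (i * n' * n) (j * n' * n) (3 * n' * n) (y / 2))
    (h2 : e.Nice φ t (n * l) (i * n') (j * n') (3 * n') (y / 2))
    (h3 : e.XP φ (e.Sq (i * (n' * (n * l))) (j * (n' * (n * l))) (4 * (n' * (n * l)))) t α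
      (2 * Λ) l) : Near e α Λ l y n n' i j φ t := by
  have l0 : 0 < l := by linarith [he.κ3]
  have n1 : (1 : ℝ) ≤ n := by exact_mod_cast hn
  have n2 : (1 : ℝ) ≤ n' := by exact_mod_cast hn'
  have n3 : l ≤ n * l := le_mul_of_one_le_left l0.le n1
  have n4 : n * l ≤ n' * (n * l) := le_mul_of_one_le_left (by positivity) n2
  obtain ⟨η, η0, η1, η2, η3⟩ : ∃ η : ℝ, 0 < η ∧ η ≤ 1 ∧ η ≤ y / 4 ∧ η ≤ Λ * l :=
    ⟨min 1 (min (y / 4) (Λ * l)), by positivity, min_le_left _ _,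
      (min_le_right _ _).trans (min_le_left _ _), (min_le_right _ _).trans (min_le_right _ _)⟩
  obtain ⟨ψ, r, q, a⟩ := rat_approx (he.Sq_fin (i * (n' * (n * l))) (j * (n' * (n * l)))
    (4 * (n' * (n * l)))) ht (p.mono (subset_univ _)) η0
  refine ⟨ψ, ⟨r, q, nice_mono (nice_approx (η := η) he hl h1 fun x hx => a x (sq_sub ?_ ?_ hx))
    (by linarith), nice_mono (nice_approx (η := η) he (hl.trans n3) h2 fun x hx =>
      a x (sq_sub ?_ ?_ hx)) (by linarith), xp_approx h3 a η3 hΛ.le⟩,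
    fun x hx => (a x hx).trans η1⟩
  · push_cast
    rw [show (i : ℝ) * n' * n * l - i * (n' * (n * l)) = 0 by ring, abs_zero]
    linarith
  · push_cast
    rw [show (j : ℝ) * n' * n * l - j * (n' * (n * l)) = 0 by ring, abs_zero]
    linarith
  · push_cast
    rw [show (i : ℝ) * n' * (n * l) - i * (n' * (n * l)) = 0 by ring, abs_zero]
    linarith
  · push_cast
    rw [show (j : ℝ) * n' * (n * l) - j * (n' * (n * l)) = 0 by ring, abs_zero]
    linarith
theorem pr_near (hG : Law G) (he : e.OK) (a : Coc G e h) {r ξ : ℝ} (hr : Rate G e h l r)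
    (hr0 : 0 ≤ r) (hl : e.κ ≤ l) (hn : 1 ≤ n) (hn' : 1 ≤ n') (hy : 0 < y) (hΛ : 0 < Λ)
    (hx : Pr G {t | ¬e.XP (h t)
      (e.Sq (i * (n' * (n * l))) (j * (n' * (n * l))) (4 * (n' * (n * l)))) t α (2 * Λ) l} ≤ ξ) :
    Pr G {t | ¬Near e α Λ l y n n' i j (h t) t} ≤ 288 * (n' * n) ^ 2 * (r * l) / y + ξ := by
  have l0 : 0 < l := by linarith [he.κ3]
  have n1 : (1 : ℝ) ≤ n := by exact_mod_cast hn
  have n3 : l ≤ n * l := le_mul_of_one_le_left l0.le n1
  have k1 := pr_nice hG a hr l0 hr0 (half_pos hy) (i * n' * n) (j * n' * n) (3 * n' * n)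
  have k2 := pr_nice hG a (hr.mono hG he a l0.le n3 le_rfl) (by positivity) hr0 (half_pos hy)
    (i * n') (j * n') (3 * n')
  refine le_trans (hG.mono_ae ?_) (((hG.union _ _).trans (add_le_add
    ((hG.union _ _).trans (add_le_add k1 k2)) hx)).trans (add_le_add ?_ le_rfl))
  · filter_upwards [a.ae hG] with t ht h0
    by_contra hc
    simp only [mem_union, mem_ofPred_eq, not_or, not_not] at hc
    exact h0 (near_of he ht.1 ht.2 hl hn hn' hy hΛ hc.1.1 hc.1.2 hc.2)
  · push_cast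
    have e1 : (n' : ℝ) ^ 2 * (r * l) * n ≤ n' ^ 2 * (r * l) * n ^ 2 := by
      gcongr
      nlinarith
    rw [← add_div, div_le_div_iff₀ (half_pos hy) hy]
    nlinarith [mul_le_mul_of_nonneg_right e1 hy.le]

end

end Crest.Agent.R151.B.F
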