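import Crest.Agent.R151.DF0
import Crest.Agent.R151.D3b

set_option autoImplicit false

open MeasureTheory ProbabilityTheory Set Filter Topology
open scoped ENNReal
open Crest.ProbabilityR.FirstPassage

namespace Crest.Agent.R151.B.F

noncomputable section

/-! leaving the cone is expensive -/

variable {G : Measure ℝ} {e : Fr} {h : Env → Z2 → ℝ} {φ ψ : Z2 → ℝ} {t : Env}
  {α Λ l y y₁ s s₁ D D₁ : ℝ} {i j I J : ℤ} {n n' n'' : ℕ} {S : Set Z2}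

theorem pr_xp (hG : Law G) (hf : Flat G e) (a : Coc G e h) (hα : 0 < α) :
    ∃ Λ₀ C : ℝ, 0 < Λ₀ ∧ 0 ≤ C ∧ ∀ l R α' β' : ℝ, 1 ≤ l → 1 ≤ R →
      Pr G {t | ¬e.XP (h t) (e.Sq α' β' (R * l)) t α Λ₀ l} ≤ C * R ^ 5 / l ^ (1 / 32 : ℝ) := by
  obtain ⟨ω, hω, ho⟩ := hf.out α hα
  obtain ⟨C, hC, hp⟩ := a.ap hG hf (β := ω * α / 2) (by positivity)
  refine ⟨ω * α / 4, C, by positivity, by linarith, fun l R α' β' hl hR => ?_⟩
  have hl0 : 0 < l := by linarith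
  have h1 := hp α' β' (R * l) l hl (le_mul_of_one_le_left hl0.le hR)
  rw [mul_div_cancel_right₀ _ hl0.ne', Real.rpow_neg hl0.le, ← div_eq_mul_inv] at h1
  refine le_trans (hG.mono_nn fun t ht hx => ?_) h1
  by_contra hb
  refine hx fun x z c w hm => ?_
  have h2 : T t x z ≤ h t z - h t x + c := T_le ht w
  have h3 : mE G (z - x) - (e.p (z - x) + e.q (z - x)) - ω * α / 2 * l ≤ T t x z - (h t z - h t x) :=
    not_lt.1 fun h' => hb ⟨x, w.mem.1, z, w.mem.2, h'⟩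
  obtain ⟨b1, b2, -⟩ := e.ds_pq (z - x)
  have b3 : -e.ds (z - x) ≤ min (e.p (z - x)) (e.q (z - x)) := le_min (abs_le.1 b1).1 (abs_le.1 b2).1
  have b4 := mul_le_mul_of_nonneg_left (le_max_right l (e.ds (z - x))) hα.le
  have b5 := ho (z - x) (by linarith)
  have b6 := mul_le_mul_of_nonneg_left
    (show α * max l (e.ds (z - x)) ≤ e.ds (z - x) by linarith) hω.le
  have b7 := mul_le_mul_of_nonneg_left (le_max_left l (e.ds (z - x))) (mul_pos hω hα).le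
  linarith
theorem the_end (hG : Law G) (hf : Flat G e) (a : Coc G e h) (hΛ : 0 < Λ) (hs : 0 < s) :
    ∃ δ M₀ : ℝ, 0 < δ ∧ ∀ M s' D : ℝ, M₀ ≤ M → s ≤ s' → D ≤ δ * M →
      Pr G {t | ∃ ψ : Z2 → ℝ, (∀ x ∈ e.Sq 0 0 (2 * M), |ψ x - h t x| ≤ 1) ∧
        e.Tilt ψ (e.Sq 0 0 (2 * M)) t Λ s' D} ≤ 1 / 2 := by
  obtain ⟨ζ, hζ, hc⟩ := a.cheap hG hf
  obtain ⟨M₁, hM₁⟩ := eventually_atTop.1 (hc (Λ * s * ζ / 4) (by positivity))
  have hC : 1 ≤ e.C := hf.ok.C1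
  have hk : 0 < Λ * s * ζ := by positivity
  refine ⟨s * ζ / 4, max M₁ ((4 + 4 * Λ * e.C) / (Λ * s * ζ) + 1), by positivity,
    fun M s' D hM hs' hD => ?_⟩
  refine le_trans (hG.mono ?_) ((hM₁ M (le_of_max_le_left hM)).trans (by norm_num))
  rintro t ⟨ψ, hψ, hT⟩ ⟨z, c, h1, h2, h3, w⟩
  have h4 := hT 0 z _ (w.change ψ)
  rw [sub_zero] at h4
  have h5 := abs_le.1 (hψ _ w.mem.1)
  have h6 := abs_le.1 (hψ _ w.mem.2)
  have h7 : (4 + 4 * Λ * e.C) / (Λ * s * ζ) < M := by linarith [le_of_max_le_right hM]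
  have hM0 : 0 < M := lt_trans (by positivity) h7
  rw [div_lt_iff₀ hk] at h7
  have h8 : s * (ζ * M) ≤ s' * e.p z := mul_le_mul hs' h1 (by positivity) (by linarith)
  have h9 := mul_le_mul_of_nonneg_left
    (show s * (ζ * M) - 2 * e.C - s * ζ / 4 * M ≤ s' * e.p z - e.q z - D by linarith) hΛ.le
  linarith [h5.1, h5.2, h6.1, h6.2]

end

end Crest.Agent.R151.B.F
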