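import Crest.Agent.R151.DF1b
import Crest.Agent.R151.DF4
import Crest.Agent.R151.DF5

set_option autoImplicit false

open MeasureTheory ProbabilityTheory Set Filter Topology
open scoped ENNReal
open Crest.ProbabilityR.FirstPassage

namespace Crest.Agent.R151.B.F

noncomputable section

/-! signals -/

variable {G : Measure ℝ} {e : Fr} {h : Env → Z2 → ℝ} {φ ψ : Z2 → ℝ} {t : Env}
  {α Λ l y y₁ s s₁ D D₁ : ℝ} {i j I J : ℤ} {n n' n'' : ℕ} {S : Set Z2}

theorem sig_det (he : e.OK) {θ v a b : ℝ} (hl : e.κ ≤ l) (hvl : v ≤ l) (p : Pot ψ univ t)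
    (hn : e.Nice ψ t l ⌊(2 * b - a) / l⌋ ⌊(2 * a - b) / l⌋ 20 y) (hs : t ∉ e.Sig l y θ v a b) :
    e.Ch ψ t (e.up (a + 3 * l) l b v) (θ + 6 * y) := by
  have hκ := he.κ3
  simp only [Fr.Sig, mem_setOf_eq, not_forall, not_not] at hs
  obtain ⟨φ, -, pφ, nφ, x, z, d, hd, hx, hz, w⟩ := hs
  have e21 : (((20 : ℕ) : ℝ) + 1) = 21 := by norm_num
  have e17 : (((20 : ℕ) : ℝ) - 3) = 17 := by norm_num
  have hsub := up_sub he hl hvl a b
  have hsub' : (e.up a (7 * l) b v).S e.κ ⊆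
      e.Sq (⌊(2 * b - a) / l⌋ * l) (⌊(2 * a - b) / l⌋ * l) (21 * l) :=
    hsub.trans (sq_sub (by rw [sub_self, abs_zero]; linarith) (by rw [sub_self, abs_zero]; linarith))
  have hx' : e.p x ≤ a := hx
  have hz' : a + 7 * l ≤ e.p z := hz
  have hds : 5 * l ≤ e.ds (z - x) := by
    have h1 := (e.ds_pq (z - x)).1
    have h2 := le_abs_self (e.p (z - x))
    rw [map_sub] at h1 h2
    linarith
  obtain ⟨u, v', c₁, c₂, c₃, c', h1, w1, -, w3, h2, h3, h4, w4⟩ :=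
    transfer he hl nφ (by rw [e21]; exact pφ) hn (p.mono (subset_univ _)) w
      (by rw [e17]; exact hsub) hds
  have n1 := w1.nonneg (pφ.mono hsub')
  have n3 := w3.nonneg (pφ.mono hsub')
  have hu : e.p u ≤ a + 3 * l := by
    have h5 := (e.ds_pq (u - x)).1
    have h6 := le_abs_self (e.p (u - x))
    rw [map_sub] at h5 h6
    linarith
  have hv : a + 3 * l + l ≤ e.p v' := by
    have h5 := (e.ds_pq (z - v')).1
    have h6 := le_abs_self (e.p (z - v'))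
    rw [map_sub] at h5 h6
    linarith
  refine Chp.mono (Ex.trim (L := e.up (a + 3 * l) l b v) w4 (p.mono (subset_univ _))
    (by linarith) (fun u v huv => (he.step huv).2.2.1) (show (0 : ℝ) ≤ l by linarith)
    (fun u hu => ⟨hu.2.2.1, hu.2.2.2⟩) hu hv) (by linarith)
theorem avg (hG : Law G) (he : e.OK) (a : Coc G e h) {u A y₀ q α₀ β₀ θ : ℝ} (hu : 0 ≤ u)
    (hA : 0 ≤ A) (hy₀ : 0 < y₀)
    (hq : q ≤ Pr G {t | ¬e.Ch (h t) t (e.up α₀ (A * u) β₀ u) y₀}) {N : ℕ} (hN0 : 1 ≤ N)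
    (hN : N * (A * u + 3 * e.κ) ≤ l) (hθ : θ ≤ y₀ * q * N / 2) (a' b' : ℝ) :
    Pr G {t | e.Ch (h t) t (e.up a' l b' (u - 2 * e.κ)) θ} ≤ 1 - q / 2 := by
  have hP := hG.isP
  have hκ := he.κ3
  rcases le_or_gt q 0 with hq0 | hq0
  · exact (hG.le_one _).trans (by linarith)
  have hAu : 0 ≤ A * u := mul_nonneg hA hu
  have hstep : ∀ u v, squareLattice.Adj u v → |e.p v - e.p u| ≤ e.κ :=
    fun u v huv => (he.step huv).2.2.1
  obtain ⟨F, hFdef⟩ : ∃ F : ℝ≥0∞ → ℝ≥0∞, F = (Ici (ENNReal.ofReal y₀)).indicator 1 := ⟨_, rfl⟩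
  have hF1 : ∀ r, ENNReal.ofReal y₀ ≤ r → F r = 1 := fun r hr => by
    rw [hFdef, indicator_of_mem (show r ∈ Ici _ from hr), Pi.one_apply]
  have hF0 : ∀ r, ¬ENNReal.ofReal y₀ ≤ r → F r = 0 := fun r hr => by
    rw [hFdef, indicator_of_notMem (show r ∉ Ici _ from hr)]
  have hFle : ∀ r, F r ≤ 1 := fun r => by
    by_cases hr : ENNReal.ofReal y₀ ≤ r
    · rw [hF1 r hr]
    · rw [hF0 r hr]; exact zero_le_one
  have hFm : Monotone F := fun r s hrs => by
    by_cases hr : ENNReal.ofReal y₀ ≤ r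
    · rw [hF1 r hr, hF1 s (hr.trans hrs)]
    · rw [hF0 r hr]; exact zero_le
  have hFy : ∀ r, ENNReal.ofReal y₀ * F r ≤ r := fun r => by
    by_cases hr : ENNReal.ofReal y₀ ≤ r
    · rw [hF1 r hr, mul_one]; exact hr
    · rw [hF0 r hr, mul_zero]; exact zero_le
  have h0 : ENNReal.ofReal q ≤
      ∫⁻ t, F (WL e.κ (h t) t ⟨e.p, e.q, α₀, A * u, β₀, u - 2 * e.κ + 2 * e.κ⟩) ∂iidLaw G := by
    rw [sub_add_cancel]
    have hm : MeasurableSet {t | ¬e.Ch (h t) t (e.up α₀ (A * u) β₀ u) y₀} :=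
      (Chp_meas a.meas _ _ _).compl
    calc ENNReal.ofReal q ≤ iidLaw G {t | ¬e.Ch (h t) t (e.up α₀ (A * u) β₀ u) y₀} :=
          ENNReal.ofReal_le_of_le_toReal hq
      _ = ∫⁻ t, {t | ¬e.Ch (h t) t (e.up α₀ (A * u) β₀ u) y₀}.indicator 1 t ∂iidLaw G :=
          (lintegral_indicator_one hm).symm
      _ ≤ _ := by
          refine lintegral_mono fun t => ?_
          by_cases ht : t ∈ {t | ¬e.Ch (h t) t (e.up α₀ (A * u) β₀ u) y₀}
          · rw [indicator_of_mem ht, Pi.one_apply]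
            exact (hF1 _ (not_lt.1 fun h3 => ht (Chp.of_lt h3))).ge
          · rw [indicator_of_notMem ht]; exact zero_le
  have h1 : ∀ α β : ℝ, ENNReal.ofReal q ≤
      ∫⁻ t, F (WL e.κ (h t) t ⟨e.p, e.q, α, A * u + 2 * e.κ, β, u - 2 * e.κ⟩) ∂iidLaw G :=
    fun α β => h0.trans (a.W_recentre hG hFm (by linarith) hstep he.denp hAu α β α₀ β₀ _)
  obtain ⟨B, hB⟩ : ∃ B, B = {t | e.Ch (h t) t (e.up a' l b' (u - 2 * e.κ)) θ} := ⟨_, rfl⟩
  have hBm : MeasurableSet B := hB ▸ Chp_meas a.meas _ _ _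
  rw [← hB]
  have hN' : (1 : ℝ) ≤ N := by exact_mod_cast hN0
  have h2 : ∀ᵐ t ∂iidLaw G, ∑ i ∈ Finset.range N, F (WL e.κ (h t) t
      ⟨e.p, e.q, a' + i * (A * u + 2 * e.κ + e.κ), A * u + 2 * e.κ, b', u - 2 * e.κ⟩) ≤
      ENNReal.ofReal (q * N / 2) + N * Bᶜ.indicator 1 t := by
    filter_upwards [a.ae hG] with t ht
    by_cases hb : t ∈ B
    · refine le_trans ?_ le_self_add
      have h3 := WL_split (L := e.up a' l b' (u - 2 * e.κ)) ht.2 (by linarith : 0 ≤ e.κ) hstep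
        (n := N) (m := A * u + 2 * e.κ) (by linarith)
        (show (N : ℝ) * (A * u + 2 * e.κ + e.κ) ≤ l by linarith)
      rw [hB] at hb
      have h4 := (h3.trans (WL_le hb)).trans (ENNReal.ofReal_le_ofReal
        (hθ.trans (show y₀ * q * N / 2 ≤ y₀ * (q * N / 2) from le_of_eq (by ring))))
      rw [ENNReal.ofReal_mul hy₀.le] at h4
      refine (ENNReal.mul_le_mul_iff_right (a := ENNReal.ofReal y₀)
        (by simpa using hy₀) ENNReal.ofReal_ne_top).1 (le_trans ?_ h4)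
      rw [Finset.mul_sum]
      exact Finset.sum_le_sum fun i _ => hFy _
    · refine le_trans ?_ le_add_self
      rw [indicator_of_mem (show t ∈ Bᶜ from hb), Pi.one_apply, mul_one]
      refine (Finset.sum_le_sum fun i _ => hFle _).trans ?_
      simp
  have h5 := lintegral_mono_ae h2
  have hFW : ∀ L : Lane, Measurable fun t => F (WL e.κ (h t) t L) :=
    fun L => hFm.measurable.comp (WL_meas a.meas _ _)
  rw [lintegral_finset_sum _ fun i _ => hFW _,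
    lintegral_add_left measurable_const, lintegral_const, measure_univ, mul_one,
    lintegral_const_mul _ (measurable_one.indicator hBm.compl),
    lintegral_indicator_one hBm.compl] at h5
  have h6 := (Finset.sum_le_sum fun i _ => h1 _ _).trans h5
  rw [Finset.sum_const, Finset.card_range, nsmul_eq_mul] at h6
  have h7 := ENNReal.toReal_mono (ENNReal.add_ne_top.2 ⟨ENNReal.ofReal_ne_top,
    ENNReal.mul_ne_top (ENNReal.natCast_ne_top N) (measure_ne_top _ _)⟩) h6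
  rw [ENNReal.toReal_add ENNReal.ofReal_ne_top
    (ENNReal.mul_ne_top (ENNReal.natCast_ne_top N) (measure_ne_top _ _)), ENNReal.toReal_mul,
    ENNReal.toReal_mul, ENNReal.toReal_natCast, ENNReal.toReal_ofReal hq0.le,
    ENNReal.toReal_ofReal (by positivity)] at h7
  have h8 : (iidLaw G Bᶜ).toReal = 1 - Pr G B := hG.compl hBm
  rw [h8] at h7
  nlinarith
theorem pr_sig (hG : Law G) (he : e.OK) (a : Coc G e h) {r θ v σ : ℝ} (hr : Rate G e h l r)
    (hr0 : 0 ≤ r) (hl : e.κ ≤ l) (hvl : v ≤ l) (hy : 0 < y)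
    (hσ : ∀ a' b', Pr G {t | e.Ch (h t) t (e.up a' l b' v) (θ + 6 * y)} ≤ σ) (a' b' : ℝ) :
    Pr G (e.Sig l y θ v a' b')ᶜ ≤ 3200 * (r * l) / y + σ := by
  have hκ := he.κ3
  have h1 := pr_nice hG a hr (by linarith) hr0 hy ⌊(2 * b' - a') / l⌋ ⌊(2 * a' - b') / l⌋ 20
  have e1 : (8 * ((20 : ℕ) : ℝ) ^ 2) = 3200 := by norm_num
  rw [e1] at h1
  refine le_trans (hG.mono_ae ?_) ((hG.union _ _).trans (add_le_add h1 (hσ (a' + 3 * l) b')))
  filter_upwards [a.ae hG] with t ht hs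
  by_cases hn : e.Nice (h t) t l ⌊(2 * b' - a') / l⌋ ⌊(2 * a' - b') / l⌋ 20 y
  · exact Or.inr (sig_det he hl hvl ht.2 hn hs)
  · exact Or.inl hn

end

end Crest.Agent.R151.B.F
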