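import Crest.Agent.R151.DF4b
import Crest.Agent.R151.DF5

set_option autoImplicit false

open MeasureTheory ProbabilityTheory Set Filter Topology
open scoped ENNReal
open Crest.ProbabilityR.FirstPassage

namespace Crest.Agent.R151.B.F

noncomputable section

/-! all levels -/

variable {G : Measure ℝ} {e : Fr} {h : Env → Z2 → ℝ} {α Λ s₀ l₀ r₀ : ℝ} {n₀ : ℕ}

theorem df8a_nn (n₀ k : ℕ) : (nn n₀ k : ℝ) = n₀ * 2 ^ k := by
  unfold nn; push_cast; ring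
theorem df8a_nn_ge (n₀ k : ℕ) : n₀ ≤ nn n₀ k :=
  Nat.le_mul_of_pos_right _ (by positivity)
theorem df8a_ll_succ (n₀ : ℕ) (l₀ : ℝ) (k : ℕ) :
    ll n₀ l₀ (k + 1) = nn n₀ k * ll n₀ l₀ k := rfl
theorem df8a_ll_ge (hn : 1 ≤ n₀) (hl : 0 ≤ l₀) (k : ℕ) : l₀ ≤ ll n₀ l₀ k := by
  induction k with
  | zero => exact le_rfl
  | succ k ih =>
    rw [df8a_ll_succ]
    have h1 : (1 : ℝ) ≤ nn n₀ k := by exact_mod_cast hn.trans (df8a_nn_ge n₀ k)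
    nlinarith
theorem df8a_ss (hs : 0 ≤ s₀) (k : ℕ) :
    0 ≤ ss s₀ k ∧ ss s₀ k ≤ s₀ ∧ ss s₀ k - ss s₀ (k + 1) = s₀ / (4 * 2 ^ k) := by
  unfold ss
  have hX : (1 : ℝ) ≤ 2 ^ k := one_le_pow₀ (by norm_num)
  have h1 : (1 : ℝ) / 2 ^ (k + 1) ≤ 1 / 2 := by
    apply one_div_le_one_div_of_le (by norm_num)
    rw [pow_succ]; linarith
  refine ⟨by positivity, by nlinarith, ?_⟩
  rw [pow_succ, pow_succ]
  field_simp
  ring
theorem ll_ge (hn : 2 ^ 576 ≤ n₀) (hl : 0 ≤ l₀) (k : ℕ) : l₀ * 2 ^ (576 * k) ≤ ll n₀ l₀ k := by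
  induction k with
  | zero => simp [ll]
  | succ k ih =>
    rw [df8a_ll_succ, Nat.mul_succ, pow_add]
    have h1 : ((2 : ℝ) ^ 576) ≤ nn n₀ k := by exact_mod_cast hn.trans (df8a_nn_ge n₀ k)
    have h0 : (0 : ℝ) ≤ 2 ^ 576 := by positivity
    have h2 : 0 ≤ l₀ * 2 ^ (576 * k) := by positivity
    generalize (2 : ℝ) ^ 576 = B at h0 h1 ⊢
    generalize (2 : ℝ) ^ (576 * k) = Y at ih h2 ⊢
    calc l₀ * (Y * B) = B * (l₀ * Y) := by ring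
      _ ≤ nn n₀ k * ll n₀ l₀ k := mul_le_mul h1 ih h2 (h0.trans h1)
theorem lev_num (hn : 720 ≤ n₀) (hl : 0 < l₀) (hΛ : 0 < Λ) (hα : 0 ≤ α) (hαs : α ≤ s₀)
    (hr : 0 ≤ r₀) (hy : 10 ^ 14 * (n₀ : ℝ) ^ 8 * r₀ ≤ Λ * s₀) (k : ℕ) :
    3 * (DD n₀ l₀ s₀ k + 6 * (yy n₀ l₀ r₀ k + yy n₀ l₀ r₀ (k + 1)) / Λ +
        6 * (ss s₀ k + α) * (nn n₀ k * ll n₀ l₀ k)) ≤
      (ss s₀ k - ss s₀ (k + 1)) * (nn n₀ (k + 1) * (nn n₀ k * ll n₀ l₀ k)) ∧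
    20 * (ss s₀ k + α) * (nn n₀ (k + 1) * (nn n₀ k * ll n₀ l₀ k)) ≤ DD n₀ l₀ s₀ (k + 1) ∧
    pp n₀ (k + 1) / 2 + (5 * nn n₀ (k + 2)) ^ 4 * pp n₀ k ^ 2 ≤ pp n₀ (k + 1) := by
  have hs0 : 0 ≤ s₀ := hα.trans hαs
  obtain ⟨-, s1, s2⟩ := df8a_ss hs0 k
  have hL : 0 < ll n₀ l₀ k := hl.trans_le (df8a_ll_ge (by omega) hl.le k)
  have hN0 : (720 : ℝ) ≤ n₀ := by exact_mod_cast hn
  have hX : (1 : ℝ) ≤ 2 ^ k := one_le_pow₀ (by norm_num)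
  have e9 : (2 : ℝ) ^ (9 * k) = (2 ^ k) ^ 9 := by rw [mul_comm, pow_mul]
  have e9' : (2 : ℝ) ^ (9 * (k + 1)) = (2 ^ k * 2) ^ 9 := by rw [mul_comm, pow_mul, pow_succ 2 k]
  rw [s2]
  unfold DD yy pp
  simp only [df8a_ll_succ, df8a_nn, e9, e9', pow_succ (2 : ℝ) k, pow_succ (2 : ℝ) (k + 1)]
  generalize ll n₀ l₀ k = L at hL ⊢
  generalize (2 : ℝ) ^ k = X at hX ⊢
  generalize ss s₀ k = s at s1 ⊢
  generalize (n₀ : ℝ) = N at hN0 hy ⊢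
  have hX0 : 0 < X := by linarith
  have hN : 0 < N := by linarith
  have hNX : 1 ≤ N * X := by nlinarith
  have hP : 0 < N * X * L := by positivity
  have hLP : L ≤ N * X * L := by nlinarith
  have hPM : N * X * L ≤ N * X * (N * X * L) := by nlinarith
  have hQ : 0 ≤ N ^ 8 * r₀ := by positivity
  have hsa : (s + α) * (N * X * L) ≤ 2 * s₀ * (N * X * L) :=
    mul_le_mul_of_nonneg_right (by linarith) hP.le
  refine ⟨?_, ?_, ?_⟩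
  · have a1 : s₀ * (N * (X * 2) * (N * X * L)) / (36 * X) = s₀ * N * (N * X * L) / 18 := by
      field_simp; ring
    have a2 : s₀ / (4 * X) * (N * (X * 2) * (N * X * L)) = s₀ * N * (N * X * L) / 2 := by
      field_simp; ring
    have a3 : 10 ^ 11 * (N * X) ^ 8 * (r₀ / X ^ 9 * L) = 10 ^ 11 * (N ^ 8 * r₀) * (L / X) := by
      field_simp
    have a4 : 10 ^ 11 * (N * (X * 2)) ^ 8 * (r₀ / (X * 2) ^ 9 * (N * X * L)) =
        10 ^ 11 * (N ^ 8 * r₀) * (N * L / 2) := by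
      field_simp
    rw [a1, a2, a3, a4]
    have b1 : L / X ≤ N * (N * X * L) := by
      rw [div_le_iff₀ hX0]; nlinarith
    have b2 : N * L / 2 ≤ N * (N * X * L) := by
      have : N * L ≤ N * (N * X * L) := mul_le_mul_of_nonneg_left hLP hN.le
      have : 0 ≤ N * L := by positivity
      linarith
    have hW : 0 < N * (N * X * L) := by positivity
    have b3 : 6 * (10 ^ 11 * (N ^ 8 * r₀) * (L / X) + 10 ^ 11 * (N ^ 8 * r₀) * (N * L / 2)) / Λ ≤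
        s₀ * N * (N * X * L) / 18 := by
      rw [div_le_iff₀ hΛ]
      have c1 : N ^ 8 * r₀ * (L / X) ≤ N ^ 8 * r₀ * (N * (N * X * L)) :=
        mul_le_mul_of_nonneg_left b1 hQ
      have c2 : N ^ 8 * r₀ * (N * L / 2) ≤ N ^ 8 * r₀ * (N * (N * X * L)) :=
        mul_le_mul_of_nonneg_left b2 hQ
      have c3 : 10 ^ 14 * (N ^ 8 * r₀) * (N * (N * X * L)) ≤ Λ * s₀ * (N * (N * X * L)) :=
        mul_le_mul_of_nonneg_right (by linarith) hW.le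
      have c4 : 0 ≤ N ^ 8 * r₀ * (N * (N * X * L)) := by positivity
      nlinarith
    have b4 : 720 * (s₀ * (N * X * L)) ≤ N * (s₀ * (N * X * L)) :=
      mul_le_mul_of_nonneg_right hN0 (by positivity)
    nlinarith
  · have a1 : s₀ * (N * (X * 2 * 2) * (N * (X * 2) * (N * X * L))) / (36 * (X * 2)) =
        N * (s₀ * (N * X * (N * X * L))) / 9 := by
      field_simp; ring
    rw [a1]
    have b4 : 720 * (s₀ * (N * X * (N * X * L))) ≤ N * (s₀ * (N * X * (N * X * L))) :=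
      mul_le_mul_of_nonneg_right hN0 (by positivity)
    have b5 : N * X * ((s + α) * (N * X * L)) ≤ N * X * (2 * s₀ * (N * X * L)) :=
      mul_le_mul_of_nonneg_left hsa (by positivity)
    nlinarith
  · have a1 : (5 * (N * (X * 2 * 2))) ^ 4 * (1 / (10 ^ 7 * (N * X) ^ 4)) ^ 2 =
        (16 / 10 ^ 10) / (N * X) ^ 4 := by
      field_simp; ring
    have a2 : 1 / (10 ^ 7 * (N * (X * 2)) ^ 4) = (1 / (16 * 10 ^ 7)) / (N * X) ^ 4 := by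
      field_simp; ring
    rw [a1, a2]
    have hR : 0 < 1 / (N * X) ^ 4 := by positivity
    rw [div_eq_mul_one_div (16 / 10 ^ 10 : ℝ), div_eq_mul_one_div (1 / (16 * 10 ^ 7) : ℝ)]
    generalize 1 / (N * X) ^ 4 = R at hR
    nlinarith
theorem levels (hG : Law G) (he : e.OK) (hn : 720 ≤ n₀) (hl : e.κ ≤ l₀) (hΛ : 0 < Λ) (hα : 0 ≤ α)
    (hαs : α ≤ s₀) (hs : s₀ ≤ 1 / 3) (hr : 0 ≤ r₀) (hy : 10 ^ 14 * (n₀ : ℝ) ^ 8 * r₀ ≤ Λ * s₀)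
    (hc : ∀ k i j, Pr G {t | ¬∃ φ, e.Cls α Λ (ll n₀ l₀ k) (yy n₀ l₀ r₀ k) (nn n₀ k)
      (nn n₀ (k + 1)) i j φ t} ≤ pp n₀ k / 2)
    (h0 : ∀ i j, Pr G (e.Good α Λ (ll n₀ l₀ 0) (yy n₀ l₀ r₀ 0) (nn n₀ 0) (nn n₀ 1) (ss s₀ 0)
      (DD n₀ l₀ s₀ 0) i j)ᶜ ≤ pp n₀ 0) (k : ℕ) (i j : ℤ) :
    Pr G (e.Good α Λ (ll n₀ l₀ k) (yy n₀ l₀ r₀ k) (nn n₀ k) (nn n₀ (k + 1)) (ss s₀ k)
      (DD n₀ l₀ s₀ k) i j)ᶜ ≤ pp n₀ k := by
  have hκ := he.κ3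
  have hl0 : 0 < l₀ := by linarith
  have hs0 : 0 ≤ s₀ := hα.trans hαs
  have hy0 : ∀ k, 0 ≤ yy n₀ l₀ r₀ k := fun k => by
    have := hl0.le.trans (df8a_ll_ge (n₀ := n₀) (by omega) hl0.le k)
    unfold yy; positivity
  induction k generalizing i j with
  | zero => exact h0 i j
  | succ k ih =>
    obtain ⟨n1, n2, n3⟩ := lev_num hn hl0 hΛ hα hαs hr hy k
    obtain ⟨-, s1, s2⟩ := df8a_ss hs0 k
    have s3 : 0 ≤ s₀ / (4 * 2 ^ k) := by positivity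
    have g := fun m => hn.trans (df8a_nn_ge n₀ m)
    have := pr_step (I := i) (J := j) (n'' := nn n₀ (k + 2)) hG he
      (hl.trans (df8a_ll_ge (by omega) hl0.le k)) (by have := g k; omega)
      (by have := g (k + 1); omega) (by have := g (k + 2); omega) hΛ hα (hαs.trans hs) (hy0 k)
      (hy0 (k + 1)) (df8a_ss hs0 (k + 1)).1 (by linarith) (by linarith) n1 n2 ih (hc (k + 1) i j)
    exact this.trans n3
theorem rate_k (hG : Law G) (he : e.OK) (a : Coc G e h) {C w ε T : ℝ} (hU : URec G e h C w ε)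
    (hC : 0 ≤ C * ε) (hw : 0 < w) (hT : 1 ≤ T) (hn : 2 ^ 576 ≤ n₀) (hl : T ^ 64 * w ≤ l₀) (k : ℕ) :
    Rate G e h (ll n₀ l₀ k) (C * ε / T / 2 ^ (9 * k)) := by
  have hT0 : 0 < T := by linarith
  have hl0 : 0 ≤ l₀ := le_trans (by positivity) hl
  obtain ⟨B, hB⟩ : ∃ B : ℝ, B = T * 2 ^ (9 * k) := ⟨_, rfl⟩
  have hB1 : 1 ≤ B := hB ▸ one_le_mul_of_one_le_of_one_le hT (one_le_pow₀ one_le_two)
  have hB0 : 0 < B := by linarith
  have h1 : B ^ 64 * w ≤ ll n₀ l₀ k := by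
    refine le_trans ?_ (ll_ge hn hl0 k)
    have e1 : B ^ 64 * w = T ^ 64 * w * 2 ^ (576 * k) := by
      rw [hB, mul_pow, ← pow_mul, show 9 * k * 64 = 576 * k by ring]
      ring
    rw [e1]
    exact mul_le_mul_of_nonneg_right hl (by positivity)
  have h2 : w ≤ ll n₀ l₀ k := (le_mul_of_one_le_left hw.le (one_le_pow₀ hB1)).trans h1
  have h3 : 0 < ll n₀ l₀ k := hw.trans_le h2
  refine Rate.mono hG he a (hU _ h2) h3.le le_rfl ?_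
  have h4 : w / ll n₀ l₀ k ≤ (1 / B) ^ 64 := by
    rw [div_pow, one_pow, div_le_div_iff₀ h3 (by positivity)]
    linarith
  have h5 : (w / ll n₀ l₀ k) ^ (1 / 64 : ℝ) ≤ 1 / B := by
    refine (Real.rpow_le_rpow (by positivity) h4 (by norm_num)).trans_eq ?_
    rw [show (1 / 64 : ℝ) = ((64 : ℕ) : ℝ)⁻¹ by norm_num]
    exact Real.pow_rpow_inv_natCast (by positivity) (by norm_num)
  refine (mul_le_mul_of_nonneg_left h5 hC).trans_eq ?_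
  rw [hB, div_div, mul_one_div]
theorem near_all (hG : Law G) (he : e.OK) (a : Coc G e h) (hn : 2 ^ 576 ≤ n₀) (hl : e.κ ≤ l₀)
    (hΛ : 0 < Λ) (hr : 0 < r₀) (hR : ∀ k, Rate G e h (ll n₀ l₀ k) (r₀ / 2 ^ (9 * k))) {C : ℝ}
    (hC : 0 ≤ C) (hx : ∀ l R α' β' : ℝ, 1 ≤ l → 1 ≤ R →
      Pr G {t | ¬e.XP (h t) (e.Sq α' β' (R * l)) t α (2 * Λ) l} ≤ C * R ^ 5 / l ^ (1 / 32 : ℝ))
    (hb : (10 ^ 13 * C * (n₀ : ℝ) ^ 14) ^ 32 ≤ l₀) (k : ℕ) (i j : ℤ) :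
    Pr G {t | ¬Near e α Λ (ll n₀ l₀ k) (yy n₀ l₀ r₀ k) (nn n₀ k) (nn n₀ (k + 1)) i j (h t) t} ≤
      pp n₀ k / 2 := by
  have hκ := he.κ3
  have hl0 : 0 ≤ l₀ := by linarith
  have hn1 : 1 ≤ n₀ := le_trans Nat.one_le_two_pow hn
  have hN : ∀ m, 1 ≤ nn n₀ m := fun m => Nat.mul_pos hn1 (by positivity)
  have hge := ll_ge hn hl0 k
  have hll : l₀ ≤ ll n₀ l₀ k :=
    (le_mul_of_one_le_right hl0 (one_le_pow₀ one_le_two)).trans hge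
  have hN2 : (nn n₀ (k + 1) : ℝ) = 2 * nn n₀ k := by
    simp only [nn]
    push_cast
    ring
  have hNe : (nn n₀ k : ℝ) = n₀ * 2 ^ k := by
    simp only [nn]
    push_cast
    ring
  have hN1 : (1 : ℝ) ≤ nn n₀ k := by exact_mod_cast hN k
  have hroot : 10 ^ 13 * C * (nn n₀ k : ℝ) ^ 14 ≤ ll n₀ l₀ k ^ (1 / 32 : ℝ) := by
    have h1 : (10 ^ 13 * C * (nn n₀ k : ℝ) ^ 14) ^ 32 ≤ ll n₀ l₀ k := by
      refine le_trans ?_ hge
      have e1 : (10 ^ 13 * C * (nn n₀ k : ℝ) ^ 14) ^ 32 =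
          (10 ^ 13 * C * (n₀ : ℝ) ^ 14) ^ 32 * 2 ^ (448 * k) := by
        rw [hNe, mul_pow (n₀ : ℝ), ← mul_assoc, mul_pow _ ((2 ^ k : ℝ) ^ 14), ← pow_mul, ← pow_mul,
          show k * (14 * 32) = 448 * k by ring]
      rw [e1]
      exact mul_le_mul hb (pow_le_pow_right₀ one_le_two (by omega)) (by positivity) hl0
    refine le_trans (le_of_eq ?_) (Real.rpow_le_rpow (by positivity) h1 (by norm_num))
    rw [show (1 / 32 : ℝ) = ((32 : ℕ) : ℝ)⁻¹ by norm_num]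
    exact (Real.pow_rpow_inv_natCast (by positivity) (by norm_num)).symm
  have hl1 : 1 ≤ ll n₀ l₀ k := by linarith
  have hlp : 0 < ll n₀ l₀ k := by linarith
  have hrk : 0 < r₀ / 2 ^ (9 * k) := by positivity
  have hy : 0 < yy n₀ l₀ r₀ k := by
    simp only [yy]
    positivity
  have hξ := hx (ll n₀ l₀ k) (4 * (nn n₀ (k + 1) * nn n₀ k))
    (i * (nn n₀ (k + 1) * (nn n₀ k * ll n₀ l₀ k))) (j * (nn n₀ (k + 1) * (nn n₀ k * ll n₀ l₀ k)))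
    hl1 (by rw [hN2]; nlinarith)
  rw [show (4 * ((nn n₀ (k + 1) : ℝ) * nn n₀ k)) * ll n₀ l₀ k =
    4 * (nn n₀ (k + 1) * (nn n₀ k * ll n₀ l₀ k)) by ring] at hξ
  refine (pr_near hG he a (hR k) hrk.le (hl.trans hll) (hN k) (hN (k + 1)) hy hΛ hξ).trans ?_
  have hρ : 0 < ll n₀ l₀ k ^ (1 / 32 : ℝ) := Real.rpow_pos_of_pos hlp _
  simp only [yy, pp]
  rw [hN2]
  generalize ll n₀ l₀ k ^ (1 / 32 : ℝ) = ρ at hroot hρ ⊢
  have hm : 0 < r₀ / 2 ^ (9 * k) * ll n₀ l₀ k := by positivity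
  generalize r₀ / 2 ^ (9 * k) * ll n₀ l₀ k = m at hm ⊢
  generalize (nn n₀ k : ℝ) = N at hN1 hroot ⊢
  have hN0 : 0 < N := by linarith
  have e1 : 288 * (2 * N * N) ^ 2 * m / (10 ^ 11 * N ^ 8 * m) = 1152 / 10 ^ 11 * (1 / N ^ 4) := by
    field_simp
    ring
  have e2 : C * (4 * (2 * N * N)) ^ 5 / ρ ≤ 1 / (4 * 10 ^ 7) * (1 / N ^ 4) := by
    rw [div_le_iff₀ hρ]
    refine le_trans ?_ (mul_le_mul_of_nonneg_left hroot (by positivity))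
    have e3 : 1 / (4 * 10 ^ 7) * (1 / N ^ 4) * (10 ^ 13 * C * N ^ 14) = 250000 * (C * N ^ 10) := by
      field_simp
      ring
    have e4 : C * (4 * (2 * N * N)) ^ 5 = 32768 * (C * N ^ 10) := by ring
    have e5 : 0 ≤ C * N ^ 10 := by positivity
    rw [e3, e4]
    linarith
  have e6 : 1 / (10 ^ 7 * N ^ 4) / 2 = 1 / (2 * 10 ^ 7) * (1 / N ^ 4) := by
    field_simp
  have e7 : 0 < 1 / N ^ 4 := by positivity
  rw [e1, e6]
  linarith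

end

end Crest.Agent.R151.B.F
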