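import Crest.Agent.R151.DF4c
import Crest.Agent.R151.DF5b
import Crest.Agent.R151.DF6
import Crest.Agent.R151.DF8

set_option autoImplicit false

open MeasureTheory ProbabilityTheory Set Filter Topology
open scoped ENNReal
open Crest.ProbabilityR.FirstPassage

namespace Crest.Agent.R151.B.F

noncomputable section

/-! conclusion -/

variable {G : Measure ℝ} {e : Fr} {h : Env → Z2 → ℝ} {α Λ s₀ l₀ r₀ : ℝ} {n₀ : ℕ}

theorem choose_n {K q : ℝ} (hK : 0 ≤ K) (hq : 0 < q) (hq1 : q ≤ 1) : ∃ n₀ : ℕ, 2 ^ 576 ≤ n₀ ∧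
    1 / q ≤ n₀ ∧ K * (n₀ : ℝ) ^ 584 * (1 - q / 4) ^ n₀ ≤ 1 := by
  have h1 : |1 - q / 4| < 1 := by rw [abs_lt]; constructor <;> linarith
  have t := (tendsto_pow_const_mul_const_pow_of_abs_lt_one 584 h1).const_mul K
  rw [mul_zero] at t
  have e1 : ∀ᶠ n : ℕ in atTop, K * ((n : ℝ) ^ 584 * (1 - q / 4) ^ n) < 1 :=
    t.eventually (gt_mem_nhds one_pos)
  have e2 : ∀ᶠ n : ℕ in atTop, 1 / q ≤ (n : ℝ) :=
    tendsto_natCast_atTop_atTop.eventually_ge_atTop _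
  obtain ⟨n, h2, h3, h4⟩ := ((eventually_ge_atTop (2 ^ 576)).and (e2.and e1)).exists
  exact ⟨n, h2, h3, by rw [mul_assoc]; exact h4.le⟩
theorem df9_ll (hn : 1 ≤ n₀) (hl : 1 ≤ l₀) (k : ℕ) : 1 ≤ ll n₀ l₀ k := by
  induction k with
  | zero => exact hl
  | succ k ih =>
    have : (1 : ℝ) ≤ nn n₀ k := by
      have : 1 ≤ nn n₀ k := Nat.mul_pos hn (by positivity)
      exact_mod_cast this
    show 1 ≤ (nn n₀ k : ℝ) * ll n₀ l₀ k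
    nlinarith
theorem df9_nn (hn : 1 ≤ n₀) (k : ℕ) : (2 : ℝ) ^ k ≤ nn n₀ k := by
  have : 2 ^ k ≤ nn n₀ k := Nat.le_mul_of_pos_left _ hn
  exact_mod_cast this
theorem all_levels (hG : Law G) (hf : Flat G e) (a : Coc G e h) (hn : 720 ≤ n₀) (hl : 1 ≤ l₀)
    (hΛ : 0 < Λ) (hs : 0 < s₀)
    (hc : ∀ k, Pr G {t | ¬Near e α Λ (ll n₀ l₀ k) (yy n₀ l₀ r₀ k) (nn n₀ k) (nn n₀ (k + 1)) 0 0
      (h t) t} ≤ pp n₀ k / 2)
    (hg : ∀ k, Pr G (e.Good α Λ (ll n₀ l₀ k) (yy n₀ l₀ r₀ k) (nn n₀ k) (nn n₀ (k + 1)) (ss s₀ k)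
      (DD n₀ l₀ s₀ k) 0 0)ᶜ ≤ pp n₀ k) : False := by
  obtain ⟨δ, M₀, hδ, H⟩ := the_end (s := s₀ / 2) hG hf a hΛ (by linarith)
  have hn1 : 1 ≤ n₀ := by omega
  have e1 : ∀ᶠ k : ℕ in atTop, max M₀ (s₀ / (36 * δ)) ≤ (2 : ℝ) ^ k :=
    (tendsto_pow_atTop_atTop_of_one_lt one_lt_two).eventually_ge_atTop _
  obtain ⟨k, hk⟩ := e1.exists
  have k1 := (le_max_left _ _).trans hk
  have k2 := (le_max_right _ _).trans hk
  have h2 : (0 : ℝ) < 2 ^ k := by positivity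
  have h2' : (1 : ℝ) ≤ 2 ^ k := one_le_pow₀ one_le_two
  have a1 := df9_nn hn1 k
  have a2 : (1 : ℝ) ≤ nn n₀ (k + 1) := (one_le_pow₀ one_le_two).trans (df9_nn hn1 (k + 1))
  have a3 := df9_ll hn1 hl k
  set M : ℝ := nn n₀ (k + 1) * (nn n₀ k * ll n₀ l₀ k) with hM
  have b1 : (2 : ℝ) ^ k ≤ nn n₀ k * ll n₀ l₀ k := by nlinarith
  have b2 : (2 : ℝ) ^ k ≤ M := by rw [hM]; nlinarith
  have b3 : s₀ / 2 ≤ ss s₀ k := by
    unfold ss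
    have : (0 : ℝ) < 1 / 2 ^ (k + 1) := by positivity
    nlinarith
  have b4 : DD n₀ l₀ s₀ k ≤ δ * M := by
    unfold DD
    rw [← hM, div_le_iff₀ (by positivity)]
    rw [div_le_iff₀ (by positivity)] at k2
    have : 0 ≤ M := by linarith
    nlinarith
  have c1 := H M _ _ (k1.trans b2) b3 b4
  have c2 := hc k
  have c3 := hg k
  have c4 : pp n₀ k ≤ 1 / 10 ^ 7 := by
    unfold pp
    have : (1 : ℝ) ≤ (nn n₀ k : ℝ) ^ 4 := one_le_pow₀ (h2'.trans a1)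
    apply one_div_le_one_div_of_le (by positivity)
    nlinarith
  obtain ⟨t, -, ht⟩ := hG.exists_not (A := {t | ∃ ψ : Z2 → ℝ,
      (∀ x ∈ e.Sq 0 0 (2 * M), |ψ x - h t x| ≤ 1) ∧
        e.Tilt ψ (e.Sq 0 0 (2 * M)) t Λ (ss s₀ k) (DD n₀ l₀ s₀ k)} ∪
      ((e.Good α Λ (ll n₀ l₀ k) (yy n₀ l₀ r₀ k) (nn n₀ k) (nn n₀ (k + 1)) (ss s₀ k)
        (DD n₀ l₀ s₀ k) 0 0)ᶜ ∪
      {t | ¬Near e α Λ (ll n₀ l₀ k) (yy n₀ l₀ r₀ k) (nn n₀ k) (nn n₀ (k + 1)) 0 0 (h t) t}))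
    (lt_of_le_of_lt ((hG.union _ _).trans (add_le_add c1 ((hG.union _ _).trans
      (add_le_add c3 c2)))) (by linarith))
  simp only [mem_union, not_or, mem_compl_iff, mem_setOf_eq, not_not] at ht
  obtain ⟨d1, d2, ψ, d3, d4⟩ := ht
  have d5 := d2.2 ψ d3
  simp only [Int.cast_zero, zero_mul, ← hM] at d4 d5
  refine d1 ⟨ψ, fun x hx => d4 x ⟨hx.1.trans ?_, hx.2.trans ?_⟩, d5⟩ <;> linarith

end

end Crest.Agent.R151.B.F
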